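import Crest.Agent.R202.ASpec

/-!
# Row 202, A1b: polarisation and second-order perturbation of a cluster
-/

set_option autoImplicit false
open scoped RealInnerProductSpace
open Module Set

noncomputable section
namespace Crest.Agent.R202

variable {X : Type} [NormedAddCommGroup X] [InnerProductSpace ℝ X]
  {Q Q' : X →ₗ[ℝ] X →ₗ[ℝ] ℝ} {S : Submodule ℝ X}

/-- polarisation -/
theorem abs_form_le {Q₀ : X →ₗ[ℝ] X →ₗ[ℝ] ℝ} (hQ : SymF Q) (hQ₀ : SymF Q₀) {C : ℝ} (hC : 0 ≤ C)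
    (h0 : ∀ u ∈ S, 0 ≤ Q₀ u u) (h : ∀ u ∈ S, |Q u u| ≤ C * Q₀ u u) {u w : X} (hu : u ∈ S)
    (hw : w ∈ S) : |Q u w| ≤ C * Real.sqrt (Q₀ u u) * Real.sqrt (Q₀ w w) := by
  have key : ∀ t : ℝ, 0 ≤ (C * Q₀ u u) * (t * t) + (-2 * Q u w) * t + C * Q₀ w w := by
    intro t
    have h1 := h (t • u + w) (S.add_mem (S.smul_mem t hu) hw)
    have h2 := h (t • u - w) (S.sub_mem (S.smul_mem t hu) hw)
    have e1 := hQ w u
    have e2 := hQ₀ w u
    simp only [map_add, map_sub, map_smul, LinearMap.add_apply, LinearMap.sub_apply,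
      LinearMap.smul_apply, smul_eq_mul, e1, e2] at h1 h2
    have a1 := (abs_le.1 h1).2
    have a2 := (abs_le.1 h2).1
    nlinarith
  have hd := discrim_le_zero key
  unfold discrim at hd
  have ha := h0 u hu
  have hb := h0 w hw
  have hs : (C * Real.sqrt (Q₀ u u) * Real.sqrt (Q₀ w w)) ^ 2 = C ^ 2 * Q₀ u u * Q₀ w w := by
    rw [mul_pow, mul_pow, Real.sq_sqrt ha, Real.sq_sqrt hb]
  refine abs_le_of_sq_le_sq' ?_ (by positivity) |> abs_le.2
  rw [hs]
  nlinarith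

/-- the cross term, split by the arithmetic-geometric mean inequality -/
theorem cross_le {Q₀ : X →ₗ[ℝ] X →ₗ[ℝ] ℝ} (hQ : SymF Q) (hQ₀ : SymF Q₀) {C : ℝ} (hC : 0 ≤ C)
    (h0 : ∀ u ∈ S, 0 ≤ Q₀ u u) (h : ∀ u ∈ S, |Q u u| ≤ C * Q₀ u u) {u w : X} (hu : u ∈ S)
    (hw : w ∈ S) {ε κ : ℝ} (hε : 0 ≤ ε) (hκ : 0 < κ) :
    |2 * ε * Q u w| ≤ κ * Q₀ u u + ε ^ 2 * C ^ 2 / κ * Q₀ w w := by
  have h1 := abs_form_le hQ hQ₀ hC h0 h hu hw
  have ha := Real.sq_sqrt (h0 u hu)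
  have hb := Real.sq_sqrt (h0 w hw)
  set a := Real.sqrt (Q₀ u u)
  set b := Real.sqrt (Q₀ w w)
  rw [← ha, ← hb, abs_mul, abs_of_nonneg (by positivity : 0 ≤ 2 * ε)]
  have h2 : 2 * ε * |Q u w| ≤ 2 * ε * (C * a * b) := by gcongr
  have h3 : κ * a ^ 2 + ε ^ 2 * C ^ 2 / κ * b ^ 2 - 2 * ε * (C * a * b) =
      (κ * a - ε * C * b) ^ 2 / κ := by
    field_simp
    ring
  have h4 : 0 ≤ (κ * a - ε * C * b) ^ 2 / κ := by positivity
  linarith

/-- the form on the span of orthonormal eigenvectors -/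
theorem form_span {ι : Type} [Fintype ι] {e : ι → X} {m : ι → ℝ} (he : Orthonormal ℝ e)
    (heig : ∀ i, EigF Q S (e i) (m i)) {u : X} (hu : u ∈ Submodule.span ℝ (range e)) :
    ∃ c : ι → ℝ, Q u u = ∑ i, m i * c i ^ 2 ∧ ‖u‖ ^ 2 = ∑ i, c i ^ 2 := by
  have huS : u ∈ S := by
    refine (Submodule.span_le.2 ?_) hu
    rintro _ ⟨i, rfl⟩
    exact (heig i).1
  obtain ⟨c, hc⟩ := (Submodule.mem_span_range_iff_exists_fun ℝ).1 hu
  have hi : ∀ i, ⟪e i, u⟫ = c i := by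
    intro i
    rw [← hc]
    simpa using he.inner_right_fintype c i
  refine ⟨c, ?_, ?_⟩
  · have : Q u u = ∑ i, c i * Q (e i) u := by
      have h3 : Q u = ∑ i, c i • Q (e i) := by
        rw [← hc, map_sum]
        exact Finset.sum_congr rfl fun i _ => map_smul _ _ _
      rw [h3, LinearMap.sum_apply]
      rfl
    rw [this]
    refine Finset.sum_congr rfl fun i _ => ?_
    rw [(heig i).2 u huS, hi]
    ring
  · have : ⟪u, u⟫ = ∑ i, c i * ⟪e i, u⟫ := by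
      conv_lhs => rw [← hc]
      rw [sum_inner]
      refine Finset.sum_congr rfl fun i _ => ?_
      rw [real_inner_smul_left, hc]
    rw [← real_inner_self_eq_norm_sq, this]
    refine Finset.sum_congr rfl fun i _ => ?_
    rw [hi]
    ring

/-- the two test spaces inside the cluster -/
theorem exists_test [FiniteDimensional ℝ S] (hQ : SymF Q) {r : ℕ} (hr : r < finrank ℝ S) :
    (∃ T : Submodule ℝ X, T ≤ S ∧ finrank ℝ T = r + 1 ∧ ∀ u ∈ T, Q u u ≤ lamk Q S r * ‖u‖ ^ 2) ∧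
    (∃ U : Submodule ℝ X, U ≤ S ∧ finrank ℝ U + r = finrank ℝ S ∧
      ∀ u ∈ U, lamk Q S r * ‖u‖ ^ 2 ≤ Q u u) ∧
    ∃ v ∈ S, ‖v‖ = 1 ∧ Q v v = lamk Q S r := by
  obtain ⟨e, he, -, heig⟩ := exists_eigen (S := S) hQ
  refine ⟨?_, ?_, ?_⟩
  · let j : Fin (r + 1) → Fin (finrank ℝ S) := Fin.castLE hr
    have hj : Function.Injective j := Fin.castLE_injective hr
    have he' : Orthonormal ℝ (e ∘ j) := he.comp j hj
    refine ⟨Submodule.span ℝ (range (e ∘ j)), ?_, ?_, ?_⟩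
    · refine Submodule.span_le.2 ?_
      rintro _ ⟨i, rfl⟩
      exact (heig (j i)).1
    · rw [finrank_span_eq_card he'.linearIndependent, Fintype.card_fin]
    · intro u hu
      obtain ⟨c, h1, h2⟩ := form_span (Q := Q) (S := S) (m := fun i => lamk Q S (j i)) he'
        (fun i => heig (j i)) hu
      rw [h1, h2, Finset.mul_sum]
      refine Finset.sum_le_sum fun i _ => ?_
      have : lamk Q S (j i) ≤ lamk Q S r := lamk_mono (Nat.lt_succ_iff.1 i.2) hr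
      gcongr
  · let j : Fin (finrank ℝ S - r) → Fin (finrank ℝ S) := fun i => ⟨r + i, by omega⟩
    have hj : Function.Injective j := by
      intro a b hab
      have : r + (a : ℕ) = r + b := congrArg Fin.val hab
      exact Fin.ext (by omega)
    have he' : Orthonormal ℝ (e ∘ j) := he.comp j hj
    refine ⟨Submodule.span ℝ (range (e ∘ j)), ?_, ?_, ?_⟩
    · refine Submodule.span_le.2 ?_
      rintro _ ⟨i, rfl⟩
      exact (heig (j i)).1
    · rw [finrank_span_eq_card he'.linearIndependent, Fintype.card_fin]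
      omega
    · intro u hu
      obtain ⟨c, h1, h2⟩ := form_span (Q := Q) (S := S) (m := fun i => lamk Q S (j i)) he'
        (fun i => heig (j i)) hu
      rw [h1, h2, Finset.mul_sum]
      refine Finset.sum_le_sum fun i _ => ?_
      have : lamk Q S r ≤ lamk Q S (j i) := lamk_mono (Nat.le_add_right _ _) (j i).2
      gcongr
  · refine ⟨e ⟨r, hr⟩, (heig _).1, he.1 _, ?_⟩
    rw [(heig ⟨r, hr⟩).2 _ (heig _).1, real_inner_self_eq_norm_sq, he.1]
    simp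

theorem finrank_sup_of_ortho {A T : Submodule ℝ X} [FiniteDimensional ℝ A]
    [FiniteDimensional ℝ T] (h : A ⟂ T) : finrank ℝ ↥(A ⊔ T) = finrank ℝ A + finrank ℝ T := by
  have h1 := Submodule.finrank_sup_add_finrank_inf_eq A T
  rw [h.disjoint.eq_bot, finrank_bot] at h1
  omega

theorem norm_add_sq_of_ortho {A T : Submodule ℝ X} (h : A ⟂ T) {a z : X} (ha : a ∈ A)
    (hz : z ∈ T) : ‖a + z‖ ^ 2 = ‖a‖ ^ 2 + ‖z‖ ^ 2 := by
  have h0 : ⟪a, z⟫ = 0 := h.inner_eq ha hz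
  rw [norm_add_sq_real, h0]
  ring

theorem form_add (hQ : SymF Q) (a z : X) : Q (a + z) (a + z) = Q a a + 2 * Q a z + Q z z := by
  simp only [map_add, LinearMap.add_apply, hQ z a]
  ring

/-- second-order perturbation of a cluster `Z` of eigenvalues near `l₀`.
Upper bound: test space `A ⊔ T_r` (`T_r ≤ Z` spanned by the first `r+1` eigenvectors of `Q₁` in
`Z`); lower bound: `B ⊔ U_r` (`U_r ≤ Z` spanned by the others); complete the square in the cross
terms `2 ε Q₁ u w`, using `abs_form_le`. -/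
theorem lamk_cluster {C γ Λ : ℝ} (hC : 0 ≤ C) (hγ : 0 < γ) (hΛ : 0 ≤ Λ) :
    ∃ ε₁ C' : ℝ, 0 < ε₁ ∧ 0 ≤ C' ∧
    ∀ {X : Type} [NormedAddCommGroup X] [InnerProductSpace ℝ X] (Q₀ Q₁ Q : X →ₗ[ℝ] X →ₗ[ℝ] ℝ)
      (S A Z B : Submodule ℝ X) [FiniteDimensional ℝ S] (ε l₀ ζ : ℝ),
      SymF Q₀ → SymF Q₁ → SymF Q → 0 ≤ ε → ε ≤ ε₁ → 0 ≤ ζ → ζ ≤ γ / 4 → l₀ ≤ Λ →
      A ⊔ Z ⊔ B = S → A ⟂ Z → A ⟂ B → Z ⟂ B →
      (∀ u ∈ A, ∀ w ∈ Z, Q₀ u w = 0) → (∀ u ∈ A, ∀ w ∈ B, Q₀ u w = 0) →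
      (∀ u ∈ Z, ∀ w ∈ B, Q₀ u w = 0) →
      (∀ u ∈ S, 0 ≤ Q₀ u u) →
      (∀ u ∈ A, Q₀ u u ≤ (l₀ - γ) * ‖u‖ ^ 2) →
      (∀ u ∈ Z, |Q₀ u u - l₀ * ‖u‖ ^ 2| ≤ ζ * ‖u‖ ^ 2) →
      (∀ u ∈ B, (l₀ + γ) * ‖u‖ ^ 2 ≤ Q₀ u u) →
      (∀ u ∈ S, |Q₁ u u| ≤ C * Q₀ u u) →
      (∀ u ∈ S, |Q u u - Q₀ u u - ε * Q₁ u u| ≤ C * ε ^ 2 * Q₀ u u) →
      ∀ r, r < finrank ℝ Z →
        |lamk Q S (finrank ℝ A + r) - l₀ - ε * lamk Q₁ Z r| ≤ ζ + C' * ε ^ 2 := by
  obtain ⟨L, hL⟩ : ∃ L : ℝ, L = Λ + γ := ⟨_, rfl⟩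
  have hLγ : γ ≤ L := by linarith
  have hL0 : 0 < L := by linarith
  obtain ⟨κ, hκd⟩ : ∃ κ : ℝ, κ = γ / (4 * L) := ⟨_, rfl⟩
  have hκ : 0 < κ := by rw [hκd]; positivity
  have hκL : κ * L = γ / 4 := by rw [hκd]; field_simp
  refine ⟨min 1 (γ / (4 * (C * L + 1))), C * L + C ^ 2 / κ * L, by positivity, by positivity, ?_⟩
  intro X _ _ Q₀ Q₁ Q S A Z B _ ε l₀ ζ hQ₀ hQ₁ hQ hε hε₁ hζ hζγ hl₀ hS hAZ hAB hZB h0AZ h0AB h0ZB
    hpos hA hZ hB h1 h2 r hr
  have hAS : A ≤ S := hS ▸ le_sup_of_le_left le_sup_left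
  have hZS : Z ≤ S := hS ▸ le_sup_of_le_left le_sup_right
  have hBS : B ≤ S := hS ▸ le_sup_right
  have : FiniteDimensional ℝ A := Submodule.finiteDimensional_of_le hAS
  have : FiniteDimensional ℝ Z := Submodule.finiteDimensional_of_le hZS
  have : FiniteDimensional ℝ B := Submodule.finiteDimensional_of_le hBS
  have hε1 : ε ≤ 1 := hε₁.trans (min_le_left _ _)
  have hε2 : ε * (C * L) ≤ γ / 4 := by
    have h3 : ε ≤ γ / (4 * (C * L + 1)) := hε₁.trans (min_le_right _ _)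
    rw [le_div_iff₀ (by positivity)] at h3
    nlinarith
  have hε3 : ε ^ 2 * (C * L) ≤ γ / 4 := by
    have : ε ^ 2 ≤ ε := by nlinarith
    have h4 : ε ^ 2 * (C * L) ≤ ε * (C * L) := by gcongr
    linarith
  obtain ⟨⟨T, hTZ, hT, hTQ⟩, ⟨U, hUZ, hU, hUQ⟩, v, hvZ, hv1, hvQ⟩ := exists_test (S := Z) hQ₁ hr
  have : FiniteDimensional ℝ T := Submodule.finiteDimensional_of_le hTZ
  have : FiniteDimensional ℝ U := Submodule.finiteDimensional_of_le hUZ
  generalize lamk Q₁ Z r = μ at *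
  have hZL : ∀ z ∈ Z, Q₀ z z ≤ L * ‖z‖ ^ 2 := by
    intro z hz
    have h3 := (abs_le.1 (hZ z hz)).2
    have h4 : (l₀ + ζ) * ‖z‖ ^ 2 ≤ L * ‖z‖ ^ 2 := by gcongr; linarith
    linarith
  have hl : -ζ ≤ l₀ := by
    have h3 := (abs_le.1 (hZ v hvZ)).2
    have h4 := hpos v (hZS hvZ)
    rw [hv1] at h3
    linarith
  have hμ : |μ| ≤ C * L := by
    have h3 := h1 v (hZS hvZ)
    have h4 := hZL v hvZ
    rw [hv1] at h4
    rw [hvQ] at h3
    have h5 : C * Q₀ v v ≤ C * L := by gcongr; linarith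
    linarith
  have hεμ : |ε * μ| ≤ γ / 4 := by
    rw [abs_mul, abs_of_nonneg hε]
    have : ε * |μ| ≤ ε * (C * L) := by gcongr
    linarith
  have hAT : finrank ℝ ↥(A ⊔ T) = finrank ℝ A + r + 1 := by
    rw [finrank_sup_of_ortho (hAZ.mono_right hTZ), hT]
    omega
  have hATS : A ⊔ T ≤ S := sup_le hAS (hTZ.trans hZS)
  have hD : 0 ≤ ε ^ 2 * C ^ 2 / κ := by positivity
  have hDe : ε ^ 2 * C ^ 2 / κ * L = C ^ 2 / κ * L * ε ^ 2 := by ring
  have hD' : 0 ≤ C ^ 2 / κ * L * ε ^ 2 := by positivity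
  have hCε : 0 ≤ C * ε ^ 2 := by positivity
  have hCε' : 0 ≤ ε * C := by positivity
  rw [abs_le]
  constructor
  · -- lower bound
    have hk : finrank ℝ A + r < finrank ℝ S := by
      have := Submodule.finrank_mono hATS
      omega
    have hdim : finrank ℝ S ≤ finrank ℝ ↥(B ⊔ U) + (finrank ℝ A + r) := by
      rw [finrank_sup_of_ortho (hZB.symm.mono_right hUZ)]
      have h3 := Submodule.finrank_add_le_finrank_add_finrank (A ⊔ Z) B
      have h4 := Submodule.finrank_add_le_finrank_add_finrank A Z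
      rw [hS] at h3
      omega
    have := le_lamk (Q := Q) (sup_le hBS (hUZ.trans hZS)) hk hdim
      (r := l₀ + ε * μ - (ζ + (C * L + C ^ 2 / κ * L) * ε ^ 2)) (by
        intro u hu
        obtain ⟨b, hb, z, hz, rfl⟩ := Submodule.mem_sup.1 hu
        have hbS := hBS hb
        have hzZ := hUZ hz
        have hzS := hZS hzZ
        have e1 := (abs_le.1 (h2 (b + z) (S.add_mem hbS hzS))).1
        rw [form_add hQ₀, form_add hQ₁, hQ₀ b z, h0ZB z hzZ b hb] at e1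
        rw [norm_add_sq_of_ortho hZB.symm hb hzZ]
        have e2 := (abs_le.1 (cross_le hQ₁ hQ₀ hC hpos h1 hbS hzS hε hκ)).1
        have e3 := (abs_le.1 (h1 b hbS)).1
        have e4 := (abs_le.1 (hZ z hzZ)).1
        have e5 := hZL z hzZ
        have e6 := hUQ z hz
        have e7 := hB b hb
        have e8 := hpos b hbS
        have nb := sq_nonneg ‖b‖
        have nz := sq_nonneg ‖z‖
        generalize Q (b + z) (b + z) = q at *
        generalize Q₀ b b = β at *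
        generalize Q₀ z z = ω at *
        generalize Q₁ b b = β₁ at *
        generalize Q₁ z z = ω₁ at *
        generalize Q₁ b z = x at *
        generalize ‖b‖ ^ 2 = p at *
        generalize ‖z‖ ^ 2 = s at *
        have f1 : ε * (μ * s) ≤ ε * ω₁ := by gcongr
        have f2 : ε * (-(C * β)) ≤ ε * β₁ := by gcongr
        have f3 : C * ε ^ 2 * ω ≤ C * ε ^ 2 * (L * s) := by gcongr
        have f4 : ε ^ 2 * C ^ 2 / κ * ω ≤ ε ^ 2 * C ^ 2 / κ * (L * s) := by gcongr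
        -- the `B` part
        obtain ⟨θ, hθ⟩ : ∃ θ : ℝ, θ = C * ε ^ 2 + ε * C + κ := ⟨_, rfl⟩
        have hθ0 : 0 ≤ θ := by rw [hθ]; positivity
        have hθL : θ * L ≤ 3 * γ / 4 := by rw [hθ]; linarith
        have hθ1 : θ ≤ 1 := by
          by_contra hcon
          push Not at hcon
          have : 1 * L ≤ θ * L := by gcongr
          linarith
        have f5 : (1 - θ) * ((l₀ + γ) * p) ≤ (1 - θ) * β := by gcongr
        have f6 : θ * (l₀ + γ) ≤ θ * L := by gcongr; linarith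
        have f7 : l₀ + ε * μ ≤ (1 - θ) * (l₀ + γ) := by
          have := (abs_le.1 hεμ).2
          linarith
        have f8 : (l₀ + ε * μ) * p ≤ (1 - θ) * (l₀ + γ) * p := by gcongr
        have f9 : 0 ≤ (ζ + (C * L + C ^ 2 / κ * L) * ε ^ 2) * p := by positivity
        have f10 : q ≥ (1 - θ) * β + ω + ε * ω₁ - C * ε ^ 2 * ω - ε ^ 2 * C ^ 2 / κ * ω := by
          rw [hθ]; linarith
        have f11 : ε ^ 2 * C ^ 2 / κ * (L * s) = C ^ 2 / κ * L * ε ^ 2 * s := by ring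
        linarith)
    linarith
  · -- upper bound
    have := lamk_le (Q := Q) hATS (k := finrank ℝ A + r) hAT.ge
      (r := l₀ + ε * μ + (ζ + (C * L + C ^ 2 / κ * L) * ε ^ 2)) (by
        intro u hu
        obtain ⟨a, ha, z, hz, rfl⟩ := Submodule.mem_sup.1 hu
        have haS := hAS ha
        have hzZ := hTZ hz
        have hzS := hZS hzZ
        have e1 := (abs_le.1 (h2 (a + z) (S.add_mem haS hzS))).2
        rw [form_add hQ₀, form_add hQ₁, h0AZ a ha z hzZ] at e1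
        rw [norm_add_sq_of_ortho hAZ ha hzZ]
        have e2 := (abs_le.1 (cross_le hQ₁ hQ₀ hC hpos h1 haS hzS hε hκ)).2
        have e3 := (abs_le.1 (h1 a haS)).2
        have e4 := (abs_le.1 (hZ z hzZ)).2
        have e5 := hZL z hzZ
        have e6 := hTQ z hz
        have e7 := hA a ha
        have e8 := hpos a haS
        have na := sq_nonneg ‖a‖
        have nz := sq_nonneg ‖z‖
        generalize Q (a + z) (a + z) = q at *
        generalize Q₀ a a = α at *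
        generalize Q₀ z z = ω at *
        generalize Q₁ a a = α₁ at *
        generalize Q₁ z z = ω₁ at *
        generalize Q₁ a z = x at *
        generalize ‖a‖ ^ 2 = p at *
        generalize ‖z‖ ^ 2 = s at *
        have f0 : α ≤ L * p := by
          have : (l₀ - γ) * p ≤ L * p := by gcongr; linarith
          linarith
        have f1 : ε * ω₁ ≤ ε * (μ * s) := by gcongr
        have f2 : ε * α₁ ≤ ε * (C * α) := by gcongr
        have f3 : C * ε ^ 2 * ω ≤ C * ε ^ 2 * (L * s) := by gcongr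
        have f4 : ε ^ 2 * C ^ 2 / κ * ω ≤ ε ^ 2 * C ^ 2 / κ * (L * s) := by gcongr
        obtain ⟨θ, hθ⟩ : ∃ θ : ℝ, θ = C * ε ^ 2 + ε * C + κ := ⟨_, rfl⟩
        have hθ0 : 0 ≤ θ := by rw [hθ]; positivity
        have hθL : θ * L ≤ 3 * γ / 4 := by rw [hθ]; linarith
        have f5 : θ * α ≤ θ * (L * p) := by gcongr
        have f6 : θ * L * p ≤ 3 * γ / 4 * p := by gcongr
        have f7 : -(γ / 4) * p ≤ ε * μ * p := by
          have := (abs_le.1 hεμ).1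
          gcongr
        have f9 : 0 ≤ (ζ + (C * L + C ^ 2 / κ * L) * ε ^ 2) * p := by positivity
        have f10 : q ≤ α + θ * α + ω + ε * ω₁ + C * ε ^ 2 * ω + ε ^ 2 * C ^ 2 / κ * ω := by
          rw [hθ]; linarith
        have f11 : ε ^ 2 * C ^ 2 / κ * (L * s) = C ^ 2 / κ * L * ε ^ 2 * s := by ring
        linarith)
    linarith

end Crest.Agent.R202
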