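import Mathlib

/-!
# Row 202: definitions for the abstract dynamics `y'' = K(t) y` in a finite-dimensional space

All constants in the `A*` files are independent of the dimension of `W` and of `‖K‖`:
perturbations are measured in the form sense, relative to `⟪K u, u⟫`.
-/

set_option autoImplicit false
open scoped RealInnerProductSpace
open Module Set

noncomputable section
namespace Crest.Agent.R202

section forms
variable {X : Type} [NormedAddCommGroup X] [InnerProductSpace ℝ X]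

/-- the `k`-th (`k = 0` the lowest) min-max value of the form `Q` on the subspace `S` -/
def lamk (Q : X →ₗ[ℝ] X →ₗ[ℝ] ℝ) (S : Submodule ℝ X) (k : ℕ) : ℝ :=
  sInf {r | ∃ T : Submodule ℝ X, T ≤ S ∧ finrank ℝ T = k + 1 ∧ ∀ u ∈ T, Q u u ≤ r * ‖u‖ ^ 2}

/-- symmetric form -/
def SymF (Q : X →ₗ[ℝ] X →ₗ[ℝ] ℝ) : Prop := ∀ u w, Q u w = Q w u

/-- `e` is a (Galerkin) eigenvector of the form `Q` in `S` with eigenvalue `r` -/
def EigF (Q : X →ₗ[ℝ] X →ₗ[ℝ] ℝ) (S : Submodule ℝ X) (e : X) (r : ℝ) : Prop :=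
  e ∈ S ∧ ∀ w ∈ S, Q e w = r * ⟪e, w⟫

end forms

variable {W : Type} [NormedAddCommGroup W] [InnerProductSpace ℝ W] [FiniteDimensional ℝ W]

/-- the form of an operator -/
def fK (K : W →L[ℝ] W) : W →ₗ[ℝ] W →ₗ[ℝ] ℝ := (innerₗ W).comp (K : W →ₗ[ℝ] W)

/-- symmetric operator bounded below by `κ₀²` -/
structure PosOp (κ₀ : ℝ) (K : W →L[ℝ] W) : Prop where
  sym : ∀ u w, ⟪K u, w⟫ = ⟪u, K w⟫
  pos : ∀ u, κ₀ ^ 2 * ‖u‖ ^ 2 ≤ ⟪K u, u⟫

open Classical in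
/-- the non-negative square root of a symmetric operator -/
def rt (K : W →L[ℝ] W) : W →L[ℝ] W :=
  if h : (K : W →ₗ[ℝ] W).IsSymmetric then
    ∑ i : Fin (finrank ℝ W), Real.sqrt (h.eigenvalues rfl i) •
      (innerSL ℝ (h.eigenvectorBasis rfl i)).smulRight (h.eigenvectorBasis rfl i)
  else 0

/-- growing components `y' + √K y` -/
def Gam (K : W →L[ℝ] W) (u v : W) : W := v + rt K u

/-- decaying components `y' - √K y` -/
def Del (K : W →L[ℝ] W) (u v : W) : W := v - rt K u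

/-- energy -/
def en (K : W →L[ℝ] W) (u v : W) : ℝ := ‖v‖ ^ 2 + ⟪K u, u⟫

/-- energy of the window `[t, t+1]` -/
def wen (K : ℝ → W →L[ℝ] W) (y y' : ℝ → W) (t : ℝ) : ℝ := ∫ s in t..t + 1, en (K s) (y s) (y' s)

/-- `y'' = K y` at the points of `I` -/
def SolOn (K : ℝ → W →L[ℝ] W) (I : Set ℝ) (y y' : ℝ → W) : Prop :=
  ∀ t ∈ I, HasDerivAt y (y' t) t ∧ HasDerivAt y' (K t (y t)) t

/-- no `√(eigenvalue)` within `g` of `μ` -/
def GapAt (K : W →L[ℝ] W) (μ g : ℝ) : Prop :=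
  ∀ (κ : ℝ) (u : W), 0 ≤ κ → u ≠ 0 → K u = κ ^ 2 • u → g ≤ |κ - μ|

/-- span of the eigenvectors with eigenvalue `> μ²` -/
def Fast (K : W →L[ℝ] W) (μ : ℝ) : Submodule ℝ W :=
  ⨆ (r : ℝ) (_ : μ ^ 2 < r), Module.End.eigenspace (K : W →ₗ[ℝ] W) r

/-- span of the eigenvectors with eigenvalue `≤ μ²` -/
def Slw (K : W →L[ℝ] W) (μ : ℝ) : Submodule ℝ W :=
  ⨆ (r : ℝ) (_ : r ≤ μ ^ 2), Module.End.eigenspace (K : W →ₗ[ℝ] W) r

/-- a slowly varying operator on the whole line with a weight `w`, `w' = μ` in a spectral gap -/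
structure SlowW (κ₀ g μm δ : ℝ) (K : ℝ → W →L[ℝ] W) (μ w : ℝ → ℝ) : Prop where
  cont : Continuous K
  pos : ∀ t, PosOp κ₀ (K t)
  slow : ∀ s t u, |⟪K t u, u⟫ - ⟪K s u, u⟫| ≤ δ * |t - s| * ⟪K s u, u⟫
  der : ∀ t, HasDerivAt w (μ t) t
  lip : ∀ s t, |μ t - μ s| ≤ δ * |t - s|
  nn : ∀ t, 0 ≤ μ t
  le : ∀ t, μ t ≤ μm
  gap : ∀ t, GapAt (K t) (μ t) g

/-- frozen outside `[a, b]` -/
structure Frozen (K : ℝ → W →L[ℝ] W) (μ : ℝ → ℝ) (a b : ℝ) : Prop where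
  le : a ≤ b
  left : ∀ t, t ≤ a → K t = K a ∧ μ t = μ a
  right : ∀ t, b ≤ t → K t = K b ∧ μ t = μ b

/-- holds of length `H` at both ends; on the right hold a scalar of size `η` is allowed -/
structure Holds (K : ℝ → W →L[ℝ] W) (a b H η : ℝ) : Prop where
  le : a + 2 * H ≤ b
  left : ∀ t ∈ Icc a (a + H), K t = K a
  right : ∀ t ∈ Icc (b - H) b, ∃ θ : ℝ, |θ| ≤ η ∧ K t = K b + θ • ContinuousLinearMap.id ℝ W

/-- What a phase `[a, b]` provides: a space `𝒜` of admissible Cauchy data at `a`; an admissible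
solution is `s` times a pure solution (from `eL` to `A • eR`) plus a part driven by the decaying
components at `a` and a part driven by the high growing components at `b`. -/
structure PhaseOut (K : ℝ → W →L[ℝ] W) (a b : ℝ) (eL eR : W) (Lo : Submodule ℝ W) (om : ℝ → ℝ)
    (μm C h : ℝ) (𝒜 : Submodule ℝ (W × W)) (A : ℝ) : Prop where
  dim : finrank ℝ 𝒜 + finrank ℝ Lo = 2 * finrank ℝ W + 1
  ne : A ≠ 0
  le : |A| * Real.exp μm ≤ Real.exp (om b - om a)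
  est : ∀ y y' : ℝ → W, SolOn K (Icc a b) y y' → (y a, y' a) ∈ 𝒜 → ∃ s Ξ : ℝ,
    Ξ = |s| + ‖Del (K a) (y a) (y' a)‖ + ‖Loᗮ.starProjection (Gam (K b) (y b) (y' b))‖ / |A| ∧
    ‖Gam (K a) (y a) (y' a) - s • eL‖ ≤ h * Ξ ∧
    ‖Lo.starProjection (Gam (K b) (y b) (y' b)) - (s * A) • eR‖ ≤ h * |A| * Ξ ∧
    ‖Del (K b) (y b) (y' b)‖ ≤ h * |A| * Ξ ∧
    ∀ t ∈ Icc a b, ‖y t‖ ≤ C * Real.exp (om t - om a) * Ξ

/-- first-order effect of the event `[b, b+1]` on the growing component `ψi` of a solution that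
enters as the growing mode `ψk` -/
def mm (K : ℝ → W →L[ℝ] W) (b : ℝ) (ψk ψi : W) (κk κi : ℝ) : ℝ :=
  (2 * κk)⁻¹ * ∫ τ in (0 : ℝ)..1, Real.exp ((κk - κi) * τ) * ⟪(K (b + τ) - K b) ψk, ψi⟫

/-- an event on `[b, b+1]`: static state `K b` with low eigenvectors `ψ`, perturbed in the middle
of the window by a form of relative size `ρ` -/
structure EventOK {ι : Type} [Fintype ι] (κ₀ μm ρ : ℝ) (K : ℝ → W →L[ℝ] W) (b : ℝ) (ψ : ι → W)
    (κ : ι → ℝ) : Prop where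
  cont : Continuous K
  pos : PosOp κ₀ (K b)
  sym : ∀ t u w, ⟪K t u, w⟫ = ⟪u, K t w⟫
  on : Orthonormal ℝ ψ
  eig : ∀ i, K b (ψ i) = κ i ^ 2 • ψ i
  nn : ∀ i, 0 ≤ κ i
  le : ∀ i, κ i ≤ μm
  supp : ∀ t ∈ Icc b (b + 1), t ∉ Ioo (b + 1 / 4) (b + 3 / 4) → K t = K b
  small : ∀ t ∈ Icc b (b + 1), ∀ u, |⟪K t u, u⟫ - ⟪K b u, u⟫| ≤ ρ * ⟪K b u, u⟫

omit [FiniteDimensional ℝ W] in
theorem fK_apply (K : W →L[ℝ] W) (u w : W) : fK K u w = ⟪K u, w⟫ := rfl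

end Crest.Agent.R202
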