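import Crest.Agent.R202.ALR

/-!
# Row 202, A6: the three kinds of solutions of one cell, seen from the two ends

Tools: `lemR`, `lemL`, and the hold lemmas `del_bound`, `gam_bound`, `low_growth` (average the
starting time over a unit window to pass from window energies to pointwise bounds; `gam_del_en`).

* `endE` (above the weight): `Γ(a)`: static on `[a, a+1]`, `gam_bound` with `ν = 0`.  Slow part of
  `Γ(b)`: `V = Slw (K b) (μ b)` is invariant on the hold, there `K t ≤ (μ b - g)² + η ≤ m²` with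
  `m = μ b - 3g/4` (if `V ≠ ⊥` then `μ b ≥ κ₀ + g`), while `w' ≥ μ b - g/4` on the hold
  (hypothesis on `μ`);
  `low_growth` from a time in `[b-H, b-H+1]`.  `Δ(b)`: `del_bound` on `[s, b]`, `‖y τ‖ ≤ C e^{-g(b-τ)} X`.
* `endL` (below the weight, no decaying part at `a`): fast part of `Γ(a)` by `gam_bound` with
  `ν = μ a + g` from a time in `[a+H-1, a+H]`, where `w' = μ a ± g/4`; `Γ(b)` lies in the low space,
  use `low_growth` over `[b-1, b]`.
* `endD` (`Γ(b) = 0`): `lemL` with `μ = w = 0`, `g = κ₀`.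
-/

set_option autoImplicit false
open scoped RealInnerProductSpace ContDiff
open Module Set MeasureTheory

noncomputable section
namespace Crest.Agent.R202

section aux
variable {W : Type} [NormedAddCommGroup W] [InnerProductSpace ℝ W] [FiniteDimensional ℝ W]

theorem ends_le_of_sq {x A z : ℝ} (hA : 0 ≤ A) (hz : 0 ≤ z) (h : x ^ 2 ≤ A * z ^ 2) :
    x ≤ (A + 1) * z := by
  have h1 : x ^ 2 ≤ ((A + 1) * z) ^ 2 := by
    have h2 : A ≤ (A + 1) ^ 2 := by nlinarith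
    calc x ^ 2 ≤ A * z ^ 2 := h
      _ ≤ (A + 1) ^ 2 * z ^ 2 := mul_le_mul_of_nonneg_right h2 (sq_nonneg z)
      _ = ((A + 1) * z) ^ 2 := by ring
  exact le_trans (le_abs_self x)
    (abs_le_of_sq_le_sq' h1 (mul_nonneg (by linarith) hz) |> fun h => abs_le.mpr h)

theorem ends_w_ge {μ w : ℝ → ℝ} (hw : ∀ t, HasDerivAt w (μ t) t) {s t c : ℝ} (hst : s ≤ t)
    (h : ∀ τ ∈ Icc s t, c ≤ μ τ) : c * (t - s) ≤ w t - w s := by
  rcases hst.eq_or_lt with rfl | hlt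
  · simp
  obtain ⟨ξ, hξ, he⟩ := exists_hasDerivAt_eq_slope w μ hlt
    (fun τ _ => (hw τ).continuousAt.continuousWithinAt) (fun τ _ => hw τ)
  have h1 := h ξ (Ioo_subset_Icc_self hξ)
  rw [he, le_div_iff₀ (sub_pos.mpr hlt)] at h1
  exact h1

theorem ends_w_le {μ w : ℝ → ℝ} (hw : ∀ t, HasDerivAt w (μ t) t) {s t c : ℝ} (hst : s ≤ t)
    (h : ∀ τ ∈ Icc s t, μ τ ≤ c) : w t - w s ≤ c * (t - s) := by
  rcases hst.eq_or_lt with rfl | hlt
  · simp
  obtain ⟨ξ, hξ, he⟩ := exists_hasDerivAt_eq_slope w μ hlt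
    (fun τ _ => (hw τ).continuousAt.continuousWithinAt) (fun τ _ => hw τ)
  have h1 := h ξ (Ioo_subset_Icc_self hξ)
  rw [he, div_le_iff₀ (sub_pos.mpr hlt)] at h1
  exact h1

omit [FiniteDimensional ℝ W] in
theorem ends_cont {K : ℝ → W →L[ℝ] W} {y y' : ℝ → W} (hy : SolOn K univ y y') :
    Continuous y ∧ Continuous y' :=
  ⟨continuous_iff_continuousAt.mpr fun t => (hy t (mem_univ t)).1.continuousAt,
    continuous_iff_continuousAt.mpr fun t => (hy t (mem_univ t)).2.continuousAt⟩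

omit [FiniteDimensional ℝ W] in
/-- averaging: a time in the window where the energy is at most the window energy -/
theorem ends_exists_en {K : ℝ → W →L[ℝ] W} (hK : Continuous K) {y y' : ℝ → W}
    (hy : SolOn K univ y y') (t : ℝ) :
    ∃ s ∈ Icc t (t + 1), en (K s) (y s) (y' s) ≤ wen K y y' t := by
  obtain ⟨hc, hc'⟩ := ends_cont hy
  have hf : Continuous fun s => en (K s) (y s) (y' s) := by
    unfold en
    exact (hc'.norm.pow 2).add ((hK.clm_apply hc).inner hc)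
  obtain ⟨s, hs, hmin⟩ := (isCompact_Icc (a := t) (b := t + 1)).exists_isMinOn
    ⟨t, by constructor <;> linarith⟩ hf.continuousOn
  refine ⟨s, hs, ?_⟩
  have h1 : ∫ _ in t..t + 1, en (K s) (y s) (y' s) ≤ ∫ τ in t..t + 1, en (K τ) (y τ) (y' τ) :=
    intervalIntegral.integral_mono_on (by linarith) intervalIntegrable_const
      (hf.intervalIntegrable _ _) fun τ hτ => hmin hτ
  simpa [wen] using h1

theorem ends_gam_sq {κ₀ : ℝ} {K : W →L[ℝ] W} (hK : PosOp κ₀ K) (u v : W) :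
    ‖Gam K u v‖ ^ 2 ≤ 2 * en K u v := by
  have := gam_del_en hK u v
  nlinarith [sq_nonneg ‖Del K u v‖]

theorem ends_del_sq {κ₀ : ℝ} {K : W →L[ℝ] W} (hK : PosOp κ₀ K) (u v : W) :
    ‖Del K u v‖ ^ 2 ≤ 2 * en K u v := by
  have := gam_del_en hK u v
  nlinarith [sq_nonneg ‖Gam K u v‖]

omit [FiniteDimensional ℝ W] in
theorem ends_solOn_static {K : ℝ → W →L[ℝ] W} {K₀ : W →L[ℝ] W} {y y' : ℝ → W}
    (hy : SolOn K univ y y') {I : Set ℝ} (h : ∀ t ∈ I, K t = K₀) :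
    SolOn (fun _ => K₀) I y y' := fun t ht => by
  have := hy t (mem_univ t)
  rw [h t ht] at this
  exact this

omit [FiniteDimensional ℝ W] in
theorem ends_solOn_mono {K : ℝ → W →L[ℝ] W} {y y' : ℝ → W}
    (hy : SolOn K univ y y') (I : Set ℝ) : SolOn K I y y' := fun t _ => hy t (mem_univ t)

/-- the growing components on a static interval are bounded by a later energy -/
theorem ends_gam_static {κ₀ : ℝ} {K : ℝ → W →L[ℝ] W} {K₀ : W →L[ℝ] W} (hK : PosOp κ₀ K₀)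
    {V : Submodule ℝ W} (hV : ∀ u ∈ V, K₀ u ∈ V) {ν : ℝ} (hν : 0 ≤ ν)
    (h : ∀ u ∈ V, ν ^ 2 * ‖u‖ ^ 2 ≤ ⟪K₀ u, u⟫) {s t : ℝ} (hst : s ≤ t) {y y' : ℝ → W}
    (hy : SolOn K univ y y') (hst' : ∀ τ ∈ Icc s t, K τ = K₀) :
    ‖V.starProjection (Gam K₀ (y s) (y' s))‖ ^ 2 ≤
      Real.exp (-ν * (t - s)) ^ 2 * (2 * en (K t) (y t) (y' t)) := by
  have h1 := gam_bound hK hV hν h hst (ends_solOn_static hy hst')
  have h2 : ‖V.starProjection (Gam K₀ (y t) (y' t))‖ ≤ ‖Gam K₀ (y t) (y' t)‖ :=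
    V.norm_starProjection_apply_le _
  have h3 := ends_gam_sq hK (y t) (y' t)
  rw [hst' t ⟨hst, le_rfl⟩]
  have h4 : ‖V.starProjection (Gam K₀ (y s) (y' s))‖ ≤
      Real.exp (-ν * (t - s)) * ‖Gam K₀ (y t) (y' t)‖ :=
    h1.trans (mul_le_mul_of_nonneg_left h2 (Real.exp_pos _).le)
  calc ‖V.starProjection (Gam K₀ (y s) (y' s))‖ ^ 2
      ≤ (Real.exp (-ν * (t - s)) * ‖Gam K₀ (y t) (y' t)‖) ^ 2 :=
        pow_le_pow_left₀ (norm_nonneg _) h4 2
    _ = Real.exp (-ν * (t - s)) ^ 2 * ‖Gam K₀ (y t) (y' t)‖ ^ 2 := by ring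
    _ ≤ _ := mul_le_mul_of_nonneg_left h3 (sq_nonneg _)

/-- `ends_gam_static` for the whole space -/
theorem ends_gam_static_top {κ₀ : ℝ} {K : ℝ → W →L[ℝ] W} {K₀ : W →L[ℝ] W} (hK : PosOp κ₀ K₀)
    {ν : ℝ} (hν : 0 ≤ ν) (h : ∀ u, ν ^ 2 * ‖u‖ ^ 2 ≤ ⟪K₀ u, u⟫) {s t : ℝ} (hst : s ≤ t)
    {y y' : ℝ → W} (hy : SolOn K univ y y') (hst' : ∀ τ ∈ Icc s t, K τ = K₀) :
    ‖Gam K₀ (y s) (y' s)‖ ^ 2 ≤ Real.exp (-ν * (t - s)) ^ 2 * (2 * en (K t) (y t) (y' t)) := by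
  have := ends_gam_static hK (V := ⊤) (fun _ _ => Submodule.mem_top) hν (fun u _ => h u) hst hy hst'
  rwa [Submodule.starProjection_top, ContinuousLinearMap.id_apply] at this

omit [FiniteDimensional ℝ W] in
theorem ends_form_add (K₀ : W →L[ℝ] W) (θ : ℝ) (u : W) :
    ⟪(K₀ + θ • ContinuousLinearMap.id ℝ W) u, u⟫ = ⟪K₀ u, u⟫ + θ * ‖u‖ ^ 2 := by
  rw [add_apply, smul_apply, ContinuousLinearMap.id_apply,
    inner_add_left, real_inner_smul_left, real_inner_self_eq_norm_sq]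

/-- the decaying components at `t` on a right hold -/
theorem ends_del_hold {κ₀ : ℝ} (hκ : 0 < κ₀) {K : ℝ → W →L[ℝ] W} (hK : ∀ t, PosOp κ₀ (K t))
    {s t η : ℝ} (hst : s ≤ t) (hηκ : η ≤ κ₀ ^ 2)
    (hη : ∀ τ ∈ Icc s t, ∃ θ : ℝ, |θ| ≤ η ∧ K τ = K t + θ • ContinuousLinearMap.id ℝ W)
    {y y' : ℝ → W} (hy : SolOn K univ y y') {A z : ℝ} (hA : 0 ≤ A) (hz : 0 ≤ z)
    (hen : en (K s) (y s) (y' s) ≤ A * z ^ 2) :
    ‖Del (K t) (y t) (y' t)‖ ≤ (4 * A + 1) * z + η * ∫ τ in s..t, ‖y τ‖ := by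
  have h1 := del_bound hκ.le (hK t) hst hη (ends_solOn_mono hy _)
  obtain ⟨θ, hθ, hKs⟩ := hη s ⟨le_rfl, hst⟩
  have h2 : en (K t) (y s) (y' s) ≤ 2 * en (K s) (y s) (y' s) := by
    have h3 := ends_form_add (K t) θ (y s)
    rw [← hKs] at h3
    have h4 := (hK s).pos (y s)
    have h5 : -θ * ‖y s‖ ^ 2 ≤ κ₀ ^ 2 * ‖y s‖ ^ 2 :=
      mul_le_mul_of_nonneg_right (by linarith [neg_abs_le θ]) (sq_nonneg _)
    unfold en
    nlinarith [sq_nonneg ‖y' s‖]
  have h6 : ‖Del (K t) (y s) (y' s)‖ ≤ (4 * A + 1) * z := by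
    refine ends_le_of_sq (by linarith) hz ?_
    have := ends_del_sq (hK t) (y s) (y' s)
    nlinarith
  have h7 : Real.exp (-κ₀ * (t - s)) ≤ 1 :=
    Real.exp_le_one_iff.mpr (by nlinarith)
  have h8 : Real.exp (-κ₀ * (t - s)) * ‖Del (K t) (y s) (y' s)‖ ≤ (4 * A + 1) * z :=
    (mul_le_of_le_one_left (norm_nonneg _) h7).trans h6
  linarith

/-- the projection of `Γ` to an invariant subspace on which `K ≤ m²` -/
theorem ends_proj_gam {κ₀ : ℝ} {K : W →L[ℝ] W} (hK : PosOp κ₀ K) {V : Submodule ℝ W}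
    (hV : ∀ u ∈ V, K u ∈ V) {m : ℝ} (h : ∀ u ∈ V, ⟪K u, u⟫ ≤ m ^ 2 * ‖u‖ ^ 2) (u v : W) :
    ‖V.starProjection (Gam K u v)‖ ^ 2 ≤
      2 * (‖V.starProjection v‖ ^ 2 + m ^ 2 * ‖V.starProjection u‖ ^ 2) := by
  have h1 : V.starProjection (Gam K u v) = V.starProjection v + rt K (V.starProjection u) := by
    unfold Gam
    rw [map_add, starProjection_comm (rt_sym hK) (fun w hw => rt_mem hK hV hw)]
  have h2 : ‖rt K (V.starProjection u)‖ ^ 2 ≤ m ^ 2 * ‖V.starProjection u‖ ^ 2 := by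
    rw [norm_rt_sq hK]
    exact h _ (V.starProjection_apply_mem u)
  have h3 := norm_add_le (V.starProjection v) (rt K (V.starProjection u))
  rw [h1]
  have h4 := pow_le_pow_left₀ (norm_nonneg _) h3 2
  nlinarith [sq_nonneg (‖V.starProjection v‖ - ‖rt K (V.starProjection u)‖)]

theorem ends_int_exp {g s t : ℝ} (hg : 0 < g) :
    ∫ τ in s..t, Real.exp (g * (τ - t)) ≤ g⁻¹ := by
  have h1 : ∀ τ ∈ uIcc s t, HasDerivAt (fun τ => g⁻¹ * Real.exp (g * (τ - t)))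
      (Real.exp (g * (τ - t))) τ := fun τ _ => by
    have h2 : HasDerivAt (fun τ => g * (τ - t)) g τ := by
      simpa using ((hasDerivAt_id τ).sub_const t).const_mul g
    have h3 := (h2.exp).const_mul g⁻¹
    have h5 : g⁻¹ * (Real.exp (g * (τ - t)) * g) = Real.exp (g * (τ - t)) := by
      field_simp
    rwa [h5] at h3
  rw [intervalIntegral.integral_eq_sub_of_hasDerivAt h1
    ((by fun_prop : Continuous fun τ => Real.exp (g * (τ - t))).intervalIntegrable _ _)]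
  have h4 : 0 ≤ g⁻¹ * Real.exp (g * (s - t)) := by positivity
  simp only [sub_self, mul_zero, Real.exp_zero, mul_one]
  linarith

theorem ends_exp_two (x : ℝ) : Real.exp (2 * x) = Real.exp x ^ 2 := by
  rw [← Real.exp_nat_mul]; norm_num

end aux

theorem endE {κ₀ g μm : ℝ} (hκ : 0 < κ₀) (hg : 0 < g) (hgκ : g ≤ κ₀) (hμm : 0 ≤ μm) :
    ∃ δ₀ C : ℝ, 0 < δ₀ ∧ 0 < C ∧
    ∀ {W : Type} [NormedAddCommGroup W] [InnerProductSpace ℝ W] [FiniteDimensional ℝ W]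
      (δ η H : ℝ) (K : ℝ → W →L[ℝ] W) (μ w : ℝ → ℝ) (a b : ℝ) (y y' : ℝ → W) (X : ℝ),
      0 ≤ δ → δ ≤ δ₀ → 0 ≤ η → η ≤ δ₀ → 2 ≤ H → SlowW κ₀ g μm δ K μ w → Frozen K μ a b →
      Holds K a b H η → (∀ t, g ≤ μ t) → (∀ t ∈ Icc (b - H) b, |μ t - μ b| ≤ g / 4) →
      SolOn K univ y y' →
      Del (K a) (y a) (y' a) = 0 → Gam (K a) (y a) (y' a) ∈ Fast (K a) (μ a) →
      X = ‖(Fast (K b) (μ b)).starProjection (Gam (K b) (y b) (y' b))‖ →
      ‖Gam (K a) (y a) (y' a)‖ ≤ C * Real.exp (w a - w b) * X ∧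
      ‖(Slw (K b) (μ b)).starProjection (Gam (K b) (y b) (y' b))‖ ≤
        C * Real.exp (-(g / 2) * H) * X ∧
      ‖Del (K b) (y b) (y' b)‖ ≤ C * (Real.exp (-(g / 2) * H) + η) * X ∧
      ∀ t ∈ Icc a b, ‖y t‖ ≤ C * Real.exp (w t - w b) * X := by
  obtain ⟨δ₁, C₁, hδ₁, hC₁, hR⟩ := lemR hκ hg hμm
  obtain ⟨c, hc⟩ : ∃ c : ℝ, c = 1 + μm ^ 2 / κ₀ ^ 2 := ⟨_, rfl⟩
  have hc0 : 0 ≤ μm ^ 2 / κ₀ ^ 2 := by positivity
  have hc1 : 1 ≤ c := by linarith
  have hgi : 0 < g⁻¹ := inv_pos.mpr hg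
  refine ⟨min δ₁ (min (κ₀ ^ 2) (g ^ 2 / 16)), 2 * c * C₁ + 4 * C₁ + 1 + C₁ * g⁻¹, by positivity,
    by positivity, ?_⟩
  have _ := hgκ
  intro W _ _ _ δ η H K μ w a b y y' X hδ0 hδ hη0 hη hH hS hF hHo hgμ hμb hy hD hG hX
  obtain ⟨hR1, hR2⟩ := hR δ K μ w a b y y' hδ0 (hδ.trans (min_le_left _ _)) hS hF hy hD hG
  rw [← hX] at hR1 hR2
  have hX0 : 0 ≤ X := hX ▸ norm_nonneg _
  have hηκ : η ≤ κ₀ ^ 2 := hη.trans ((min_le_right _ _).trans (min_le_left _ _))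
  have hηg : η ≤ g ^ 2 / 16 := hη.trans ((min_le_right _ _).trans (min_le_right _ _))
  have hab := hHo.le
  have hcC : 0 ≤ c * C₁ := by positivity
  have hCg : 0 ≤ C₁ * g⁻¹ := by positivity
  -- a good time at the beginning of the right hold
  obtain ⟨s, hs, hsen⟩ := ends_exists_en hS.cont hy (b - H)
  have hsb : s ≤ b := by linarith [hs.2]
  have hen : en (K s) (y s) (y' s) ≤ C₁ * Real.exp (2 * (w (b - H) - w b)) * X ^ 2 :=
    hsen.trans (hR1 (b - H) (by linarith))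
  refine ⟨?_, ?_, ?_, fun t ht => ?_⟩
  · obtain ⟨r, hr, hren⟩ := ends_exists_en hS.cont hy a
    have h1 := ends_gam_static_top (hS.pos a) (ν := 0) le_rfl
      (fun u => by simpa using le_trans (by positivity) ((hS.pos a).pos u)) hr.1 hy
      (fun τ hτ => hHo.left τ ⟨hτ.1, by linarith [hτ.2, hr.2]⟩)
    have h2 := hren.trans (hR1 a (by linarith))
    rw [ends_exp_two] at h2
    have h3 : ‖Gam (K a) (y a) (y' a)‖ ≤ (2 * C₁ + 1) * (Real.exp (w a - w b) * X) := by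
      refine ends_le_of_sq (by positivity) (by positivity) ?_
      simp only [neg_zero, zero_mul, Real.exp_zero, one_pow, one_mul] at h1
      calc _ ≤ _ := h1
        _ ≤ 2 * (C₁ * Real.exp (w a - w b) ^ 2 * X ^ 2) := by linarith
        _ = _ := by ring
    rw [mul_assoc]
    exact h3.trans (mul_le_mul_of_nonneg_right (by linarith) (by positivity))
  · obtain ⟨m, hm⟩ : ∃ m : ℝ, m = μ b - 3 * g / 4 := ⟨_, rfl⟩
    have hgb := hgμ b
    have hm0 : 0 < m := by linarith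
    have hmm : m ≤ μm := by linarith [hS.le b]
    have hlow : ∀ u ∈ Slw (K b) (μ b), ⟪K b u, u⟫ ≤ (μ b - g) ^ 2 * ‖u‖ ^ 2 :=
      slw_le (hS.pos b) hgb hg (hS.gap b)
    have hsq : (μ b - g) ^ 2 + η ≤ m ^ 2 := by rw [hm]; nlinarith
    have hlg := low_growth (Kt := K) (V := Slw (K b) (μ b)) (a := b - H) (b := b) hm0
      (fun τ _ => (hS.pos τ).sym)
      (fun τ hτ u hu => by
        obtain ⟨θ, -, hθ⟩ := hHo.right τ hτ
        rw [hθ, add_apply, smul_apply, ContinuousLinearMap.id_apply]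
        exact Submodule.add_mem _ (slw_inv _ _ u hu) (Submodule.smul_mem _ _ hu))
      (fun τ _ u _ => le_trans (by positivity) ((hS.pos τ).pos u))
      (fun τ hτ u hu => by
        obtain ⟨θ, hθ1, hθ⟩ := hHo.right τ hτ
        rw [hθ, ends_form_add]
        have h1 := hlow u hu
        have h2 : θ * ‖u‖ ^ 2 ≤ η * ‖u‖ ^ 2 :=
          mul_le_mul_of_nonneg_right ((le_abs_self θ).trans hθ1) (sq_nonneg _)
        have h3 := mul_le_mul_of_nonneg_right hsq (sq_nonneg ‖u‖)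
        linarith)
      (ends_solOn_mono hy _) (s := s) (t := b) ⟨hs.1, hsb⟩ ⟨by linarith, le_rfl⟩
    have hpg := ends_proj_gam (hS.pos b) (slw_inv (K b) (μ b)) (m := m)
      (fun u hu => (hlow u hu).trans (mul_le_mul_of_nonneg_right (by linarith) (sq_nonneg _)))
      (y b) (y' b)
    have h1 : ‖(Slw (K b) (μ b)).starProjection (y' s)‖ ^ 2 ≤ ‖y' s‖ ^ 2 :=
      pow_le_pow_left₀ (norm_nonneg _) (Submodule.norm_starProjection_apply_le _ _) 2
    have h2 : ‖(Slw (K b) (μ b)).starProjection (y s)‖ ^ 2 ≤ ‖y s‖ ^ 2 :=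
      pow_le_pow_left₀ (norm_nonneg _) (Submodule.norm_starProjection_apply_le _ _) 2
    have h3 : m ^ 2 * ‖(Slw (K b) (μ b)).starProjection (y s)‖ ^ 2 ≤
        μm ^ 2 / κ₀ ^ 2 * ⟪K s (y s), y s⟫ := by
      have h4 : m ^ 2 ≤ μm ^ 2 := pow_le_pow_left₀ hm0.le hmm 2
      calc m ^ 2 * ‖(Slw (K b) (μ b)).starProjection (y s)‖ ^ 2 ≤ μm ^ 2 * ‖y s‖ ^ 2 :=
            mul_le_mul h4 h2 (sq_nonneg _) (sq_nonneg _)
        _ = μm ^ 2 / κ₀ ^ 2 * (κ₀ ^ 2 * ‖y s‖ ^ 2) := by field_simp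
        _ ≤ _ := mul_le_mul_of_nonneg_left ((hS.pos s).pos (y s)) hc0
    have h5 : ‖(Slw (K b) (μ b)).starProjection (y' s)‖ ^ 2 +
        m ^ 2 * ‖(Slw (K b) (μ b)).starProjection (y s)‖ ^ 2 ≤ c * en (K s) (y s) (y' s) := by
      have h6 : 0 ≤ ⟪K s (y s), y s⟫ := le_trans (by positivity) ((hS.pos s).pos (y s))
      have h7 : 0 ≤ μm ^ 2 / κ₀ ^ 2 * ‖y' s‖ ^ 2 := by positivity
      rw [hc]
      unfold en
      nlinarith
    have hw : (μ b - g / 4) * (b - (b - H)) ≤ w b - w (b - H) :=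
      ends_w_ge hS.der (by linarith) fun τ hτ => by linarith [(abs_le.mp (hμb τ hτ)).1]
    have hexp : Real.exp (2 * m * |b - s|) * Real.exp (2 * (w (b - H) - w b)) ≤
        Real.exp (-(g / 2) * H) ^ 2 := by
      rw [← ends_exp_two, ← Real.exp_add, Real.exp_le_exp, abs_of_nonneg (by linarith)]
      have h8 : m * (b - s) ≤ m * H := mul_le_mul_of_nonneg_left (by linarith [hs.1]) hm0.le
      have h9 : m * H = (μ b - g / 4) * (b - (b - H)) - g / 2 * H := by rw [hm]; ring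
      linarith
    have h10 : ‖(Slw (K b) (μ b)).starProjection (Gam (K b) (y b) (y' b))‖ ≤
        (2 * c * C₁ + 1) * (Real.exp (-(g / 2) * H) * X) := by
      refine ends_le_of_sq (by positivity) (by positivity) ?_
      calc _ ≤ _ := hpg
        _ ≤ 2 * (Real.exp (2 * m * |b - s|) *
            (c * (C₁ * Real.exp (2 * (w (b - H) - w b)) * X ^ 2))) := by
          refine mul_le_mul_of_nonneg_left (hlg.trans ?_) (by norm_num)
          exact mul_le_mul_of_nonneg_left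
            (h5.trans (mul_le_mul_of_nonneg_left hen (by linarith))) (Real.exp_pos _).le
        _ = 2 * c * C₁ * X ^ 2 *
            (Real.exp (2 * m * |b - s|) * Real.exp (2 * (w (b - H) - w b))) := by ring
        _ ≤ 2 * c * C₁ * X ^ 2 * Real.exp (-(g / 2) * H) ^ 2 :=
          mul_le_mul_of_nonneg_left hexp (by positivity)
        _ = _ := by ring
    rw [mul_assoc]
    exact h10.trans (mul_le_mul_of_nonneg_right (by linarith) (by positivity))
  · have hw : g * (b - (b - H)) ≤ w b - w (b - H) :=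
      ends_w_ge hS.der (by linarith) fun τ _ => hgμ τ
    have hexp : Real.exp (2 * (w (b - H) - w b)) ≤ Real.exp (-(g / 2) * H) ^ 2 := by
      rw [← ends_exp_two, Real.exp_le_exp]
      have : 0 ≤ g * H := by positivity
      linarith
    have hen' : en (K s) (y s) (y' s) ≤ C₁ * (Real.exp (-(g / 2) * H) * X) ^ 2 := by
      calc _ ≤ _ := hen
        _ = C₁ * X ^ 2 * Real.exp (2 * (w (b - H) - w b)) := by ring
        _ ≤ C₁ * X ^ 2 * Real.exp (-(g / 2) * H) ^ 2 :=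
          mul_le_mul_of_nonneg_left hexp (by positivity)
        _ = _ := by ring
    have h1 := ends_del_hold hκ hS.pos hsb hηκ
      (fun τ hτ => hHo.right τ ⟨by linarith [hτ.1, hs.1], hτ.2⟩) hy hC₁.le (by positivity) hen'
    have h2 : ∫ τ in s..b, ‖y τ‖ ≤ C₁ * X * g⁻¹ := by
      calc ∫ τ in s..b, ‖y τ‖ ≤ ∫ τ in s..b, C₁ * X * Real.exp (g * (τ - b)) := by
            refine intervalIntegral.integral_mono_on hsb
              ((ends_cont hy).1.norm.intervalIntegrable _ _)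
              ((by fun_prop : Continuous fun τ => C₁ * X * Real.exp (g * (τ - b))).intervalIntegrable
                _ _) fun τ hτ => ?_
            have h3 : g * (b - τ) ≤ w b - w τ := ends_w_ge hS.der hτ.2 fun τ _ => hgμ τ
            have h4 : Real.exp (w τ - w b) ≤ Real.exp (g * (τ - b)) :=
              Real.exp_le_exp.mpr (by linarith)
            calc ‖y τ‖ ≤ C₁ * Real.exp (w τ - w b) * X := hR2 τ hτ.2
              _ = C₁ * X * Real.exp (w τ - w b) := by ring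
              _ ≤ _ := mul_le_mul_of_nonneg_left h4 (by positivity)
        _ = C₁ * X * ∫ τ in s..b, Real.exp (g * (τ - b)) := intervalIntegral.integral_const_mul _ _
        _ ≤ _ := mul_le_mul_of_nonneg_left (ends_int_exp hg) (by positivity)
    have h5 := mul_le_mul_of_nonneg_left h2 hη0
    have h6 : 0 ≤ Real.exp (-(g / 2) * H) * X := by positivity
    have h7 : 0 ≤ η * X := by positivity
    have h8 : (4 * C₁ + 1) * (Real.exp (-(g / 2) * H) * X) ≤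
        (2 * c * C₁ + 4 * C₁ + 1 + C₁ * g⁻¹) * (Real.exp (-(g / 2) * H) * X) :=
      mul_le_mul_of_nonneg_right (by linarith) h6
    have h9 : (C₁ * g⁻¹) * (η * X) ≤ (2 * c * C₁ + 4 * C₁ + 1 + C₁ * g⁻¹) * (η * X) :=
      mul_le_mul_of_nonneg_right (by linarith) h7
    calc _ ≤ _ := h1
      _ ≤ (4 * C₁ + 1) * (Real.exp (-(g / 2) * H) * X) + (C₁ * g⁻¹) * (η * X) := by linarith
      _ ≤ _ := add_le_add h8 h9
      _ = _ := by ring
  · refine (hR2 t ht.2).trans ?_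
    rw [mul_assoc, mul_assoc]
    exact mul_le_mul_of_nonneg_right (by linarith) (by positivity)

theorem endL {κ₀ g μm : ℝ} (hκ : 0 < κ₀) (hg : 0 < g) (hμm : 0 ≤ μm) :
    ∃ δ₀ C : ℝ, 0 < δ₀ ∧ 0 < C ∧
    ∀ {W : Type} [NormedAddCommGroup W] [InnerProductSpace ℝ W] [FiniteDimensional ℝ W]
      (δ η H : ℝ) (K : ℝ → W →L[ℝ] W) (μ w : ℝ → ℝ) (a b : ℝ) (y y' : ℝ → W) (X : ℝ),
      0 ≤ δ → δ ≤ δ₀ → 0 ≤ η → η ≤ δ₀ → 2 ≤ H → SlowW κ₀ g μm δ K μ w → Frozen K μ a b →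
      Holds K a b H η → (∀ t ∈ Icc a (a + H), μ t = μ a) →
      SolOn K univ y y' →
      Del (K a) (y a) (y' a) = 0 → Gam (K b) (y b) (y' b) ∈ Slw (K b) (μ b) →
      X = ‖(Slw (K a) (μ a)).starProjection (Gam (K a) (y a) (y' a))‖ →
      ‖(Fast (K a) (μ a)).starProjection (Gam (K a) (y a) (y' a))‖ ≤
        C * Real.exp (-(g / 2) * H) * X ∧
      ‖Gam (K b) (y b) (y' b)‖ ≤ C * Real.exp (w b - w a) * X ∧
      ∀ t ∈ Icc a b, ‖y t‖ ≤ C * Real.exp (w t - w a) * X := by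
  obtain ⟨δ₁, C₁, hδ₁, hC₁, hL⟩ := lemL hκ hg hμm
  refine ⟨δ₁, 2 * C₁ + 1, hδ₁, by positivity, ?_⟩
  intro W _ _ _ δ η H K μ w a b y y' X hδ0 hδ _ _ hH hS hF hHo hμa hy hD hG hX
  obtain ⟨hL1, hL2⟩ := hL δ K μ w a b y y' hδ0 hδ hS hF hy hG
  rw [hD, norm_zero, zero_add, ← hX] at hL1 hL2
  have hX0 : 0 ≤ X := hX ▸ norm_nonneg _
  have hab := hHo.le
  refine ⟨?_, ?_, fun t ht => ?_⟩
  · obtain ⟨s, hs, hsen⟩ := ends_exists_en hS.cont hy (a + H - 1)
    have has : a ≤ s := by linarith [hs.1]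
    have hν : 0 ≤ μ a + g := add_nonneg (hS.nn a) hg.le
    have h1 := ends_gam_static (hS.pos a) (fast_inv (K a) (μ a)) hν
      (fast_ge (hS.pos a) (hS.nn a) hg.le (hS.gap a)) has hy
      (fun τ hτ => hHo.left τ ⟨hτ.1, by linarith [hτ.2, hs.2]⟩)
    have h2 := hsen.trans (hL1 (a + H - 1) (by linarith))
    have hw : w (a + H - 1) - w a ≤ μ a * (a + H - 1 - a) :=
      ends_w_le hS.der (by linarith) fun τ hτ => (hμa τ ⟨hτ.1, by linarith [hτ.2]⟩).le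
    have hexp : Real.exp (-(μ a + g) * (s - a)) ^ 2 * Real.exp (2 * (w (a + H - 1) - w a)) ≤
        Real.exp (-(g / 2) * H) ^ 2 := by
      rw [← ends_exp_two, ← ends_exp_two, ← Real.exp_add, Real.exp_le_exp]
      have h3 : (μ a + g) * (H - 1) ≤ (μ a + g) * (s - a) :=
        mul_le_mul_of_nonneg_left (by linarith [hs.1]) hν
      have h4 : 0 ≤ g * (H - 2) := mul_nonneg hg.le (by linarith)
      nlinarith
    rw [mul_assoc]
    refine ends_le_of_sq (by positivity) (by positivity) ?_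
    calc _ ≤ _ := h1
      _ ≤ Real.exp (-(μ a + g) * (s - a)) ^ 2 *
          (2 * (C₁ * Real.exp (2 * (w (a + H - 1) - w a)) * X ^ 2)) :=
        mul_le_mul_of_nonneg_left (by linarith) (sq_nonneg _)
      _ = 2 * C₁ * X ^ 2 *
          (Real.exp (-(μ a + g) * (s - a)) ^ 2 * Real.exp (2 * (w (a + H - 1) - w a))) := by ring
      _ ≤ 2 * C₁ * X ^ 2 * Real.exp (-(g / 2) * H) ^ 2 :=
        mul_le_mul_of_nonneg_left hexp (by positivity)
      _ = _ := by ring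
  · obtain ⟨r, hr, hren⟩ := ends_exists_en hS.cont hy b
    have h1 := ends_gam_static_top (hS.pos b) (ν := 0) le_rfl
      (fun u => by simpa using le_trans (by positivity) ((hS.pos b).pos u)) hr.1 hy
      (fun τ hτ => (hF.right τ hτ.1).1)
    have h2 := hren.trans (hL1 b hF.le)
    rw [ends_exp_two] at h2
    rw [mul_assoc]
    refine ends_le_of_sq (by positivity) (by positivity) ?_
    simp only [neg_zero, zero_mul, Real.exp_zero, one_pow, one_mul] at h1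
    calc _ ≤ _ := h1
      _ ≤ 2 * (C₁ * Real.exp (w b - w a) ^ 2 * X ^ 2) := by linarith
      _ = _ := by ring
  · refine (hL2 t ht.1).trans ?_
    rw [mul_assoc, mul_assoc]
    exact mul_le_mul_of_nonneg_right (by linarith) (by positivity)

theorem endD {κ₀ : ℝ} (hκ : 0 < κ₀) :
    ∃ δ₀ C : ℝ, 0 < δ₀ ∧ 0 < C ∧
    ∀ {W : Type} [NormedAddCommGroup W] [InnerProductSpace ℝ W] [FiniteDimensional ℝ W]
      (δ η H : ℝ) (K : ℝ → W →L[ℝ] W) (a b : ℝ) (y y' : ℝ → W),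
      0 ≤ δ → δ ≤ δ₀ → 0 ≤ η → η ≤ δ₀ → 2 ≤ H →
      SlowW κ₀ κ₀ 0 δ K (fun _ => 0) (fun _ => 0) → Frozen K (fun _ => 0) a b →
      Holds K a b H η → SolOn K univ y y' → Gam (K b) (y b) (y' b) = 0 →
      ‖Gam (K a) (y a) (y' a)‖ ≤ C * Real.exp (-(κ₀ / 2) * H) * ‖Del (K a) (y a) (y' a)‖ ∧
      ‖Del (K b) (y b) (y' b)‖ ≤ C * ‖Del (K a) (y a) (y' a)‖ ∧
      ∀ t ∈ Icc a b, ‖y t‖ ≤ C * ‖Del (K a) (y a) (y' a)‖ := by
  obtain ⟨δ₁, C₁, hδ₁, hC₁, hL⟩ := lemL hκ hκ (le_refl (0 : ℝ))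
  have hk2 : 0 < κ₀ ^ 2 := by positivity
  have hkC : 0 ≤ κ₀ ^ 2 * C₁ := by positivity
  refine ⟨min δ₁ (κ₀ ^ 2), 4 * C₁ + 1 + κ₀ ^ 2 * C₁, by positivity, by positivity, ?_⟩
  intro W _ _ _ δ η H K a b y y' hδ0 hδ hη0 hη hH hS hF hHo hy hG
  obtain ⟨hL1, hL2⟩ := hL δ K (fun _ => 0) (fun _ => 0) a b y y' hδ0
    (hδ.trans (min_le_left _ _)) hS hF hy (by rw [hG]; exact Submodule.zero_mem _)
  have hP : (Slw (K a) 0).starProjection (Gam (K a) (y a) (y' a)) = 0 := by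
    have h1 := slw_le' (hS.pos a) 0 _ ((Slw (K a) 0).starProjection_apply_mem (Gam (K a) (y a) (y' a)))
    have h2 := (hS.pos a).pos ((Slw (K a) 0).starProjection (Gam (K a) (y a) (y' a)))
    have h3 : ‖(Slw (K a) 0).starProjection (Gam (K a) (y a) (y' a))‖ ^ 2 ≤ 0 := by
      by_contra h4
      have := mul_pos hk2 (not_le.mp h4)
      linarith
    exact norm_eq_zero.mp (pow_eq_zero_iff (two_ne_zero) |>.mp (le_antisymm h3 (sq_nonneg _)))
  simp only [hP, norm_zero, add_zero, sub_self, mul_zero, Real.exp_zero, mul_one] at hL1 hL2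
  obtain ⟨D, hD⟩ : ∃ D : ℝ, D = ‖Del (K a) (y a) (y' a)‖ := ⟨_, rfl⟩
  rw [← hD] at hL1 hL2 ⊢
  have hD0 : 0 ≤ D := hD ▸ norm_nonneg _
  have hηκ : η ≤ κ₀ ^ 2 := hη.trans (min_le_right _ _)
  have hab := hHo.le
  refine ⟨?_, ?_, fun t ht => ?_⟩
  · obtain ⟨s, hs, hsen⟩ := ends_exists_en hS.cont hy (a + H - 1)
    have has : a ≤ s := by linarith [hs.1]
    have h1 := ends_gam_static_top (hS.pos a) hκ.le (hS.pos a).pos has hy
      (fun τ hτ => hHo.left τ ⟨hτ.1, by linarith [hτ.2, hs.2]⟩)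
    have h2 := hsen.trans (hL1 (a + H - 1) (by linarith))
    have hexp : Real.exp (-κ₀ * (s - a)) ^ 2 ≤ Real.exp (-(κ₀ / 2) * H) ^ 2 := by
      refine pow_le_pow_left₀ (Real.exp_pos _).le (Real.exp_le_exp.mpr ?_) 2
      have h3 : κ₀ * (H - 1) ≤ κ₀ * (s - a) :=
        mul_le_mul_of_nonneg_left (by linarith [hs.1]) hκ.le
      have h4 : 0 ≤ κ₀ * (H - 2) := mul_nonneg hκ.le (by linarith)
      linarith
    have h5 : ‖Gam (K a) (y a) (y' a)‖ ≤ (2 * C₁ + 1) * (Real.exp (-(κ₀ / 2) * H) * D) := by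
      refine ends_le_of_sq (by positivity) (by positivity) ?_
      calc _ ≤ _ := h1
        _ ≤ Real.exp (-κ₀ * (s - a)) ^ 2 * (2 * (C₁ * D ^ 2)) :=
          mul_le_mul_of_nonneg_left (by linarith) (sq_nonneg _)
        _ ≤ Real.exp (-(κ₀ / 2) * H) ^ 2 * (2 * (C₁ * D ^ 2)) :=
          mul_le_mul_of_nonneg_right hexp (by positivity)
        _ = _ := by ring
    rw [mul_assoc]
    exact h5.trans (mul_le_mul_of_nonneg_right (by linarith) (by positivity))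
  · obtain ⟨s, hs, hsen⟩ := ends_exists_en hS.cont hy (b - 1)
    have hsb : s ≤ b := by linarith [hs.2]
    have h2 := hsen.trans (hL1 (b - 1) (by linarith))
    have h1 := ends_del_hold hκ hS.pos hsb hηκ
      (fun τ hτ => hHo.right τ ⟨by linarith [hτ.1, hs.1], hτ.2⟩) hy hC₁.le hD0 h2
    have h3 : ∫ τ in s..b, ‖y τ‖ ≤ C₁ * D := by
      calc ∫ τ in s..b, ‖y τ‖ ≤ ∫ _ in s..b, C₁ * D :=
            intervalIntegral.integral_mono_on hsb ((ends_cont hy).1.norm.intervalIntegrable _ _)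
              intervalIntegrable_const fun τ hτ => hL2 τ (by linarith [hτ.1, hs.1])
        _ = (b - s) * (C₁ * D) := by rw [intervalIntegral.integral_const, smul_eq_mul]
        _ ≤ _ := mul_le_of_le_one_left (by positivity) (by linarith [hs.1])
    have h4 : η * ∫ τ in s..b, ‖y τ‖ ≤ κ₀ ^ 2 * (C₁ * D) :=
      (mul_le_mul_of_nonneg_left h3 hη0).trans (mul_le_mul_of_nonneg_right hηκ (by positivity))
    calc _ ≤ _ := h1
      _ ≤ (4 * C₁ + 1) * D + κ₀ ^ 2 * (C₁ * D) := by linarith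
      _ = _ := by ring
  · exact (hL2 t ht.1).trans (mul_le_mul_of_nonneg_right (by linarith) hD0)

end Crest.Agent.R202
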