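import Crest.Agent.R202.AEventAux

/-!
# Row 202, A8: the event estimate

Shift `b` to `0`.  Extend `ψ` to an eigenbasis of `K b` (or use `PosOp.exists_basis` on `Lo` and `Loᗮ`).
Let `y₀` be the free solution of `y'' = (K b) y` with the same `Δ(0)`, low part of `Γ(0)` and high
part of `Γ(1)`; its energy on `[0,1]` is `≤ C In²`.  `R = y - y₀` has `R'' = (K b) R + F`,
`F = (K t - K b) y`, `Σ F_i²/κ_i² ≤ ρ² ⟪K b y, y⟫` (`abs_form_le`), `F = 0` outside `(1/4, 3/4)`.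
Mode by mode `Δ_i' = -κ_i Δ_i + F_i`, `Γ_i' = κ_i Γ_i + F_i` with zero data at the good end, so
`∫ Δ_i² ≤ ∫ F_i²/κ_i²` etc. and `∫ en R ≤ C ρ² ∫ en y ≤ C ρ² In²` for small `ρ`; the values at the far
end gain the factor `e^{-κ_i/4}` (`κ e^{-κ/2} ≤ 1`).  For low `i`:
`e^{-κ_i} Γ_i(1) = Γ_i(0) + ∫₀¹ e^{-κ_i τ} ⟪(K τ - K b) y, ψ i⟫`, insert
`y = Γ_k(0) e^{κ_k τ} ψ k/(2κ_k) + (rest of y₀) + R`.
-/

set_option autoImplicit false
open scoped RealInnerProductSpace ContDiff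
open Module Set MeasureTheory

noncomputable section
namespace Crest.Agent.R202

namespace AEventAux

variable {W : Type} [NormedAddCommGroup W] [InnerProductSpace ℝ W]

theorem ops [FiniteDimensional ℝ W] {ι : Type} [Fintype ι] {κ₀ μ : ℝ} (hκ : 0 < κ₀) (hμ : 0 ≤ μ)
    {K : W →L[ℝ] W} (hK : PosOp κ₀ K) {ψ : ι → W} {κ : ι → ℝ} (hψ : Orthonormal ℝ ψ)
    (h0 : ∀ i, 0 ≤ κ i) (h1 : ∀ i, κ i ≤ μ) (hA : ∀ i, rt K (ψ i) = κ i • ψ i) :
    ∃ B : W →L[ℝ] W, Ops κ₀ μ (rt K) B (Submodule.span ℝ (range ψ)).starProjection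
      (Submodule.span ℝ (range ψ))ᗮ.starProjection := by
  have hpos : ∀ u, κ₀ * ‖u‖ ^ 2 ≤ ⟪rt K u, u⟫ := fun u =>
    le_rt hK (V := ⊤) (fun _ _ => trivial) hκ.le (fun u _ => hK.pos u) trivial
  have hinj : Function.Injective (rt K : W →ₗ[ℝ] W) := by
    refine (injective_iff_map_eq_zero _).2 fun u hu => ?_
    have := hpos u
    rw [show rt K u = 0 from hu, inner_zero_left] at this
    by_contra h
    have : 0 < κ₀ * ‖u‖ ^ 2 := by positivity
    linarith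
  set V := Submodule.span ℝ (range ψ) with hV
  have hrep : ∀ u ∈ V, rt K u ∈ V ∧ ‖rt K u‖ ≤ μ * ‖u‖ := fun u hu => by
    obtain ⟨c, rfl⟩ := (Submodule.mem_span_range_iff_exists_fun ℝ).1 hu
    have e : rt K (∑ i, c i • ψ i) = ∑ i, (κ i * c i) • ψ i := by
      rw [map_sum]
      exact Finset.sum_congr rfl fun i _ => by rw [map_smul, hA, smul_smul, mul_comm]
    rw [e]
    exact ⟨(Submodule.mem_span_range_iff_exists_fun ℝ).2 ⟨_, rfl⟩,
      norm_sum_le hψ κ c hμ fun i => by rw [abs_of_nonneg (h0 i)]; exact h1 i⟩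
  have hPA := starProjection_comm (rt_sym hK) fun u hu => (hrep u hu).1
  have hQA := starProjection_comm (V := Vᗮ) (rt_sym hK) fun u hu =>
    (V.mem_orthogonal _).2 fun w hw => by
      rw [← rt_sym hK]; exact (V.mem_orthogonal _).1 hu _ (hrep w hw).1
  exact ⟨LinearMap.toContinuousLinearMap
      ((LinearEquiv.ofInjectiveEndo _ hinj).symm : W →ₗ[ℝ] W), rt_sym hK, hpos,
    (LinearEquiv.ofInjectiveEndo _ hinj).apply_symm_apply,
    (LinearEquiv.ofInjectiveEndo _ hinj).symm_apply_apply,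
    V.inner_starProjection_left_eq_right, Vᗮ.inner_starProjection_left_eq_right,
    V.norm_starProjection_apply_le, Vᗮ.norm_starProjection_apply_le, hPA, hQA,
    V.starProjection_add_starProjection_orthogonal,
    fun u => (hrep _ (V.starProjection_apply_mem u)).2,
    fun u => Submodule.starProjection_eq_self_iff.2 (V.starProjection_apply_mem u)⟩

theorem core {κ₀ μ ρ M : ℝ} {A B P Q : W →L[ℝ] W} (h : Ops κ₀ μ A B P Q) (hκ : 0 < κ₀) (hμ : 0 ≤ μ)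
    (hM : M = 2 * ((Real.exp (2 * μ + μ ^ 2) + 2) * (1 + κ₀⁻¹) ^ 2)) (hρ : 0 ≤ ρ) (hρ' : ρ ≤ M⁻¹)
    (hsg : ∀ u : W, ∃ p : ℝ → W, p 0 = u ∧ (∀ s, HasDerivAt p (-A (p s)) s) ∧
      (∀ s, 0 ≤ s → ‖p s‖ ≤ ‖u‖) ∧ ∀ s, 1 / 4 ≤ s → ‖A (p s)‖ ≤ 4 * ‖u‖)
    {L : ℝ → W →L[ℝ] W} (hL : Continuous L)
    (hsm : ∀ τ ∈ Icc (0 : ℝ) 1, ∀ u w, |⟪L τ u, w⟫| ≤ ρ * ‖A u‖ * ‖A w‖)
    (hsu : ∀ τ ∈ Icc (0 : ℝ) 1, τ ∉ Ioo (1 / 4 : ℝ) (3 / 4) → L τ = 0) {y y' : ℝ → W}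
    (h1 : ∀ τ ∈ Icc (0 : ℝ) 1, HasDerivAt y (y' τ) τ)
    (h2 : ∀ τ ∈ Icc (0 : ℝ) 1, HasDerivAt y' (A (A (y τ)) + L τ (y τ)) τ)
    {e : W} {κ g : ℝ} (he : A e = κ • e) (he1 : ‖e‖ = 1) (hPe : P e = e) {In In' : ℝ}
    (hIn' : In' = ‖y' 0 - A (y 0)‖ + ‖P (y' 0 + A (y 0)) - g • e‖ + ‖Q (y' 1 + A (y 1))‖)
    (hIn : In = In' + |g|) :
    ‖y' 1 - A (y 1)‖ ≤ ‖y' 0 - A (y 0)‖ + 4 * M * ρ * In ∧
    ‖Q (y' 0 + A (y 0))‖ ≤ ‖Q (y' 1 + A (y 1))‖ + 4 * M * ρ * In ∧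
    (∀ (f : W) (ν : ℝ), A f = ν • f → ‖f‖ = 1 → 0 ≤ ν → ν ≤ μ →
      |Real.exp (-ν) * ⟪y' 1 + A (y 1), f⟫ - ⟪y' 0 + A (y 0), f⟫ -
        g * ((2 * κ)⁻¹ * ∫ τ in (0 : ℝ)..1, Real.exp ((κ - ν) * τ) * ⟪L τ e, f⟫)| ≤
        μ * M ^ 2 * (ρ * In' + ρ ^ 2 * In)) ∧
    ∀ t ∈ Icc (0 : ℝ) 1, ‖y t‖ ≤ M * In := by
  set C₁ := (Real.exp (2 * μ + μ ^ 2) + 2) * (1 + κ₀⁻¹) ^ 2 with hC₁
  have hC : 1 ≤ C₁ := by
    have a := Real.exp_pos (2 * μ + μ ^ 2)
    have b : 0 < κ₀⁻¹ := by positivity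
    exact one_le_mul_of_one_le_of_one_le (by linarith) (one_le_pow₀ (by linarith))
  have hM1 : 1 ≤ M := by linarith
  have hMρ : M * ρ ≤ 1 := by
    rwa [← one_div, le_div_iff₀' (by linarith)] at hρ'
  have n1 := norm_nonneg (y' 0 - A (y 0))
  have n2 := norm_nonneg (P (y' 0 + A (y 0)) - g • e)
  have n3 := norm_nonneg (Q (y' 1 + A (y 1)))
  have n4 := abs_nonneg g
  have hIn'0 : 0 ≤ In' := by linarith
  have hIn0 : 0 ≤ In := by linarith
  have cy : ContinuousOn (fun τ => ‖A (y τ)‖) (Icc 0 1) :=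
    (A.continuous.comp_continuousOn (contOn h1)).norm
  have hφ : ContinuousOn (fun τ => ρ * ‖A (y τ)‖) (Icc 0 1) := continuousOn_const.mul cy
  have hφ0 : ∀ τ, 0 ≤ ρ * ‖A (y τ)‖ := fun τ => by positivity
  have hF : ∀ τ ∈ Icc (0 : ℝ) 1, ∀ u, |⟪L τ (y τ), u⟫| ≤ ρ * ‖A (y τ)‖ * ‖A u‖ :=
    fun τ hτ u => hsm τ hτ _ u
  set E := ∫ τ in (0 : ℝ)..1, ‖A (y τ)‖ ^ 2 with hE
  have hE0 : 0 ≤ E := intervalIntegral.integral_nonneg zero_le_one fun _ _ => sq_nonneg _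
  have hΦ : ∫ τ in (0 : ℝ)..1, (ρ * ‖A (y τ)‖) ^ 2 = ρ ^ 2 * E := by
    simp only [mul_pow]; rw [intervalIntegral.integral_const_mul]
  obtain ⟨e1, e2⟩ := energy h hκ hμ (F := fun τ => L τ (y τ)) h1 h2 hF hφ hφ0 (D := In)
    (by linarith) (by
      have := norm_add_le (P (y' 0 + A (y 0)) - g • e) (g • e)
      rw [sub_add_cancel, norm_smul, he1, mul_one, Real.norm_eq_abs] at this
      linarith) (by linarith)
  rw [hΦ, ← hC₁] at e1 e2
  have r1 : C₁ * ρ ^ 2 ≤ 1 / 2 := by nlinarith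
  have r2 : C₁ * ρ ^ 2 * E ≤ 1 / 2 * E := by gcongr
  have hIn2 := sq_nonneg In
  have e3 : E ≤ M * In ^ 2 := by rw [hM]; linarith
  have hMM : M * In ^ 2 ≤ (M * In) ^ 2 := by rw [mul_pow]; gcongr; nlinarith
  have e4 : ∫ τ in (0 : ℝ)..1, ‖A (y τ)‖ ≤ M * In := int_le_of_sq cy (by positivity) (e3.trans hMM)
  have g1 := fun τ hτ => hasDeriv_gam (F := fun τ => L τ (y τ)) (h1 τ hτ) (h2 τ hτ)
  have g2 := fun τ hτ => hasDeriv_del (F := fun τ => L τ (y τ)) (h1 τ hτ) (h2 τ hτ)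
  have far : ∀ (N : ℝ) (p : ℝ → W), 0 ≤ N → (∀ τ ∈ Ioo (1 / 4 : ℝ) (3 / 4), ‖A (p τ)‖ ≤ 4 * N) →
      (∀ τ ∈ Icc (0 : ℝ) 1, |⟪L τ (y τ), p τ⟫| ≤ 4 * N * ρ * ‖A (y τ)‖) ∧
      ∫ τ in (0 : ℝ)..1, 4 * N * ρ * ‖A (y τ)‖ ≤ 4 * M * ρ * In * N := fun N p hN hp => by
    refine ⟨fun τ hτ => ?_, ?_⟩
    · by_cases hτ' : τ ∈ Ioo (1 / 4 : ℝ) (3 / 4)
      · exact (hF τ hτ _).trans ((mul_le_mul_of_nonneg_left (hp τ hτ') (hφ0 τ)).trans_eq (by ring))
      · rw [hsu τ hτ hτ', zero_apply, inner_zero_left, abs_zero]; positivity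
    · rw [intervalIntegral.integral_const_mul]
      exact (mul_le_mul_of_nonneg_left e4 (by positivity)).trans_eq (by ring)
  refine ⟨?_, ?_, fun f ν hf hf1 hν hν' => ?_, fun t ht => ?_⟩
  · obtain ⟨p, p0, p1, p2, p3⟩ := hsg (y' 1 - A (y 1))
    obtain ⟨f1, f2⟩ := far _ (fun τ => p (1 - τ)) (norm_nonneg (y' 1 - A (y 1)))
      fun τ hτ => p3 _ (by linarith [hτ.2])
    have d := dual h 1 g2 (p := fun τ => p (1 - τ)) (fun τ => by
      refine (HasDerivAt.scomp τ (p1 (1 - τ)) ((hasDerivAt_id τ).const_sub 1)).congr_deriv ?_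
      simp) (continuousOn_const.mul cy) f1
    simp only [sub_self, sub_zero, p0] at d
    refine norm_le_of_inner (by positivity) ?_
    have a1 := real_inner_le_norm (y' 0 - A (y 0)) (p 1)
    have a2 := mul_le_mul_of_nonneg_left (p2 1 zero_le_one) n1
    linarith [(abs_le.1 (d.trans f2)).2]
  · obtain ⟨p, p0, p1, p2, p3⟩ := hsg (Q (y' 0 + A (y 0)))
    obtain ⟨f1, f2⟩ := far _ (fun τ => Q (p τ)) (norm_nonneg (Q (y' 0 + A (y 0))))
      fun τ hτ => by rw [← h.QA]; exact (h.Qle _).trans (p3 _ hτ.1.le)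
    have d := dual h (-1) (G := fun t => y' t + A (y t)) (fun τ hτ => by simpa using g1 τ hτ)
      (p := fun τ => Q (p τ)) (fun τ => by
        refine (Q.hasFDerivAt.comp_hasDerivAt τ (p1 τ)).congr_deriv ?_
        rw [map_neg, h.QA, neg_one_smul]) (continuousOn_const.mul cy) f1
    simp only [p0] at d
    rw [← h.Qsym, ← h.Qsym] at d
    refine norm_le_of_inner (by positivity) ?_
    have a1 := real_inner_le_norm (Q (y' 1 + A (y 1))) (p 1)
    have a2 := mul_le_mul_of_nonneg_left (p2 1 zero_le_one) n3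
    linarith [(abs_le.1 (d.trans f2)).1]
  · have hκ1 : κ₀ ≤ κ := by
      have := h.pos e
      rwa [he, inner_smul_left, real_inner_self_eq_norm_sq, he1, one_pow, mul_one, mul_one] at this
    have hκ2 : 0 < κ := by linarith
    have hQe : Q e = 0 := by
      have := h.add e
      rwa [hPe, add_eq_left] at this
    have x1 : ∀ τ : ℝ, HasDerivAt (fun τ => Real.exp (κ * τ)) (Real.exp (κ * τ) * κ) τ :=
      fun τ => by simpa using ((hasDerivAt_id τ).const_mul κ).exp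
    have z1 : ∀ τ ∈ Icc (0 : ℝ) 1, HasDerivAt
        (fun τ => y τ - (g * (2 * κ)⁻¹ * Real.exp (κ * τ)) • e)
        (y' τ - (g / 2 * Real.exp (κ * τ)) • e) τ := fun τ hτ => by
      refine ((h1 τ hτ).sub (((x1 τ).const_mul _).smul_const e)).congr_deriv ?_
      congr 2; field_simp
    have zA : ∀ τ : ℝ, A (y τ - (g * (2 * κ)⁻¹ * Real.exp (κ * τ)) • e) =
        A (y τ) - (g / 2 * Real.exp (κ * τ)) • e := fun τ => by
      rw [map_sub, map_smul, he, smul_smul]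
      congr 2; field_simp
    have z2 : ∀ τ ∈ Icc (0 : ℝ) 1, HasDerivAt (fun τ => y' τ - (g / 2 * Real.exp (κ * τ)) • e)
        (A (A (y τ - (g * (2 * κ)⁻¹ * Real.exp (κ * τ)) • e)) + L τ (y τ)) τ := fun τ hτ => by
      refine ((h2 τ hτ).sub (((x1 τ).const_mul _).smul_const e)).congr_deriv ?_
      rw [zA, map_sub, map_smul, he, smul_smul, mul_assoc]; abel
    obtain ⟨w1, -⟩ := energy h hκ hμ (F := fun τ => L τ (y τ)) z1 z2 hF hφ hφ0 (D := In')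
      (by rw [zA, sub_sub_sub_cancel_right]; linarith)
      (by
        rw [zA, show y' 0 - (g / 2 * Real.exp (κ * 0)) • e +
          (A (y 0) - (g / 2 * Real.exp (κ * 0)) • e) = y' 0 + A (y 0) - g • e by
            rw [mul_zero, Real.exp_zero]; module, map_sub, map_smul, hPe]
        linarith)
      (by
        rw [zA, show y' 1 - (g / 2 * Real.exp (κ * 1)) • e +
          (A (y 1) - (g / 2 * Real.exp (κ * 1)) • e) =
            y' 1 + A (y 1) - (g * Real.exp (κ * 1)) • e by module, map_sub, map_smul, hQe,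
          smul_zero, sub_zero]
        linarith)
    rw [hΦ, ← hC₁] at w1
    have cz : ContinuousOn (fun τ => ‖A (y τ - (g * (2 * κ)⁻¹ * Real.exp (κ * τ)) • e)‖)
        (Icc 0 1) := (A.continuous.comp_continuousOn (contOn z1)).norm
    have w2 := int_le_of_sq cz (M := M * (In' + ρ * (M * In))) (by positivity) (w1.trans (by
      have a1 : ρ ^ 2 * E ≤ (ρ * (M * In)) ^ 2 := by
        rw [mul_pow]; exact mul_le_mul_of_nonneg_left (e3.trans hMM) (by positivity)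
      have a2 : 0 ≤ In' * (ρ * (M * In)) := by positivity
      rw [mul_pow]
      exact mul_le_mul (by nlinarith) (by nlinarith) (by positivity) (by positivity)))
    have d := ftc_abs (f := fun τ => Real.exp (-ν * τ) * ⟪y' τ + A (y τ), f⟫)
      (m := fun τ => g * ((2 * κ)⁻¹ * (Real.exp ((κ - ν) * τ) * ⟪L τ e, f⟫)))
      (g := fun τ => ρ * μ * ‖A (y τ - (g * (2 * κ)⁻¹ * Real.exp (κ * τ)) • e)‖)
      (fun τ hτ => (((hasDerivAt_id τ).const_mul (-ν)).exp).mul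
        ((g1 τ hτ).inner ℝ (hasDerivAt_const τ f))) (by fun_prop) (continuousOn_const.mul cz)
      fun τ hτ => by
        have a1 := hsm τ hτ (y τ - (g * (2 * κ)⁻¹ * Real.exp (κ * τ)) • e) f
        rw [hf, norm_smul, hf1, mul_one, Real.norm_of_nonneg hν] at a1
        have a2 : Real.exp (-ν * τ) ≤ 1 := Real.exp_le_one_iff.2 (by nlinarith [hτ.1])
        have a3 : Real.exp ((κ - ν) * τ) = Real.exp (-ν * τ) * Real.exp (κ * τ) := by
          rw [← Real.exp_add]; congr 1; ring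
        calc _ = |Real.exp (-ν * τ) *
              ⟪L τ (y τ - (g * (2 * κ)⁻¹ * Real.exp (κ * τ)) • e), f⟫| := by
              congr 1
              rw [inner_zero_right, inner_add_left (A _), h.sym, hf, a3, map_sub, map_smul,
                inner_sub_left, real_inner_smul_left, real_inner_smul_right]
              simp only [id]
              ring
          _ ≤ 1 * (ρ * ‖A (y τ - (g * (2 * κ)⁻¹ * Real.exp (κ * τ)) • e)‖ * μ) := by
              rw [abs_mul, abs_of_pos (Real.exp_pos _)]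
              exact mul_le_mul a2 (a1.trans (by gcongr)) (abs_nonneg _) zero_le_one
          _ = _ := by ring
    simp only [intervalIntegral.integral_const_mul, mul_one, mul_zero, Real.exp_zero,
      one_mul] at d
    refine d.trans ((mul_le_mul_of_nonneg_left w2 (by positivity)).trans ?_)
    calc ρ * μ * (M * (In' + ρ * (M * In))) ≤ ρ * μ * (M * (M * In' + ρ * (M * In))) := by
          gcongr; exact le_mul_of_one_le_left hIn'0 hM1
      _ = _ := by ring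
  · refine (abs_le_of_sq_le_sq' ((e2 t ht).trans (le_trans ?_ hMM)) (by positivity)).2
    rw [hM] at e3 ⊢
    linarith

end AEventAux

open AEventAux in
theorem event_est {κ₀ μm : ℝ} (hκ : 0 < κ₀) (hμm : 0 ≤ μm) : ∃ ρ₀ C : ℝ, 0 < ρ₀ ∧ 0 < C ∧
    ∀ {W : Type} [NormedAddCommGroup W] [InnerProductSpace ℝ W] [FiniteDimensional ℝ W]
      {ι : Type} [Fintype ι] (ρ : ℝ) (K : ℝ → W →L[ℝ] W) (b : ℝ) (ψ : ι → W) (κ : ι → ℝ) (k : ι)
      (y y' : ℝ → W) (Γ₀ Γ₁ Δ₀ Δ₁ : W) (In In' : ℝ),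
      0 ≤ ρ → ρ ≤ ρ₀ → EventOK κ₀ μm ρ K b ψ κ → SolOn K (Icc b (b + 1)) y y' →
      Γ₀ = Gam (K b) (y b) (y' b) → Δ₀ = Del (K b) (y b) (y' b) →
      Γ₁ = Gam (K b) (y (b + 1)) (y' (b + 1)) → Δ₁ = Del (K b) (y (b + 1)) (y' (b + 1)) →
      In' = ‖Δ₀‖ + ‖(Submodule.span ℝ (range ψ)).starProjection Γ₀ - ⟪Γ₀, ψ k⟫ • ψ k‖ +
        ‖(Submodule.span ℝ (range ψ))ᗮ.starProjection Γ₁‖ →
      In = In' + |⟪Γ₀, ψ k⟫| →
      ‖Δ₁‖ ≤ ‖Δ₀‖ + C * ρ * In ∧
      ‖(Submodule.span ℝ (range ψ))ᗮ.starProjection Γ₀‖ ≤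
        ‖(Submodule.span ℝ (range ψ))ᗮ.starProjection Γ₁‖ + C * ρ * In ∧
      (∀ i, |Real.exp (-κ i) * ⟪Γ₁, ψ i⟫ - ⟪Γ₀, ψ i⟫ - ⟪Γ₀, ψ k⟫ * mm K b (ψ k) (ψ i) (κ k) (κ i)| ≤
        C * (ρ * In' + ρ ^ 2 * In)) ∧
      (∀ i, |mm K b (ψ k) (ψ i) (κ k) (κ i)| ≤ C * ρ) ∧
      ∀ t ∈ Icc b (b + 1), ‖y t‖ ≤ C * In := by
  obtain ⟨M, hM⟩ : ∃ M, M = 2 * ((Real.exp (2 * μm + μm ^ 2) + 2) * (1 + κ₀⁻¹) ^ 2) := ⟨_, rfl⟩
  have hM1 : 1 ≤ M := by
    have a := Real.exp_pos (2 * μm + μm ^ 2)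
    have b : 0 < κ₀⁻¹ := by positivity
    have : 1 ≤ (Real.exp (2 * μm + μm ^ 2) + 2) * (1 + κ₀⁻¹) ^ 2 :=
      one_le_mul_of_one_le_of_one_le (by linarith) (one_le_pow₀ (by linarith))
    linarith
  have hM2 : M ≤ M ^ 2 := by nlinarith
  have q1 : 0 ≤ μm * M ^ 2 := by positivity
  have q2 : 0 ≤ μm * Real.exp μm := by positivity
  refine ⟨M⁻¹, 4 * M + μm * M ^ 2 + μm * Real.exp μm, by positivity, by positivity, ?_⟩
  intro W _ _ _ ι _ ρ K b ψ κ k y y' Γ₀ Γ₁ Δ₀ Δ₁ In In' hρ hρ' hE hy e1 e2 e3 e4 e5 e6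
  have hA : ∀ i, rt (K b) (ψ i) = κ i • ψ i := fun i => rt_eig hE.pos (hE.nn i) (hE.eig i)
  obtain ⟨B, hO⟩ := ops hκ hμm hE.pos hE.on hE.nn hE.le hA
  obtain ⟨e, ν, he⟩ := hE.pos.exists_basis hκ.le
  have hm : ∀ τ ∈ Icc (0 : ℝ) 1, b + τ ∈ Icc b (b + 1) := fun τ hτ =>
    ⟨by linarith [hτ.1], by linarith [hτ.2]⟩
  have hsm : ∀ τ ∈ Icc (0 : ℝ) 1, ∀ u w, |⟪(K (b + τ) - K b) u, w⟫| ≤
      ρ * ‖rt (K b) u‖ * ‖rt (K b) w‖ := fun τ hτ u w => by
    have := abs_form_le (S := ⊤) (Q := fK (K (b + τ) - K b)) (Q₀ := fK (K b)) (C := ρ)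
      (fun u w => by
        simp only [fK_apply, sub_apply, inner_sub_left]
        rw [hE.sym, hE.sym b, real_inner_comm, real_inner_comm (K b w)])
      (fun u w => by rw [fK_apply, fK_apply, hE.sym, real_inner_comm]) hρ
      (fun u _ => by rw [fK_apply, ← norm_rt_sq hE.pos]; positivity)
      (fun u _ => by
        simp only [fK_apply, sub_apply, inner_sub_left]
        exact hE.small _ (hm τ hτ) u) (u := u) (w := w) trivial trivial
    simpa only [fK_apply, ← norm_rt_sq hE.pos, Real.sqrt_sq (norm_nonneg _)] using this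
  obtain ⟨c1, c2, c3, c4⟩ := core hO hκ hμm hM hρ hρ'
    (semigroup e ν (fun i => hκ.le.trans (he i).1) fun i => (he i).2.2)
    (L := fun τ => K (b + τ) - K b) (by have := hE.cont; fun_prop) hsm
    (fun τ hτ hτ' => sub_eq_zero.2 (hE.supp _ (hm τ hτ) fun h =>
      hτ' ⟨by linarith [h.1], by linarith [h.2]⟩))
    (y := fun τ => y (b + τ)) (y' := fun τ => y' (b + τ))
    (fun τ hτ => (hy _ (hm τ hτ)).1.comp_const_add b τ)
    (fun τ hτ => ((hy _ (hm τ hτ)).2.comp_const_add b τ).congr_deriv (by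
      rw [rt_rt hE.pos, sub_apply]; abel))
    (hA k) (hE.on.1 k) (g := ⟪Γ₀, ψ k⟫)
    (Submodule.starProjection_eq_self_iff.2 (Submodule.subset_span (mem_range_self k)))
    (In := In) (In' := In') (by rw [e5, e1, e2, e3, add_zero]; rfl) e6
  have hIn' : 0 ≤ In' := by rw [e5]; positivity
  have hIn : 0 ≤ In := by rw [e6]; positivity
  simp only [add_zero] at c1 c2 c3
  refine ⟨?_, ?_, fun i => ?_, fun i => ?_, fun t ht => ?_⟩
  · rw [e2, e4]
    exact c1.trans (by unfold Del; gcongr; linarith)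
  · rw [e1, e3]
    exact c2.trans (by unfold Gam; gcongr; linarith)
  · have := c3 (ψ i) (κ i) (hA i) (hE.on.1 i) (hE.nn i) (hE.le i)
    rw [show y' (b + 1) + rt (K b) (y (b + 1)) = Γ₁ from e3.symm,
      show y' b + rt (K b) (y b) = Γ₀ from e1.symm] at this
    exact this.trans (by gcongr; linarith)
  · have hk : 0 < κ k := by
      have := hO.pos (ψ k)
      rw [hA, real_inner_smul_left, real_inner_self_eq_norm_sq, hE.on.1 k] at this
      linarith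
    have a1 := intervalIntegral.norm_integral_le_of_norm_le_const (a := 0) (b := 1)
      (f := fun τ => Real.exp ((κ k - κ i) * τ) * ⟪(K (b + τ) - K b) (ψ k), ψ i⟫)
      (C := Real.exp μm * (ρ * κ k * μm)) fun τ hτ => by
        rw [uIoc_of_le zero_le_one] at hτ
        have b1 := hsm τ (Ioc_subset_Icc_self hτ) (ψ k) (ψ i)
        rw [hA, hA, norm_smul, norm_smul, hE.on.1 k, hE.on.1 i, mul_one, mul_one,
          Real.norm_of_nonneg hk.le, Real.norm_of_nonneg (hE.nn i)] at b1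
        rw [norm_mul, Real.norm_of_nonneg (Real.exp_pos _).le, Real.norm_eq_abs]
        refine mul_le_mul (Real.exp_le_exp.2 ?_) (b1.trans ?_) (abs_nonneg _) (by positivity)
        · nlinarith [hτ.1, hτ.2, hE.nn i, hE.le k]
        · have := hE.le i
          gcongr
    rw [Real.norm_eq_abs, sub_zero, abs_one, mul_one] at a1
    rw [mm, abs_mul, abs_of_pos (by positivity)]
    calc _ ≤ (2 * κ k)⁻¹ * (Real.exp μm * (ρ * κ k * μm)) := by gcongr
      _ = μm * Real.exp μm / 2 * ρ := by field_simp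
      _ ≤ _ := by gcongr; linarith
  · have := c4 (t - b) ⟨by linarith [ht.1], by linarith [ht.2]⟩
    rw [add_sub_cancel] at this
    exact this.trans (by gcongr; linarith)

end Crest.Agent.R202
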