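import Crest.Agent.R202.ARt

/-!
# Row 202, A8: energy estimates on the unit window (auxiliary file of `AEvent`)
-/

set_option autoImplicit false
open scoped RealInnerProductSpace ContDiff
open Module Set MeasureTheory

noncomputable section
namespace Crest.Agent.R202.AEventAux

theorem ii {g : ℝ → ℝ} (hg : ContinuousOn g (Icc 0 1)) {s t : ℝ} (hs : s ∈ Icc (0 : ℝ) 1)
    (ht : t ∈ Icc (0 : ℝ) 1) : IntervalIntegrable g volume s t :=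
  (hg.mono (uIcc_subset_Icc hs ht)).intervalIntegrable

theorem z01 : (0 : ℝ) ∈ Icc (0 : ℝ) 1 := ⟨le_rfl, zero_le_one⟩
theorem o01 : (1 : ℝ) ∈ Icc (0 : ℝ) 1 := ⟨zero_le_one, le_rfl⟩

theorem mono_int {f f' g : ℝ → ℝ} (hf : ∀ τ ∈ Icc (0 : ℝ) 1, HasDerivAt f (f' τ) τ)
    (hg : ContinuousOn g (Icc 0 1)) (h : ∀ τ ∈ Icc (0 : ℝ) 1, f' τ ≤ g τ) {s t : ℝ} (hs : 0 ≤ s)
    (hst : s ≤ t) (ht : t ≤ 1) : f t - f s ≤ ∫ τ in s..t, g τ := by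
  have a : Icc s t ⊆ Icc 0 1 := Icc_subset_Icc hs ht
  exact intervalIntegral.sub_le_integral_of_hasDeriv_right_of_le hst
    (fun x hx => (hf x (a hx)).continuousAt.continuousWithinAt)
    (fun x hx => (hf x (a (Ioo_subset_Icc_self hx))).hasDerivWithinAt)
    ((hg.mono a).integrableOn_compact isCompact_Icc) fun x hx => h x (a (Ioo_subset_Icc_self hx))

theorem ftc_abs {f f' m g : ℝ → ℝ} (hf : ∀ τ ∈ Icc (0 : ℝ) 1, HasDerivAt f (f' τ) τ)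
    (hm : ContinuousOn m (Icc 0 1)) (hg : ContinuousOn g (Icc 0 1))
    (h : ∀ τ ∈ Icc (0 : ℝ) 1, |f' τ - m τ| ≤ g τ) :
    |f 1 - f 0 - ∫ τ in (0 : ℝ)..1, m τ| ≤ ∫ τ in (0 : ℝ)..1, g τ := by
  have a1 := mono_int hf (g := fun τ => g τ + m τ) (hg.add hm)
    (fun τ hτ => by linarith [(abs_le.1 (h τ hτ)).2]) le_rfl zero_le_one le_rfl
  have a2 := mono_int (f := fun τ => -f τ) (fun τ hτ => (hf τ hτ).neg) (g := fun τ => g τ - m τ)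
    (hg.sub hm) (fun τ hτ => by linarith [(abs_le.1 (h τ hτ)).1]) le_rfl zero_le_one le_rfl
  rw [intervalIntegral.integral_add (ii hg z01 o01) (ii hm z01 o01)] at a1
  rw [intervalIntegral.integral_sub (ii hg z01 o01) (ii hm z01 o01)] at a2
  rw [abs_le]; constructor <;> linarith

theorem int_le_whole {g : ℝ → ℝ} (hg : ContinuousOn g (Icc 0 1)) (h0 : ∀ τ, 0 ≤ g τ) {s t : ℝ}
    (hs : 0 ≤ s) (hst : s ≤ t) (ht : t ≤ 1) : ∫ τ in s..t, g τ ≤ ∫ τ in (0 : ℝ)..1, g τ :=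
  intervalIntegral.integral_mono_interval hs hst ht (Filter.Eventually.of_forall h0)
    (ii hg z01 o01)

theorem int_le_of_sq {g : ℝ → ℝ} (hg : ContinuousOn g (Icc 0 1)) {M : ℝ} (hM : 0 ≤ M)
    (h : ∫ τ in (0 : ℝ)..1, g τ ^ 2 ≤ M ^ 2) : ∫ τ in (0 : ℝ)..1, g τ ≤ M := by
  set m := ∫ τ in (0 : ℝ)..1, g τ with hm
  have a1 : ∫ τ in (0 : ℝ)..1, (2 * m * g τ - m ^ 2) ≤ ∫ τ in (0 : ℝ)..1, g τ ^ 2 :=
    intervalIntegral.integral_mono_on zero_le_one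
      (ii ((continuousOn_const.mul hg).sub continuousOn_const) z01 o01) (ii (hg.pow 2) z01 o01)
      fun x _ => by nlinarith [sq_nonneg (g x - m)]
  rw [intervalIntegral.integral_sub ((ii hg z01 o01).const_mul _) (by simp),
    intervalIntegral.integral_const_mul, ← hm] at a1
  simp only [intervalIntegral.integral_const, sub_zero, smul_eq_mul, one_mul] at a1
  exact (abs_le_of_sq_le_sq' (by nlinarith) hM).2

variable {W : Type} [NormedAddCommGroup W] [InnerProductSpace ℝ W]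

theorem norm_sum_le {ι : Type} [Fintype ι] {v : ι → W} (hv : Orthonormal ℝ v) (a c : ι → ℝ) {M : ℝ}
    (hM : 0 ≤ M) (h : ∀ i, |a i| ≤ M) : ‖∑ i, (a i * c i) • v i‖ ≤ M * ‖∑ i, c i • v i‖ := by
  refine (abs_le_of_sq_le_sq' ?_ (by positivity)).2
  rw [mul_pow, ← real_inner_self_eq_norm_sq, ← real_inner_self_eq_norm_sq, hv.inner_sum,
    hv.inner_sum, Finset.mul_sum]
  refine Finset.sum_le_sum fun i _ => ?_
  have := sq_le_sq' (abs_le.1 (h i)).1 (abs_le.1 (h i)).2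
  simp only [conj_trivial]
  nlinarith [sq_nonneg (c i)]

theorem norm_three (a b c : W) :
    ‖(1 / 2 : ℝ) • (a + b - c)‖ ^ 2 ≤ ‖a‖ ^ 2 + ‖b‖ ^ 2 + ‖c‖ ^ 2 := by
  have h1 : ‖a + b - c‖ ≤ ‖a‖ + ‖b‖ + ‖c‖ :=
    (norm_sub_le _ _).trans (by linarith [norm_add_le a b])
  have h2 := pow_le_pow_left₀ (norm_nonneg _) h1 2
  rw [norm_smul, mul_pow, Real.norm_of_nonneg (by norm_num)]
  nlinarith [sq_nonneg (‖a‖ - ‖b‖), sq_nonneg (‖a‖ - ‖c‖), sq_nonneg (‖b‖ - ‖c‖),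
    sq_nonneg ‖a‖, sq_nonneg ‖b‖, sq_nonneg ‖c‖]

theorem norm_le_of_inner {v : W} {M : ℝ} (hM : 0 ≤ M) (h : ⟪v, v⟫ ≤ M * ‖v‖) : ‖v‖ ≤ M := by
  rw [real_inner_self_eq_norm_sq] at h
  by_contra hc
  nlinarith [norm_nonneg v]

/-- the algebraic data -/
structure Ops (κ₀ μ : ℝ) (A B P Q : W →L[ℝ] W) : Prop where
  sym : ∀ u w, ⟪A u, w⟫ = ⟪u, A w⟫
  pos : ∀ u, κ₀ * ‖u‖ ^ 2 ≤ ⟪A u, u⟫
  AB : ∀ u, A (B u) = u
  BA : ∀ u, B (A u) = u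
  Psym : ∀ u w, ⟪P u, w⟫ = ⟪u, P w⟫
  Qsym : ∀ u w, ⟪Q u, w⟫ = ⟪u, Q w⟫
  Ple : ∀ u, ‖P u‖ ≤ ‖u‖
  Qle : ∀ u, ‖Q u‖ ≤ ‖u‖
  PA : ∀ u, P (A u) = A (P u)
  QA : ∀ u, Q (A u) = A (Q u)
  add : ∀ u, P u + Q u = u
  low : ∀ u, ‖A (P u)‖ ≤ μ * ‖P u‖
  PP : ∀ u, P (P u) = P u

variable {κ₀ μ : ℝ} {A B P Q : W →L[ℝ] W}

theorem Ops.Bsym (h : Ops κ₀ μ A B P Q) (u w : W) : ⟪B u, w⟫ = ⟪u, B w⟫ := by
  conv_lhs => rw [← h.AB w, ← h.sym, h.AB]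

theorem Ops.B1 (h : Ops κ₀ μ A B P Q) (u : W) : κ₀ * ‖B u‖ ^ 2 ≤ ⟪B u, u⟫ := by
  have := h.pos (B u)
  rwa [h.AB, real_inner_comm] at this

theorem Ops.B2 (h : Ops κ₀ μ A B P Q) (hκ : 0 < κ₀) (u : W) : ‖B u‖ ≤ κ₀⁻¹ * ‖u‖ := by
  have a1 := (h.B1 u).trans (real_inner_le_norm _ _)
  rw [← div_eq_inv_mul, le_div_iff₀ hκ]
  by_contra hc
  nlinarith [norm_nonneg u, norm_nonneg (B u)]

theorem Ops.B3 (h : Ops κ₀ μ A B P Q) (hκ : 0 < κ₀) (u : W) : ⟪B u, u⟫ ≤ κ₀⁻¹ * ‖u‖ ^ 2 := by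
  have a1 := real_inner_le_norm (B u) u
  have a2 := mul_le_mul_of_nonneg_right (h.B2 hκ u) (norm_nonneg u)
  nlinarith

theorem Ops.B0 (h : Ops κ₀ μ A B P Q) (hκ : 0 < κ₀) (u : W) : 0 ≤ ⟪B u, u⟫ :=
  le_trans (by positivity) (h.B1 u)

theorem contOn {G G' : ℝ → W} (hG : ∀ τ ∈ Icc (0 : ℝ) 1, HasDerivAt G (G' τ) τ) :
    ContinuousOn G (Icc 0 1) := fun x hx => (hG x hx).continuousAt.continuousWithinAt

theorem quad (h : Ops κ₀ μ A B P Q) {ε : ℝ} (hε : ε = 1 ∨ ε = -1) {G F : ℝ → W} {φ : ℝ → ℝ}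
    (hG : ∀ τ ∈ Icc (0 : ℝ) 1, HasDerivAt G ((-ε) • A (G τ) + F τ) τ)
    (hF : ∀ τ ∈ Icc (0 : ℝ) 1, ∀ u, |⟪F τ, u⟫| ≤ φ τ * ‖A u‖) (hφ : ContinuousOn φ (Icc 0 1))
    {s t : ℝ} (hs : 0 ≤ s) (hst : s ≤ t) (ht : t ≤ 1) :
    ε * ⟪B (G t), G t⟫ - ε * ⟪B (G s), G s⟫ + ∫ τ in s..t, ‖G τ‖ ^ 2 ≤
      ∫ τ in (0 : ℝ)..1, φ τ ^ 2 := by
  have hc : ContinuousOn (fun τ => ‖G τ‖ ^ 2) (Icc 0 1) := (contOn hG).norm.pow 2
  have a1 := mono_int (f := fun τ => ε * ⟪B (G τ), G τ⟫)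
    (fun τ hτ => ((B.hasFDerivAt.comp_hasDerivAt τ (hG τ hτ)).inner ℝ (hG τ hτ)).const_mul ε)
    (g := fun τ => φ τ ^ 2 - ‖G τ‖ ^ 2) ((hφ.pow 2).sub hc) (fun τ hτ => ?_) hs hst ht
  · have m1 : s ∈ Icc (0 : ℝ) 1 := ⟨hs, hst.trans ht⟩
    have m2 : t ∈ Icc (0 : ℝ) 1 := ⟨hs.trans hst, ht⟩
    rw [intervalIntegral.integral_sub (ii (g := fun τ => φ τ ^ 2) (hφ.pow 2) m1 m2)
      (ii hc m1 m2)] at a1
    have a2 := int_le_whole (hφ.pow 2) (fun τ => sq_nonneg _) hs hst ht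
    simp only [Pi.pow_apply] at a2
    linarith
  · have b1 := hF τ hτ (B (G τ))
    rw [h.AB, abs_le] at b1
    have b2 : ⟪B (G τ), A (G τ)⟫ = ‖G τ‖ ^ 2 := by
      rw [← h.sym, h.AB, real_inner_self_eq_norm_sq]
    simp only [Function.comp]
    rw [h.Bsym (_ + _), real_inner_comm (B (G τ)) (_ + _), inner_add_right, inner_smul_right, b2,
      real_inner_comm (F τ)]
    rcases hε with rfl | rfl <;> nlinarith [sq_nonneg (φ τ - ‖G τ‖)]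

theorem decay (h : Ops κ₀ μ A B P Q) (hκ : 0 < κ₀) {G F : ℝ → W} {φ : ℝ → ℝ}
    (hG : ∀ τ ∈ Icc (0 : ℝ) 1, HasDerivAt G ((-1 : ℝ) • A (G τ) + F τ) τ)
    (hF : ∀ τ ∈ Icc (0 : ℝ) 1, ∀ u, |⟪F τ, u⟫| ≤ φ τ * ‖A u‖) (hφ : ContinuousOn φ (Icc 0 1)) :
    ∫ τ in (0 : ℝ)..1, ‖G τ‖ ^ 2 ≤ κ₀⁻¹ * ‖G 0‖ ^ 2 + ∫ τ in (0 : ℝ)..1, φ τ ^ 2 ∧
    ∀ t ∈ Icc (0 : ℝ) 1, κ₀ * ‖B (G t)‖ ^ 2 ≤ κ₀⁻¹ * ‖G 0‖ ^ 2 + ∫ τ in (0 : ℝ)..1, φ τ ^ 2 := by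
  have a0 := h.B3 hκ (G 0)
  refine ⟨?_, fun t ht => ?_⟩
  · have a1 := quad h (Or.inl rfl) hG hF hφ le_rfl zero_le_one le_rfl
    have a2 := h.B0 hκ (G 1)
    linarith
  · have a1 := quad h (Or.inl rfl) hG hF hφ le_rfl ht.1 ht.2
    have a2 := h.B1 (G t)
    have a3 : 0 ≤ ∫ τ in (0 : ℝ)..t, ‖G τ‖ ^ 2 :=
      intervalIntegral.integral_nonneg ht.1 fun _ _ => sq_nonneg _
    linarith

theorem grow (h : Ops κ₀ μ A B P Q) (hκ : 0 < κ₀) {G F : ℝ → W} {φ : ℝ → ℝ}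
    (hG : ∀ τ ∈ Icc (0 : ℝ) 1, HasDerivAt G (A (G τ) + F τ) τ)
    (hF : ∀ τ ∈ Icc (0 : ℝ) 1, ∀ u, |⟪F τ, u⟫| ≤ φ τ * ‖A u‖) (hφ : ContinuousOn φ (Icc 0 1)) :
    ∫ τ in (0 : ℝ)..1, ‖G τ‖ ^ 2 ≤ κ₀⁻¹ * ‖G 1‖ ^ 2 + ∫ τ in (0 : ℝ)..1, φ τ ^ 2 ∧
    ∀ t ∈ Icc (0 : ℝ) 1, κ₀ * ‖B (G t)‖ ^ 2 ≤ κ₀⁻¹ * ‖G 1‖ ^ 2 + ∫ τ in (0 : ℝ)..1, φ τ ^ 2 := by
  have a0 := h.B3 hκ (G 1)
  have hG' : ∀ τ ∈ Icc (0 : ℝ) 1, HasDerivAt G ((-(-1 : ℝ)) • A (G τ) + F τ) τ := fun τ hτ => by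
    simpa using hG τ hτ
  refine ⟨?_, fun t ht => ?_⟩
  · have a1 := quad h (Or.inr rfl) hG' hF hφ le_rfl zero_le_one le_rfl
    have a2 := h.B0 hκ (G 0)
    linarith
  · have a1 := quad h (Or.inr rfl) hG' hF hφ ht.1 ht.2 le_rfl
    have a2 := h.B1 (G t)
    have a3 : 0 ≤ ∫ τ in t..1, ‖G τ‖ ^ 2 :=
      intervalIntegral.integral_nonneg ht.2 fun _ _ => sq_nonneg _
    linarith

theorem low (h : Ops κ₀ μ A B P Q) (hμ : 0 ≤ μ) {G F : ℝ → W} {φ : ℝ → ℝ}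
    (hG : ∀ τ ∈ Icc (0 : ℝ) 1, HasDerivAt G (A (G τ) + F τ) τ)
    (hF : ∀ τ ∈ Icc (0 : ℝ) 1, ∀ u, |⟪F τ, u⟫| ≤ φ τ * ‖A u‖) (hφ : ContinuousOn φ (Icc 0 1))
    (hφ0 : ∀ τ, 0 ≤ φ τ) {t : ℝ} (ht : t ∈ Icc (0 : ℝ) 1) :
    ‖P (G t)‖ ^ 2 ≤ Real.exp (2 * μ + μ ^ 2) * (‖P (G 0)‖ ^ 2 + ∫ τ in (0 : ℝ)..1, φ τ ^ 2) := by
  set c := 2 * μ + μ ^ 2 with hc
  have hc0 : 0 ≤ c := by positivity
  have a1 := mono_int (f := fun τ => Real.exp (-c * τ) * ⟪P (G τ), P (G τ)⟫)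
    (fun τ hτ => (((hasDerivAt_id τ).const_mul (-c)).exp).mul
      ((P.hasFDerivAt.comp_hasDerivAt τ (hG τ hτ)).inner ℝ
        (P.hasFDerivAt.comp_hasDerivAt τ (hG τ hτ))))
    (g := fun τ => φ τ ^ 2) (hφ.pow 2) (fun τ hτ => ?_) le_rfl ht.1 ht.2
  · have a2 := int_le_whole (hφ.pow 2) (fun τ => sq_nonneg _) le_rfl ht.1 ht.2
    simp only [Pi.pow_apply] at a2
    simp only [real_inner_self_eq_norm_sq, mul_zero, Real.exp_zero, one_mul] at a1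
    have a3 : Real.exp (-c) ≤ Real.exp (-c * t) := Real.exp_le_exp.2 (by nlinarith [ht.2])
    have a4 : Real.exp (-c) * ‖P (G t)‖ ^ 2 ≤ ‖P (G 0)‖ ^ 2 + ∫ τ in (0 : ℝ)..1, φ τ ^ 2 := by
      nlinarith [sq_nonneg ‖P (G t)‖]
    rw [Real.exp_neg, inv_mul_le_iff₀ (Real.exp_pos _)] at a4
    exact a4
  · have b1 := (abs_le.1 (hF τ hτ (P (G τ)))).2
    have b2 := h.low (G τ)
    have b3 : ⟪P (G τ), P (A (G τ) + F τ)⟫ = ⟪P (G τ), A (P (G τ))⟫ + ⟪F τ, P (G τ)⟫ := by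
      rw [map_add, inner_add_right, h.PA, ← h.Psym _ (F τ), h.PP, real_inner_comm (F τ)]
    have b4 := real_inner_le_norm (P (G τ)) (A (P (G τ)))
    have b5 := mul_le_mul_of_nonneg_left b2 (hφ0 τ)
    have b6 := mul_le_mul_of_nonneg_left b2 (norm_nonneg (P (G τ)))
    have b7 : Real.exp (-c * τ) ≤ 1 := Real.exp_le_one_iff.2 (by nlinarith [hτ.1])
    have b8 := Real.exp_pos (-c * τ)
    simp only [Function.comp, id, mul_one]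
    rw [real_inner_comm (P (G τ)) (P (_ + _)), b3, real_inner_self_eq_norm_sq]
    have b9 : -c * ‖P (G τ)‖ ^ 2 + 2 * (⟪P (G τ), A (P (G τ))⟫ + ⟪F τ, P (G τ)⟫) ≤ φ τ ^ 2 := by
      nlinarith [sq_nonneg (φ τ - μ * ‖P (G τ)‖)]
    nlinarith [sq_nonneg (φ τ)]

theorem hasDeriv_gam {z z' F : ℝ → W} {τ : ℝ} (h1 : HasDerivAt z (z' τ) τ)
    (h2 : HasDerivAt z' (A (A (z τ)) + F τ) τ) :
    HasDerivAt (fun t => z' t + A (z t)) (A (z' τ + A (z τ)) + F τ) τ := by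
  refine (h2.add (A.hasFDerivAt.comp_hasDerivAt τ h1)).congr_deriv ?_
  rw [map_add]; abel

theorem hasDeriv_del {z z' F : ℝ → W} {τ : ℝ} (h1 : HasDerivAt z (z' τ) τ)
    (h2 : HasDerivAt z' (A (A (z τ)) + F τ) τ) :
    HasDerivAt (fun t => z' t - A (z t)) ((-1 : ℝ) • A (z' τ - A (z τ)) + F τ) τ := by
  refine (h2.sub (A.hasFDerivAt.comp_hasDerivAt τ h1)).congr_deriv ?_
  rw [map_sub, neg_one_smul]; abel

theorem energy (h : Ops κ₀ μ A B P Q) (hκ : 0 < κ₀) (hμ : 0 ≤ μ) {z z' F : ℝ → W} {φ : ℝ → ℝ}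
    (h1 : ∀ τ ∈ Icc (0 : ℝ) 1, HasDerivAt z (z' τ) τ)
    (h2 : ∀ τ ∈ Icc (0 : ℝ) 1, HasDerivAt z' (A (A (z τ)) + F τ) τ)
    (hF : ∀ τ ∈ Icc (0 : ℝ) 1, ∀ u, |⟪F τ, u⟫| ≤ φ τ * ‖A u‖) (hφ : ContinuousOn φ (Icc 0 1))
    (hφ0 : ∀ τ, 0 ≤ φ τ) {D : ℝ} (d1 : ‖z' 0 - A (z 0)‖ ≤ D) (d2 : ‖P (z' 0 + A (z 0))‖ ≤ D)
    (d3 : ‖Q (z' 1 + A (z 1))‖ ≤ D) :
    ∫ τ in (0 : ℝ)..1, ‖A (z τ)‖ ^ 2 ≤ (Real.exp (2 * μ + μ ^ 2) + 2) * (1 + κ₀⁻¹) ^ 2 *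
      (D ^ 2 + ∫ τ in (0 : ℝ)..1, φ τ ^ 2) ∧
    ∀ t ∈ Icc (0 : ℝ) 1, ‖z t‖ ^ 2 ≤ (Real.exp (2 * μ + μ ^ 2) + 2) * (1 + κ₀⁻¹) ^ 2 *
      (D ^ 2 + ∫ τ in (0 : ℝ)..1, φ τ ^ 2) := by
  have g1 := fun τ hτ => hasDeriv_gam (h1 τ hτ) (h2 τ hτ)
  have g2 := fun τ hτ => hasDeriv_del (h1 τ hτ) (h2 τ hτ)
  have g3 : ∀ τ ∈ Icc (0 : ℝ) 1, HasDerivAt (fun t => Q (z' t + A (z t)))
      (A (Q (z' τ + A (z τ))) + Q (F τ)) τ := fun τ hτ => by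
    refine (Q.hasFDerivAt.comp_hasDerivAt τ (g1 τ hτ)).congr_deriv ?_
    rw [map_add Q (A _), h.QA]
  obtain ⟨a1, a2⟩ := decay h hκ g2 hF hφ
  obtain ⟨b1, b2⟩ := grow h hκ g3 (φ := φ) (fun τ hτ u => by
    rw [h.Qsym]
    refine (hF τ hτ _).trans (mul_le_mul_of_nonneg_left ?_ (hφ0 τ))
    rw [← h.QA]; exact h.Qle _) hφ
  have c1 := fun t ht => low h hμ g1 hF hφ hφ0 (t := t) ht
  set Φ := ∫ τ in (0 : ℝ)..1, φ τ ^ 2 with hΦ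
  have hΦ0 : 0 ≤ Φ := intervalIntegral.integral_nonneg zero_le_one fun _ _ => sq_nonneg _
  set c := Real.exp (2 * μ + μ ^ 2) with hc
  have hc0 : 0 < c := Real.exp_pos _
  set k := κ₀⁻¹ with hk
  have hk0 : 0 < k := by positivity
  have e1 := pow_le_pow_left₀ (norm_nonneg _) d1 2
  have e2 := pow_le_pow_left₀ (norm_nonneg _) d2 2
  have e3 := pow_le_pow_left₀ (norm_nonneg _) d3 2
  have hD := sq_nonneg D
  set X := D ^ 2 + Φ with hX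
  have hX0 : 0 ≤ X := by positivity
  have f1 : k * ‖z' 0 - A (z 0)‖ ^ 2 + Φ ≤ (1 + k) * X := by rw [hX]; nlinarith
  have f2 : k * ‖Q (z' 1 + A (z 1))‖ ^ 2 + Φ ≤ (1 + k) * X := by rw [hX]; nlinarith
  have f3 : ∀ t ∈ Icc (0 : ℝ) 1, ‖P (z' t + A (z t))‖ ^ 2 ≤ c * X := fun t ht =>
    (c1 t ht).trans (by gcongr; rw [hX]; linarith)
  have dec : ∀ t, A (z t) = (1 / 2 : ℝ) •
      (P (z' t + A (z t)) + Q (z' t + A (z t)) - (z' t - A (z t))) := fun t => by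
    rw [h.add]; module
  have hz := contOn h1
  refine ⟨?_, fun t ht => ?_⟩
  · have i1 : ContinuousOn (fun τ => ‖Q (z' τ + A (z τ))‖ ^ 2) (Icc 0 1) := (contOn g3).norm.pow 2
    have i2 : ContinuousOn (fun τ => ‖z' τ - A (z τ)‖ ^ 2) (Icc 0 1) := (contOn g2).norm.pow 2
    have : ∫ τ in (0 : ℝ)..1, ‖A (z τ)‖ ^ 2 ≤
        ∫ τ in (0 : ℝ)..1, (c * X + (‖Q (z' τ + A (z τ))‖ ^ 2 + ‖z' τ - A (z τ)‖ ^ 2)) :=
      intervalIntegral.integral_mono_on zero_le_one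
        (ii ((A.continuous.comp_continuousOn hz).norm.pow 2) z01 o01)
        (ii (continuousOn_const.add (i1.add i2)) z01 o01) fun x hx => by
          have := norm_three (P (z' x + A (z x))) (Q (z' x + A (z x))) (z' x - A (z x))
          rw [← dec] at this
          linarith [f3 x hx]
    rw [intervalIntegral.integral_add (by simp) ((ii i1 z01 o01).add (ii i2 z01 o01)),
      intervalIntegral.integral_add (ii i1 z01 o01) (ii i2 z01 o01)] at this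
    simp only [intervalIntegral.integral_const, sub_zero, smul_eq_mul, one_mul] at this
    have j : c + 2 * (1 + k) ≤ (c + 2) * (1 + k) ^ 2 := by nlinarith [mul_pos hc0 hk0]
    nlinarith
  · have j0 : z t = (1 / 2 : ℝ) •
        (B (P (z' t + A (z t))) + B (Q (z' t + A (z t))) - B (z' t - A (z t))) := by
      rw [← map_add, ← map_sub, ← map_smul, ← dec, h.BA]
    have j1 := norm_three (B (P (z' t + A (z t)))) (B (Q (z' t + A (z t)))) (B (z' t - A (z t)))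
    rw [← j0] at j1
    have j2 : ‖B (P (z' t + A (z t)))‖ ^ 2 ≤ k ^ 2 * (c * X) := by
      refine (pow_le_pow_left₀ (norm_nonneg _) (h.B2 hκ _) 2).trans ?_
      rw [mul_pow]; exact mul_le_mul_of_nonneg_left (f3 t ht) (by positivity)
    have j3 : ‖B (Q (z' t + A (z t)))‖ ^ 2 ≤ k * ((1 + k) * X) := by
      rw [hk, ← div_eq_inv_mul, le_div_iff₀' hκ]; exact (b2 t ht).trans f2
    have j4 : ‖B (z' t - A (z t))‖ ^ 2 ≤ k * ((1 + k) * X) := by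
      rw [hk, ← div_eq_inv_mul, le_div_iff₀' hκ]; exact (a2 t ht).trans f1
    have j : k ^ 2 * c + 2 * (k * (1 + k)) ≤ (c + 2) * (1 + k) ^ 2 := by
      nlinarith [mul_pos hc0 hk0]
    nlinarith

/-- the semigroup `exp (-s A)` -/
theorem semigroup {ι : Type} [Fintype ι] (e : OrthonormalBasis ι ℝ W) (κ : ι → ℝ)
    (h0 : ∀ i, 0 ≤ κ i) (hA : ∀ i, A (e i) = κ i • e i) (u : W) :
    ∃ p : ℝ → W, p 0 = u ∧ (∀ s, HasDerivAt p (-A (p s)) s) ∧ (∀ s, 0 ≤ s → ‖p s‖ ≤ ‖u‖) ∧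
      ∀ s, 1 / 4 ≤ s → ‖A (p s)‖ ≤ 4 * ‖u‖ := by
  have hu : ∑ i, ⟪e i, u⟫ • e i = u := e.sum_repr' u
  have hA' : ∀ s, A (∑ i, (Real.exp (-κ i * s) * ⟪e i, u⟫) • e i) =
      ∑ i, (κ i * Real.exp (-κ i * s) * ⟪e i, u⟫) • e i := fun s => by
    rw [map_sum]
    exact Finset.sum_congr rfl fun i _ => by rw [map_smul, hA, smul_smul]; congr 1; ring
  refine ⟨fun s => ∑ i, (Real.exp (-κ i * s) * ⟪e i, u⟫) • e i, by simpa using hu, fun s => ?_,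
    fun s hs => ?_, fun s hs => ?_⟩
  · rw [hA', ← Finset.sum_neg_distrib]
    refine HasDerivAt.fun_sum fun i _ => ?_
    refine (((((hasDerivAt_id s).const_mul (-κ i)).exp).mul_const ⟪e i, u⟫).smul_const
      (e i)).congr_deriv ?_
    rw [← neg_smul]; congr 1; simp only [id]; ring
  · have := norm_sum_le e.orthonormal (fun i => Real.exp (-κ i * s)) (fun i => ⟪e i, u⟫)
      zero_le_one fun i => by
        rw [abs_of_pos (Real.exp_pos _), Real.exp_le_one_iff]; nlinarith [h0 i]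
    rwa [hu, one_mul] at this
  · have := norm_sum_le e.orthonormal (fun i => κ i * Real.exp (-κ i * s)) (fun i => ⟪e i, u⟫)
      (M := 4) (by norm_num) fun i => by
        have a0 := h0 i
        rw [abs_of_nonneg (by positivity), neg_mul, Real.exp_neg, ← div_eq_mul_inv,
          div_le_iff₀ (Real.exp_pos _)]
        nlinarith [Real.add_one_le_exp (κ i * s)]
    rwa [hu, ← hA'] at this

theorem dual (h : Ops κ₀ μ A B P Q) (ε : ℝ) {G F p : ℝ → W} {g : ℝ → ℝ}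
    (hG : ∀ τ ∈ Icc (0 : ℝ) 1, HasDerivAt G ((-ε) • A (G τ) + F τ) τ)
    (hp : ∀ τ, HasDerivAt p (ε • A (p τ)) τ) (hg : ContinuousOn g (Icc 0 1))
    (hb : ∀ τ ∈ Icc (0 : ℝ) 1, |⟪F τ, p τ⟫| ≤ g τ) :
    |⟪G 1, p 1⟫ - ⟪G 0, p 0⟫| ≤ ∫ τ in (0 : ℝ)..1, g τ := by
  have := ftc_abs (f := fun τ => ⟪G τ, p τ⟫) (m := fun _ => 0)
    (fun τ hτ => (hG τ hτ).inner ℝ (hp τ)) continuousOn_const hg fun τ hτ => by
      rw [inner_add_left, inner_smul_left, inner_smul_right, h.sym]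
      simp only [conj_trivial]
      convert hb τ hτ using 2
      ring
  simpa using this

end Crest.Agent.R202.AEventAux
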