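import Crest.Agent.R202.HDefs
import Crest.Agent.R332.Brouwer

/-!
# Row 202, A-fix: the fixed point for the controls, and two facts on static solutions

`fix_ex`: apply `R332.exists_fixed_of_bounded` on `Fin ν → R → ℝ` (extend by `0`) to
`Φ c p r = clp (ρ p) (c p r) - β c p l` if `r = idx p l` for a (unique) constraint `l`, and `0` otherwise.
`back_bound`: by uniqueness `y` is the solution of `y' = √K y` (`z = y' - rt K y` solves `z' = -rt K z`,
`rt K ∘ rt K = K`, `z a = 0`), so `‖y‖²` is monotone on `(-∞, a]`.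
-/

set_option autoImplicit false
open scoped ContDiff RealInnerProductSpace Topology
open MeasureTheory Set Filter Module
open Crest.GeometryTopology.CoordMetric
open Crest.Agent.R230 (E MP sph ev Harm)

noncomputable section
namespace Crest.Agent.R202

theorem fix_ex {R Λ : Type} [Fintype R] (ν : ℕ) (ρ : ℕ → ℝ) (hρ : ∀ p, 0 ≤ ρ p)
    (Con : ℕ → Λ → Prop) (idx : ℕ → Λ → R)
    (hinj : ∀ p l l', Con p l → Con p l' → idx p l = idx p l' → l = l')
    (β : (ℕ → R → ℝ) → ℕ → Λ → ℝ) (hβ : ∀ p l, Con p l → Continuous fun c => β c p l)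
    (h : ∀ c p l, p < ν → Con p l → |β c p l - clp (ρ p) (c p (idx p l))| ≤ ρ p) :
    ∃ c : ℕ → R → ℝ, (∀ p r, |c p r| ≤ ρ p) ∧ ∀ p l, p < ν → Con p l → β c p l = 0 := by
  classical
  let ex : (Fin ν → R → ℝ) → ℕ → R → ℝ := fun x p r => if hp : p < ν then x ⟨p, hp⟩ r else 0
  have hex : Continuous ex := continuous_pi fun p => continuous_pi fun r => by
    by_cases hp : p < ν
    · simp only [ex, dif_pos hp]
      fun_prop
    · simp only [ex, dif_neg hp]
      exact continuous_const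
  let Φ : (Fin ν → R → ℝ) → Fin ν → R → ℝ := fun x p r =>
    if hr : ∃ l, Con p l ∧ idx p l = r then clp (ρ p) (x p r) - β (ex x) p hr.choose else 0
  have hΦ : Continuous Φ := continuous_pi fun p => continuous_pi fun r => by
    by_cases hr : ∃ l, Con p l ∧ idx p l = r
    · simp only [Φ, dif_pos hr, clp]
      exact Continuous.sub (by fun_prop) ((hβ p _ hr.choose_spec.1).comp hex)
    · simp only [Φ, dif_neg hr]
      exact continuous_const
  have hb : ∀ x p r, |Φ x p r| ≤ ρ p := fun x p r => by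
    by_cases hr : ∃ l, Con p l ∧ idx p l = r
    · have h1 := h (ex x) p _ p.2 hr.choose_spec.1
      rw [hr.choose_spec.2, abs_sub_comm] at h1
      simpa only [Φ, ex, dif_pos hr, dif_pos p.2] using h1
    · simp only [Φ, dif_neg hr, abs_zero]
      exact hρ p
  have h0 : 0 ≤ ∑ p : Fin ν, ρ p := Finset.sum_nonneg fun p _ => hρ p
  obtain ⟨x, hx⟩ := R332.exists_fixed_of_bounded Φ hΦ (∑ p : Fin ν, ρ p) fun x =>
    (pi_norm_le_iff_of_nonneg h0).2 fun p => (pi_norm_le_iff_of_nonneg h0).2 fun r =>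
      (hb x p r).trans (Finset.single_le_sum (f := fun p : Fin ν => ρ p) (fun p _ => hρ p)
        (Finset.mem_univ p))
  refine ⟨ex x, fun p r => ?_, fun p l hp hl => ?_⟩
  · by_cases hp : p < ν
    · simp only [ex, dif_pos hp]
      exact hx ▸ hb x ⟨p, hp⟩ r
    · simp only [ex, dif_neg hp, abs_zero]
      exact hρ p
  · have hr : ∃ l', Con p l' ∧ idx p l' = idx p l := ⟨l, hl, rfl⟩
    have h1 : |x ⟨p, hp⟩ (idx p l)| ≤ ρ p := hx ▸ hb x ⟨p, hp⟩ (idx p l)
    have h2 := congrFun (congrFun hx ⟨p, hp⟩) (idx p l)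
    simp only [Φ, dif_pos hr, hinj p _ l hr.choose_spec.1 hl hr.choose_spec.2] at h2
    rw [clp, min_eq_right (abs_le.1 h1).2, max_eq_right (abs_le.1 h1).1] at h2
    linarith

variable {W : Type} [NormedAddCommGroup W] [InnerProductSpace ℝ W] [FiniteDimensional ℝ W]

theorem back_bound {κ₀ a : ℝ} {K : ℝ → W →L[ℝ] W} (hK : PosOp κ₀ (K a)) (h : ∀ t, t ≤ a → K t = K a)
    {y y' : ℝ → W} (hy : SolOn K univ y y') (h0 : Del (K a) (y a) (y' a) = 0) :
    ∀ t, t ≤ a → ‖y t‖ ≤ ‖y a‖ := by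
  have mono : ∀ f f' : ℝ → ℝ, (∀ t, HasDerivAt f (f' t) t) → (∀ t, t ≤ a → 0 ≤ f' t) →
      ∀ t, t ≤ a → f t ≤ f a := fun f f' h1 h2 t ht =>
    monotoneOn_of_hasDerivWithinAt_nonneg (convex_Iic a)
      (fun s _ => (h1 s).continuousAt.continuousWithinAt) (fun s _ => (h1 s).hasDerivWithinAt)
      (fun s hs => h2 s (mem_Iic.1 (interior_subset hs))) ht (le_refl a) ht
  have hz : ∀ t, HasDerivAt (fun s => y' s - rt (K a) (y s)) (K t (y t) - rt (K a) (y' t)) t :=
    fun t => (hy t (mem_univ t)).2.sub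
      ((rt (K a)).hasFDerivAt.comp_hasDerivAt t (hy t (mem_univ t)).1)
  have h1 := mono (fun s => Real.exp (2 * ‖rt (K a)‖ * s) * ‖y' s - rt (K a) (y s)‖ ^ 2) _
    (fun t => (((hasDerivAt_id t).const_mul (2 * ‖rt (K a)‖)).exp).mul (hz t).norm_sq)
    fun t ht => by
      have h2 : K t (y t) - rt (K a) (y' t) = -rt (K a) (y' t - rt (K a) (y t)) := by
        rw [h t ht, map_sub, rt_rt hK, neg_sub]
      have h3 := (real_inner_le_norm (y' t - rt (K a) (y t)) _).trans (mul_le_mul_of_nonneg_left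
        ((rt (K a)).le_opNorm (y' t - rt (K a) (y t))) (norm_nonneg _))
      have h4 := mul_le_mul_of_nonneg_left h3 (Real.exp_pos (2 * ‖rt (K a)‖ * t)).le
      rw [h2, inner_neg_right]
      simp only [id]
      linarith
  have h2 : ∀ t, t ≤ a → y' t = rt (K a) (y t) := fun t ht => by
    have h3 := h1 t ht
    rw [show y' a - rt (K a) (y a) = 0 from h0, norm_zero, zero_pow two_ne_zero, mul_zero] at h3
    have h4 := nonpos_of_mul_nonpos_right h3 (Real.exp_pos _)
    exact sub_eq_zero.1 (norm_eq_zero.1 (pow_eq_zero_iff two_ne_zero |>.1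
      (le_antisymm h4 (sq_nonneg _))))
  intro t ht
  refine (pow_le_pow_iff_left₀ (norm_nonneg _) (norm_nonneg _) two_ne_zero).1
    (mono (fun s => ‖y s‖ ^ 2) _ (fun s => (hy s (mem_univ s)).1.norm_sq) (fun s hs => ?_) t ht)
  have h3 := le_rt hK (V := ⊤) (fun _ _ => trivial) le_rfl
    (fun u _ => le_trans (by simp) (((mul_nonneg (sq_nonneg _) (sq_nonneg _))).trans (hK.pos u)))
    (u := y s) trivial
  rw [h2 s hs, real_inner_comm]
  linarith

theorem gam_pair {κ₀ κ : ℝ} {K : W →L[ℝ] W} (hK : PosOp κ₀ K) {u v e : W} (h0 : Del K u v = 0)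
    (hκ : 0 ≤ κ) (he : K e = κ ^ 2 • e) : ⟪Gam K u v, e⟫ = 2 * κ * ⟪u, e⟫ := by
  rw [Gam, sub_eq_zero.1 h0, inner_add_left, rt_sym hK, rt_eig hK hκ he, real_inner_smul_right]
  ring

end Crest.Agent.R202
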