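import Crest.Agent.R202.ARoot

/-!
# Row 202, A2c: estimates on holds (differential inequalities; regularise `‖·‖` by `√(‖·‖² + ε²)` or use
`‖·‖²` and `image_le_of_deriv_right_le_deriv_boundary`)
-/

set_option autoImplicit false
open scoped RealInnerProductSpace ContDiff
open Module Set

noncomputable section
namespace Crest.Agent.R202

variable {W : Type} [NormedAddCommGroup W] [InnerProductSpace ℝ W] [FiniteDimensional ℝ W]
  {κ₀ : ℝ} {K : W →L[ℝ] W}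

namespace AHoldAux

theorem le_of_deriv {f f' : ℝ → ℝ} {s t : ℝ} (hst : s ≤ t)
    (hf : ∀ τ ∈ Icc s t, HasDerivAt f (f' τ) τ) (h : ∀ τ ∈ Icc s t, f' τ ≤ 0) : f t ≤ f s := by
  have := intervalIntegral.sub_le_integral_of_hasDeriv_right_of_le (g := f) (g' := f')
    (φ := fun _ => 0) hst (fun τ hτ => (hf τ hτ).continuousAt.continuousWithinAt)
    (fun τ hτ => (hf τ (Ioo_subset_Icc_self hτ)).hasDerivWithinAt) MeasureTheory.integrableOn_zero
    fun τ hτ => h τ (Ioo_subset_Icc_self hτ)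
  simpa using this

theorem ge_of_deriv {f f' : ℝ → ℝ} {s t : ℝ} (hst : s ≤ t)
    (hf : ∀ τ ∈ Icc s t, HasDerivAt f (f' τ) τ) (h : ∀ τ ∈ Icc s t, 0 ≤ f' τ) : f s ≤ f t := by
  have := le_of_deriv (f := fun τ => -f τ) (f' := fun τ => -f' τ) hst (fun τ hτ => (hf τ hτ).neg)
    fun τ hτ => neg_nonpos.2 (h τ hτ)
  linarith

omit [FiniteDimensional ℝ W] in
theorem norm_le {z z' : ℝ → W} {g : ℝ → ℝ} {s t : ℝ} (hst : s ≤ t)
    (hz : ∀ τ ∈ Icc s t, HasDerivAt z (z' τ) τ) (hg : ContinuousOn g (Icc s t))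
    (hg0 : ∀ τ ∈ Icc s t, 0 ≤ g τ) (h : ∀ τ ∈ Icc s t, ⟪z τ, z' τ⟫ ≤ g τ * ‖z τ‖) :
    ‖z t‖ ≤ ‖z s‖ + ∫ τ in s..t, g τ := by
  refine le_of_forall_pos_le_add fun ε hε => ?_
  have hp : ∀ τ, 0 < ‖z τ‖ ^ 2 + ε ^ 2 := fun τ => by positivity
  have hle : ∀ τ, ‖z τ‖ ≤ √(‖z τ‖ ^ 2 + ε ^ 2) := fun τ =>
    Real.le_sqrt_of_sq_le (by nlinarith [sq_nonneg ε])
  have hd : ∀ τ ∈ Icc s t, HasDerivAt (fun τ => √(‖z τ‖ ^ 2 + ε ^ 2))
      (2 * ⟪z τ, z' τ⟫ / (2 * √(‖z τ‖ ^ 2 + ε ^ 2))) τ := fun τ hτ =>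
    ((hz τ hτ).norm_sq.add_const (ε ^ 2)).sqrt (hp τ).ne'
  have h1 := intervalIntegral.sub_le_integral_of_hasDeriv_right_of_le (φ := g) hst
    (fun τ hτ => (hd τ hτ).continuousAt.continuousWithinAt)
    (fun τ hτ => (hd τ (Ioo_subset_Icc_self hτ)).hasDerivWithinAt)
    (hg.integrableOn_compact isCompact_Icc) fun τ hτ => by
      have hτ' := Ioo_subset_Icc_self hτ
      have h2 := Real.sqrt_pos.2 (hp τ)
      rw [div_le_iff₀ (by positivity)]
      have h3 := mul_le_mul_of_nonneg_left (hle τ) (hg0 τ hτ')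
      have h4 := h τ hτ'
      linarith
  have h2 : √(‖z s‖ ^ 2 + ε ^ 2) ≤ ‖z s‖ + ε :=
    Real.sqrt_le_iff.2 ⟨by positivity, by nlinarith [norm_nonneg (z s)]⟩
  linarith [hle t]

end AHoldAux

/-! ### holds -/

/-- `Δ' = -√K₀ Δ + θ y` -/
theorem del_bound (hκ : 0 ≤ κ₀) (hK : PosOp κ₀ K) {Kt : ℝ → W →L[ℝ] W} {s t η : ℝ} (hst : s ≤ t)
    (hη : ∀ τ ∈ Icc s t, ∃ θ : ℝ, |θ| ≤ η ∧ Kt τ = K + θ • ContinuousLinearMap.id ℝ W)
    {y y' : ℝ → W} (hy : SolOn Kt (Icc s t) y y') :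
    ‖Del K (y t) (y' t)‖ ≤ Real.exp (-κ₀ * (t - s)) * ‖Del K (y s) (y' s)‖ +
      η * ∫ τ in s..t, ‖y τ‖ := by
  have hη0 : 0 ≤ η := by
    obtain ⟨θ, h, -⟩ := hη s ⟨le_rfl, hst⟩
    exact (abs_nonneg _).trans h
  have hD : ∀ τ ∈ Icc s t, HasDerivAt (fun τ => Del K (y τ) (y' τ))
      (Kt τ (y τ) - rt K (y' τ)) τ := fun τ hτ =>
    (hy τ hτ).2.sub ((rt K).hasFDerivAt.comp_hasDerivAt τ (hy τ hτ).1)
  have he : ∀ τ, HasDerivAt (fun τ => Real.exp (κ₀ * (τ - t))) (Real.exp (κ₀ * (τ - t)) * κ₀) τ :=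
    fun τ => by simpa using (((hasDerivAt_id τ).sub_const t).const_mul κ₀).exp
  have h1 := AHoldAux.norm_le (g := fun τ => η * ‖y τ‖) hst
    (fun τ hτ => (he τ).smul (hD τ hτ))
    (fun τ hτ => (continuousAt_const.mul (hy τ hτ).1.continuousAt.norm).continuousWithinAt)
    (fun τ _ => by positivity) fun τ hτ => by
      obtain ⟨θ, hθ, hK'⟩ := hη τ hτ
      have h2 : Kt τ (y τ) - rt K (y' τ) = θ • y τ - rt K (Del K (y τ) (y' τ)) := by
        rw [hK', Del, map_sub, rt_rt hK]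
        simp only [add_apply, smul_apply, ContinuousLinearMap.id_apply]
        abel
      have h3 := le_rt hK (V := ⊤) (fun _ _ => Submodule.mem_top) hκ (fun u _ => hK.pos u)
        (u := Del K (y τ) (y' τ)) Submodule.mem_top
      simp only [Pi.smul_apply']
      rw [h2]
      set D := Del K (y τ) (y' τ)
      set e := Real.exp (κ₀ * (τ - t)) with he'
      have he0 : 0 < e := Real.exp_pos _
      have he1 : e ≤ 1 :=
        Real.exp_le_one_iff.2 (mul_nonpos_of_nonneg_of_nonpos hκ (by linarith [hτ.2]))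
      have h4 : θ * ⟪D, y τ⟫ ≤ η * (‖D‖ * ‖y τ‖) := by
        refine (le_abs_self _).trans ?_
        rw [abs_mul]
        exact mul_le_mul hθ (abs_real_inner_le_norm _ _) (abs_nonneg _) hη0
      rw [inner_add_right, real_inner_smul_left, real_inner_smul_left, real_inner_smul_right,
        real_inner_smul_right, inner_sub_right, real_inner_smul_right, real_inner_self_eq_norm_sq,
        norm_smul, Real.norm_of_nonneg he0.le, real_inner_comm (rt K D)]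
      have h5 : e * (e * (θ * ⟪D, y τ⟫ - ⟪rt K D, D⟫)) + e * (e * κ₀ * ‖D‖ ^ 2) =
          e * e * (θ * ⟪D, y τ⟫ - (⟪rt K D, D⟫ - κ₀ * ‖D‖ ^ 2)) := by ring
      rw [h5]
      have h6 : e * e * (θ * ⟪D, y τ⟫ - (⟪rt K D, D⟫ - κ₀ * ‖D‖ ^ 2)) ≤
          e * e * (η * (‖D‖ * ‖y τ‖)) := mul_le_mul_of_nonneg_left (by linarith) (by positivity)
      have h7 : e * (e * (η * (‖D‖ * ‖y τ‖))) ≤ e * (η * (‖D‖ * ‖y τ‖)) :=
        mul_le_of_le_one_left (by positivity) he1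
      linarith
  simp only [Pi.smul_apply', sub_self, mul_zero, Real.exp_zero, one_smul, norm_smul,
    Real.norm_eq_abs, Real.abs_exp, intervalIntegral.integral_const_mul] at h1
  rwa [show κ₀ * (s - t) = -κ₀ * (t - s) by ring] at h1

/-- `Γ' = √K Γ` on a static interval -/
theorem gam_bound (hK : PosOp κ₀ K) {V : Submodule ℝ W} (hV : ∀ u ∈ V, K u ∈ V) {ν : ℝ}
    (hν : 0 ≤ ν) (h : ∀ u ∈ V, ν ^ 2 * ‖u‖ ^ 2 ≤ ⟪K u, u⟫) {s t : ℝ} (hst : s ≤ t)
    {y y' : ℝ → W} (hy : SolOn (fun _ => K) (Icc s t) y y') :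
    ‖V.starProjection (Gam K (y s) (y' s))‖ ≤
      Real.exp (-ν * (t - s)) * ‖V.starProjection (Gam K (y t) (y' t))‖ := by
  have hG : ∀ τ ∈ Icc s t, HasDerivAt (fun τ => V.starProjection (Gam K (y τ) (y' τ)))
      (rt K (V.starProjection (Gam K (y τ) (y' τ)))) τ := fun τ hτ => by
    have h1 := V.starProjection.hasFDerivAt.comp_hasDerivAt τ
      ((hy τ hτ).2.add ((rt K).hasFDerivAt.comp_hasDerivAt τ (hy τ hτ).1))
    rw [← starProjection_comm (rt_sym hK) (fun u hu => rt_mem hK hV hu), Gam, map_add (rt K),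
      rt_rt hK, add_comm]
    exact h1
  have he : ∀ τ, HasDerivAt (fun τ => Real.exp (-(2 * ν) * (τ - s)))
      (Real.exp (-(2 * ν) * (τ - s)) * -(2 * ν)) τ :=
    fun τ => by simpa using (((hasDerivAt_id τ).sub_const s).const_mul (-(2 * ν))).exp
  have h1 := AHoldAux.ge_of_deriv hst (fun τ hτ => (he τ).mul (hG τ hτ).norm_sq) fun τ _ => by
    have h2 := le_rt hK hV hν h (V.starProjection_apply_mem (Gam K (y τ) (y' τ)))
    rw [real_inner_comm] at h2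
    have h3 := mul_le_mul_of_nonneg_left h2 (Real.exp_pos (-(2 * ν) * (τ - s))).le
    linarith
  simp only [Pi.mul_apply, sub_self, mul_zero, Real.exp_zero, one_mul] at h1
  refine abs_le_of_sq_le_sq' ?_ (by positivity) |>.2
  rwa [mul_pow, ← Real.exp_nat_mul,
    show ((2 : ℕ) : ℝ) * (-ν * (t - s)) = -(2 * ν) * (t - s) by push_cast; ring]

/-- crude growth bound for the low components (both time directions) -/
theorem low_growth {Kt : ℝ → W →L[ℝ] W} {V : Submodule ℝ W} {a b m : ℝ} (hm : 0 < m)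
    (hsym : ∀ τ ∈ Icc a b, ∀ u w, ⟪Kt τ u, w⟫ = ⟪u, Kt τ w⟫)
    (hV : ∀ τ ∈ Icc a b, ∀ u ∈ V, Kt τ u ∈ V)
    (h0 : ∀ τ ∈ Icc a b, ∀ u ∈ V, 0 ≤ ⟪Kt τ u, u⟫)
    (h : ∀ τ ∈ Icc a b, ∀ u ∈ V, ⟪Kt τ u, u⟫ ≤ m ^ 2 * ‖u‖ ^ 2)
    {y y' : ℝ → W} (hy : SolOn Kt (Icc a b) y y') {s t : ℝ} (hs : s ∈ Icc a b) (ht : t ∈ Icc a b) :
    ‖V.starProjection (y' t)‖ ^ 2 + m ^ 2 * ‖V.starProjection (y t)‖ ^ 2 ≤
      Real.exp (2 * m * |t - s|) *
        (‖V.starProjection (y' s)‖ ^ 2 + m ^ 2 * ‖V.starProjection (y s)‖ ^ 2) := by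
  set u : ℝ → W := fun τ => V.starProjection (y τ) with hu
  set v : ℝ → W := fun τ => V.starProjection (y' τ) with hv
  set E : ℝ → ℝ := fun τ => ‖v τ‖ ^ 2 + m ^ 2 * ‖u τ‖ ^ 2 with hE
  set E' : ℝ → ℝ := fun τ => 2 * ⟪v τ, Kt τ (u τ)⟫ + m ^ 2 * (2 * ⟪u τ, v τ⟫) with hE'
  have hd : ∀ τ ∈ Icc a b, HasDerivAt E (E' τ) τ := fun τ hτ => by
    have h1 : HasDerivAt u (v τ) τ := V.starProjection.hasFDerivAt.comp_hasDerivAt τ (hy τ hτ).1
    have h2 : HasDerivAt v (Kt τ (u τ)) τ := by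
      have := V.starProjection.hasFDerivAt.comp_hasDerivAt τ (hy τ hτ).2
      rwa [starProjection_comm (hsym τ hτ) (hV τ hτ)] at this
    exact h2.norm_sq.add (h1.norm_sq.const_mul (m ^ 2))
  have hb : ∀ τ ∈ Icc a b, |E' τ| ≤ 2 * m * E τ := fun τ hτ => by
    have hu' : u τ ∈ V := V.starProjection_apply_mem _
    have hv' : v τ ∈ V := V.starProjection_apply_mem _
    have h1 := h0 τ hτ _ (V.add_mem (V.smul_mem m hu') hv')
    have h2 := h0 τ hτ _ (V.sub_mem (V.smul_mem m hu') hv')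
    have h3 := h τ hτ _ hu'
    have h4 := h τ hτ _ hv'
    have h5 : ⟪Kt τ (v τ), u τ⟫ = ⟪v τ, Kt τ (u τ)⟫ := hsym τ hτ _ _
    have h6 : ⟪Kt τ (u τ), v τ⟫ = ⟪v τ, Kt τ (u τ)⟫ := real_inner_comm _ _
    simp only [map_add, map_sub, map_smul, inner_add_left, inner_add_right, inner_sub_left,
      inner_sub_right, real_inner_smul_left, real_inner_smul_right, h5, h6] at h1 h2
    have h7 := abs_le.1 (abs_real_inner_le_norm (u τ) (v τ))
    simp only [hE, hE']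
    generalize ⟪v τ, Kt τ (u τ)⟫ = p at *
    generalize ⟪u τ, v τ⟫ = q at *
    generalize ⟪Kt τ (u τ), u τ⟫ = A at *
    generalize ⟪Kt τ (v τ), v τ⟫ = B at *
    generalize ‖u τ‖ = U at *
    generalize ‖v τ‖ = Z at *
    have h8 : m * (m * A) ≤ m * (m * (m ^ 2 * U ^ 2)) := by gcongr
    have h9 : 2 * p ≤ m * (Z ^ 2 + m ^ 2 * U ^ 2) :=
      le_of_mul_le_mul_left (by nlinarith) hm
    have h10 : -(m * (Z ^ 2 + m ^ 2 * U ^ 2)) ≤ 2 * p :=
      le_of_mul_le_mul_left (by nlinarith) hm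
    have h11 : m ^ 2 * (2 * (U * Z)) ≤ m * (Z ^ 2 + m ^ 2 * U ^ 2) := by
      nlinarith [mul_nonneg hm.le (sq_nonneg (m * U - Z))]
    have h12 : m ^ 2 * (2 * q) ≤ m ^ 2 * (2 * (U * Z)) := by gcongr; exact h7.2
    have h13 : m ^ 2 * (2 * -(U * Z)) ≤ m ^ 2 * (2 * q) := by gcongr; exact h7.1
    rw [abs_le]
    constructor <;> linarith
  have he : ∀ c τ : ℝ, HasDerivAt (fun τ => Real.exp (c * (τ - t))) (Real.exp (c * (τ - t)) * c) τ :=
    fun c τ => by simpa using (((hasDerivAt_id τ).sub_const t).const_mul c).exp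
  change E t ≤ _ * E s
  rcases le_total s t with hst | hst
  · have hsub : Icc s t ⊆ Icc a b := Icc_subset_Icc hs.1 ht.2
    have h1 := AHoldAux.le_of_deriv hst (fun τ hτ => (he (-(2 * m)) τ).mul (hd τ (hsub hτ)))
      fun τ hτ => by
        have h2 := mul_le_mul_of_nonneg_left (abs_le.1 (hb τ (hsub hτ))).2
          (Real.exp_pos (-(2 * m) * (τ - t))).le
        linarith
    simp only [Pi.mul_apply, sub_self, mul_zero, Real.exp_zero, one_mul] at h1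
    rwa [abs_of_nonneg (sub_nonneg.2 hst), show 2 * m * (t - s) = -(2 * m) * (s - t) by ring]
  · have hsub : Icc t s ⊆ Icc a b := Icc_subset_Icc ht.1 hs.2
    have h1 := AHoldAux.ge_of_deriv hst (fun τ hτ => (he (2 * m) τ).mul (hd τ (hsub hτ)))
      fun τ hτ => by
        have h2 := mul_le_mul_of_nonneg_left (abs_le.1 (hb τ (hsub hτ))).1
          (Real.exp_pos (2 * m * (τ - t))).le
        linarith
    simp only [Pi.mul_apply, sub_self, mul_zero, Real.exp_zero, one_mul] at h1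
    rwa [abs_of_nonpos (sub_nonpos.2 hst), neg_sub]

end Crest.Agent.R202
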