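import Crest.Agent.R202.ALRAux

/-!
# Row 202, A5: solutions above / below the weight

`lemR`: on `t ≤ a` the solution has only growing modes with `κ ≥ μ a + g` (solve the static equation
mode by mode with `PosOp.exists_basis` and `solOn_unique`), so it is bounded by the weight at `-∞`.
Let `yf t = Σ_{κ_i > μ b} e^{κ_i (t-b)} Γ_i e_i /(2κ_i)` be the fast part at `b` and `χ` a `C²` step from
`0` (`t ≤ b-1`) to `1` (`t ≥ b`).  `y - χ yf` is bounded by the weight at `+∞` as well and solves the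
equation with forcing `-χ'' yf - 2χ' yf' + χ (K t - K b) yf`, supported in `[b-1, b]`, of dual norm
`≤ C ‖Γ_fast‖` (on `t ≤ b` the energy of `yf` is `≤ ‖Γ_fast‖²/2`).  Apply `sup_est`
(`|w t - w b| ≤ 2 μm` near `b`).  `lemL` is the mirror image: subtract the decaying modes and the
slow growing modes at `a`, cut off on `[a, a+1]`.
-/

set_option autoImplicit false
open scoped RealInnerProductSpace ContDiff
open Module Set MeasureTheory

noncomputable section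
namespace Crest.Agent.R202

theorem norm_le_of_sq {x C₁ C₂ r r' X : ℝ} (hC₁ : 0 ≤ C₁) (hC₂ : 0 ≤ C₂) (hX : 0 ≤ X)
    (hr : r' ≤ r) (h : x ^ 2 ≤ C₁ * (C₂ * Real.exp (2 * r') * X ^ 2)) :
    x ≤ (C₁ * C₂ + 1) * Real.exp r * X := by
  refine (abs_le_of_sq_le_sq' (h.trans ?_) (by positivity)).2
  have e1 : Real.exp (2 * r') ≤ Real.exp r ^ 2 := by
    rw [← Real.exp_nat_mul]
    exact Real.exp_le_exp.2 (by push_cast; linarith)
  have e2 : C₁ * C₂ ≤ (C₁ * C₂ + 1) ^ 2 := by nlinarith [mul_nonneg hC₁ hC₂]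
  calc C₁ * (C₂ * Real.exp (2 * r') * X ^ 2) = (C₁ * C₂) * Real.exp (2 * r') * X ^ 2 := by ring
    _ ≤ (C₁ * C₂ + 1) ^ 2 * Real.exp r ^ 2 * X ^ 2 :=
        mul_le_mul_of_nonneg_right (mul_le_mul e2 e1 (Real.exp_pos _).le (by positivity))
          (sq_nonneg _)
    _ = _ := by ring

theorem exp_shift (X r c : ℝ) :
    Real.exp (2 * (r - c)) * X = X * Real.exp (-(2 * c)) * Real.exp (2 * r) := by
  rw [mul_assoc, ← Real.exp_add, mul_comm]
  congr 2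
  ring

theorem Frozen.weight_left {W : Type} [NormedAddCommGroup W] [InnerProductSpace ℝ W]
    {K : ℝ → W →L[ℝ] W} {μ w : ℝ → ℝ} {a b : ℝ} (hF : Frozen K μ a b)
    (h : ∀ t, HasDerivAt w (μ t) t) {s : ℝ} (hs : s ≤ a) : μ a * (s - a) = w s - w a := by
  obtain ⟨ξ, hξ, e⟩ := exists_slope h hs
  rw [(hF.left ξ hξ.2).2] at e
  linarith

theorem Frozen.weight_right {W : Type} [NormedAddCommGroup W] [InnerProductSpace ℝ W]
    {K : ℝ → W →L[ℝ] W} {μ w : ℝ → ℝ} {a b : ℝ} (hF : Frozen K μ a b)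
    (h : ∀ t, HasDerivAt w (μ t) t) {s : ℝ} (hs : b ≤ s) : μ b * (s - b) = w s - w b := by
  obtain ⟨ξ, hξ, e⟩ := exists_slope h hs
  rw [(hF.right ξ hξ.1).2] at e
  linarith

theorem lemR {κ₀ g μm : ℝ} (hκ : 0 < κ₀) (hg : 0 < g) (hμm : 0 ≤ μm) :
    ∃ δ₀ C : ℝ, 0 < δ₀ ∧ 0 < C ∧
    ∀ {W : Type} [NormedAddCommGroup W] [InnerProductSpace ℝ W] [FiniteDimensional ℝ W]
      (δ : ℝ) (K : ℝ → W →L[ℝ] W) (μ w : ℝ → ℝ) (a b : ℝ) (y y' : ℝ → W),
      0 ≤ δ → δ ≤ δ₀ → SlowW κ₀ g μm δ K μ w → Frozen K μ a b → SolOn K univ y y' →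
      Del (K a) (y a) (y' a) = 0 → Gam (K a) (y a) (y' a) ∈ Fast (K a) (μ a) →
      (∀ t, t + 1 ≤ b → wen K y y' t ≤ C * Real.exp (2 * (w t - w b)) *
        ‖(Fast (K b) (μ b)).starProjection (Gam (K b) (y b) (y' b))‖ ^ 2) ∧
      ∀ t, t ≤ b → ‖y t‖ ≤ C * Real.exp (w t - w b) *
        ‖(Fast (K b) (μ b)).starProjection (Gam (K b) (y b) (y' b))‖ := by
  obtain ⟨c₁, χ, χ', χ'', -, hχ, hχ', hχ'', h0, h1, h01⟩ := exists_step
  obtain ⟨δ₀, C, hδ₀, hC, H⟩ := cut_est (c₁ := c₁) hκ hg hμm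
  obtain ⟨C', hC', H'⟩ := norm_sq_le_wen hκ
  refine ⟨δ₀, max C (C' * C + 1), hδ₀, lt_max_of_lt_left hC, ?_⟩
  intro W _ _ _ δ K μ w a b y y' hδ hδ' hS hF hy hD hG
  obtain ⟨Sa, Sa', sa1, -, sa3, sa4, -⟩ := exists_stat hκ (hS.pos a) a
  obtain ⟨Sb, Sb', sb1, sb2, sb3, sb4, sb5⟩ := exists_stat hκ (hS.pos b) b
  set G := (Fast (K b) (μ b)).starProjection (Gam (K b) (y b) (y' b)) with hGdef
  have hGf : G ∈ Fast (K b) (μ b) := Submodule.starProjection_apply_mem _ _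
  have hGs : Gam (K b) (y b) (y' b) - G ∈ Slw (K b) (μ b) := by
    have := (Fast (K b) (μ b)).sub_starProjection_mem_orthogonal (Gam (K b) (y b) (y' b))
    rwa [← hGdef, fast_eq_orth (hS.pos b), Submodule.orthogonal_orthogonal] at this
  have hE : ∀ s, s ≤ b → en (K b) (Sb G 0 s) (Sb' G 0 s) ≤ ‖G‖ ^ 2 := fun s hs =>
    (sb4 (μ b) (hS.nn b) G hGf s hs).trans (mul_le_of_le_one_left (sq_nonneg _)
      (Real.exp_le_one_iff.2 (by nlinarith [hS.nn b])))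
  have hJ : ∀ s, 0 ≤ s - b + 1 → s ≤ b → |s - b| ≤ 1 ∧ en (K b) (Sb G 0 s) (Sb' G 0 s) ≤ ‖G‖ ^ 2 ∧
      |χ (s - b + 1)| ≤ 1 ∧ |χ' (s - b + 1)| ≤ c₁ ∧ |χ'' (s - b + 1)| ≤ c₁ := fun s h h' =>
    ⟨abs_le.2 ⟨by linarith, by linarith⟩, hE s h', h01 _ ⟨h, by linarith⟩⟩
  have hlin : ∀ t, HasDerivAt (fun s : ℝ => s - b + 1) 1 t := fun t =>
    ((hasDerivAt_id t).sub_const b).add_const 1
  have main : ∀ t, t + 1 ≤ b → wen K y y' t ≤ C * Real.exp (2 * (w t - w b)) * ‖G‖ ^ 2 := by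
    intro t ht
    refine H δ K μ w b y y' (Sb G 0) (Sb' G 0) (fun s => χ (s - b + 1)) (fun s => χ' (s - b + 1))
      (fun s => χ'' (s - b + 1)) (‖G‖ ^ 2) (min a (b - 1)) b
      (‖Gam (K a) (y a) (y' a)‖ ^ 2 * Real.exp (-(2 * w a)))
      ((‖Gam (K b) (y b) (y' b) - G‖ ^ 2 + ‖Del (K b) (y b) (y' b) - 0‖ ^ 2) *
        Real.exp (-(2 * w b))) hδ hδ' hS hy (sb1 G 0)
      (fun t => ((hχ _).comp t (hlin t)).congr_deriv (mul_one _))
      (fun t => ((hχ' _).comp t (hlin t)).congr_deriv (mul_one _))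
      (hχ''.comp (by fun_prop)) (sq_nonneg _) (fun s => ?_) (fun s hs => ?_) (fun s hs => ?_) t
      (fun s hs => ?_)
    · rcases lt_or_ge (s - b + 1) 0 with h | h
      · exact Or.inr (Or.inl (h0 _ h))
      rcases le_or_gt s b with h' | h'
      · exact Or.inl (hJ s h h')
      · exact Or.inr (Or.inr ⟨(h1 _ (by linarith)).2.1, (h1 _ (by linarith)).2.2,
          (hF.right s h'.le).1⟩)
    · have hsa : s ≤ a := (lt_min_iff.1 hs).1.le
      have hsb := h0 (s - b + 1) (by linarith [(lt_min_iff.1 hs).2])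
      have e := eq_static hy (sa1 (Gam (K a) (y a) (y' a)) (Del (K a) (y a) (y' a))) (p := s)
        (q := a) (fun r hr => (hF.left r hr.2).1) ⟨hsa, le_rfl⟩ (sa3 _ _).1 (sa3 _ _).2 s
        ⟨le_rfl, hsa⟩
      have := sa4 (μ a) (hS.nn a) _ hG s hsa
      rw [hF.weight_left hS.der hsa, exp_shift] at this
      simp only [hsb.1, hsb.2.1, zero_smul, add_zero, sub_zero]
      rwa [e.1, e.2, hD, (hF.left s hsa).1]
    · have hsb := h1 (s - b + 1) (by linarith)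
      have e := eq_static hy (sb1 (Gam (K b) (y b) (y' b)) (Del (K b) (y b) (y' b))) (p := b)
        (q := s) (fun r hr => (hF.right r hr.1).1) ⟨le_rfl, hs.le⟩ (sb3 _ _).1 (sb3 _ _).2 s
        ⟨hs.le, le_rfl⟩
      have := sb5 (μ b) (hS.nn b) _ hGs (Del (K b) (y b) (y' b) - 0) s hs.le
      rw [hF.weight_right hS.der hs.le, exp_shift, (sb2 _ _ _ _ _).1, (sb2 _ _ _ _ _).2] at this
      simp only [hsb.1, hsb.2.1, zero_smul, zero_add, one_smul]
      rwa [e.1, e.2, (hF.right s hs.le).1]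
    · rcases lt_or_ge (s - b + 1) 0 with h | h
      · exact Or.inr ⟨(h0 _ h).1, (h0 _ h).2.1⟩
      · obtain ⟨a1, a2, a3, a4, -⟩ := hJ s h (by linarith [hs.2])
        exact Or.inl ⟨a1, a2, a3, a4⟩
  refine ⟨fun t ht => (main t ht).trans ?_, fun t ht => ?_⟩
  · gcongr
    exact le_max_left _ _
  · have h2 := H' K y y' (t - 1) t hS.cont hS.pos (fun s => (hy s trivial).1)
      (continuous_iff_continuousAt.2 fun s => (hy s trivial).2.continuousAt)
      ⟨by linarith, by linarith⟩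
    have h3 := (weight_le hS.der hS.nn hS.le (s := t - 1) (t := t) (by linarith)).1
    refine (norm_le_of_sq hC'.le hC.le (norm_nonneg G)
      (show w (t - 1) - w b ≤ w t - w b by linarith)
      (h2.trans (mul_le_mul_of_nonneg_left (main (t - 1) (by linarith)) hC'.le))).trans ?_
    gcongr
    exact le_max_right _ _

theorem lemL {κ₀ g μm : ℝ} (hκ : 0 < κ₀) (hg : 0 < g) (hμm : 0 ≤ μm) :
    ∃ δ₀ C : ℝ, 0 < δ₀ ∧ 0 < C ∧
    ∀ {W : Type} [NormedAddCommGroup W] [InnerProductSpace ℝ W] [FiniteDimensional ℝ W]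
      (δ : ℝ) (K : ℝ → W →L[ℝ] W) (μ w : ℝ → ℝ) (a b : ℝ) (y y' : ℝ → W),
      0 ≤ δ → δ ≤ δ₀ → SlowW κ₀ g μm δ K μ w → Frozen K μ a b → SolOn K univ y y' →
      Gam (K b) (y b) (y' b) ∈ Slw (K b) (μ b) →
      (∀ t, a ≤ t → wen K y y' t ≤ C * Real.exp (2 * (w t - w a)) *
        (‖Del (K a) (y a) (y' a)‖ +
          ‖(Slw (K a) (μ a)).starProjection (Gam (K a) (y a) (y' a))‖) ^ 2) ∧
      ∀ t, a ≤ t → ‖y t‖ ≤ C * Real.exp (w t - w a) *
        (‖Del (K a) (y a) (y' a)‖ +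
          ‖(Slw (K a) (μ a)).starProjection (Gam (K a) (y a) (y' a))‖) := by
  obtain ⟨c₁, χ, χ', χ'', -, hχ, hχ', hχ'', h0, h1, h01⟩ := exists_step
  obtain ⟨δ₀, C, hδ₀, hC, H⟩ := cut_est (c₁ := c₁) hκ hg hμm
  obtain ⟨C', hC', H'⟩ := norm_sq_le_wen hκ
  have hCe : 0 < C * Real.exp (2 * μm) := by positivity
  refine ⟨δ₀, max (C * Real.exp (2 * μm)) (C' * (C * Real.exp (2 * μm)) + 1), hδ₀,
    lt_max_of_lt_left hCe, ?_⟩
  intro W _ _ _ δ K μ w a b y y' hδ hδ' hS hF hy hG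
  obtain ⟨Sa, Sa', sa1, sa2, sa3, sa4, sa5⟩ := exists_stat hκ (hS.pos a) a
  obtain ⟨Sb, Sb', sb1, -, sb3, -, sb5⟩ := exists_stat hκ (hS.pos b) b
  set G := (Slw (K a) (μ a)).starProjection (Gam (K a) (y a) (y' a)) with hGdef
  set D := Del (K a) (y a) (y' a) with hDdef
  have hGs : G ∈ Slw (K a) (μ a) := Submodule.starProjection_apply_mem _ _
  have hGf : Gam (K a) (y a) (y' a) - G ∈ Fast (K a) (μ a) := by
    rw [fast_eq_orth (hS.pos a)]
    exact (Slw (K a) (μ a)).sub_starProjection_mem_orthogonal (Gam (K a) (y a) (y' a))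
  have hE : ∀ s, a ≤ s → s ≤ a + 1 →
      en (K a) (Sa G D s) (Sa' G D s) ≤ Real.exp (2 * μm) * (‖D‖ + ‖G‖) ^ 2 := fun s hs hs' =>
    (sa5 (μ a) (hS.nn a) G hGs D s hs).trans (mul_le_mul
      (Real.exp_le_exp.2 (by nlinarith [hS.nn a, hS.le a]))
      (by nlinarith [mul_nonneg (norm_nonneg D) (norm_nonneg G)]) (by positivity)
      (Real.exp_pos _).le)
  have hJ : ∀ s, 0 ≤ a + 1 - s → a ≤ s → |s - a| ≤ 1 ∧
      en (K a) (Sa G D s) (Sa' G D s) ≤ Real.exp (2 * μm) * (‖D‖ + ‖G‖) ^ 2 ∧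
      |χ (a + 1 - s)| ≤ 1 ∧ |-χ' (a + 1 - s)| ≤ c₁ ∧ |χ'' (a + 1 - s)| ≤ c₁ := fun s h h' => by
    rw [abs_neg]
    exact ⟨abs_le.2 ⟨by linarith, by linarith⟩, hE s h' (by linarith), h01 _ ⟨h, by linarith⟩⟩
  have hlin : ∀ t, HasDerivAt (fun s : ℝ => a + 1 - s) (-1) t := fun t =>
    (hasDerivAt_id t).const_sub (a + 1)
  have main : ∀ t, a ≤ t → wen K y y' t ≤
      C * Real.exp (2 * μm) * Real.exp (2 * (w t - w a)) * (‖D‖ + ‖G‖) ^ 2 := by
    intro t ht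
    refine le_of_le_of_eq (H δ K μ w a y y' (Sa G D) (Sa' G D) (fun s => χ (a + 1 - s))
      (fun s => -χ' (a + 1 - s))
      (fun s => χ'' (a + 1 - s)) (Real.exp (2 * μm) * (‖D‖ + ‖G‖) ^ 2) a (max b (a + 1))
      (‖Gam (K a) (y a) (y' a) - G‖ ^ 2 * Real.exp (-(2 * w a)))
      ((‖Gam (K b) (y b) (y' b)‖ ^ 2 + ‖Del (K b) (y b) (y' b)‖ ^ 2) *
        Real.exp (-(2 * w b))) hδ hδ' hS hy (sa1 G D)
      (fun t => ((hχ _).comp t (hlin t)).congr_deriv (mul_neg_one _))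
      (fun t => ((hχ' _).comp t (hlin t)).neg.congr_deriv (by rw [mul_neg_one, neg_neg]))
      (hχ''.comp (by fun_prop)) (by positivity) (fun s => ?_) (fun s hs => ?_) (fun s hs => ?_) t
      (fun s hs => ?_)) (by ring)
    · rcases lt_or_ge (a + 1 - s) 0 with h | h
      · exact Or.inr (Or.inl ⟨(h0 _ h).1, by simp [(h0 _ h).2.1], (h0 _ h).2.2⟩)
      rcases le_or_gt a s with h' | h'
      · exact Or.inl (hJ s h h')
      · exact Or.inr (Or.inr ⟨by simp [(h1 (a + 1 - s) (by linarith)).2.1],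
          (h1 _ (by linarith)).2.2, (hF.left s h'.le).1⟩)
    · have hsb := h1 (a + 1 - s) (by linarith)
      have e := eq_static hy (sa1 (Gam (K a) (y a) (y' a)) D) (p := s)
        (q := a) (fun r hr => (hF.left r hr.2).1) ⟨hs.le, le_rfl⟩ (sa3 _ _).1 (sa3 _ _).2 s
        ⟨le_rfl, hs.le⟩
      have := sa4 (μ a) (hS.nn a) _ hGf s hs.le
      rw [hF.weight_left hS.der hs.le, exp_shift, ← sub_self D, (sa2 _ _ _ _ _).1,
        (sa2 _ _ _ _ _).2] at this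
      simp only [hsb.1, hsb.2.1, neg_zero, zero_smul, zero_add, one_smul]
      rwa [e.1, e.2, (hF.left s hs.le).1]
    · have hsb : b ≤ s := (max_lt_iff.1 hs).1.le
      have hsa := h0 (a + 1 - s) (by linarith [(max_lt_iff.1 hs).2])
      have e := eq_static hy (sb1 (Gam (K b) (y b) (y' b)) (Del (K b) (y b) (y' b))) (p := b)
        (q := s) (fun r hr => (hF.right r hr.1).1) ⟨le_rfl, hsb⟩ (sb3 _ _).1 (sb3 _ _).2 s
        ⟨hsb, le_rfl⟩
      have := sb5 (μ b) (hS.nn b) _ hG (Del (K b) (y b) (y' b)) s hsb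
      rw [hF.weight_right hS.der hsb, exp_shift] at this
      simp only [hsa.1, hsa.2.1, neg_zero, zero_smul, add_zero, sub_zero]
      rwa [e.1, e.2, (hF.right s hsb).1]
    · rcases lt_or_ge (a + 1 - s) 0 with h | h
      · exact Or.inr ⟨(h0 _ h).1, by simp [(h0 _ h).2.1]⟩
      · obtain ⟨a1, a2, a3, a4, -⟩ := hJ s h (by linarith [hs.1])
        exact Or.inl ⟨a1, a2, a3, a4⟩
  refine ⟨fun t ht => (main t ht).trans ?_, fun t ht => ?_⟩
  · gcongr
    exact le_max_left _ _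
  · have h2 := H' K y y' t t hS.cont hS.pos (fun s => (hy s trivial).1)
      (continuous_iff_continuousAt.2 fun s => (hy s trivial).2.continuousAt)
      ⟨le_rfl, by linarith⟩
    refine (norm_le_of_sq hC'.le hCe.le (by positivity) (le_refl (w t - w a))
      (h2.trans (mul_le_mul_of_nonneg_left (main t ht) hC'.le))).trans ?_
    gcongr
    exact le_max_right _ _

end Crest.Agent.R202
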