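import Crest.Agent.R202.ASup

/-!
# Row 202, A5 (auxiliary): explicit static solutions, a `C²` step, the cut-off estimate
-/

set_option autoImplicit false
open scoped RealInnerProductSpace ContDiff
open Module Set MeasureTheory

noncomputable section
namespace Crest.Agent.R202

section stat
variable {W : Type} [NormedAddCommGroup W] [InnerProductSpace ℝ W] [FiniteDimensional ℝ W]
  {ι : Type} [Fintype ι]

/-- the static solution with growing components `G` and decaying components `D` at time `c` -/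
def stat (e : OrthonormalBasis ι ℝ W) (κ : ι → ℝ) (c : ℝ) (G D : W) (t : ℝ) : W :=
  ∑ i, ((⟪e i, G⟫ * Real.exp (κ i * (t - c)) - ⟪e i, D⟫ * Real.exp (-(κ i * (t - c)))) /
    (2 * κ i)) • e i

/-- its derivative -/
def stat' (e : OrthonormalBasis ι ℝ W) (κ : ι → ℝ) (c : ℝ) (G D : W) (t : ℝ) : W :=
  ∑ i, ((⟪e i, G⟫ * Real.exp (κ i * (t - c)) + ⟪e i, D⟫ * Real.exp (-(κ i * (t - c)))) / 2) • e i

variable {e : OrthonormalBasis ι ℝ W} {κ : ι → ℝ} {K : W →L[ℝ] W}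

omit [FiniteDimensional ℝ W] in
theorem apply_sum_eig (hK : ∀ i, K (e i) = κ i ^ 2 • e i) (a : ι → ℝ) :
    K (∑ i, a i • e i) = ∑ i, (κ i ^ 2 * a i) • e i := by
  rw [map_sum]
  refine Finset.sum_congr rfl fun i _ => ?_
  rw [map_smul, hK, smul_smul, mul_comm]

omit [FiniteDimensional ℝ W] in
theorem stat_sol (hκ : ∀ i, 0 < κ i) (hK : ∀ i, K (e i) = κ i ^ 2 • e i) (c : ℝ) (G D : W) :
    SolOn (fun _ => K) univ (stat e κ c G D) (stat' e κ c G D) := by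
  intro t _
  have h1 : ∀ i, HasDerivAt (fun t => Real.exp (κ i * (t - c)))
      (Real.exp (κ i * (t - c)) * κ i) t := fun i => by
    simpa using (((hasDerivAt_id t).sub_const c).const_mul (κ i)).exp
  have h2 : ∀ i, HasDerivAt (fun t => Real.exp (-(κ i * (t - c))))
      (Real.exp (-(κ i * (t - c))) * -κ i) t := fun i => by
    simpa using (((hasDerivAt_id t).sub_const c).const_mul (κ i)).neg.exp
  constructor
  · unfold stat stat'
    refine HasDerivAt.fun_sum fun i _ => ?_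
    refine HasDerivAt.smul_const ?_ _
    refine ((((h1 i).const_mul ⟪e i, G⟫).fun_sub ((h2 i).const_mul ⟪e i, D⟫)).div_const
      (2 * κ i)).congr_deriv ?_
    have := (hκ i).ne'
    field_simp
    ring
  · unfold stat stat'
    rw [apply_sum_eig hK]
    refine HasDerivAt.fun_sum fun i _ => ?_
    refine HasDerivAt.smul_const ?_ _
    refine ((((h1 i).const_mul ⟪e i, G⟫).fun_add ((h2 i).const_mul ⟪e i, D⟫)).div_const
      2).congr_deriv ?_
    have := (hκ i).ne'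
    field_simp
    ring

omit [FiniteDimensional ℝ W] in
theorem stat_sub (c : ℝ) (G D G' D' : W) (t : ℝ) :
    stat e κ c (G - G') (D - D') t = stat e κ c G D t - stat e κ c G' D' t ∧
    stat' e κ c (G - G') (D - D') t = stat' e κ c G D t - stat' e κ c G' D' t := by
  unfold stat stat'
  constructor <;>
  · rw [← Finset.sum_sub_distrib]
    refine Finset.sum_congr rfl fun i _ => ?_
    rw [← sub_smul, inner_sub_right, inner_sub_right]
    congr 1
    ring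

theorem stat_init {κ₀ : ℝ} (hP : PosOp κ₀ K) (hκ : ∀ i, 0 < κ i)
    (hr : ∀ i, rt K (e i) = κ i • e i) (c : ℝ) (u v : W) :
    stat e κ c (Gam K u v) (Del K u v) c = u ∧ stat' e κ c (Gam K u v) (Del K u v) c = v := by
  have h : ∀ i, ⟪e i, rt K u⟫ = κ i * ⟪e i, u⟫ := fun i => by
    rw [← rt_sym hP, hr, real_inner_smul_left]
  unfold stat stat' Gam Del
  constructor
  · refine Eq.trans (Finset.sum_congr rfl fun i _ => ?_) (e.sum_repr' u)
    rw [inner_add_right, inner_sub_right, h]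
    congr 1
    have := (hκ i).ne'
    simp only [sub_self, mul_zero, neg_zero, Real.exp_zero]
    field_simp
    ring
  · refine Eq.trans (Finset.sum_congr rfl fun i _ => ?_) (e.sum_repr' v)
    rw [inner_add_right, inner_sub_right, h]
    congr 1
    simp only [sub_self, mul_zero, neg_zero, Real.exp_zero]
    ring

theorem mode_le {x r m : ℝ} (h : x = 0 ∨ r ≤ m) :
    (x * Real.exp r) ^ 2 ≤ Real.exp (2 * m) * x ^ 2 := by
  rcases h with rfl | h
  · simp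
  · rw [mul_pow, mul_comm, ← Real.exp_nat_mul]
    exact mul_le_mul_of_nonneg_right (Real.exp_le_exp.2 (by push_cast; linarith)) (sq_nonneg _)

omit [FiniteDimensional ℝ W] in
theorem stat_en (hκ : ∀ i, 0 < κ i) (hK : ∀ i, K (e i) = κ i ^ 2 • e i) (c : ℝ) (G D : W)
    (t m : ℝ) (hG : ∀ i, ⟪e i, G⟫ = 0 ∨ κ i * (t - c) ≤ m)
    (hD : ∀ i, ⟪e i, D⟫ = 0 ∨ -(κ i * (t - c)) ≤ m) :
    en K (stat e κ c G D t) (stat' e κ c G D t) ≤ Real.exp (2 * m) * (‖G‖ ^ 2 + ‖D‖ ^ 2) := by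
  unfold en stat stat'
  rw [apply_sum_eig hK, ← real_inner_self_eq_norm_sq, e.orthonormal.inner_sum,
    e.orthonormal.inner_sum, ← e.sum_sq_inner_right G, ← e.sum_sq_inner_right D,
    ← Finset.sum_add_distrib, ← Finset.sum_add_distrib, Finset.mul_sum]
  refine Finset.sum_le_sum fun i _ => ?_
  have h1 := mode_le (hG i)
  have h2 := mode_le (hD i)
  have h3 := (hκ i).ne'
  simp only [conj_trivial]
  generalize ⟪e i, G⟫ * Real.exp (κ i * (t - c)) = p at *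
  generalize ⟪e i, D⟫ * Real.exp (-(κ i * (t - c))) = q at *
  have e1 : κ i ^ 2 * ((p - q) / (2 * κ i)) * ((p - q) / (2 * κ i)) = (p - q) ^ 2 / 4 := by
    field_simp
    ring
  rw [e1]
  nlinarith [sq_nonneg p, sq_nonneg q]

theorem exists_stat {κ₀ : ℝ} (hκ : 0 < κ₀) (hP : PosOp κ₀ K) (c : ℝ) :
    ∃ S S' : W → W → ℝ → W, (∀ G D, SolOn (fun _ => K) univ (S G D) (S' G D)) ∧
      (∀ G D G' D' t, S (G - G') (D - D') t = S G D t - S G' D' t ∧
        S' (G - G') (D - D') t = S' G D t - S' G' D' t) ∧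
      (∀ u v, S (Gam K u v) (Del K u v) c = u ∧ S' (Gam K u v) (Del K u v) c = v) ∧
      (∀ μ, 0 ≤ μ → ∀ G ∈ Fast K μ, ∀ t, t ≤ c →
        en K (S G 0 t) (S' G 0 t) ≤ Real.exp (2 * (μ * (t - c))) * ‖G‖ ^ 2) ∧
      (∀ μ, 0 ≤ μ → ∀ G ∈ Slw K μ, ∀ D t, c ≤ t →
        en K (S G D t) (S' G D t) ≤ Real.exp (2 * (μ * (t - c))) * (‖G‖ ^ 2 + ‖D‖ ^ 2)) := by
  obtain ⟨e, κ, h⟩ := hP.exists_basis hκ.le
  have h0 : ∀ i, 0 < κ i := fun i => hκ.trans_le (h i).1
  have h1 : ∀ i, K (e i) = κ i ^ 2 • e i := fun i => (h i).2.1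
  have hE : ∀ i, e i ∈ Module.End.eigenspace (K : W →ₗ[ℝ] W) (κ i ^ 2) := fun i =>
    Module.End.mem_eigenspace_iff.2 (h1 i)
  refine ⟨stat e κ c, stat' e κ c, stat_sol h0 h1 c, stat_sub c,
    stat_init hP h0 (fun i => (h i).2.2) c, fun μ hμ G hG t ht => ?_,
    fun μ hμ G hG D t ht => ?_⟩
  · have := stat_en h0 h1 c G 0 t (μ * (t - c)) (fun i => ?_) (fun i => Or.inl (by simp))
    · simpa using this
    by_cases hi : κ i ^ 2 ≤ μ ^ 2
    · left
      rw [fast_eq_orth hP] at hG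
      exact hG _ (Submodule.mem_iSup_of_mem (κ i ^ 2) (Submodule.mem_iSup_of_mem hi (hE i)))
    · right
      have : μ ≤ κ i := (abs_lt_of_sq_lt_sq' (not_le.1 hi) (h0 i).le).2.le
      nlinarith
  · refine stat_en h0 h1 c G D t (μ * (t - c)) (fun i => ?_) (fun i => Or.inr ?_)
    · by_cases hi : κ i ^ 2 ≤ μ ^ 2
      · right
        have : κ i ≤ μ := (abs_le_of_sq_le_sq' hi hμ).2
        nlinarith
      · left
        have hf : e i ∈ Fast K μ :=
          Submodule.mem_iSup_of_mem (κ i ^ 2) (Submodule.mem_iSup_of_mem (not_le.1 hi) (hE i))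
        rw [fast_eq_orth hP] at hf
        rw [real_inner_comm]
        exact hf _ hG
    · have := h0 i
      nlinarith

/-- a solution agrees with a static solution where the operator is frozen -/
theorem eq_static {Kt : ℝ → W →L[ℝ] W} {y y' z z' : ℝ → W} (hy : SolOn Kt univ y y')
    (hz : SolOn (fun _ => K) univ z z') {p q c : ℝ} (h : ∀ s ∈ Icc p q, Kt s = K)
    (hc : c ∈ Icc p q) (h1 : z c = y c) (h2 : z' c = y' c) :
    ∀ t ∈ Icc p q, y t = z t ∧ y' t = z' t :=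
  solOn_unique (K := fun _ => K) continuousOn_const
    (fun s hs => by have := hy s (mem_univ _); rwa [h s hs] at this)
    (fun s _ => hz s (mem_univ _)) hc h1.symm h2.symm

end stat

theorem exists_step : ∃ (c : ℝ) (χ χ' χ'' : ℝ → ℝ), 0 ≤ c ∧ (∀ t, HasDerivAt χ (χ' t) t) ∧
    (∀ t, HasDerivAt χ' (χ'' t) t) ∧ Continuous χ'' ∧
    (∀ t, t < 0 → χ t = 0 ∧ χ' t = 0 ∧ χ'' t = 0) ∧
    (∀ t, 1 < t → χ t = 1 ∧ χ' t = 0 ∧ χ'' t = 0) ∧
    ∀ t ∈ Icc (0 : ℝ) 1, |χ t| ≤ 1 ∧ |χ' t| ≤ c ∧ |χ'' t| ≤ c := by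
  have h0 : ContDiff ℝ (2 : ℕ) Real.smoothTransition := Real.smoothTransition.contDiff (n := 2)
  have h1 : ContDiff ℝ (1 : ℕ) (deriv Real.smoothTransition) := h0.deriv'
  have h2 : Continuous (deriv (deriv Real.smoothTransition)) := h1.continuous_deriv le_rfl
  have hconst : ∀ (U : Set ℝ) (a : ℝ), IsOpen U → (∀ s ∈ U, Real.smoothTransition s = a) →
      ∀ t ∈ U, deriv Real.smoothTransition t = 0 ∧ deriv (deriv Real.smoothTransition) t = 0 := by
    intro U a hU ha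
    have hd : ∀ t ∈ U, deriv Real.smoothTransition t = 0 := fun t ht => by
      have : Real.smoothTransition =ᶠ[nhds t] fun _ => a :=
        Filter.eventually_of_mem (hU.mem_nhds ht) ha
      rw [this.deriv_eq, deriv_const]
    refine fun t ht => ⟨hd t ht, ?_⟩
    have : deriv Real.smoothTransition =ᶠ[nhds t] fun _ => 0 :=
      Filter.eventually_of_mem (hU.mem_nhds ht) hd
    rw [this.deriv_eq, deriv_const]
  obtain ⟨c1, hc1⟩ := (isCompact_Icc (a := (0 : ℝ)) (b := 1)).exists_bound_of_continuousOn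
    h1.continuous.continuousOn
  obtain ⟨c2, hc2⟩ := (isCompact_Icc (a := (0 : ℝ)) (b := 1)).exists_bound_of_continuousOn
    h2.continuousOn
  refine ⟨max 0 (max c1 c2), Real.smoothTransition, deriv Real.smoothTransition,
    deriv (deriv Real.smoothTransition), le_max_left _ _,
    fun t => (h0.differentiable (by simp) t).hasDerivAt,
    fun t => (h1.differentiable (by simp) t).hasDerivAt, h2, fun t ht => ?_, fun t ht => ?_,
    fun t ht => ⟨?_, ?_, ?_⟩⟩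
  · exact ⟨Real.smoothTransition.zero_of_nonpos ht.le, hconst (Iio 0) 0 isOpen_Iio
      (fun s hs => Real.smoothTransition.zero_of_nonpos (le_of_lt hs)) t ht⟩
  · exact ⟨Real.smoothTransition.one_of_one_le ht.le, hconst (Ioi 1) 1 isOpen_Ioi
      (fun s hs => Real.smoothTransition.one_of_one_le (le_of_lt hs)) t ht⟩
  · rw [abs_of_nonneg (Real.smoothTransition.nonneg t)]
    exact Real.smoothTransition.le_one t
  · exact (hc1 t ht).trans ((le_max_left _ _).trans (le_max_right _ _))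
  · exact (hc2 t ht).trans ((le_max_right _ _).trans (le_max_right _ _))

theorem exists_slope {w μ : ℝ → ℝ} (h : ∀ t, HasDerivAt w (μ t) t) {s t : ℝ} (hst : s ≤ t) :
    ∃ ξ ∈ Icc s t, w t - w s = μ ξ * (t - s) := by
  rcases hst.eq_or_lt with rfl | hlt
  · exact ⟨s, ⟨le_rfl, le_rfl⟩, by simp⟩
  · obtain ⟨ξ, hξ, e⟩ := exists_hasDerivAt_eq_slope w μ hlt
      (fun x _ => (h x).continuousAt.continuousWithinAt) (fun x _ => h x)
    refine ⟨ξ, Ioo_subset_Icc_self hξ, ?_⟩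
    rw [e, div_mul_cancel₀ _ (sub_pos.2 hlt).ne']

theorem exists_bound_of_tails {f : ℝ → ℝ} (hf : Continuous f) {s₁ s₂ B₁ B₂ : ℝ}
    (h1 : ∀ s, s < s₁ → f s ≤ B₁) (h2 : ∀ s, s₂ < s → f s ≤ B₂) : ∃ B, ∀ s, f s ≤ B := by
  obtain ⟨B, hB⟩ := (isCompact_Icc (a := s₁) (b := s₂)).exists_bound_of_continuousOn
    hf.continuousOn
  refine ⟨max B (max B₁ B₂), fun s => ?_⟩
  rcases lt_or_ge s s₁ with h | h
  · exact (h1 s h).trans ((le_max_left _ _).trans (le_max_right _ _))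
  rcases lt_or_ge s₂ s with h' | h'
  · exact (h2 s h').trans ((le_max_right _ _).trans (le_max_right _ _))
  · exact ((le_abs_self _).trans (hB s ⟨h, h'⟩)).trans (le_max_left _ _)

section cut
variable {W : Type} [NormedAddCommGroup W] [InnerProductSpace ℝ W] [FiniteDimensional ℝ W]
  {κ₀ : ℝ} {K K₀ K₁ : W →L[ℝ] W}

theorem abs_inner_le_rt (hP : PosOp κ₀ K) (x u : W) : |⟪K x, u⟫| ≤ ‖rt K x‖ * ‖rt K u‖ := by
  rw [← rt_rt hP, rt_sym hP]
  exact abs_real_inner_le_norm _ _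

theorem norm_le_rt (hκ : 0 < κ₀) (hP : PosOp κ₀ K) (x : W) : ‖x‖ ≤ κ₀⁻¹ * ‖rt K x‖ := by
  rw [le_inv_mul_iff₀ hκ]
  refine (abs_le_of_sq_le_sq' ?_ (norm_nonneg _)).2
  rw [norm_rt_sq hP, mul_pow]
  exact hP.pos x

theorem en_nonneg (hP : PosOp κ₀ K) (x v : W) : 0 ≤ en K x v := by
  unfold en
  rw [← norm_rt_sq hP]
  positivity

omit [InnerProductSpace ℝ W] [FiniteDimensional ℝ W] in
theorem norm_add_sq_le_two (x y : W) : ‖x + y‖ ^ 2 ≤ 2 * ‖x‖ ^ 2 + 2 * ‖y‖ ^ 2 := by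
  have := norm_add_le x y
  have h := mul_self_le_mul_self (norm_nonneg _) this
  nlinarith [sq_nonneg (‖x‖ - ‖y‖)]

theorem en_add_le (hP : PosOp κ₀ K) (x v x' v' : W) :
    en K (x + x') (v + v') ≤ 2 * en K x v + 2 * en K x' v' := by
  unfold en
  rw [← norm_rt_sq hP, ← norm_rt_sq hP, ← norm_rt_sq hP, map_add]
  have h1 := norm_add_sq_le_two v v'
  have h2 := norm_add_sq_le_two (rt K x) (rt K x')
  linarith

theorem force_le (hκ : 0 < κ₀) (hP₀ : PosOp κ₀ K₀) (hP₁ : PosOp κ₀ K₁)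
    (h01 : ∀ u, ⟪K₀ u, u⟫ ≤ 2 * ⟪K₁ u, u⟫) (h10 : ∀ u, ⟪K₁ u, u⟫ ≤ 2 * ⟪K₀ u, u⟫) {x v : W}
    {E a a' a'' c : ℝ} (hE : en K₀ x v ≤ E) (ha : |a| ≤ 1) (ha' : |a'| ≤ c) (ha'' : |a''| ≤ c)
    (u : W) : ⟪a • (K₁ x - K₀ x) - a'' • x - (2 * a') • v, u⟫ ^ 2 ≤
      (4 + c * κ₀⁻¹ ^ 2 + 2 * c * κ₀⁻¹) ^ 2 * E * ⟪K₁ u, u⟫ := by
  have hE0 : 0 ≤ E := (en_nonneg hP₀ x v).trans hE
  have hc : 0 ≤ c := (abs_nonneg _).trans ha'
  have hk : 0 < κ₀⁻¹ := inv_pos.2 hκ
  unfold en at hE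
  rw [← norm_rt_sq hP₀] at hE
  have b1 : ‖rt K₀ x‖ ≤ √E := Real.le_sqrt_of_sq_le (by nlinarith [sq_nonneg ‖v‖])
  have b2 : ‖v‖ ≤ √E := Real.le_sqrt_of_sq_le (by nlinarith [sq_nonneg ‖rt K₀ x‖])
  have b3 : ‖rt K₁ x‖ ≤ 2 * ‖rt K₀ x‖ := by
    refine (abs_le_of_sq_le_sq' ?_ (by positivity)).2
    have := h10 x
    rw [← norm_rt_sq hP₀, ← norm_rt_sq hP₁] at this
    nlinarith [sq_nonneg ‖rt K₀ x‖]
  have b4 : ‖rt K₀ u‖ ≤ 2 * ‖rt K₁ u‖ := by
    refine (abs_le_of_sq_le_sq' ?_ (by positivity)).2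
    have := h01 u
    rw [← norm_rt_sq hP₀, ← norm_rt_sq hP₁] at this
    nlinarith [sq_nonneg ‖rt K₁ u‖]
  have b5 : ‖x‖ ≤ κ₀⁻¹ * √E := (norm_le_rt hκ hP₀ x).trans (mul_le_mul_of_nonneg_left b1 hk.le)
  have b6 := norm_le_rt hκ hP₁ u
  have c1 : |⟪K₁ x, u⟫| ≤ 2 * √E * ‖rt K₁ u‖ :=
    (abs_inner_le_rt hP₁ x u).trans (mul_le_mul_of_nonneg_right (by linarith) (norm_nonneg _))
  have c2 : |⟪K₀ x, u⟫| ≤ √E * (2 * ‖rt K₁ u‖) :=
    (abs_inner_le_rt hP₀ x u).trans (mul_le_mul b1 b4 (norm_nonneg _) (Real.sqrt_nonneg _))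
  have c3 : |⟪x, u⟫| ≤ κ₀⁻¹ * √E * (κ₀⁻¹ * ‖rt K₁ u‖) :=
    (abs_real_inner_le_norm _ _).trans (mul_le_mul b5 b6 (norm_nonneg _) (by positivity))
  have c4 : |⟪v, u⟫| ≤ √E * (κ₀⁻¹ * ‖rt K₁ u‖) :=
    (abs_real_inner_le_norm _ _).trans (mul_le_mul b2 b6 (norm_nonneg _) (by positivity))
  have d1 : |a * (⟪K₁ x, u⟫ - ⟪K₀ x, u⟫)| ≤ 4 * √E * ‖rt K₁ u‖ := by
    rw [abs_mul]
    have := abs_sub ⟪K₁ x, u⟫ ⟪K₀ x, u⟫
    have h := mul_le_mul_of_nonneg_right ha (abs_nonneg (⟪K₁ x, u⟫ - ⟪K₀ x, u⟫))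
    linarith
  have d2 : |a'' * ⟪x, u⟫| ≤ c * (κ₀⁻¹ * √E * (κ₀⁻¹ * ‖rt K₁ u‖)) := by
    rw [abs_mul]
    exact mul_le_mul ha'' c3 (abs_nonneg _) hc
  have d3 : |2 * a' * ⟪v, u⟫| ≤ 2 * c * (√E * (κ₀⁻¹ * ‖rt K₁ u‖)) := by
    rw [abs_mul, abs_mul, abs_two]
    exact mul_le_mul (by linarith) c4 (abs_nonneg _) (by positivity)
  have key : |⟪a • (K₁ x - K₀ x) - a'' • x - (2 * a') • v, u⟫| ≤
      (4 + c * κ₀⁻¹ ^ 2 + 2 * c * κ₀⁻¹) * √E * ‖rt K₁ u‖ := by
    rw [inner_sub_left, inner_sub_left, real_inner_smul_left, real_inner_smul_left,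
      real_inner_smul_left, inner_sub_left]
    have e1 := abs_sub (a * (⟪K₁ x, u⟫ - ⟪K₀ x, u⟫) - a'' * ⟪x, u⟫) (2 * a' * ⟪v, u⟫)
    have e2 := abs_sub (a * (⟪K₁ x, u⟫ - ⟪K₀ x, u⟫)) (a'' * ⟪x, u⟫)
    linarith
  calc _ = |⟪a • (K₁ x - K₀ x) - a'' • x - (2 * a') • v, u⟫| ^ 2 := (sq_abs _).symm
    _ ≤ ((4 + c * κ₀⁻¹ ^ 2 + 2 * c * κ₀⁻¹) * √E * ‖rt K₁ u‖) ^ 2 :=
        pow_le_pow_left₀ (abs_nonneg _) key 2
    _ = _ := by rw [mul_pow, mul_pow, Real.sq_sqrt hE0, norm_rt_sq hP₁]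

theorem en_cut_le (hκ : 0 < κ₀) (hP₀ : PosOp κ₀ K₀)
    (h10 : ∀ u, ⟪K₁ u, u⟫ ≤ 2 * ⟪K₀ u, u⟫) {x v : W}
    {E a a' c : ℝ} (hE : en K₀ x v ≤ E) (ha : |a| ≤ 1) (ha' : |a'| ≤ c) :
    en K₁ (a • x) (a' • x + a • v) ≤ (4 + 2 * (c * κ₀⁻¹) ^ 2) * E := by
  have hk : 0 < κ₀⁻¹ := inv_pos.2 hκ
  unfold en at hE ⊢
  have h1 := norm_add_sq_le_two (a' • x) (a • v)
  have h2 := h10 x
  have h3 := norm_le_rt hκ hP₀ x
  rw [← norm_rt_sq hP₀] at hE h2
  rw [map_smul, real_inner_smul_left, real_inner_smul_right, ← mul_assoc]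
  rw [norm_smul, norm_smul, mul_pow, mul_pow, Real.norm_eq_abs, Real.norm_eq_abs] at h1
  have a1 : |a| ^ 2 ≤ 1 := by nlinarith [abs_nonneg a]
  have a2 : a * a ≤ 1 := by rw [← sq, ← sq_abs]; exact a1
  have a3 : |a'| ^ 2 ≤ c ^ 2 := pow_le_pow_left₀ (abs_nonneg _) ha' 2
  have a4 : ‖x‖ ^ 2 ≤ κ₀⁻¹ ^ 2 * E := by
    refine (pow_le_pow_left₀ (norm_nonneg _) h3 2).trans ?_
    rw [mul_pow]
    exact mul_le_mul_of_nonneg_left (by nlinarith [sq_nonneg ‖v‖]) (by positivity)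
  have a5 : |a'| ^ 2 * ‖x‖ ^ 2 ≤ c ^ 2 * (κ₀⁻¹ ^ 2 * E) :=
    mul_le_mul a3 a4 (by positivity) (by positivity)
  have a6 : |a| ^ 2 * ‖v‖ ^ 2 ≤ ‖v‖ ^ 2 := by nlinarith [sq_nonneg ‖v‖]
  have a7 : a * a * ⟪K₁ x, x⟫ ≤ 2 * ‖rt K₀ x‖ ^ 2 := by
    nlinarith [mul_self_nonneg a, sq_nonneg ‖rt K₀ x‖]
  nlinarith [sq_nonneg ‖v‖, sq_nonneg ‖rt K₀ x‖]

omit [FiniteDimensional ℝ W] in
theorem continuous_en {K : ℝ → W →L[ℝ] W} (hK : Continuous K) {y y' : ℝ → W} (hy : Continuous y)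
    (hy' : Continuous y') : Continuous fun s => en (K s) (y s) (y' s) := by
  unfold en
  exact (hy'.norm.pow 2).add ((hK.clm_apply hy).inner hy)

end cut

theorem weight_le {w μ : ℝ → ℝ} {μm : ℝ} (h : ∀ t, HasDerivAt w (μ t) t) (h0 : ∀ t, 0 ≤ μ t)
    (h1 : ∀ t, μ t ≤ μm) {s t : ℝ} (hst : s ≤ t) : w s ≤ w t ∧ w t ≤ w s + μm * (t - s) := by
  obtain ⟨ξ, -, e⟩ := exists_slope h hst
  have a1 := h0 ξ
  have a2 := h1 ξ
  constructor <;> nlinarith

theorem weight_near {w μ : ℝ → ℝ} {μm : ℝ} (h : ∀ t, HasDerivAt w (μ t) t) (h0 : ∀ t, 0 ≤ μ t)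
    (h1 : ∀ t, μ t ≤ μm) {s t : ℝ} (hst : |s - t| ≤ 1) : w t ≤ w s + μm := by
  have hm : 0 ≤ μm := (h0 0).trans (h1 0)
  rw [abs_le] at hst
  rcases le_total s t with h' | h'
  · have := (weight_le h h0 h1 h').2
    nlinarith
  · have := (weight_le h h0 h1 h').1
    linarith

theorem window_le {w μ f : ℝ → ℝ} {μm B : ℝ} (h : ∀ t, HasDerivAt w (μ t) t) (h0 : ∀ t, 0 ≤ μ t)
    (h1 : ∀ t, μ t ≤ μm) (hf : Continuous f) (hB : 0 ≤ B) {t : ℝ}
    (hle : ∀ s ∈ Icc t (t + 1), f s ≤ B * Real.exp (2 * w s)) :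
    ∫ s in t..t + 1, f s ≤ B * Real.exp (2 * μm) * Real.exp (2 * w t) := by
  have := intervalIntegral.integral_mono_on (μ := volume) (f := f)
    (g := fun _ => B * Real.exp (2 * μm) * Real.exp (2 * w t)) (a := t) (b := t + 1)
    (by linarith) (hf.intervalIntegrable _ _) (continuous_const.intervalIntegrable _ _)
    (fun s hs => (hle s hs).trans (by
      rw [mul_assoc, ← Real.exp_add]
      refine mul_le_mul_of_nonneg_left (Real.exp_le_exp.2 ?_) hB
      have := weight_near h h0 h1 (s := t) (t := s) (abs_le.2 ⟨by linarith [hs.2], by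
        linarith [hs.1]⟩)
      linarith))
  simpa using this

/-- subtract a cut-off static solution and apply `sup_est` -/
theorem cut_est {κ₀ g μm c₁ : ℝ} (hκ : 0 < κ₀) (hg : 0 < g) (hμm : 0 ≤ μm) :
    ∃ δ₀ C : ℝ, 0 < δ₀ ∧ 0 < C ∧
    ∀ {W : Type} [NormedAddCommGroup W] [InnerProductSpace ℝ W] [FiniteDimensional ℝ W]
      (δ : ℝ) (K : ℝ → W →L[ℝ] W) (μ w : ℝ → ℝ) (c : ℝ) (y y' z z' : ℝ → W) (χ χ' χ'' : ℝ → ℝ)
      (E s₁ s₂ B₁ B₂ : ℝ), 0 ≤ δ → δ ≤ δ₀ → SlowW κ₀ g μm δ K μ w → SolOn K univ y y' →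
      SolOn (fun _ => K c) univ z z' → (∀ t, HasDerivAt χ (χ' t) t) →
      (∀ t, HasDerivAt χ' (χ'' t) t) → Continuous χ'' → 0 ≤ E →
      (∀ s, (|s - c| ≤ 1 ∧ en (K c) (z s) (z' s) ≤ E ∧ |χ s| ≤ 1 ∧ |χ' s| ≤ c₁ ∧ |χ'' s| ≤ c₁) ∨
        (χ s = 0 ∧ χ' s = 0 ∧ χ'' s = 0) ∨ (χ' s = 0 ∧ χ'' s = 0 ∧ K s = K c)) →
      (∀ s, s < s₁ → en (K s) (y s - χ s • z s) (y' s - (χ' s • z s + χ s • z' s)) ≤
        B₁ * Real.exp (2 * w s)) →
      (∀ s, s₂ < s → en (K s) (y s - χ s • z s) (y' s - (χ' s • z s + χ s • z' s)) ≤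
        B₂ * Real.exp (2 * w s)) →
      ∀ t, (∀ s ∈ Icc t (t + 1), (|s - c| ≤ 1 ∧ en (K c) (z s) (z' s) ≤ E ∧ |χ s| ≤ 1 ∧
        |χ' s| ≤ c₁) ∨ (χ s = 0 ∧ χ' s = 0)) →
        wen K y y' t ≤ C * Real.exp (2 * (w t - w c)) * E := by
  obtain ⟨δ₀, C, hδ₀, hC, H⟩ := sup_est hκ hg hμm
  set C₁ := (4 + c₁ * κ₀⁻¹ ^ 2 + 2 * c₁ * κ₀⁻¹) ^ 2 with hC₁
  set C₂ := 4 + 2 * (c₁ * κ₀⁻¹) ^ 2 with hC₂
  have hC₁0 : 0 ≤ C₁ := sq_nonneg _
  have hC₂0 : 0 < C₂ := by positivity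
  refine ⟨min δ₀ 1, (2 * C * C₁ + 2 * C₂) * (Real.exp (2 * μm) * Real.exp (2 * μm)),
    lt_min hδ₀ one_pos, by positivity, ?_⟩
  intro W _ _ _ δ K μ w c y y' z z' χ χ' χ'' E s₁ s₂ B₁ B₂ hδ hδ' hS hy hz hχ hχ' hχ'' hE hcase
    hB₁ hB₂ t ht
  have hδ1 : δ ≤ 1 := hδ'.trans (min_le_right _ _)
  have hnn : ∀ s u, 0 ≤ ⟪K s u, u⟫ := fun s u => le_trans (by positivity) ((hS.pos s).pos u)
  have hcmp : ∀ s r, |s - r| ≤ 1 → ∀ u, ⟪K s u, u⟫ ≤ 2 * ⟪K r u, u⟫ := by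
    intro s r hsr u
    have h1 := (abs_le.1 (hS.slow r s u)).2
    have h2 : δ * |s - r| ≤ 1 := by nlinarith [abs_nonneg (s - r)]
    nlinarith [hnn r u]
  have cw : Continuous w := continuous_iff_continuousAt.2 fun s => (hS.der s).continuousAt
  have cy : Continuous y := continuous_iff_continuousAt.2 fun s => (hy s trivial).1.continuousAt
  have cy' : Continuous y' := continuous_iff_continuousAt.2 fun s => (hy s trivial).2.continuousAt
  have cz : Continuous z := continuous_iff_continuousAt.2 fun s => (hz s trivial).1.continuousAt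
  have cz' : Continuous z' := continuous_iff_continuousAt.2 fun s => (hz s trivial).2.continuousAt
  have cχ : Continuous χ := continuous_iff_continuousAt.2 fun s => (hχ s).continuousAt
  have cχ' : Continuous χ' := continuous_iff_continuousAt.2 fun s => (hχ' s).continuousAt
  -- the weight factor
  set A := E * Real.exp (2 * μm) * Real.exp (-(2 * w c)) with hA
  have hA0 : 0 ≤ A := by positivity
  have hAE : ∀ s, |s - c| ≤ 1 → E ≤ A * Real.exp (2 * w s) := by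
    intro s hs
    have := weight_near hS.der hS.nn hS.le hs
    rw [hA, mul_assoc, mul_assoc, ← Real.exp_add, ← Real.exp_add]
    exact le_mul_of_one_le_right hE (Real.one_le_exp (by linarith))
  have cx : Continuous fun s => y s - χ s • z s := cy.sub (cχ.smul cz)
  have cx' : Continuous fun s => y' s - (χ' s • z s + χ s • z' s) :=
    cy'.sub ((cχ'.smul cz).add (cχ.smul cz'))
  have cen := continuous_en hS.cont cx cx'
  have main := H δ K μ w (fun s => y s - χ s • z s) (fun s => y' s - (χ' s • z s + χ s • z' s))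
    (fun s => χ s • (K s (z s) - K c (z s)) - χ'' s • z s - (2 * χ' s) • z' s)
    (fun s => C₁ * A * Real.exp (2 * w s)) (C₁ * A * Real.exp (2 * μm)) hδ
    (hδ'.trans (min_le_left _ _)) hS
    (fun s => ((hy s trivial).1.fun_sub ((hχ s).fun_smul (hz s trivial).1)).congr_deriv
      (by rw [add_comm]))
    (fun s => ((hy s trivial).2.fun_sub (((hχ' s).fun_smul (hz s trivial).1).fun_add
      ((hχ s).fun_smul (hz s trivial).2))).congr_deriv
      (by simp only [map_sub, map_smul]; module))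
    (((cχ.smul ((hS.cont.clm_apply cz).sub ((K c).continuous.comp cz))).sub (hχ''.smul cz)).sub
      ((continuous_const.mul cχ').smul cz'))
    (continuous_const.mul (continuous_const.mul cw).rexp)
    (fun s u => ?_) (fun s => by positivity)
    (fun s => window_le hS.der hS.nn hS.le (continuous_const.mul (continuous_const.mul cw).rexp)
      (by positivity) fun _ _ => le_rfl) ?_ t
  · have c2 : Continuous fun s => en (K s) (χ s • z s) (χ' s • z s + χ s • z' s) :=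
      continuous_en hS.cont (cχ.smul cz) ((cχ'.smul cz).add (cχ.smul cz'))
    have h2 := window_le hS.der hS.nn hS.le c2 (B := C₂ * A) (by positivity) (t := t)
      (fun s hs => by
        rcases ht s hs with ⟨a1, a2, a3, a4⟩ | ⟨a1, a2⟩
        · refine (en_cut_le hκ (hS.pos c) (hcmp s c a1) a2 a3 a4).trans ?_
          rw [mul_assoc]
          exact mul_le_mul_of_nonneg_left (hAE s a1) hC₂0.le
        · rw [a1, a2]
          simp only [en, zero_smul, add_zero, norm_zero, map_zero, inner_zero_left]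
          rw [zero_pow two_ne_zero]
          positivity)
    have h3 : wen K y y' t ≤ 2 * wen K (fun s => y s - χ s • z s)
        (fun s => y' s - (χ' s • z s + χ s • z' s)) t +
        2 * ∫ s in t..t + 1, en (K s) (χ s • z s) (χ' s • z s + χ s • z' s) := by
      unfold wen
      rw [← intervalIntegral.integral_const_mul, ← intervalIntegral.integral_const_mul,
        ← intervalIntegral.integral_add ((cen.intervalIntegrable _ _).const_mul 2)
          ((c2.intervalIntegrable _ _).const_mul 2)]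
      refine intervalIntegral.integral_mono_on (by linarith)
        ((continuous_en hS.cont cy cy').intervalIntegrable _ _)
        (((cen.intervalIntegrable _ _).const_mul 2).add ((c2.intervalIntegrable _ _).const_mul 2))
        fun s _ => ?_
      have := en_add_le (hS.pos s) (y s - χ s • z s) (y' s - (χ' s • z s + χ s • z' s))
        (χ s • z s) (χ' s • z s + χ s • z' s)
      rwa [sub_add_cancel, sub_add_cancel] at this
    have e1 : Real.exp (2 * (w t - w c)) = Real.exp (-(2 * w c)) * Real.exp (2 * w t) := by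
      rw [← Real.exp_add]
      congr 1
      ring
    refine h3.trans (le_of_le_of_eq (add_le_add (mul_le_mul_of_nonneg_left main zero_le_two)
      (mul_le_mul_of_nonneg_left h2 zero_le_two)) ?_)
    rw [e1, hA]
    ring
  · rcases hcase s with ⟨a1, a2, a3, a4, a5⟩ | ⟨a1, a2, a3⟩ | ⟨a1, a2, a3⟩
    · refine (force_le hκ (hS.pos c) (hS.pos s) (hcmp c s (by rwa [abs_sub_comm])) (hcmp s c a1)
        a2 a3 a4 a5 u).trans (mul_le_mul_of_nonneg_right ?_ (hnn s u))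
      rw [mul_assoc C₁]
      exact mul_le_mul_of_nonneg_left (hAE s a1) hC₁0
    · simp only [a1, a2, a3, zero_smul, mul_zero, sub_zero, inner_zero_left]
      have := hnn s u
      rw [zero_pow two_ne_zero]
      positivity
    · simp only [a1, a2, a3, zero_smul, mul_zero, sub_self, smul_zero, inner_zero_left]
      have := hnn c u
      rw [zero_pow two_ne_zero]
      positivity
  · obtain ⟨B, hB⟩ := exists_bound_of_tails
      (f := fun s => en (K s) (y s - χ s • z s) (y' s - (χ' s • z s + χ s • z' s)) /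
        Real.exp (2 * w s))
      (cen.div (continuous_const.mul cw).rexp fun _ => (Real.exp_pos _).ne')
      (fun s hs => (div_le_iff₀ (Real.exp_pos _)).2 (hB₁ s hs))
      (fun s hs => (div_le_iff₀ (Real.exp_pos _)).2 (hB₂ s hs))
    refine ⟨max B 0 * Real.exp (2 * μm), fun s => window_le hS.der hS.nn hS.le cen
      (le_max_right _ _) fun r _ => ?_⟩
    exact ((div_le_iff₀ (Real.exp_pos _)).1 (hB r)).trans
      (mul_le_mul_of_nonneg_right (le_max_left _ _) (Real.exp_pos _).le)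

end Crest.Agent.R202
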