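import Crest.Agent.R202.AMatchAux2

/-!
# Row 202, A9: relaxed matching over `ν` events

Unknowns: Cauchy data `x_p ∈ 𝒜 p` at `a p` (`p ≤ ν`) and multipliers `β_p ∈ span{ψ p i : i ≠ k p}`
(`p < ν`).  Let `y_p` be the global solution of `y'' = K c y` with data `x_p` (`exists_prop` for the
first-order system on `W × W`).  Equations: at `a (p+1) = b p + 1`,
`Δ(y_p) = Δ(y_{p+1})`, `Γ(y_p) = Γ(y_{p+1}) + β_p` (components for `K₀ (b p) = K₀ (a (p+1))`);
`Δ(y_0)(a 0) = 0`, `⟪Γ(y_0)(a 0), eL 0⟫ = x₀`, `Loᗮ`-part of `Γ(y_ν)(b ν) = 0`.  The system is square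
(`PhaseOut.dim`).  A priori bound: with `N_0 = 1`, `N_{p+1} = N_p |A p| e^{κ p (k p)}` and
`Ξ = max_p Ξ_p / N_p`, `PhaseOut.est` and `event_est` give
`| |s_{p+1}|/N_{p+1} - |s_p|/N_p | ≤ C ε_p Ξ`, `D_{p+1}/N_{p+1} ≤ C ε_p Ξ`, `E_p/(|A p| N_p) ≤ C ε_p Ξ`
with `ε_p = h p + h (p+1) + ρ p`; hence `Ξ ≤ 2|x₀|` and `|s_p|/N_p ≥ |x₀|/2` if `Σ ε_p` is small.
So the linear map is injective, hence invertible, and the solution for `x₀ = 1` is continuous in `c`
(continuity of inversion; identify domain and target by a fixed isomorphism).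
`β̂ = e^{-κ_i} ⟪β_p, ψ i⟫ / ⟪Γ(y_p)(b p), ψ k⟫`.  If all `β` vanish the `y_p` coincide
(`(y, y') ↦ (Γ, Δ)` is injective, `solOn_unique`), and `N_p ≤ exp (om (a p) - om (a 0))`.
-/

set_option autoImplicit false
open scoped RealInnerProductSpace ContDiff
open Module Set MeasureTheory

noncomputable section
namespace Crest.Agent.R202

namespace AMatchAux

variable {W : Type} [NormedAddCommGroup W] [InnerProductSpace ℝ W] [FiniteDimensional ℝ W]

theorem gam_del_inj {κ₀ : ℝ} (hκ : 0 < κ₀) {K : W →L[ℝ] W} (hK : PosOp κ₀ K) {u v u' v' : W}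
    (hG : Gam K u v = Gam K u' v') (hD : Del K u v = Del K u' v') : u = u' ∧ v = v' := by
  simp only [Gam, Del] at hG hD
  have hv : v = v' := by
    have h2 : (2 : ℝ) • v = (2 : ℝ) • v' := by
      rw [two_smul, two_smul]
      calc v + v = (v + rt K u) + (v - rt K u) := by abel
        _ = (v' + rt K u') + (v' - rt K u') := by rw [hG, hD]
        _ = v' + v' := by abel
    exact smul_right_injective W two_ne_zero h2
  refine ⟨?_, hv⟩
  rw [hv, add_right_inj] at hG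
  have h1 : rt K (u - u') = 0 := by rw [map_sub, hG, sub_self]
  have h2 := norm_rt_sq hK (u - u')
  have h3 := hK.pos (u - u')
  rw [← h2, h1, norm_zero] at h3
  have h4 : ‖u - u'‖ ^ 2 ≤ 0 := by
    by_contra hc
    have := mul_pos (pow_pos hκ 2) (not_le.1 hc)
    linarith
  have h5 : ‖u - u'‖ = 0 := pow_eq_zero_iff two_ne_zero |>.1 (le_antisymm h4 (sq_nonneg _))
  exact sub_eq_zero.1 (norm_eq_zero.1 h5)

section span
variable {ι : Type} [Fintype ι] {ψ : ι → W} {k : ι}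

omit [FiniteDimensional ℝ W] [Fintype ι] in
theorem span_le : Submodule.span ℝ (range fun i : {i // i ≠ k} => ψ i) ≤
    Submodule.span ℝ (range ψ) :=
  Submodule.span_mono (by rintro _ ⟨i, rfl⟩; exact ⟨i, rfl⟩)

omit [FiniteDimensional ℝ W] [Fintype ι] in
theorem span_orth {β w : W} (hβ : β ∈ Submodule.span ℝ (range fun i : {i // i ≠ k} => ψ i))
    (hw : ∀ i, i ≠ k → ⟪ψ i, w⟫ = 0) : ⟪β, w⟫ = 0 := by
  induction hβ using Submodule.span_induction with
  | mem x hx => obtain ⟨i, rfl⟩ := hx; exact hw i i.2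
  | zero => simp
  | add x y _ _ hx hy => rw [inner_add_left, hx, hy, add_zero]
  | smul r x _ hx => rw [real_inner_smul_left, hx, mul_zero]

omit [FiniteDimensional ℝ W] in
theorem span_dim (hon : Orthonormal ℝ ψ) :
    finrank ℝ (Submodule.span ℝ (range fun i : {i // i ≠ k} => ψ i)) + 1 =
      finrank ℝ (Submodule.span ℝ (range ψ)) := by
  classical
  rw [finrank_span_eq_card hon.linearIndependent,
    finrank_span_eq_card (b := fun i : {i // i ≠ k} => ψ i)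
      (hon.linearIndependent.comp _ Subtype.val_injective)]
  have h1 : Fintype.card {i // i ≠ k} = Fintype.card ι - Fintype.card {i // i = k} :=
    Fintype.card_subtype_compl fun i => i = k
  have h2 : 0 < Fintype.card ι := Fintype.card_pos_iff.2 ⟨k⟩
  rw [h1, Fintype.card_subtype_eq]
  omega

end span

theorem cover {a b : ℕ → ℝ} (hba : ∀ p, a (p + 1) = b p + 1) (ν : ℕ) {t : ℝ}
    (ht : t ∈ Icc (a 0) (b ν)) :
    (∃ p, p ≤ ν ∧ t ∈ Icc (a p) (b p)) ∨ ∃ p, p < ν ∧ t ∈ Icc (b p) (b p + 1) := by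
  induction ν with
  | zero => exact Or.inl ⟨0, le_rfl, ht⟩
  | succ ν ih =>
    rcases le_total t (b ν) with h | h
    · rcases ih ⟨ht.1, h⟩ with ⟨p, hp, h⟩ | ⟨p, hp, h⟩
      · exact Or.inl ⟨p, by omega, h⟩
      · exact Or.inr ⟨p, by omega, h⟩
    · rcases le_total t (b ν + 1) with h' | h'
      · exact Or.inr ⟨ν, by omega, h, h'⟩
      · exact Or.inl ⟨ν + 1, le_rfl, by rw [hba]; exact h', ht.2⟩

end AMatchAux

open AMatchAux in
theorem match_ex {κ₀ μm C₀ : ℝ} (hκ : 0 < κ₀) (hμm : 0 ≤ μm) (hC₀ : 0 < C₀) :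
    ∃ ε₀ C : ℝ, 0 < ε₀ ∧ 0 < C ∧
    ∀ {W : Type} [NormedAddCommGroup W] [InnerProductSpace ℝ W] [FiniteDimensional ℝ W]
      {P : Type} [TopologicalSpace P] (K : P → ℝ → W →L[ℝ] W) (K₀ : ℝ → W →L[ℝ] W) (ν : ℕ)
      (a b : ℕ → ℝ) (ι : ℕ → Type) [∀ p, Fintype (ι p)] (ψ : ∀ p, ι p → W) (κ : ∀ p, ι p → ℝ)
      (k : ∀ p, ι p) (eL : ℕ → W) (h ρ : ℕ → ℝ) (om : ℝ → ℝ) (𝒜 : ℕ → Submodule ℝ (W × W))
      (A : ℕ → ℝ),
      (Continuous fun q : P × ℝ => K q.1 q.2) → (∀ p, a p ≤ b p) → (∀ p, a (p + 1) = b p + 1) →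
      (∀ c p, ∀ t ∈ Icc (a p) (b p), K c t = K₀ t) → PosOp κ₀ (K₀ (a 0)) → ‖eL 0‖ = 1 →
      (∀ p, eL (p + 1) = ψ p (k p)) → Monotone om → (∀ p, 0 ≤ h p) → (∀ p, 0 ≤ ρ p) →
      (∀ c p, p ≤ ν → EventOK κ₀ μm (ρ p) (K c) (b p) (ψ p) (κ p)) →
      (∀ p, p ≤ ν → PhaseOut K₀ (a p) (b p) (eL p) (ψ p (k p)) (Submodule.span ℝ (range (ψ p))) om
        μm C₀ (h p) (𝒜 p) (A p)) →
      ∑ p ∈ Finset.range (ν + 1), (h p + ρ p) ≤ ε₀ →
      ∃ β : P → ∀ p, ι p → ℝ, (∀ p i, Continuous fun c => β c p i) ∧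
        (∀ c p, p < ν → ∀ i, i ≠ k p →
          |β c p i - mm (K c) (b p) (ψ p (k p)) (ψ p i) (κ p (k p)) (κ p i)| ≤
            C * (h p + h (p + 1) + ρ p ^ 2)) ∧
        ∀ c, (∀ p, p < ν → ∀ i, i ≠ k p → β c p i = 0) → ∃ y y' : ℝ → W, SolOn (K c) univ y y' ∧
          Del (K₀ (a 0)) (y (a 0)) (y' (a 0)) = 0 ∧
          ‖Gam (K₀ (a 0)) (y (a 0)) (y' (a 0)) - eL 0‖ ≤ C * h 0 ∧
          ∀ t ∈ Icc (a 0) (b ν), ‖y t‖ ≤ C * Real.exp (om t - om (a 0)) := by
  obtain ⟨ε₀, C, hε₀, hC, hap⟩ := apriori hκ hμm hC₀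
  refine ⟨ε₀, C, hε₀, hC, ?_⟩
  intro W _ _ _ P _ K K₀ ν a b ι _ ψ κ k eL h ρ om 𝒜 A hKc hab hba hK hpos heL0 heL hom hh hρ hE hP
    hsum
  rcases isEmpty_or_nonempty P with hPe | ⟨⟨c₀⟩⟩
  · exact ⟨fun _ _ _ => 0, fun _ _ => continuous_const, fun c => isEmptyElim c,
      fun c => isEmptyElim c⟩
  obtain ⟨Φ, hΦ0, hΦd, hΦc⟩ := exists_prop (V := W × W)
    (fun c t => (ContinuousLinearMap.snd ℝ W W).prod (K c t ∘L ContinuousLinearMap.fst ℝ W W))
    (by
      rw [continuous_clm_apply]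
      intro z
      exact continuous_const.prodMk (hKc.clm_apply continuous_const))
  have hsol : ∀ c s x, SolOn (K c) univ (fun t => (Φ c s t x).1) (fun t => (Φ c s t x).2) :=
    fun c s x t _ =>
      ⟨(ContinuousLinearMap.fst ℝ W W).hasFDerivAt.comp_hasDerivAt t (hΦd c s x t),
        (ContinuousLinearMap.snd ℝ W W).hasFDerivAt.comp_hasDerivAt t (hΦd c s x t)⟩
  have hΦs : ∀ c s x, Φ c s s x = x := fun c s x => by rw [hΦ0]; rfl
  have hposa : ∀ p, p ≤ ν → PosOp κ₀ (K₀ (a p)) := by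
    rintro (_ | p) hp
    · exact hpos
    · have hEp := hE c₀ p (by omega)
      rw [← hK c₀ (p + 1) _ ⟨le_rfl, hab _⟩, hba,
        hEp.supp _ ⟨by linarith, le_rfl⟩ (fun h => by linarith [h.2])]
      exact hEp.pos
  let GaL : (W →L[ℝ] W) → W × W →L[ℝ] W := fun L =>
    ContinuousLinearMap.snd ℝ W W + rt L ∘L ContinuousLinearMap.fst ℝ W W
  let DL : (W →L[ℝ] W) → W × W →L[ℝ] W := fun L =>
    ContinuousLinearMap.snd ℝ W W - rt L ∘L ContinuousLinearMap.fst ℝ W W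
  have hGaL : ∀ L z, GaL L z = Gam L z.1 z.2 := fun L z => rfl
  have hDL : ∀ L z, DL L z = Del L z.1 z.2 := fun L z => rfl
  let B : ℕ → Submodule ℝ W := fun p =>
    Submodule.span ℝ (range fun i : {i // i ≠ k p} => ψ p i)
  have hBk : ∀ p, p ≤ ν → ∀ β ∈ B p, ⟪β, ψ p (k p)⟫ = 0 := fun p hp β hβ =>
    span_orth hβ fun i hi => (hE c₀ p hp).on.2 hi
  let Sys : P → ℝ → (ℕ → W × W) → (ℕ → W) → ℝ → Prop := fun c x₀ x β s =>
    (∀ p, p ≤ ν → x p ∈ 𝒜 p ∧ β p ∈ B p) ∧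
      ⟪GaL (K₀ (a 0)) (x 0), eL 0⟫ = x₀ ∧ DL (K₀ (a 0)) (x 0) = 0 ∧
      (∀ p, p < ν → DL (K₀ (a (p + 1))) (Φ c (a p) (a (p + 1)) (x p)) =
          DL (K₀ (a (p + 1))) (x (p + 1)) ∧
        GaL (K₀ (a (p + 1))) (Φ c (a p) (a (p + 1)) (x p)) =
          GaL (K₀ (a (p + 1))) (x (p + 1)) + β p) ∧
      GaL (K₀ (b ν)) (Φ c (a ν) (b ν) (x ν)) = β ν + s • ψ ν (k ν)
  have hap' := fun c x₀ (x : ℕ → W × W) (β : ℕ → W) s (hS : Sys c x₀ x β s) =>
    hap (K c) K₀ ν a b ι ψ κ k eL h ρ om 𝒜 A (fun p t => (Φ c (a p) t (x p)).1)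
      (fun p t => (Φ c (a p) t (x p)).2) β x₀ hab hba (hK c) heL0 heL hom hh hρ (hE c) hP hsum
      (fun p => hsol c (a p) (x p)) (fun p hp => by simpa only [hΦs] using (hS.1 p hp).1)
      (by simpa only [hΦs, hGaL, hDL] using hS.2.1) (by simpa only [hΦs, hGaL, hDL] using hS.2.2.1)
      (fun p hp => ⟨span_le (hS.1 p hp.le).2, hBk p hp.le _ (hS.1 p hp.le).2,
        by simpa only [hΦs, hGaL, hDL] using (hS.2.2.2.1 p hp).1,
        by simpa only [hΦs, hGaL, hDL] using (hS.2.2.2.1 p hp).2⟩)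
      (by
        rw [← hGaL, hS.2.2.2.2]
        exact Submodule.add_mem _ (span_le (hS.1 ν le_rfl).2)
          (Submodule.smul_mem _ _ (Submodule.subset_span ⟨_, rfl⟩)))
  obtain ⟨x, β, s, hxc, hβc, hS⟩ := solve_sys ν (fun c p => Φ c (a p) (a (p + 1)))
    (fun c => Φ c (a ν) (b ν)) (fun p => hΦc _ _) (hΦc _ _) (fun p => GaL (K₀ (a p)))
    (fun p => DL (K₀ (a p))) (GaL (K₀ (b ν))) 𝒜 B (eL 0) (ψ ν (k ν))
    (fun p hp => by
      have h1 := (hP p hp).dim
      have h2 := span_dim (k := k p) (hE c₀ p hp).on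
      simp only [B]
      omega) Sys (fun _ _ _ _ _ => Iff.rfl)
    (fun c x β s hS => by
      have h1 := (hap' c 0 x β s hS).1 rfl
      have hx : ∀ p, p ≤ ν → x p = 0 := by
        intro p hp
        obtain ⟨h2, h3⟩ := h1 p hp
        simp only [hΦs] at h2 h3
        obtain ⟨h4, h5⟩ := gam_del_inj (u' := 0) (v' := 0) hκ (hposa p hp)
          (by rw [h2]; simp [Gam]) (by rw [h3]; simp [Del])
        exact Prod.ext h4 h5
      have h6 := hS.2.2.2.2
      rw [hx ν le_rfl, map_zero, map_zero] at h6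
      have hs : s = 0 := by
        have h7 := congrArg (fun v => ⟪v, ψ ν (k ν)⟫) h6
        simp only [inner_add_left, real_inner_smul_left, real_inner_self_eq_norm_sq,
          hBk ν le_rfl _ (hS.1 ν le_rfl).2, (hE c ν le_rfl).on.1 (k ν), inner_zero_left] at h7
        linarith
      refine ⟨fun p hp => ⟨hx p hp, ?_⟩, hs⟩
      rcases eq_or_lt_of_le hp with rfl | hp'
      · rw [hs, zero_smul, add_zero] at h6
        exact h6.symm
      · have h8 := (hS.2.2.2.1 p hp').2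
        rw [hx p hp, hx (p + 1) hp', map_zero, map_zero, zero_add] at h8
        exact h8.symm)
  have hmain := fun c => (hap' c 1 (x c) (β c) (s c) (hS c)).2 rfl
  refine ⟨fun c p i => if p < ν then Real.exp (-κ p i) * ⟪β c p, ψ p i⟫ /
    ⟪GaL (K₀ (b p)) (Φ c (a p) (b p) (x c p)), ψ p (k p)⟫ else 0, fun p i => ?_,
    fun c p hp i hi => ?_, fun c hc => ?_⟩
  · by_cases hp : p < ν
    · simp only [if_pos hp]
      refine Continuous.div (continuous_const.mul ((hβc p).inner continuous_const))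
        (((GaL _).continuous.comp ((hΦc _ _).clm_apply (hxc p))).inner continuous_const)
        fun c => ((hmain c).1 p hp).1
    · simp only [if_neg hp]
      exact continuous_const
  · simp only [if_pos hp]
    exact ((hmain c).1 p hp).2 i hi
  · have hβ0 : ∀ p, p < ν → β c p = 0 := by
      intro p hp
      have hmem := ((hS c).1 p hp.le).2
      rw [← inner_self_eq_zero (𝕜 := ℝ)]
      refine span_orth hmem fun i hi => ?_
      have h1 := hc p hp i hi
      simp only [if_pos hp] at h1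
      rcases div_eq_zero_iff.1 h1 with h2 | h2
      · rw [real_inner_comm]
        exact (mul_eq_zero.1 h2).resolve_left (Real.exp_pos _).ne'
      · exact absurd h2 ((hmain c).1 p hp).1
    have hKcc : Continuous (K c) := hKc.comp (Continuous.prodMk_right c)
    have heq : ∀ p, p ≤ ν → ∀ t, (Φ c (a 0) t (x c 0)).1 = (Φ c (a p) t (x c p)).1 := by
      intro p
      induction p with
      | zero => intro _ _; rfl
      | succ p ih =>
        intro hp t
        rw [ih (by omega) t]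
        obtain ⟨h1, h2⟩ := (hS c).2.2.2.1 p hp
        rw [hβ0 p hp, add_zero] at h2
        rw [hGaL, hGaL] at h2
        rw [hDL, hDL] at h1
        obtain ⟨h3, h4⟩ := gam_del_inj hκ (hposa (p + 1) hp) h2 h1
        exact (solOn_unique (a := min t (a (p + 1))) (b := max t (a (p + 1))) hKcc.continuousOn
          (fun τ _ => hsol c (a p) (x c p) τ (mem_univ _))
          (fun τ _ => hsol c (a (p + 1)) (x c (p + 1)) τ (mem_univ _)) (s := a (p + 1))
          ⟨min_le_right _ _, le_max_right _ _⟩ (by simpa only [hΦs] using h3)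
          (by simpa only [hΦs] using h4) t ⟨min_le_left _ _, le_max_left _ _⟩).1
    refine ⟨fun t => (Φ c (a 0) t (x c 0)).1, fun t => (Φ c (a 0) t (x c 0)).2, hsol _ _ _,
      by simpa only [hΦs, hDL] using (hS c).2.2.1, (hmain c).2.1, fun t ht => ?_⟩
    rcases cover hba ν ht with ⟨p, hp, htp⟩ | ⟨p, hp, htp⟩
    · simp only []
      rw [heq p hp]
      exact (hmain c).2.2.1 p hp t htp
    · simp only []
      rw [heq p hp.le]
      exact (hmain c).2.2.2 p hp t htp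

end Crest.Agent.R202
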