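import Crest.Agent.R202.AEvent

/-!
# Row 202, A9 (auxiliary): the square linear system and the one-step estimates
-/

set_option autoImplicit false
open scoped RealInnerProductSpace ContDiff
open Module Set MeasureTheory

noncomputable section
namespace Crest.Agent.R202.AMatchAux

/-- continuous families of injective linear maps between spaces of the same dimension -/
theorem solve_cont {E F : Type} [NormedAddCommGroup E] [NormedSpace ℝ E] [FiniteDimensional ℝ E]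
    [NormedAddCommGroup F] [NormedSpace ℝ F] [FiniteDimensional ℝ F] {P : Type}
    [TopologicalSpace P] (hd : finrank ℝ E = finrank ℝ F) (T : P → E →ₗ[ℝ] F)
    (hT : ∀ z, Continuous fun c => T c z) (hi : ∀ c z, T c z = 0 → z = 0) (f : F) :
    ∃ z : P → E, Continuous z ∧ ∀ c, T c (z c) = f := by
  have : CompleteSpace E := FiniteDimensional.complete ℝ E
  obtain ⟨J⟩ : Nonempty (F ≃L[ℝ] E) :=
    FiniteDimensional.nonempty_continuousLinearEquiv_of_finrank_eq hd.symm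
  let S : P → E →L[ℝ] E := fun c =>
    LinearMap.toContinuousLinearMap ((J : F →L[ℝ] E).toLinearMap ∘ₗ T c)
  have hS : ∀ c z, S c z = J (T c z) := fun c z => rfl
  have hSc : Continuous S := by
    rw [continuous_clm_apply]
    intro z
    simp only [hS]
    exact J.continuous.comp (hT z)
  have hSu : ∀ c, IsUnit (S c) := by
    intro c
    rw [ContinuousLinearMap.isUnit_iff_bijective]
    have hinj : Function.Injective (S c) := by
      rw [injective_iff_map_eq_zero]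
      intro z hz
      rw [hS] at hz
      exact hi c z (by simpa using hz)
    exact ⟨hinj, LinearMap.injective_iff_surjective.1
      (show Function.Injective (S c : E →ₗ[ℝ] E) from hinj)⟩
  refine ⟨fun c => Ring.inverse (S c) (J f), ?_, fun c => ?_⟩
  · have : Continuous fun c => Ring.inverse (S c) := by
      rw [continuous_iff_continuousAt]
      intro c
      obtain ⟨u, hu⟩ := hSu c
      have h1 := NormedRing.inverse_continuousAt u
      rw [hu] at h1
      exact ContinuousAt.comp (f := S) h1 hSc.continuousAt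
    exact this.clm_apply continuous_const
  · apply J.injective
    rw [← hS]
    have : S c * Ring.inverse (S c) = 1 := Ring.mul_inverse_cancel _ (hSu c)
    have h2 := congrArg (fun L : E →L[ℝ] E => L (J f)) this
    simpa using h2

variable {W : Type} [NormedAddCommGroup W] [InnerProductSpace ℝ W] [FiniteDimensional ℝ W]

/-- the matching system -/
theorem solve_sys {P : Type} [TopologicalSpace P] (ν : ℕ) (Φ : P → ℕ → W × W →L[ℝ] W × W)
    (Ψ : P → W × W →L[ℝ] W × W) (hΦ : ∀ p, Continuous fun c => Φ c p) (hΨ : Continuous Ψ)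
    (G D : ℕ → W × W →L[ℝ] W) (G' : W × W →L[ℝ] W) (𝒜 : ℕ → Submodule ℝ (W × W))
    (B : ℕ → Submodule ℝ W) (e f : W)
    (hd : ∀ p, p ≤ ν → finrank ℝ (𝒜 p) + finrank ℝ (B p) = 2 * finrank ℝ W)
    (Sys : P → ℝ → (ℕ → W × W) → (ℕ → W) → ℝ → Prop)
    (hSys : ∀ c x₀ x β s, Sys c x₀ x β s ↔ (∀ p, p ≤ ν → x p ∈ 𝒜 p ∧ β p ∈ B p) ∧
      ⟪G 0 (x 0), e⟫ = x₀ ∧ D 0 (x 0) = 0 ∧
      (∀ p, p < ν → D (p + 1) (Φ c p (x p)) = D (p + 1) (x (p + 1)) ∧
        G (p + 1) (Φ c p (x p)) = G (p + 1) (x (p + 1)) + β p) ∧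
      G' (Ψ c (x ν)) = β ν + s • f)
    (huniq : ∀ c x β s, Sys c 0 x β s → (∀ p, p ≤ ν → x p = 0 ∧ β p = 0) ∧ s = 0) :
    ∃ (x : P → ℕ → W × W) (β : P → ℕ → W) (s : P → ℝ), (∀ p, Continuous fun c => x c p) ∧
      (∀ p, Continuous fun c => β c p) ∧ ∀ c, Sys c 1 (x c) (β c) (s c) := by
  classical
  let E : Type := ℝ × ((p : Fin (ν + 1)) → (𝒜 p × B p))
  let F : Type := ℝ × (Fin (ν + 1) → W × W)
  let X : ℕ → E →L[ℝ] W × W := fun p => if h : p < ν + 1 then
    (𝒜 p).subtypeL ∘L ContinuousLinearMap.fst ℝ _ _ ∘L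
      ContinuousLinearMap.proj (R := ℝ) (φ := fun p : Fin (ν + 1) => 𝒜 p × B p) ⟨p, h⟩ ∘L
        ContinuousLinearMap.snd ℝ _ _ else 0
  let Y : ℕ → E →L[ℝ] W := fun p => if h : p < ν + 1 then
    (B p).subtypeL ∘L ContinuousLinearMap.snd ℝ _ _ ∘L
      ContinuousLinearMap.proj (R := ℝ) (φ := fun p : Fin (ν + 1) => 𝒜 p × B p) ⟨p, h⟩ ∘L
        ContinuousLinearMap.snd ℝ _ _ else 0
  have hX : ∀ (z : E) (p : ℕ) (h : p < ν + 1), X p z = (z.2 ⟨p, h⟩).1 := by
    intro z p h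
    simp only [X, dif_pos h]
    rfl
  have hY : ∀ (z : E) (p : ℕ) (h : p < ν + 1), Y p z = (z.2 ⟨p, h⟩).2 := by
    intro z p h
    simp only [Y, dif_pos h]
    rfl
  let Dq : P → ℕ → E →L[ℝ] W := fun c p =>
    D p ∘L X p - if p = 0 then 0 else D p ∘L Φ c (p - 1) ∘L X (p - 1)
  let Gq : P → ℕ → E →L[ℝ] W := fun c p =>
    if p < ν then G (p + 1) ∘L Φ c p ∘L X p - G (p + 1) ∘L X (p + 1) - Y p
    else G' ∘L Ψ c ∘L X ν - Y ν - (ContinuousLinearMap.fst ℝ _ _).smulRight f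
  let T : P → E →L[ℝ] F := fun c =>
    (innerSL ℝ e ∘L G 0 ∘L X 0).prod
      (ContinuousLinearMap.pi fun p : Fin (ν + 1) => (Dq c p).prod (Gq c p))
  have hT1 : ∀ c z, (T c z).1 = ⟪G 0 (X 0 z), e⟫ := fun c z => real_inner_comm _ _
  have hT2 : ∀ c z p, (T c z).2 p = (Dq c p z, Gq c p z) := fun c z p => rfl
  have hD0 : ∀ c z, Dq c 0 z = D 0 (X 0 z) := by
    intro c z; simp [Dq]
  have hDs : ∀ c z p, Dq c (p + 1) z = D (p + 1) (X (p + 1) z) - D (p + 1) (Φ c p (X p z)) := by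
    intro c z p; simp [Dq]
  have hGl : ∀ c z p, p < ν → Gq c p z =
      G (p + 1) (Φ c p (X p z)) - G (p + 1) (X (p + 1) z) - Y p z := by
    intro c z p hp; simp [Gq, hp]
  have hGn : ∀ c z, Gq c ν z = G' (Ψ c (X ν z)) - Y ν z - z.1 • f := by
    intro c z; simp [Gq]; rfl
  have key : ∀ c z x₀, T c z = (x₀, 0) → Sys c x₀ (fun p => X p z) (fun p => Y p z) z.1 := by
    intro c z x₀ hz
    have h1 : (T c z).1 = x₀ := by rw [hz]
    have h2 : ∀ p (h : p < ν + 1), Dq c p z = 0 ∧ Gq c p z = 0 := by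
      intro p h
      have : (T c z).2 ⟨p, h⟩ = 0 := by rw [hz]; rfl
      rw [hT2] at this
      exact Prod.mk_eq_zero.1 this
    rw [hSys]
    refine ⟨fun p hp => ?_, by rw [← hT1 c, h1], by rw [← hD0 c]; exact (h2 0 (by omega)).1,
      fun p hp => ⟨?_, ?_⟩, ?_⟩
    · rw [hX z p (by omega), hY z p (by omega)]
      exact ⟨Subtype.property _, Subtype.property _⟩
    · have := (h2 (p + 1) (by omega)).1
      rw [hDs] at this
      exact (sub_eq_zero.1 this).symm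
    · have := (h2 p (by omega)).2
      rw [hGl c z p hp, sub_sub, sub_eq_zero] at this
      exact this
    · have := (h2 ν (by omega)).2
      rw [hGn, sub_sub, sub_eq_zero] at this
      exact this
  have hdim : finrank ℝ E = finrank ℝ F := by
    simp only [E, F, finrank_prod, finrank_pi_fintype]
    congr 1
    refine Finset.sum_congr rfl fun p _ => ?_
    rw [hd p (by omega), two_mul]
  obtain ⟨z, hzc, hz⟩ := solve_cont hdim (fun c => (T c : E →ₗ[ℝ] F)) (fun z => by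
    refine Continuous.prodMk continuous_const (continuous_pi fun p => ?_)
    change Continuous fun c => (Dq c p z, Gq c p z)
    refine Continuous.prodMk ?_ ?_
    · obtain ⟨_ | p, hp⟩ := p
      · simp only [hD0]; exact continuous_const
      · simp only [hDs]
        exact continuous_const.sub ((D _).continuous.comp ((hΦ p).clm_apply continuous_const))
    · by_cases hp : (p : ℕ) < ν
      · simp only [hGl _ _ _ hp]
        exact (((G _).continuous.comp ((hΦ p).clm_apply continuous_const)).sub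
          continuous_const).sub continuous_const
      · have : (p : ℕ) = ν := by omega
        simp only [this, hGn]
        exact ((G'.continuous.comp (hΨ.clm_apply continuous_const)).sub
          continuous_const).sub continuous_const) (fun c z hz => by
    obtain ⟨h1, h2⟩ := huniq c _ _ _ (key c z 0 hz)
    refine Prod.ext h2 (funext fun p => ?_)
    have h3 := h1 p (by omega)
    simp only [hX z p p.2, hY z p p.2] at h3
    exact Prod.ext (Subtype.ext h3.1) (Subtype.ext h3.2)) ((1 : ℝ), 0)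
  exact ⟨fun c p => X p (z c), fun c p => Y p (z c), fun c => (z c).1,
    fun p => (X p).continuous.comp hzc, fun p => (Y p).continuous.comp hzc,
    fun c => key c _ 1 (hz c)⟩

/-- the estimates across one event -/
theorem step {ι : Type} [Fintype ι] {ψ : ι → W} (hon : Orthonormal ℝ ψ) {κ m : ι → ℝ} {k : ι}
    {Γ₀ Δ₀ Γa Δ₁ β : W} {C M ρ h h' s s' A Ξ Ξ' U In In' : ℝ} (hC : 0 < C)
    (hκ : ∀ i, 0 ≤ κ i) (hM : Real.exp (κ k) ≤ M) (hρ : 0 ≤ ρ) (hρ1 : ρ ≤ 1) (hh : 0 ≤ h)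
    (hh1 : h ≤ 1) (hh' : 0 ≤ h') (hh1' : h' ≤ 1) (hβ : β ∈ Submodule.span ℝ (range ψ))
    (hβk : ⟪β, ψ k⟫ = 0)
    (hIn' : In' = ‖Δ₀‖ + ‖(Submodule.span ℝ (range ψ)).starProjection Γ₀ - ⟪Γ₀, ψ k⟫ • ψ k‖ +
        ‖(Submodule.span ℝ (range ψ))ᗮ.starProjection (Γa + β)‖)
    (hIn : In = In' + |⟪Γ₀, ψ k⟫|) (e1 : ‖Δ₁‖ ≤ ‖Δ₀‖ + C * ρ * In)
    (e2 : ‖(Submodule.span ℝ (range ψ))ᗮ.starProjection Γ₀‖ ≤
        ‖(Submodule.span ℝ (range ψ))ᗮ.starProjection (Γa + β)‖ + C * ρ * In)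
    (e3 : ∀ i, |Real.exp (-κ i) * ⟪Γa + β, ψ i⟫ - ⟪Γ₀, ψ i⟫ - ⟪Γ₀, ψ k⟫ * m i| ≤
        C * (ρ * In' + ρ ^ 2 * In)) (e4 : ∀ i, |m i| ≤ C * ρ)
    (p2 : ‖(Submodule.span ℝ (range ψ)).starProjection Γ₀ - (s * A) • ψ k‖ ≤ h * |A| * Ξ)
    (p3 : ‖Δ₀‖ ≤ h * |A| * Ξ) (q1 : ‖Γa - s' • ψ k‖ ≤ h' * Ξ') (hs : |s| ≤ Ξ)
    (hU : |A| * Ξ ≤ U) (hU' : Ξ' ≤ Real.exp (κ k) * U) :
    ‖Δ₁‖ ≤ 20 * (C + 1) * M * (h + h' + ρ) * U ∧
    ‖(Submodule.span ℝ (range ψ))ᗮ.starProjection Γ₀‖ ≤ 20 * (C + 1) * M * (h + h' + ρ) * U ∧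
    |Real.exp (-κ k) * s' - s * A| ≤ 20 * (C + 1) * M * (h + h' + ρ) * U ∧
    |⟪Γ₀, ψ k⟫ - s * A| ≤ h * U ∧
    (∀ i, i ≠ k → |Real.exp (-κ i) * ⟪β, ψ i⟫ - ⟪Γ₀, ψ k⟫ * m i| ≤
      20 * (C + 1) * M * (h + h' + ρ ^ 2) * U) ∧ In ≤ 20 * (C + 1) * M * U := by
  set Lo := Submodule.span ℝ (range ψ) with hLo
  have hψ : ∀ i, ψ i ∈ Lo := fun i => Submodule.subset_span ⟨i, rfl⟩
  have hn : ∀ i, ‖ψ i‖ = 1 := hon.1
  have hkk : ⟪ψ k, ψ k⟫ = 1 := by rw [real_inner_self_eq_norm_sq, hn]; norm_num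
  have hki : ∀ i, i ≠ k → ⟪ψ k, ψ i⟫ = 0 := fun i hi => hon.2 hi.symm
  have hin : ∀ (v : W) i, |⟪v, ψ i⟫| ≤ ‖v‖ := fun v i => by
    simpa [hn] using abs_real_inner_le_norm v (ψ i)
  have hP : ∀ (v : W) i, ⟪Lo.starProjection v, ψ i⟫ = ⟪v, ψ i⟫ := fun v i => by
    have := Lo.starProjection_inner_eq_zero v (ψ i) (hψ i)
    rw [inner_sub_left] at this
    linarith
  have hQ : ∀ v ∈ Lo, Loᗮ.starProjection v = 0 := fun v hv => by
    rw [Submodule.starProjection_apply_eq_zero_iff]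
    exact Lo.le_orthogonal_orthogonal hv
  have hM1 : 1 ≤ M := (Real.one_le_exp (hκ k)).trans hM
  have hΞ : 0 ≤ Ξ := (abs_nonneg _).trans hs
  have hU0 : 0 ≤ U := le_trans (by positivity) hU
  set V := M * U with hV
  have hUV : U ≤ V := le_mul_of_one_le_left hU0 hM1
  have hV0 : 0 ≤ V := hU0.trans hUV
  have hp : h * |A| * Ξ ≤ h * U := by rw [mul_assoc]; exact mul_le_mul_of_nonneg_left hU hh
  have hpV : h * U ≤ h * V := mul_le_mul_of_nonneg_left hUV hh
  have hq : h' * Ξ' ≤ h' * V :=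
    mul_le_mul_of_nonneg_left (hU'.trans (mul_le_mul_of_nonneg_right hM hU0)) hh'
  set g := ⟪Γ₀, ψ k⟫ with hg
  have a1 : |g - s * A| ≤ h * U := by
    have := (hin _ k).trans (p2.trans hp)
    rwa [inner_sub_left, hP, real_inner_smul_left, hkk, mul_one] at this
  have a2 : ‖Lo.starProjection Γ₀ - g • ψ k‖ ≤ 2 * (h * U) := by
    have : Lo.starProjection Γ₀ - g • ψ k =
        (Lo.starProjection Γ₀ - (s * A) • ψ k) - (g - s * A) • ψ k := by
      rw [sub_smul]; abel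
    rw [this]
    refine (norm_sub_le _ _).trans ?_
    rw [norm_smul, hn, mul_one, Real.norm_eq_abs]
    linarith
  have a3 : ‖Loᗮ.starProjection (Γa + β)‖ ≤ h' * V := by
    have : Γa + β = (Γa - s' • ψ k) + (β + s' • ψ k) := by abel
    rw [this, map_add, hQ _ (Lo.add_mem hβ (Lo.smul_mem _ (hψ k))), add_zero]
    exact (Submodule.norm_starProjection_apply_le _ _).trans (q1.trans hq)
  have b0 : 0 ≤ In' := by rw [hIn']; positivity
  have b1 : In' ≤ 3 * (h + h') * V := by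
    have : 0 ≤ h' * V := by positivity
    rw [hIn']; linarith
  have a4 : |g| ≤ 2 * V := by
    have h1 : |g| ≤ |g - s * A| + |s * A| := by
      simpa using abs_add_le (g - s * A) (s * A)
    have h2 : |s * A| ≤ U := by
      rw [abs_mul, mul_comm]
      exact (mul_le_mul_of_nonneg_left hs (abs_nonneg _)).trans hU
    have h3 : h * U ≤ 1 * U := mul_le_mul_of_nonneg_right hh1 hU0
    linarith
  have hhV : h * V ≤ V := by simpa using mul_le_mul_of_nonneg_right hh1 hV0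
  have hhV' : h' * V ≤ V := by simpa using mul_le_mul_of_nonneg_right hh1' hV0
  have b2 : In ≤ 8 * V := by rw [hIn]; linarith
  have b3 : In' ≤ In := by rw [hIn]; linarith [abs_nonneg g]
  have b4 : |g| ≤ In := by rw [hIn]; linarith
  have hIn0 : 0 ≤ In := b0.trans b3
  have c1 : C * ρ * In ≤ 8 * (C * (ρ * V)) := by
    have := mul_le_mul_of_nonneg_left b2 (mul_nonneg hC.le hρ)
    linarith
  have c2 : C * (ρ * In' + ρ ^ 2 * In) ≤ 2 * (C * ρ * In) := by
    have h1 : ρ * In' ≤ ρ * In := mul_le_mul_of_nonneg_left b3 hρ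
    have h2 : ρ ^ 2 * In ≤ ρ * In := mul_le_mul_of_nonneg_right (by nlinarith) hIn0
    have := mul_le_mul_of_nonneg_left (add_le_add h1 h2) hC.le
    linarith
  have n1 : 0 ≤ h * V := by positivity
  have n2 : 0 ≤ h' * V := by positivity
  have n3 : 0 ≤ ρ * V := by positivity
  have n4 : 0 ≤ C * (h * V) := by positivity
  have n5 : 0 ≤ C * (h' * V) := by positivity
  have n6 : 0 ≤ C * (ρ * V) := by positivity
  have n7 : 0 ≤ ρ ^ 2 * V := by positivity
  have n8 : 0 ≤ C * (ρ ^ 2 * V) := by positivity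
  have x1 : 20 * (C + 1) * M * (h + h' + ρ) * U = 20 * (C * (h * V)) + 20 * (C * (h' * V)) +
      20 * (C * (ρ * V)) + 20 * (h * V) + 20 * (h' * V) + 20 * (ρ * V) := by rw [hV]; ring
  have x2 : 20 * (C + 1) * M * (h + h' + ρ ^ 2) * U = 20 * (C * (h * V)) + 20 * (C * (h' * V)) +
      20 * (C * (ρ ^ 2 * V)) + 20 * (h * V) + 20 * (h' * V) + 20 * (ρ ^ 2 * V) := by
    rw [hV]; ring
  have hexp : ∀ i, Real.exp (-κ i) ≤ 1 := fun i => Real.exp_le_one_iff.2 (by linarith [hκ i])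
  have hsm : ∀ i (r : ℝ), |r| ≤ h' * V → |Real.exp (-κ i) * r| ≤ h' * V := by
    intro i r hr
    rw [abs_mul, abs_of_pos (Real.exp_pos _)]
    exact (mul_le_of_le_one_left (abs_nonneg _) (hexp i)).trans hr
  refine ⟨by rw [x1]; linarith, by rw [x1]; linarith, ?_, a1, fun i hi => ?_, ?_⟩
  · have h1 := e3 k
    rw [inner_add_left, hβk, add_zero] at h1
    have h2 : |⟪Γa, ψ k⟫ - s'| ≤ h' * V := by
      have := (hin _ k).trans (q1.trans hq)
      rwa [inner_sub_left, real_inner_smul_left, hkk, mul_one] at this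
    have h3 := hsm k _ h2
    have h4 : |g * m k| ≤ 2 * (C * (ρ * V)) := by
      rw [abs_mul]
      have := mul_le_mul a4 (e4 k) (abs_nonneg _) (by positivity)
      linarith
    have h5 : Real.exp (-κ k) * s' - s * A =
        (Real.exp (-κ k) * ⟪Γa, ψ k⟫ - g - g * m k) - Real.exp (-κ k) * (⟪Γa, ψ k⟫ - s') +
          (g - s * A) + g * m k := by ring
    rw [h5, x1]
    have := abs_le.1 h1
    have := abs_le.1 h3
    have := abs_le.1 h4
    have := abs_le.1 a1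
    rw [abs_le]
    constructor <;> linarith
  · have h1 := e3 i
    rw [inner_add_left] at h1
    have h2 : |⟪Γa, ψ i⟫| ≤ h' * V := by
      have := (hin _ i).trans (q1.trans hq)
      rwa [inner_sub_left, real_inner_smul_left, hki i hi, mul_zero, sub_zero] at this
    have h3 := hsm i _ h2
    have h4 : |⟪Γ₀, ψ i⟫| ≤ h * V := by
      have := (hin _ i).trans (p2.trans (hp.trans hpV))
      rwa [inner_sub_left, hP, real_inner_smul_left, hki i hi, mul_zero, sub_zero] at this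
    have h5 : Real.exp (-κ i) * ⟪β, ψ i⟫ - g * m i =
        (Real.exp (-κ i) * (⟪Γa, ψ i⟫ + ⟪β, ψ i⟫) - ⟪Γ₀, ψ i⟫ - g * m i) -
          Real.exp (-κ i) * ⟪Γa, ψ i⟫ + ⟪Γ₀, ψ i⟫ := by ring
    have h6 : C * (ρ * In' + ρ ^ 2 * In) ≤
        3 * (C * (h * V)) + 3 * (C * (h' * V)) + 8 * (C * (ρ ^ 2 * V)) := by
      have h7 : ρ * In' ≤ 1 * In' := mul_le_mul_of_nonneg_right hρ1 b0
      have h8 : ρ ^ 2 * In ≤ ρ ^ 2 * (8 * V) := mul_le_mul_of_nonneg_left b2 (by positivity)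
      have h9 : ρ * In' + ρ ^ 2 * In ≤ 3 * (h + h') * V + ρ ^ 2 * (8 * V) := by linarith
      have := mul_le_mul_of_nonneg_left h9 hC.le
      linarith
    rw [h5, x2]
    have := abs_le.1 h1
    have := abs_le.1 h3
    have := abs_le.1 h4
    rw [abs_le]
    constructor <;> linarith
  · have : 0 ≤ C * V := by positivity
    have h2 : 20 * (C + 1) * M * U = 20 * (C * V) + 20 * V := by rw [hV]; ring
    rw [h2]
    linarith

/-- the a priori bound for the normalised sequences -/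
theorem seq_bound {ν : ℕ} {σ d e ε : ℕ → ℝ} {x L η Ξ : ℝ} (hL : 0 ≤ L) (hΞ : 0 ≤ Ξ)
    (hε : ∀ p, 0 ≤ ε p) (hsum : ∑ p ∈ Finset.range ν, ε p ≤ 2 * η) (h0 : |σ 0 - x| ≤ η * Ξ)
    (hσ : ∀ p, p < ν → |σ (p + 1) - σ p| ≤ L * ε p * Ξ) (hd0 : d 0 = 0)
    (hd : ∀ p, p < ν → d (p + 1) ≤ L * ε p * Ξ) (he : ∀ p, p < ν → e p ≤ L * ε p * Ξ)
    (heν : e ν = 0) (hη : (1 + 6 * L) * η ≤ 1 / 4) (hη0 : 0 ≤ η) {q : ℕ} (hq : q ≤ ν)
    (hmax : Ξ = σ q + d q + e q) : Ξ ≤ 4 / 3 * x ∧ ∀ p, p ≤ ν → 2 / 3 * x ≤ σ p := by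
  have h1 : ∀ p, p ≤ ν → |σ p - x| ≤ η * Ξ + L * (∑ j ∈ Finset.range p, ε j) * Ξ := by
    intro p
    induction p with
    | zero => intro _; simpa using h0
    | succ p ih =>
      intro hp
      have h2 := ih (by omega)
      have h3 := hσ p (by omega)
      rw [Finset.sum_range_succ]
      have := abs_le.1 h2
      have := abs_le.1 h3
      rw [abs_le]
      constructor <;> nlinarith
  have hLΞ : 0 ≤ L * Ξ := mul_nonneg hL hΞ
  have h2 : ∀ p, p ≤ ν → |σ p - x| ≤ η * Ξ + 2 * (η * (L * Ξ)) := by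
    intro p hp
    have h3 : ∑ j ∈ Finset.range p, ε j ≤ 2 * η :=
      (Finset.sum_le_sum_of_subset_of_nonneg (Finset.range_mono hp) fun j _ _ => hε j).trans hsum
    have := mul_le_mul_of_nonneg_right h3 hLΞ
    linarith [h1 p hp]
  have h3 : ∀ p, p < ν → L * ε p * Ξ ≤ 2 * (η * (L * Ξ)) := by
    intro p hp
    have h4 : ε p ≤ 2 * η :=
      (Finset.single_le_sum (fun j _ => hε j) (Finset.mem_range.2 hp)).trans hsum
    have := mul_le_mul_of_nonneg_right h4 hLΞ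
    linarith
  have h0' : 0 ≤ η * (L * Ξ) := mul_nonneg hη0 hLΞ
  have h4 : d q ≤ 2 * (η * (L * Ξ)) := by
    rcases q with _ | q
    · rw [hd0]; linarith
    · exact (hd q (by omega)).trans (h3 q (by omega))
  have h5 : e q ≤ 2 * (η * (L * Ξ)) := by
    rcases eq_or_lt_of_le hq with h | h
    · rw [h, heν]; linarith
    · exact (he q h).trans (h3 q h)
  have h6 : η * Ξ + 6 * (η * (L * Ξ)) ≤ 1 / 4 * Ξ := by
    have := mul_le_mul_of_nonneg_right hη hΞ
    linarith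
  have h7 : Ξ ≤ 4 / 3 * x := by
    have := (abs_le.1 (h2 q hq)).2
    linarith
  refine ⟨h7, fun p hp => ?_⟩
  have := (abs_le.1 (h2 p hp)).1
  linarith

end Crest.Agent.R202.AMatchAux
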