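import Crest.Agent.R202.AMatchAux

/-!
# Row 202, A9 (auxiliary): the a priori bound for the matching system
-/

set_option autoImplicit false
open scoped RealInnerProductSpace ContDiff
open Module Set MeasureTheory

noncomputable section
namespace Crest.Agent.R202.AMatchAux

theorem apriori {κ₀ μm C₀ : ℝ} (hκ : 0 < κ₀) (hμm : 0 ≤ μm) (hC₀ : 0 < C₀) :
    ∃ ε₀ C : ℝ, 0 < ε₀ ∧ 0 < C ∧
    ∀ {W : Type} [NormedAddCommGroup W] [InnerProductSpace ℝ W] [FiniteDimensional ℝ W]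
      (K K₀ : ℝ → W →L[ℝ] W) (ν : ℕ)
      (a b : ℕ → ℝ) (ι : ℕ → Type) [∀ p, Fintype (ι p)] (ψ : ∀ p, ι p → W) (κ : ∀ p, ι p → ℝ)
      (k : ∀ p, ι p) (eL : ℕ → W) (h ρ : ℕ → ℝ) (om : ℝ → ℝ) (𝒜 : ℕ → Submodule ℝ (W × W))
      (A : ℕ → ℝ) (y y' : ℕ → ℝ → W) (β : ℕ → W) (x₀ : ℝ),
      (∀ p, a p ≤ b p) → (∀ p, a (p + 1) = b p + 1) →
      (∀ p, ∀ t ∈ Icc (a p) (b p), K t = K₀ t) → ‖eL 0‖ = 1 →
      (∀ p, eL (p + 1) = ψ p (k p)) → Monotone om → (∀ p, 0 ≤ h p) → (∀ p, 0 ≤ ρ p) →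
      (∀ p, p ≤ ν → EventOK κ₀ μm (ρ p) K (b p) (ψ p) (κ p)) →
      (∀ p, p ≤ ν → PhaseOut K₀ (a p) (b p) (eL p) (ψ p (k p)) (Submodule.span ℝ (range (ψ p))) om
        μm C₀ (h p) (𝒜 p) (A p)) →
      ∑ p ∈ Finset.range (ν + 1), (h p + ρ p) ≤ ε₀ →
      (∀ p, SolOn K univ (y p) (y' p)) → (∀ p, p ≤ ν → (y p (a p), y' p (a p)) ∈ 𝒜 p) →
      ⟪Gam (K₀ (a 0)) (y 0 (a 0)) (y' 0 (a 0)), eL 0⟫ = x₀ →
      Del (K₀ (a 0)) (y 0 (a 0)) (y' 0 (a 0)) = 0 →
      (∀ p, p < ν → β p ∈ Submodule.span ℝ (range (ψ p)) ∧ ⟪β p, ψ p (k p)⟫ = 0 ∧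
        Del (K₀ (a (p + 1))) (y p (a (p + 1))) (y' p (a (p + 1))) =
          Del (K₀ (a (p + 1))) (y (p + 1) (a (p + 1))) (y' (p + 1) (a (p + 1))) ∧
        Gam (K₀ (a (p + 1))) (y p (a (p + 1))) (y' p (a (p + 1))) =
          Gam (K₀ (a (p + 1))) (y (p + 1) (a (p + 1))) (y' (p + 1) (a (p + 1))) + β p) →
      Gam (K₀ (b ν)) (y ν (b ν)) (y' ν (b ν)) ∈ Submodule.span ℝ (range (ψ ν)) →
      (x₀ = 0 → ∀ p, p ≤ ν → Gam (K₀ (a p)) (y p (a p)) (y' p (a p)) = 0 ∧
        Del (K₀ (a p)) (y p (a p)) (y' p (a p)) = 0) ∧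
      (x₀ = 1 → (∀ p, p < ν → ⟪Gam (K₀ (b p)) (y p (b p)) (y' p (b p)), ψ p (k p)⟫ ≠ 0 ∧
          ∀ i, i ≠ k p → |Real.exp (-κ p i) * ⟪β p, ψ p i⟫ /
              ⟪Gam (K₀ (b p)) (y p (b p)) (y' p (b p)), ψ p (k p)⟫ -
            mm K (b p) (ψ p (k p)) (ψ p i) (κ p (k p)) (κ p i)| ≤
              C * (h p + h (p + 1) + ρ p ^ 2)) ∧
        ‖Gam (K₀ (a 0)) (y 0 (a 0)) (y' 0 (a 0)) - eL 0‖ ≤ C * h 0 ∧
        (∀ p, p ≤ ν → ∀ t ∈ Icc (a p) (b p), ‖y p t‖ ≤ C * Real.exp (om t - om (a 0))) ∧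
        ∀ p, p < ν → ∀ t ∈ Icc (b p) (b p + 1), ‖y p t‖ ≤ C * Real.exp (om t - om (a 0))) := by
  obtain ⟨ρ₀, C, hρ₀, hC, hev⟩ := event_est hκ hμm
  set M := Real.exp μm with hM
  have hM1 : 1 ≤ M := Real.one_le_exp hμm
  set L := 20 * (C + 1) * M with hL
  have hL0 : 0 < L := by positivity
  set η := min ρ₀ (1 / (4 * (1 + 6 * L))) with hη
  have hη0 : 0 < η := lt_min hρ₀ (by positivity)
  have hη1 : (1 + 6 * L) * η ≤ 1 / 4 := by
    have : η ≤ 1 / (4 * (1 + 6 * L)) := min_le_right _ _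
    rw [le_div_iff₀ (by positivity)] at this
    linarith
  have hη2 : η ≤ 1 / 4 := by nlinarith
  refine ⟨η, 4 + 6 * L + 2 * C₀ + 2 * (C * L), hη0, by positivity, ?_⟩
  intro W _ _ _ K K₀ ν a b ι _ ψ κ k eL h ρ om 𝒜 A y y' β x₀ hab hba hK heL0 heL hom hh hρ hE hP
    hsum hy hy𝒜 hx₀ hD0 hmatch hlast
  have hsm : ∀ p, p ≤ ν → h p ≤ η ∧ ρ p ≤ η := by
    intro p hp
    have := (Finset.single_le_sum (f := fun p => h p + ρ p) (fun j _ => add_nonneg (hh j) (hρ j))
      (Finset.mem_range.2 (Nat.lt_succ_of_le hp))).trans hsum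
    constructor <;> linarith [hh p, hρ p]
  have hest := fun p (hp : p ≤ ν) => (hP p hp).est (y p) (y' p) (fun t ht => by
    rw [← hK p t ht]; exact hy p t (mem_univ t)) (hy𝒜 p hp)
  choose! s Ξ hΞ p1 p2 p3 p4 using hest
  have hA : ∀ p, p ≤ ν → 0 < |A p| := fun p hp => abs_pos.2 (hP p hp).ne
  set N : ℕ → ℝ := fun p => ∏ j ∈ Finset.range p, (|A j| * Real.exp (κ j (k j))) with hN
  have hN0 : N 0 = 1 := by simp [hN]
  have hNs : ∀ p, N (p + 1) = N p * (|A p| * Real.exp (κ p (k p))) := fun p =>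
    Finset.prod_range_succ _ _
  have hNp : ∀ p, p ≤ ν → 0 < N p := fun p hp => Finset.prod_pos fun j hj =>
    mul_pos (hA j (by rw [Finset.mem_range] at hj; omega)) (Real.exp_pos _)
  have hsΞ : ∀ p, p ≤ ν → |s p| ≤ Ξ p := by
    intro p hp
    rw [hΞ p hp]
    have := hA p hp
    have : 0 ≤ ‖(Submodule.span ℝ (range (ψ p)))ᗮ.starProjection
      (Gam (K₀ (b p)) (y p (b p)) (y' p (b p)))‖ / |A p| := by positivity
    linarith [norm_nonneg (Del (K₀ (a p)) (y p (a p)) (y' p (a p)))]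
  have hΞ0 : ∀ p, p ≤ ν → 0 ≤ Ξ p := fun p hp => (abs_nonneg _).trans (hsΞ p hp)
  obtain ⟨q, hq, hmax⟩ := Finset.exists_max_image (Finset.range (ν + 1)) (fun p => Ξ p / N p)
    ⟨0, by simp⟩
  have hq' : q ≤ ν := by rw [Finset.mem_range] at hq; omega
  set X := Ξ q / N q with hX
  have hX0 : 0 ≤ X := div_nonneg (hΞ0 q hq') (hNp q hq').le
  have hΞX : ∀ p, p ≤ ν → Ξ p ≤ N p * X := by
    intro p hp
    have := hmax p (Finset.mem_range.2 (Nat.lt_succ_of_le hp))
    rw [div_le_iff₀ (hNp p hp)] at this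
    linarith
  have hKb : ∀ p, K (b p) = K₀ (b p) := fun p => hK p _ ⟨hab p, le_rfl⟩
  have hKa : ∀ p, p ≤ ν → K₀ (a (p + 1)) = K₀ (b p) := by
    intro p hp
    rw [← hK (p + 1) _ ⟨le_rfl, hab _⟩, hba, ← hKb]
    exact (hE p hp).supp _ ⟨by linarith, le_rfl⟩ (fun h => by linarith [h.2])
  -- the events
  have hstep : ∀ p, p < ν →
      (‖Del (K₀ (a (p + 1))) (y (p + 1) (a (p + 1))) (y' (p + 1) (a (p + 1)))‖ ≤
        L * (h p + h (p + 1) + ρ p) * (N p * |A p| * X) ∧
      ‖(Submodule.span ℝ (range (ψ p)))ᗮ.starProjection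
        (Gam (K₀ (b p)) (y p (b p)) (y' p (b p)))‖ ≤
          L * (h p + h (p + 1) + ρ p) * (N p * |A p| * X) ∧
      |Real.exp (-κ p (k p)) * s (p + 1) - s p * A p| ≤
        L * (h p + h (p + 1) + ρ p) * (N p * |A p| * X) ∧
      |⟪Gam (K₀ (b p)) (y p (b p)) (y' p (b p)), ψ p (k p)⟫ - s p * A p| ≤
        h p * (N p * |A p| * X) ∧
      (∀ i, i ≠ k p → |Real.exp (-κ p i) * ⟪β p, ψ p i⟫ -
        ⟪Gam (K₀ (b p)) (y p (b p)) (y' p (b p)), ψ p (k p)⟫ *
          mm K (b p) (ψ p (k p)) (ψ p i) (κ p (k p)) (κ p i)| ≤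
        L * (h p + h (p + 1) + ρ p ^ 2) * (N p * |A p| * X))) ∧
      ∀ t ∈ Icc (b p) (b p + 1), ‖y p t‖ ≤ C * (L * (N p * |A p| * X)) := by
    intro p hp
    obtain ⟨m1, m2, m3, m4⟩ := hmatch p hp
    have hEp := hE p hp.le
    obtain ⟨e1, e2, e3, e4, e5⟩ := hev (ρ p) K (b p) (ψ p) (κ p) (k p) (y p) (y' p)
      (Gam (K₀ (b p)) (y p (b p)) (y' p (b p)))
      (Gam (K₀ (a (p + 1))) (y (p + 1) (a (p + 1))) (y' (p + 1) (a (p + 1))) + β p)
      (Del (K₀ (b p)) (y p (b p)) (y' p (b p)))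
      (Del (K₀ (a (p + 1))) (y (p + 1) (a (p + 1))) (y' (p + 1) (a (p + 1)))) _ _ (hρ p)
      ((hsm p hp.le).2.trans (min_le_left _ _)) hEp (fun t _ => hy p t (mem_univ t))
      (by rw [hKb]) (by rw [hKb]) (by rw [← m4, hKb, hKa p hp.le, hba])
      (by rw [← m3, hKb, hKa p hp.le, hba]) rfl rfl
    have q1 := p1 (p + 1) hp
    rw [heL] at q1
    obtain ⟨s1, s2, s3, s4, s5, s6⟩ := step (U := N p * |A p| * X) hEp.on hC hEp.nn
      (Real.exp_le_exp.2 (hEp.le (k p))) (hρ p) (by linarith [(hsm p hp.le).2]) (hh p)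
      (by linarith [(hsm p hp.le).1]) (hh (p + 1)) (by linarith [(hsm (p + 1) hp).1]) m1 m2
      rfl rfl e1 e2 e3 e4 (p2 p hp.le) (p3 p hp.le) q1 (hsΞ p hp.le)
      (by
        have := mul_le_mul_of_nonneg_left (hΞX p hp.le) (abs_nonneg (A p))
        linarith)
      (by
        have := hΞX (p + 1) hp
        rw [hNs] at this
        linarith)
    exact ⟨⟨s1, s2, s3, s4, s5⟩,
      fun t ht => (e5 t ht).trans (mul_le_mul_of_nonneg_left s6 hC.le)⟩
  have hx0s : |x₀ - s 0| ≤ h 0 * Ξ 0 := by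
    have h1 := (abs_real_inner_le_norm _ (eL 0)).trans
      (mul_le_mul_of_nonneg_right (p1 0 (Nat.zero_le _)) (norm_nonneg _))
    rwa [inner_sub_left, real_inner_smul_left, real_inner_self_eq_norm_sq, heL0, hx₀, one_pow,
      mul_one, mul_one] at h1
  have hΞ0X : Ξ 0 ≤ X := by simpa [hN0] using hΞX 0 (Nat.zero_le _)
  obtain ⟨hXx, hσ⟩ := seq_bound (ν := ν) (σ := fun p => |s p| / N p)
    (d := fun p => ‖Del (K₀ (a p)) (y p (a p)) (y' p (a p))‖ / N p)
    (e := fun p => ‖(Submodule.span ℝ (range (ψ p)))ᗮ.starProjection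
      (Gam (K₀ (b p)) (y p (b p)) (y' p (b p)))‖ / |A p| / N p)
    (ε := fun p => h p + h (p + 1) + ρ p) (x := |x₀|) (η := η) hL0.le hX0
    (fun p => by linarith [hh p, hh (p + 1), hρ p])
    (by
      have h1 : ∑ p ∈ Finset.range ν, (h p + ρ p) ≤ η := by
        rw [Finset.sum_range_succ] at hsum
        linarith [hh ν, hρ ν]
      have h2 : ∑ p ∈ Finset.range ν, h (p + 1) ≤ η := by
        rw [Finset.sum_range_succ'] at hsum
        have : ∑ p ∈ Finset.range ν, h (p + 1) ≤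
            ∑ p ∈ Finset.range ν, (h (p + 1) + ρ (p + 1)) :=
          Finset.sum_le_sum fun j _ => by linarith [hρ (j + 1)]
        linarith [hh 0, hρ 0]
      have : ∑ p ∈ Finset.range ν, (h p + h (p + 1) + ρ p) =
          ∑ p ∈ Finset.range ν, (h p + ρ p) + ∑ p ∈ Finset.range ν, h (p + 1) := by
        rw [← Finset.sum_add_distrib]
        exact Finset.sum_congr rfl fun j _ => by ring
      linarith)
    (by
      simp only [hN0, div_one]
      refine (abs_abs_sub_abs_le_abs_sub _ _).trans ?_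
      rw [abs_sub_comm]
      exact hx0s.trans (mul_le_mul (hsm 0 (Nat.zero_le _)).1 hΞ0X (hΞ0 0 (Nat.zero_le _)) hη0.le))
    (fun p hp => by
      have h1 := (hstep p hp).1.2.2.1
      have hu : 0 < N p * |A p| := mul_pos (hNp p hp.le) (hA p hp.le)
      have h2 := (abs_abs_sub_abs_le_abs_sub _ _).trans h1
      have h3 : |s (p + 1)| / N (p + 1) - |s p| / N p =
          (|Real.exp (-κ p (k p)) * s (p + 1)| - |s p * A p|) / (N p * |A p|) := by
        rw [hNs, abs_mul, abs_mul, abs_of_pos (Real.exp_pos _), Real.exp_neg]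
        have := (hNp p hp.le).ne'
        have := (hA p hp.le).ne'
        have := (Real.exp_pos (κ p (k p))).ne'
        field_simp
      rw [h3, abs_div, abs_of_pos hu, div_le_iff₀ hu]
      linarith)
    (by simp [hD0])
    (fun p hp => by
      have h1 := (hstep p hp).1.1
      rw [div_le_iff₀ (hNp (p + 1) hp), hNs]
      refine h1.trans ?_
      have h2 : 0 ≤ L * (h p + h (p + 1) + ρ p) * (N p * |A p| * X) := (norm_nonneg _).trans h1
      have h3 := mul_le_mul_of_nonneg_left (Real.one_le_exp ((hE p hp.le).nn (k p))) h2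
      linarith)
    (fun p hp => by
      have h1 := (hstep p hp).1.2.1
      rw [div_le_iff₀ (hNp p hp.le), div_le_iff₀ (hA p hp.le)]
      linarith)
    (by
      have : (Submodule.span ℝ (range (ψ ν)))ᗮ.starProjection
          (Gam (K₀ (b ν)) (y ν (b ν)) (y' ν (b ν))) = 0 := by
        rw [Submodule.starProjection_apply_eq_zero_iff]
        exact Submodule.le_orthogonal_orthogonal _ hlast
      simp [this]) hη1 hη0.le hq'
    (by
      rw [hX, hΞ q hq', add_div, add_div])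
  refine ⟨fun hx p hp => ?_, fun hx => ?_⟩
  · rw [hx, abs_zero, mul_zero] at hXx
    have hX' : X = 0 := le_antisymm hXx hX0
    have h1 : Ξ p = 0 := le_antisymm (by simpa [hX'] using hΞX p hp) (hΞ0 p hp)
    have h2 : s p = 0 := abs_nonpos_iff.1 (h1 ▸ hsΞ p hp)
    have h3 := p1 p hp
    rw [h1, h2, zero_smul, sub_zero, mul_zero, norm_le_zero_iff] at h3
    refine ⟨h3, ?_⟩
    have h4 := hΞ p hp
    rw [h1, h2, abs_zero, zero_add] at h4
    have := hA p hp
    have : 0 ≤ ‖(Submodule.span ℝ (range (ψ p)))ᗮ.starProjection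
      (Gam (K₀ (b p)) (y p (b p)) (y' p (b p)))‖ / |A p| := by positivity
    rw [← norm_le_zero_iff]
    linarith
  · rw [hx, abs_one, mul_one] at hXx
    simp only [hx, abs_one, mul_one] at hσ
    have hCL : 0 < C * L := by positivity
    have hNle : ∀ p, p ≤ ν → N p ≤ Real.exp (om (a p) - om (a 0)) ∧
        N p * (|A p| * M) ≤ Real.exp (om (b p) - om (a 0)) := by
      have aux : ∀ p, p ≤ ν → N p ≤ Real.exp (om (a p) - om (a 0)) →
          N p * (|A p| * M) ≤ Real.exp (om (b p) - om (a 0)) := by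
        intro p hp h1
        have h2 := mul_le_mul h1 (hP p hp).le (by positivity) (Real.exp_pos _).le
        rwa [← Real.exp_add, show om (a p) - om (a 0) + (om (b p) - om (a p)) =
          om (b p) - om (a 0) by ring] at h2
      intro p
      induction p with
      | zero =>
        intro hp
        have : N 0 ≤ Real.exp (om (a 0) - om (a 0)) := by simp [hN0]
        exact ⟨this, aux 0 hp this⟩
      | succ p ih =>
        intro hp
        have h1 := (ih (by omega)).2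
        have : N (p + 1) ≤ Real.exp (om (a (p + 1)) - om (a 0)) := by
          rw [hNs]
          have h2 : N p * (|A p| * Real.exp (κ p (k p))) ≤ N p * (|A p| * M) :=
            mul_le_mul_of_nonneg_left (mul_le_mul_of_nonneg_left
              (Real.exp_le_exp.2 ((hE p (by omega)).le (k p))) (abs_nonneg _))
              (hNp p (by omega)).le
          refine h2.trans (h1.trans (Real.exp_le_exp.2 ?_))
          have := hom (show b p ≤ a (p + 1) by rw [hba]; linarith)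
          linarith
        exact ⟨this, aux _ hp this⟩
    refine ⟨fun p hp => ?_, ?_, fun p hp t ht => ?_, fun p hp t ht => ?_⟩
    · obtain ⟨⟨-, -, -, s4, s5⟩, -⟩ := hstep p hp
      set g := ⟪Gam (K₀ (b p)) (y p (b p)) (y' p (b p)), ψ p (k p)⟫ with hg
      have hu : 0 < N p * |A p| := mul_pos (hNp p hp.le) (hA p hp.le)
      have h1 : 2 / 3 * (N p * |A p|) ≤ |s p * A p| := by
        have := hσ p hp.le
        rw [le_div_iff₀ (hNp p hp.le)] at this
        have := mul_le_mul_of_nonneg_right this (abs_nonneg (A p))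
        rw [abs_mul]
        linarith
      have h2 : h p * (N p * |A p| * X) ≤ 1 / 4 * (N p * |A p| * (4 / 3)) :=
        mul_le_mul ((hsm p hp.le).1.trans hη2) (mul_le_mul_of_nonneg_left hXx hu.le)
          (by positivity) (by norm_num)
      have h3 : N p * |A p| / 3 ≤ |g| := by
        have := abs_sub_abs_le_abs_sub (s p * A p) g
        rw [abs_sub_comm] at this
        linarith
      have hg0 : 0 < |g| := lt_of_lt_of_le (by positivity) h3
      refine ⟨abs_pos.1 hg0, fun i hi => ?_⟩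
      have h4 := s5 i hi
      have h5 : Real.exp (-κ p i) * ⟪β p, ψ p i⟫ / g -
          mm K (b p) (ψ p (k p)) (ψ p i) (κ p (k p)) (κ p i) =
          (Real.exp (-κ p i) * ⟪β p, ψ p i⟫ -
            g * mm K (b p) (ψ p (k p)) (ψ p i) (κ p (k p)) (κ p i)) / g := by
        have := abs_pos.1 hg0
        field_simp
      rw [h5, abs_div, div_le_iff₀ hg0]
      refine h4.trans ?_
      have hε : 0 ≤ h p + h (p + 1) + ρ p ^ 2 := by
        have := hh p; have := hh (p + 1); positivity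
      have h6 : N p * |A p| * X ≤ 4 * |g| := by
        have := mul_le_mul_of_nonneg_left hXx hu.le
        linarith
      have h7 := mul_le_mul_of_nonneg_left h6 (mul_nonneg hL0.le hε)
      have h8 : 4 * L ≤ 4 + 6 * L + 2 * C₀ + 2 * (C * L) := by linarith
      have h9 := mul_le_mul_of_nonneg_right h8 (mul_nonneg hε hg0.le)
      linarith
    · have h1 : Gam (K₀ (a 0)) (y 0 (a 0)) (y' 0 (a 0)) - eL 0 =
          (Gam (K₀ (a 0)) (y 0 (a 0)) (y' 0 (a 0)) - s 0 • eL 0) - (x₀ - s 0) • eL 0 := by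
        rw [hx, sub_smul, one_smul]; abel
      rw [h1]
      refine (norm_sub_le _ _).trans ?_
      rw [norm_smul, heL0, mul_one, Real.norm_eq_abs]
      have h2 := p1 0 (Nat.zero_le _)
      have h3 : h 0 * Ξ 0 ≤ h 0 * 2 := mul_le_mul_of_nonneg_left (by linarith) (hh 0)
      have h4 : 4 * h 0 ≤ (4 + 6 * L + 2 * C₀ + 2 * (C * L)) * h 0 :=
        mul_le_mul_of_nonneg_right (by linarith) (hh 0)
      linarith
    · refine (p4 p hp t ht).trans ?_
      have h1 : Ξ p ≤ Real.exp (om (a p) - om (a 0)) * 2 :=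
        (hΞX p hp).trans (mul_le_mul (hNle p hp).1 (by linarith) hX0 (Real.exp_pos _).le)
      have h2 := mul_le_mul_of_nonneg_left h1
        (show 0 ≤ C₀ * Real.exp (om t - om (a p)) by positivity)
      have h3 : Real.exp (om t - om (a p)) * Real.exp (om (a p) - om (a 0)) =
          Real.exp (om t - om (a 0)) := by rw [← Real.exp_add]; congr 1; ring
      have h4 : 2 * C₀ * Real.exp (om t - om (a 0)) ≤
          (4 + 6 * L + 2 * C₀ + 2 * (C * L)) * Real.exp (om t - om (a 0)) :=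
        mul_le_mul_of_nonneg_right (by linarith) (Real.exp_pos _).le
      refine h2.trans (le_trans (le_of_eq ?_) h4)
      rw [← h3]; ring
    · refine ((hstep p hp).2 t ht).trans ?_
      have hu : 0 < N p * |A p| := mul_pos (hNp p hp.le) (hA p hp.le)
      have h1 : N p * |A p| ≤ Real.exp (om t - om (a 0)) := by
        have h2 := (hNle p hp.le).2
        have h3 : N p * |A p| * 1 ≤ N p * |A p| * M := mul_le_mul_of_nonneg_left hM1 hu.le
        have h4 : Real.exp (om (b p) - om (a 0)) ≤ Real.exp (om t - om (a 0)) :=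
          Real.exp_le_exp.2 (by linarith [hom ht.1])
        linarith
      have h2 : N p * |A p| * X ≤ Real.exp (om t - om (a 0)) * 2 :=
        mul_le_mul h1 (by linarith) hX0 (Real.exp_pos _).le
      have h3 := mul_le_mul_of_nonneg_left h2 hCL.le
      have h4 : 2 * (C * L) * Real.exp (om t - om (a 0)) ≤
          (4 + 6 * L + 2 * C₀ + 2 * (C * L)) * Real.exp (om t - om (a 0)) :=
        mul_le_mul_of_nonneg_right (by linarith) (Real.exp_pos _).le
      linarith

end Crest.Agent.R202.AMatchAux
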