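import Crest.Agent.R202.ACluster

/-!
# Row 202, A2a: linear ODE
-/

set_option autoImplicit false
set_option linter.unusedSectionVars false
open scoped RealInnerProductSpace ContDiff
open Module Set

noncomputable section
namespace Crest.Agent.R202

section aux
variable {E : Type} [NormedAddCommGroup E] [NormedSpace ℝ E]

/-- two-sided Gronwall inequality -/
theorem gron2 {f f' : ℝ → E} {a b s δ M ε : ℝ} (hδ : 0 ≤ δ) (hM : 0 ≤ M) (hε : 0 ≤ ε)
    (hf : ∀ t ∈ Icc a b, HasDerivWithinAt f (f' t) (Icc a b) t) (hs : s ∈ Icc a b)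
    (h0 : ‖f s‖ ≤ δ) (hb : ∀ t ∈ Icc a b, ‖f' t‖ ≤ M * ‖f t‖ + ε) :
    ∀ t ∈ Icc a b, ‖f t‖ ≤ gronwallBound δ M ε (b - a) := by
  have hc : ContinuousOn f (Icc a b) := fun t ht => (hf t ht).continuousWithinAt
  intro t ht
  rcases le_total s t with h | h
  · have h1 := norm_le_gronwallBound_of_norm_deriv_right_le (f := f) (f' := f') (a := s) (b := b)
      (K := M) (ε := ε) (δ := δ) (hc.mono (Icc_subset_Icc_left hs.1))
      (fun x hx => (hf x ⟨hs.1.trans hx.1, hx.2.le⟩).mono_of_mem_nhdsWithin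
        (Filter.mem_of_superset (Icc_mem_nhdsGE hx.2) (Icc_subset_Icc_left (hs.1.trans hx.1))))
      h0 (fun x hx => hb x ⟨hs.1.trans hx.1, hx.2.le⟩) t ⟨h, ht.2⟩
    exact h1.trans (gronwallBound_mono hδ hε hM (by linarith [ht.2, hs.1]))
  · have hm : MapsTo (fun x : ℝ => -x) (Icc (-s) (-a)) (Icc a b) := fun x hx =>
      ⟨by linarith [hx.2], by linarith [hx.1, hs.2]⟩
    have h1 := norm_le_gronwallBound_of_norm_deriv_right_le (f := fun x => f (-x))
      (f' := fun x => -f' (-x)) (a := -s) (b := -a) (K := M) (ε := ε) (δ := δ)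
      (hc.comp continuousOn_neg hm)
      (fun x hx => by
        have h2 : HasDerivWithinAt (fun x => f (-x)) ((-1 : ℝ) • f' (-x)) (Icc (-s) (-a)) x :=
          (hf (-x) (hm (Ico_subset_Icc_self hx))).scomp x (hasDerivAt_neg x).hasDerivWithinAt hm
        rw [neg_one_smul] at h2
        exact h2.mono_of_mem_nhdsWithin
          (Filter.mem_of_superset (Icc_mem_nhdsGE hx.2) (Icc_subset_Icc_left hx.1)))
      (by simpa using h0)
      (fun x hx => by simpa using hb (-x) (hm (Ico_subset_Icc_self hx))) (-t)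
      ⟨by linarith, by linarith [ht.1]⟩
    rw [neg_neg] at h1
    exact h1.trans (gronwallBound_mono hδ hε hM (by linarith [ht.1, hs.2]))

theorem lin_unique' {A : ℝ → E →L[ℝ] E} {a b : ℝ} (hA : ContinuousOn A (Icc a b)) {x y : ℝ → E}
    (hx : ∀ t ∈ Icc a b, HasDerivWithinAt x (A t (x t)) (Icc a b) t)
    (hy : ∀ t ∈ Icc a b, HasDerivWithinAt y (A t (y t)) (Icc a b) t)
    {s : ℝ} (hs : s ∈ Icc a b) (h : x s = y s) : ∀ t ∈ Icc a b, x t = y t := by
  obtain ⟨M, hM⟩ := isCompact_Icc.exists_bound_of_continuousOn hA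
  have hM0 : 0 ≤ M := (norm_nonneg _).trans (hM s hs)
  intro t ht
  have h1 := gron2 (f := fun t => x t - y t) (f' := fun t => A t (x t) - A t (y t)) (δ := 0)
    (ε := 0) le_rfl hM0 le_rfl (fun t ht => (hx t ht).sub (hy t ht)) hs (by simp [h])
    (fun t ht => by
      rw [← map_sub, add_zero]
      exact ((A t).le_opNorm _).trans (mul_le_mul_of_nonneg_right (hM t ht) (norm_nonneg _))) t ht
  rw [gronwallBound_ε0_δ0, norm_le_zero_iff, sub_eq_zero] at h1
  exact h1

theorem exists_Icc [CompleteSpace E] {A : ℝ → E →L[ℝ] E} {a b : ℝ}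
    (hA : ContinuousOn A (Icc a b)) {s : ℝ} (hs : s ∈ Icc a b) (x₀ : E) :
    ∃ x : ℝ → E, x s = x₀ ∧ ∀ t ∈ Icc a b, HasDerivWithinAt x (A t (x t)) (Icc a b) t := by
  obtain ⟨M, hM⟩ := isCompact_Icc.exists_bound_of_continuousOn hA
  have hM0 : 0 ≤ M := (norm_nonneg _).trans (hM s hs)
  have hab : 0 ≤ b - a := by linarith [hs.1, hs.2]
  set R : ℝ := gronwallBound ‖x₀‖ M 0 (b - a) with hR
  have hR0 : 0 ≤ R := by rw [hR, gronwallBound_ε0]; positivity
  let c : E → ℝ := fun x => max 0 (min 1 (R + 1 - ‖x‖))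
  have c0 : ∀ x, 0 ≤ c x := fun x => le_max_left _ _
  have c1 : ∀ x, c x ≤ 1 := fun x => max_le zero_le_one (min_le_left _ _)
  have cl : ∀ x y, |c x - c y| ≤ ‖x - y‖ := fun x y => by
    refine (abs_max_sub_max_le_max _ _ _ _).trans (max_le (by simp) ?_)
    refine (abs_min_sub_min_le_max _ _ _ _).trans (max_le (by simp) ?_)
    have := abs_norm_sub_norm_le y x
    rw [norm_sub_rev] at this
    rwa [show R + 1 - ‖x‖ - (R + 1 - ‖y‖) = ‖y‖ - ‖x‖ by ring]
  have cb : ∀ x, c x * ‖x‖ ≤ R + 1 := fun x => by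
    rcases le_total ‖x‖ (R + 1) with h | h
    · nlinarith [c0 x, c1 x, norm_nonneg x]
    · have : c x = 0 := max_eq_left ((min_le_right _ _).trans (by linarith))
      rw [this]; linarith
  have hAx : ∀ t ∈ Icc a b, ∀ x, ‖A t x‖ ≤ M * ‖x‖ := fun t ht x =>
    ((A t).le_opNorm _).trans (mul_le_mul_of_nonneg_right (hM t ht) (norm_nonneg _))
  have hL0 : 0 ≤ M * (R + 1) := by positivity
  have ha0 : 0 ≤ M * (R + 1) * (b - a) := by positivity
  have hK0 : 0 ≤ M * (‖x₀‖ + M * (R + 1) * (b - a)) + M := by positivity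
  have hpl : IsPicardLindelof (fun t x => c x • A t x) (⟨s, hs⟩ : Icc a b) x₀
      ⟨_, ha0⟩ 0 ⟨_, hL0⟩ ⟨_, hK0⟩ := by
    refine ⟨fun t ht => LipschitzOnWith.of_dist_le_mul fun x hx y _ => ?_, fun x _ => ?_,
      fun t ht x _ => ?_, ?_⟩
    · rw [dist_eq_norm, dist_eq_norm]
      have hx' : ‖x‖ ≤ ‖x₀‖ + M * (R + 1) * (b - a) := by
        have h1 : ‖x - x₀‖ ≤ M * (R + 1) * (b - a) := mem_closedBall_iff_norm.1 hx
        linarith [norm_le_insert' x x₀]
      have e : c x • A t x - c y • A t y = (c x - c y) • A t x + c y • A t (x - y) := by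
        rw [map_sub, sub_smul, smul_sub]; abel
      rw [e]
      refine (norm_add_le _ _).trans ?_
      rw [norm_smul, norm_smul, Real.norm_eq_abs, Real.norm_eq_abs, abs_of_nonneg (c0 y)]
      have h1 : |c x - c y| * ‖A t x‖ ≤ ‖x - y‖ * (M * (‖x₀‖ + M * (R + 1) * (b - a))) :=
        mul_le_mul (cl x y) ((hAx t ht x).trans (mul_le_mul_of_nonneg_left hx' hM0))
          (norm_nonneg _) (norm_nonneg _)
      have h2 : c y * ‖A t (x - y)‖ ≤ 1 * (M * ‖x - y‖) :=
        mul_le_mul (c1 y) (hAx t ht _) (norm_nonneg _) zero_le_one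
      change _ ≤ (M * (‖x₀‖ + M * (R + 1) * (b - a)) + M) * ‖x - y‖
      linarith
    · exact (hA.clm_apply continuousOn_const).const_smul (c x)
    · rw [norm_smul, Real.norm_eq_abs, abs_of_nonneg (c0 x)]
      change _ ≤ M * (R + 1)
      calc c x * ‖A t x‖ ≤ c x * (M * ‖x‖) := mul_le_mul_of_nonneg_left (hAx t ht x) (c0 x)
        _ = M * (c x * ‖x‖) := by ring
        _ ≤ M * (R + 1) := mul_le_mul_of_nonneg_left (cb x) hM0
    · change M * (R + 1) * max (b - s) (s - a) ≤ M * (R + 1) * (b - a) - 0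
      rw [sub_zero]
      exact mul_le_mul_of_nonneg_left (max_le (by linarith [hs.1]) (by linarith [hs.2])) hL0
  obtain ⟨x, hx0, hx⟩ := hpl.exists_eq_forall_mem_Icc_hasDerivWithinAt₀
  have hb := gron2 (δ := ‖x₀‖) (ε := 0) (norm_nonneg _) hM0 le_rfl hx hs (by
    have : x s = x₀ := hx0
    rw [this]) (fun t ht => by
      rw [norm_smul, Real.norm_eq_abs, abs_of_nonneg (c0 _), add_zero]
      calc c (x t) * ‖A t (x t)‖ ≤ 1 * (M * ‖x t‖) :=
            mul_le_mul (c1 _) (hAx t ht _) (norm_nonneg _) zero_le_one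
        _ = _ := one_mul _)
  refine ⟨x, hx0, fun t ht => ?_⟩
  have h1 : c (x t) = 1 := by
    have h2 : min 1 (R + 1 - ‖x t‖) = 1 := min_eq_left (by linarith [hb t ht])
    simp only [c, h2]; exact max_eq_right zero_le_one
  simpa [h1] using hx t ht

theorem exists_lin [CompleteSpace E] {A : ℝ → E →L[ℝ] E} (hA : Continuous A) (s : ℝ) (x₀ : E) :
    ∃ x : ℝ → E, x s = x₀ ∧ ∀ t, HasDerivAt x (A t (x t)) t := by
  have hs : ∀ n : ℕ, s ∈ Icc (s - n) (s + n) := fun n =>
    ⟨by linarith [Nat.cast_nonneg (α := ℝ) n], by linarith [Nat.cast_nonneg (α := ℝ) n]⟩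
  choose α h0 hα using fun n : ℕ => exists_Icc (a := s - n) (b := s + n) hA.continuousOn (hs n) x₀
  have hu : ∀ n m : ℕ, n ≤ m → ∀ t ∈ Icc (s - n) (s + n), α n t = α m t := fun n m h => by
    have h' : (n : ℝ) ≤ m := Nat.cast_le.2 h
    have hsub : Icc (s - n) (s + n) ⊆ Icc (s - m) (s + m) :=
      Icc_subset_Icc (by linarith) (by linarith)
    exact lin_unique' hA.continuousOn (hα n) (fun t ht => (hα m t (hsub ht)).mono hsub) (hs n)
      (by rw [h0, h0])
  refine ⟨fun t => α ⌈|t - s|⌉₊ t, h0 _, fun t => ?_⟩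
  set N : ℕ := ⌈|t - s|⌉₊ + 1 with hN
  have hN' : |t - s| + 1 ≤ N := by
    rw [hN]; push_cast; linarith [Nat.le_ceil |t - s|]
  have he : ∀ t' ∈ Ioo (t - 1) (t + 1), α ⌈|t' - s|⌉₊ t' = α N t' := fun t' ht' => by
    have h1 := Nat.le_ceil |t' - s|
    refine hu _ _ (Nat.ceil_le.2 (abs_le.2 ⟨?_, ?_⟩)) t' ⟨?_, ?_⟩
    · linarith [ht'.1, neg_abs_le (t - s)]
    · linarith [ht'.2, le_abs_self (t - s)]
    · linarith [neg_abs_le (t' - s)]
    · linarith [le_abs_self (t' - s)]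
  have ht : t ∈ Ioo (t - 1) (t + 1) := ⟨by linarith, by linarith⟩
  have h1 : s - N < t := by linarith [neg_abs_le (t - s)]
  have h2 : t < s + N := by linarith [le_abs_self (t - s)]
  have h3 := (hα N t ⟨h1.le, h2.le⟩).hasDerivAt (Icc_mem_nhds h1 h2)
  rw [← he t ht] at h3
  exact h3.congr_of_eventuallyEq
    (Filter.eventually_of_mem (Ioo_mem_nhds ht.1 ht.2) fun t' ht' => he t' ht')

/-- the first-order system of `y'' = K y` -/
def sysOp (K : E →L[ℝ] E) : E × E →L[ℝ] E × E :=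
  ContinuousLinearMap.inl ℝ E E ∘L ContinuousLinearMap.snd ℝ E E +
    ContinuousLinearMap.inr ℝ E E ∘L (K ∘L ContinuousLinearMap.fst ℝ E E)

theorem sysOp_apply (K : E →L[ℝ] E) (u v : E) : sysOp K (u, v) = (v, K u) := by
  simp [sysOp]

end aux

section ode
variable {V : Type} [NormedAddCommGroup V] [NormedSpace ℝ V] [FiniteDimensional ℝ V]

/-- propagator of a linear ODE, continuous in a parameter (Picard-Lindelöf on compact intervals,
uniqueness, Gronwall + tube lemma for the continuity) -/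
theorem exists_prop {P : Type} [TopologicalSpace P] (A : P → ℝ → V →L[ℝ] V)
    (hA : Continuous fun q : P × ℝ => A q.1 q.2) :
    ∃ Φ : P → ℝ → ℝ → V →L[ℝ] V, (∀ c s, Φ c s s = ContinuousLinearMap.id ℝ V) ∧
      (∀ c s x t, HasDerivAt (fun t => Φ c s t x) (A c t (Φ c s t x)) t) ∧
      ∀ s t, Continuous fun c => Φ c s t := by
  have hc : ∀ c, Continuous (A c) := fun c => hA.comp (Continuous.prodMk_right c)
  choose Φ h0 hΦ using fun (c : P) (s : ℝ) =>
    exists_lin (A := fun t => ContinuousLinearMap.compL ℝ V V V (A c t))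
      ((ContinuousLinearMap.compL ℝ V V V).continuous.comp (hc c)) s (ContinuousLinearMap.id ℝ V)
  simp only [ContinuousLinearMap.compL_apply] at hΦ
  refine ⟨Φ, h0, fun c s x t => ?_, fun s t => continuous_iff_continuousAt.2 fun c₀ => ?_⟩
  · simpa using (hΦ c s t).clm_apply (hasDerivAt_const t x)
  have hs : s ∈ Icc (min s t) (max s t) := ⟨min_le_left _ _, le_max_left _ _⟩
  have ht : t ∈ Icc (min s t) (max s t) := ⟨min_le_right _ _, le_max_right _ _⟩
  generalize min s t = a at hs ht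
  generalize max s t = b at hs ht
  obtain ⟨M, hM⟩ := (isCompact_Icc (a := a) (b := b)).exists_bound_of_continuousOn
    (hc c₀).continuousOn
  have hM0 : 0 ≤ M := (norm_nonneg _).trans (hM s hs)
  obtain ⟨N, hN⟩ := (isCompact_Icc (a := a) (b := b)).exists_bound_of_continuousOn
    (f := Φ c₀ s) (fun τ _ => (hΦ c₀ s τ).continuousAt.continuousWithinAt)
  have hN0 : 0 ≤ N := (norm_nonneg _).trans (hN s hs)
  rw [ContinuousAt, Metric.tendsto_nhds]
  intro η hη
  have hg : Continuous fun ε : ℝ => gronwallBound 0 (M + 1) (ε * N) (b - a) :=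
    (gronwallBound_continuous_ε 0 (M + 1) (b - a)).comp (continuous_id.mul continuous_const)
  have hg0 : ∀ᶠ ε in nhdsWithin (0 : ℝ) (Ioi 0),
      gronwallBound 0 (M + 1) (ε * N) (b - a) < η ∧ ε < 1 ∧ 0 < ε := by
    refine Filter.Eventually.and (nhdsWithin_le_nhds ?_)
      (Filter.Eventually.and (nhdsWithin_le_nhds (Iio_mem_nhds one_pos)) self_mem_nhdsWithin)
    exact hg.continuousAt.eventually_lt continuousAt_const
      (by simpa [gronwallBound_ε0_δ0] using hη)
  obtain ⟨ε, hε, hε1, hε0⟩ := hg0.exists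
  have htube : ∀ᶠ c in nhds c₀, ∀ τ ∈ Icc a b, ‖A c τ - A c₀ τ‖ < ε := by
    refine isCompact_Icc.eventually_forall_of_forall_eventually fun τ _ => ?_
    have h1 : Continuous fun q : P × ℝ => ‖A q.1 q.2 - A c₀ q.2‖ :=
      (hA.sub ((hc c₀).comp continuous_snd)).norm
    exact h1.continuousAt.eventually_lt continuousAt_const (by simpa using hε0)
  filter_upwards [htube] with c hcε
  rw [dist_eq_norm]
  refine lt_of_le_of_lt ?_ hε
  refine gron2 (f := fun τ => Φ c s τ - Φ c₀ s τ)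
    (f' := fun τ => A c τ ∘L Φ c s τ - A c₀ τ ∘L Φ c₀ s τ) le_rfl (by linarith)
    (mul_nonneg hε0.le hN0) (fun τ _ => ((hΦ c s τ).sub (hΦ c₀ s τ)).hasDerivWithinAt) hs
    (by simp [h0]) (fun τ hτ => ?_) t ht
  have e : A c τ ∘L Φ c s τ - A c₀ τ ∘L Φ c₀ s τ =
      A c τ ∘L (Φ c s τ - Φ c₀ s τ) + (A c τ - A c₀ τ) ∘L Φ c₀ s τ := by
    rw [ContinuousLinearMap.comp_sub, ContinuousLinearMap.sub_comp]; abel
  have h1 : ‖A c τ‖ ≤ M + 1 := by
    linarith [norm_le_insert' (A c τ) (A c₀ τ), hM τ hτ, hcε τ hτ]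
  rw [e]
  refine (norm_add_le _ _).trans (add_le_add ?_ ?_)
  · exact (ContinuousLinearMap.opNorm_comp_le _ _).trans
      (mul_le_mul_of_nonneg_right h1 (norm_nonneg _))
  · exact (ContinuousLinearMap.opNorm_comp_le _ _).trans
      (mul_le_mul (hcε τ hτ).le (hN τ hτ) (norm_nonneg _) hε0.le)

theorem lin_unique {A : ℝ → V →L[ℝ] V} {a b : ℝ} (hA : ContinuousOn A (Icc a b)) {x y : ℝ → V}
    (hx : ∀ t ∈ Icc a b, HasDerivAt x (A t (x t)) t) (hy : ∀ t ∈ Icc a b, HasDerivAt y (A t (y t)) t)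
    {s : ℝ} (hs : s ∈ Icc a b) (h : x s = y s) : ∀ t ∈ Icc a b, x t = y t := by
  exact lin_unique' hA (fun t ht => (hx t ht).hasDerivWithinAt)
    (fun t ht => (hy t ht).hasDerivWithinAt) hs h

theorem lin_smooth {A : ℝ → V →L[ℝ] V} (hA : ContDiff ℝ ∞ A) {x : ℝ → V}
    (hx : ∀ t, HasDerivAt x (A t (x t)) t) : ContDiff ℝ ∞ x := by
  have hd : deriv x = fun t => A t (x t) := funext fun t => (hx t).deriv
  refine contDiff_infty.2 fun n => ?_
  induction n with
  | zero => exact contDiff_zero.2 (continuous_iff_continuousAt.2 fun t => (hx t).continuousAt)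
  | succ n ih =>
    rw [Nat.cast_succ, contDiff_succ_iff_deriv]
    refine ⟨fun t => (hx t).differentiableAt, by simp, ?_⟩
    rw [hd]
    exact (contDiff_infty.1 hA n).clm_apply ih

end ode

variable {W : Type} [NormedAddCommGroup W] [InnerProductSpace ℝ W] [FiniteDimensional ℝ W]
  {κ₀ : ℝ} {K : W →L[ℝ] W}

theorem exists_sol {K : ℝ → W →L[ℝ] W} (hK : Continuous K) (s : ℝ) (u v : W) :
    ∃ y y' : ℝ → W, SolOn K univ y y' ∧ y s = u ∧ y' s = v := by
  have hA : Continuous fun t => sysOp (K t) :=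
    continuous_const.add (continuous_const.clm_comp (hK.clm_comp continuous_const))
  obtain ⟨x, h0, hx⟩ := exists_lin hA s (u, v)
  refine ⟨fun t => (x t).1, fun t => (x t).2, fun t _ => ?_, by simp [h0], by simp [h0]⟩
  have h1 := hx t
  rw [show x t = ((x t).1, (x t).2) from rfl, sysOp_apply] at h1
  exact ⟨(ContinuousLinearMap.fst ℝ W W).hasFDerivAt.comp_hasDerivAt t h1,
    (ContinuousLinearMap.snd ℝ W W).hasFDerivAt.comp_hasDerivAt t h1⟩

theorem solOn_unique {K : ℝ → W →L[ℝ] W} {a b : ℝ} (hK : ContinuousOn K (Icc a b))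
    {y y' z z' : ℝ → W} (hy : SolOn K (Icc a b) y y') (hz : SolOn K (Icc a b) z z') {s : ℝ}
    (hs : s ∈ Icc a b) (h : y s = z s) (h' : y' s = z' s) :
    ∀ t ∈ Icc a b, y t = z t ∧ y' t = z' t := by
  have hA : ContinuousOn (fun t => sysOp (K t)) (Icc a b) :=
    continuousOn_const.add (continuousOn_const.clm_comp (hK.clm_comp continuousOn_const))
  intro t ht
  exact Prod.mk.inj (lin_unique hA (x := fun t => (y t, y' t)) (y := fun t => (z t, z' t))
    (fun t ht => by rw [sysOp_apply]; exact (hy t ht).1.prodMk (hy t ht).2)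
    (fun t ht => by rw [sysOp_apply]; exact (hz t ht).1.prodMk (hz t ht).2) hs
    (by rw [h, h']) t ht)

theorem sol_smooth {K : ℝ → W →L[ℝ] W} (hK : ContDiff ℝ ∞ K) {y y' : ℝ → W}
    (hy : SolOn K univ y y') : ContDiff ℝ ∞ y := by
  have hA : ContDiff ℝ ∞ fun t => sysOp (K t) :=
    contDiff_const.add (contDiff_const.clm_comp (hK.clm_comp contDiff_const))
  exact (lin_smooth hA (x := fun t => (y t, y' t))
    (fun t => by rw [sysOp_apply]; exact (hy t trivial).1.prodMk (hy t trivial).2)).fst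

end Crest.Agent.R202
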