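import Crest.Agent.R202.APhaseAux3

/-!
# Row 202, A7: one phase

Freeze `K` outside `[a, b]` (`K̃ t = K (projIcc t)`); a solution on `[a,b]` extends (`exists_sol`,
`solOn_unique`).  In the cell `c` (restrict to `↥(Cl c)`, `rt_restrict`, `lamk_map`) use the weight
`μ_c = min (√lamk (n c) - g, μm)` (any constant if the cell is trivial); it lies in a gap with `n c`
eigenvalues below (`gap_of_lamk`), is `≥ μs`, is slow (`lamk_le_of_le`) and moves by `O(η)` on the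
right hold (`lamk_add_const`).  In the cell `c₀` use also `μ^± = √lamk m ± g`.
`𝒜 = 𝒜_U ⊕ 𝒜_D ⊕ 𝒜_E` with `𝒜_D = {Γ(b) = 0}` (dimension `dim W`, transport by the propagator),
`𝒜_E = {Δ(a) = 0, Γ(a) ∈ ⨆_c Fast_c}` (dimension `dim W - card ι`), `𝒜_U` spanned by the pure
solution `U` in `Cl c₀`: above `μ⁻` at `a` and below `μ⁺` at `b` (exists by counting dimensions,
`N - m` against `N - m - 1`); by `endE`, `endL` both `⟪Γ(U)(a), eL⟫` (normalise it to `1`) and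
`A = ⟪Γ(U)(b), eR⟫` are non-zero, `C⁻¹ e^{∫μ⁻} ≤ |A| ≤ C e^{∫μ⁺}`.  The sum is direct because
`Δ(a)` only sees the `D` part and the `Loᗮ` part of `Γ(b)` only sees the `E` part
(`Cl c ⊓ Lo = Slw_c(b)`).  Add the cells by Pythagoras.
-/

set_option autoImplicit false
open scoped RealInnerProductSpace ContDiff
open Module Set MeasureTheory

noncomputable section
namespace Crest.Agent.R202

/-- hypotheses on one phase -/
structure PhaseIn {W : Type} [NormedAddCommGroup W] [InnerProductSpace ℝ W]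
    [FiniteDimensional ℝ W] {γ ι : Type} [Fintype γ] [Fintype ι] [DecidableEq γ]
    (κ₀ g μs μm δ η H : ℝ) (K : ℝ → W →L[ℝ] W) (a b : ℝ) (Cl : γ → Submodule ℝ W) (n : γ → ℕ)
    (ψ : ι → W) (cell : ι → γ) (i₀ : ι) (m : ℕ) (eL : W) (om : ℝ → ℝ) : Prop where
  cont : Continuous K
  pos : ∀ t ∈ Icc a b, PosOp κ₀ (K t)
  slow : ∀ s ∈ Icc a b, ∀ t ∈ Icc a b, ∀ u,
    |⟪K t u, u⟫ - ⟪K s u, u⟫| ≤ δ * |t - s| * ⟪K s u, u⟫
  holds : Holds K a b H η
  orth : ∀ c c', c ≠ c' → Cl c ⟂ Cl c'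
  top : ⨆ c, Cl c = ⊤
  inv : ∀ t ∈ Icc a b, ∀ c, ∀ u ∈ Cl c, K t u ∈ Cl c
  gap : ∀ t ∈ Icc a b, ∀ c, 0 < n c → n c < finrank ℝ (Cl c) ∧
    Real.sqrt (lamk (fK (K t)) (Cl c) (n c - 1)) + 2 * g ≤ Real.sqrt (lamk (fK (K t)) (Cl c) (n c)) ∧
    Real.sqrt (lamk (fK (K t)) (Cl c) (n c)) ≤ μm
  high : ∀ t ∈ Icc a b, ∀ c, n c < finrank ℝ (Cl c) →
    μs + g ≤ Real.sqrt (lamk (fK (K t)) (Cl c) (n c))
  on : Orthonormal ℝ ψ
  mem : ∀ i, ψ i ∈ Cl (cell i)
  eig : ∀ i, ∃ r, K b (ψ i) = r • ψ i ∧ r < lamk (fK (K b)) (Cl (cell i)) (n (cell i))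
  card : ∀ c, (Finset.univ.filter fun i => cell i = c).card = n c
  tdim : m + 1 < finrank ℝ (Cl (cell i₀))
  tlo : ∀ t ∈ Icc a b, 0 < m →
    Real.sqrt (lamk (fK (K t)) (Cl (cell i₀)) (m - 1)) + 2 * g ≤
      Real.sqrt (lamk (fK (K t)) (Cl (cell i₀)) m)
  thi : ∀ t ∈ Icc a b, Real.sqrt (lamk (fK (K t)) (Cl (cell i₀)) m) + 2 * g ≤
      Real.sqrt (lamk (fK (K t)) (Cl (cell i₀)) (m + 1))
  tle : ∀ t ∈ Icc a b, Real.sqrt (lamk (fK (K t)) (Cl (cell i₀)) m) + 2 * g ≤ μs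
  Lmem : eL ∈ Cl (cell i₀)
  Lnorm : ‖eL‖ = 1
  Leig : K a eL = lamk (fK (K a)) (Cl (cell i₀)) m • eL
  Reig : K b (ψ i₀) = lamk (fK (K b)) (Cl (cell i₀)) m • ψ i₀
  omg : ∀ t ∈ Icc a b,
    ∫ s in a..t, (Real.sqrt (lamk (fK (K s)) (Cl (cell i₀)) m) + 2 * g) ≤ om t - om a

namespace APhaseAux

variable {W : Type} [NormedAddCommGroup W] [InnerProductSpace ℝ W] [FiniteDimensional ℝ W]

/-- freezing outside `[a, b]` -/
theorem exists_freeze {γ ι : Type} [Fintype γ] [Fintype ι] [DecidableEq γ]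
    {κ₀ g μs μm δ η H : ℝ} {K : ℝ → W →L[ℝ] W} {a b : ℝ} {Cl : γ → Submodule ℝ W} {n : γ → ℕ}
    {ψ : ι → W} {cell : ι → γ} {i₀ : ι} {m : ℕ} {eL : W} {om : ℝ → ℝ} (hκ : 0 < κ₀) (hδ : 0 ≤ δ)
    (hH : 0 ≤ H) (h : PhaseIn κ₀ g μs μm δ η H K a b Cl n ψ cell i₀ m eL om) :
    ∃ K₁ : ℝ → W →L[ℝ] W, (∀ t ∈ Icc a b, K₁ t = K t) ∧ (∀ t, ∃ s ∈ Icc a b, K₁ t = K s) ∧
      SlowW κ₀ κ₀ 0 δ K₁ (fun _ => 0) (fun _ => 0) ∧ Frozen K₁ (fun _ => 0) a b ∧
      Holds K₁ a b H η := by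
  have hab : a ≤ b := by linarith [h.holds.le]
  have h1 : ∀ t ∈ Icc a b, K (projIcc a b hab t) = K t := fun t ht => by
    rw [projIcc_of_mem hab ht]
  have h2 : ∀ t, PosOp κ₀ (K (projIcc a b hab t)) := fun t => h.pos _ (projIcc a b hab t).2
  refine ⟨fun t => K (projIcc a b hab t), h1, fun t => ⟨_, (projIcc a b hab t).2, rfl⟩,
    ⟨h.cont.comp (continuous_subtype_val.comp continuous_projIcc), h2, fun s t u => ?_,
      fun t => hasDerivAt_const t 0, fun s t => by simp; positivity, fun _ => le_rfl,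
      fun _ => le_rfl, fun t κ u hκ' hu hK => ?_⟩,
    ⟨hab, fun t ht => ⟨by rw [projIcc_of_le_left hab ht, projIcc_left], rfl⟩,
      fun t ht => ⟨by rw [projIcc_of_right_le hab ht, projIcc_right], rfl⟩⟩,
    ⟨h.holds.le, fun t ht => ?_, fun t ht => ?_⟩⟩
  · refine (h.slow _ (projIcc a b hab s).2 _ (projIcc a b hab t).2 u).trans ?_
    have h3 : 0 ≤ ⟪K (projIcc a b hab s) u, u⟫ := le_trans (by positivity) ((h2 s).pos u)
    have h4 := abs_projIcc_sub_projIcc hab (c := t) (d := s)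
    gcongr
  · have h3 := (h2 t).pos u
    rw [hK, real_inner_smul_left, real_inner_self_eq_norm_sq] at h3
    rw [sub_zero, abs_of_nonneg hκ']
    exact (pow_le_pow_iff_left₀ hκ.le hκ' two_ne_zero).1
      (le_of_mul_le_mul_right h3 (by positivity))
  · rw [h1 t ⟨ht.1, by linarith [h.holds.le, ht.2]⟩, h1 a (left_mem_Icc.2 hab)]
    exact h.holds.left t ht
  · rw [h1 t ⟨by linarith [h.holds.le, ht.1], ht.2⟩, h1 b (right_mem_Icc.2 hab)]
    exact h.holds.right t ht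

theorem phaseOut_congr {K K₁ : ℝ → W →L[ℝ] W} {a b : ℝ} {eL eR : W} {Lo : Submodule ℝ W}
    {om : ℝ → ℝ} {μm C h A : ℝ} {𝒜 : Submodule ℝ (W × W)} (hab : a ≤ b)
    (h1 : ∀ t ∈ Icc a b, K₁ t = K t) (h2 : PhaseOut K₁ a b eL eR Lo om μm C h 𝒜 A) :
    PhaseOut K a b eL eR Lo om μm C h 𝒜 A := by
  refine ⟨h2.dim, h2.ne, h2.le, fun y y' hy hx => ?_⟩
  rw [← h1 a (left_mem_Icc.2 hab), ← h1 b (right_mem_Icc.2 hab)]
  exact h2.est y y' (fun t ht => by rw [h1 t ht]; exact hy t ht) hx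

theorem proj_psi {γ ι : Type} [Fintype ι] [DecidableEq γ]
    {Cl : γ → Submodule ℝ W} {ψ : ι → W} {cell : ι → γ} (ho : ∀ c c', c ≠ c' → Cl c ⟂ Cl c')
    (hψ : Orthonormal ℝ ψ) (hm : ∀ i, ψ i ∈ Cl (cell i)) (c : γ) :
    (∀ i, cell i ≠ c → (Cl c).orthogonalProjectionOnto (ψ i) = 0) ∧
    (∀ i, cell i = c → ((Cl c).orthogonalProjectionOnto (ψ i) : W) = ψ i) ∧
    (Finset.univ.filter fun i => cell i = c).card ≤
      finrank ℝ (Submodule.span ℝ (range fun i => (Cl c).orthogonalProjectionOnto (ψ i))) ∧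
    (∀ x ∈ Submodule.span ℝ (range ψ), (Cl c).orthogonalProjectionOnto x ∈
      Submodule.span ℝ (range fun i => (Cl c).orthogonalProjectionOnto (ψ i))) ∧
    ∀ s ∈ Submodule.span ℝ (range fun i => (Cl c).orthogonalProjectionOnto (ψ i)),
      (s : W) ∈ Submodule.span ℝ (range ψ) := by
  have h1 : ∀ i, cell i ≠ c → (Cl c).orthogonalProjectionOnto (ψ i) = 0 := fun i hi =>
    Submodule.orthogonalProjectionOnto_eq_zero_iff.2 ((ho _ _ hi).le (hm i))
  have h2 : ∀ i, cell i = c → ((Cl c).orthogonalProjectionOnto (ψ i) : W) = ψ i := fun i hi =>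
    Submodule.starProjection_eq_self_iff.2 (hi ▸ hm i)
  refine ⟨h1, h2, ?_, fun x hx => ?_, fun s hs => ?_⟩
  · have h3 : LinearIndependent ℝ fun i : {i // cell i = c} =>
        (Cl c).orthogonalProjectionOnto (ψ i) := by
      refine LinearIndependent.of_comp (Cl c).subtype ?_
      rw [show (Cl c).subtype ∘ (fun i : {i // cell i = c} => (Cl c).orthogonalProjectionOnto (ψ i))
        = ψ ∘ Subtype.val from funext fun i => h2 i i.2]
      exact hψ.linearIndependent.comp _ Subtype.val_injective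
    rw [← Fintype.card_subtype, ← finrank_span_eq_card h3]
    exact Submodule.finrank_mono (Submodule.span_mono fun _ ⟨i, hi⟩ => ⟨i, hi⟩)
  · refine Submodule.mem_comap.1 ((Submodule.span_le (p := Submodule.comap
      (Cl c).orthogonalProjectionOnto.toLinearMap _)).2 ?_ hx)
    rintro _ ⟨i, rfl⟩
    exact Submodule.subset_span ⟨i, rfl⟩
  · refine Submodule.mem_comap.1
      ((Submodule.span_le (p := Submodule.comap (Cl c).subtype _)).2 ?_ hs)
    rintro _ ⟨i, rfl⟩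
    change ((Cl c).orthogonalProjectionOnto (ψ i) : W) ∈ Submodule.span ℝ (range ψ)
    by_cases hi : cell i = c
    · rw [h2 i hi]
      exact Submodule.subset_span ⟨i, rfl⟩
    · simp [h1 i hi]

theorem mul_le_of {C M x y z : ℝ} (hz : 0 ≤ z) (hC : 0 ≤ C) (hy : 0 ≤ y) {D : ℝ}
    (h1 : x ≤ D * y) (h2 : C * D ≤ M) : C * x * z ≤ M * y * z := by
  refine mul_le_mul_of_nonneg_right ?_ hz
  nlinarith [mul_le_mul_of_nonneg_left h1 hC, mul_le_mul_of_nonneg_right h2 hy]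

end APhaseAux

set_option maxHeartbeats 800000 in
open APhaseAux in
theorem phase_out {κ₀ g μs μm : ℝ} (hκ : 0 < κ₀) (hg : 0 < g) (hgκ : 2 * g ≤ κ₀) (hs : g ≤ μs)
    (hsm : μs ≤ μm) : ∃ δ₀ C H₀ : ℝ, 0 < δ₀ ∧ 0 < C ∧ 0 < H₀ ∧
    ∀ {W : Type} [NormedAddCommGroup W] [InnerProductSpace ℝ W] [FiniteDimensional ℝ W]
      {γ ι : Type} [Fintype γ] [Fintype ι] [DecidableEq γ]
      (δ η H : ℝ) (K : ℝ → W →L[ℝ] W) (a b : ℝ) (Cl : γ → Submodule ℝ W) (n : γ → ℕ)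
      (ψ : ι → W) (cell : ι → γ) (i₀ : ι) (m : ℕ) (eL : W) (om : ℝ → ℝ),
      0 ≤ δ → δ ≤ δ₀ → 0 ≤ η → η ≤ δ₀ → H₀ ≤ H →
      PhaseIn κ₀ g μs μm δ η H K a b Cl n ψ cell i₀ m eL om →
      ∃ (𝒜 : Submodule ℝ (W × W)) (A : ℝ),
        PhaseOut K a b eL (ψ i₀) (Submodule.span ℝ (range ψ)) om μm C
          (C * (Real.exp (-(g / 2) * H) + η)) 𝒜 A := by
  obtain ⟨δ₁, C₁, hδ₁, hC₁, hD⟩ := endD hκ
  obtain ⟨δ₂, C₂, hδ₂, hC₂, hE⟩ := cellE hκ hg hgκ hs hsm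
  obtain ⟨δ₃, C₃, hδ₃, hC₃, hU⟩ := cellU hκ hg hgκ hs hsm
  obtain ⟨M, m1, m2, m3, m4, m5⟩ : ∃ M, C₁ * 1 ≤ M ∧ C₂ * 1 ≤ M ∧ C₃ ≤ M ∧ C₁ * C₃ ≤ M ∧
      C₂ * C₃ ≤ M := ⟨(C₁ + C₂ + 1) * (C₃ + 1), by nlinarith [mul_pos hC₁ hC₃, mul_pos hC₂ hC₃],
    by nlinarith [mul_pos hC₁ hC₃, mul_pos hC₂ hC₃], by nlinarith [mul_pos hC₁ hC₃, mul_pos hC₂ hC₃],
    by nlinarith [mul_pos hC₂ hC₃], by nlinarith [mul_pos hC₁ hC₃]⟩
  refine ⟨min δ₁ (min δ₂ δ₃), M, 2 + C₃ * Real.exp μm / g, by positivity, by linarith,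
    by positivity, ?_⟩
  intro W _ _ _ γ ι _ _ _ δ η H K₀ a b Cl n ψ cell i₀ m eL om h1 h2 h3 h4 hH h
  simp only [le_min_iff] at h2 h4
  have hH0 : 0 < C₃ * Real.exp μm / g := by positivity
  have hH2 : 2 ≤ H := by linarith
  obtain ⟨K, k1, k2, hK, hF, hh⟩ := exists_freeze hκ h1 (by linarith) h
  have hab := hF.le
  have ka := k1 a (left_mem_Icc.2 hab)
  have kb := k1 b (right_mem_Icc.2 hab)
  choose K' r1 r2 r3 r4 r5 r6 r7 r8 r9 using fun c => exists_restrict hK hF hh (V := Cl c)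
    fun t => by
      obtain ⟨s, hs, hs'⟩ := k2 t
      exact hs' ▸ h.inv s hs c
  have hP := proj_psi h.orth h.on h.mem
  have hEc := fun c => hE δ η H (K' c) a b (n c) (fun i => (Cl c).orthogonalProjectionOnto (ψ i))
    h1 h2.2.1 h3 h4.2.1 hH2 (r2 c) (r3 c) (r4 c)
    (fun t => by
      obtain ⟨s, hs, hs'⟩ := k2 t
      simp only [r5, hs']
      exact h.gap s hs c)
    (fun t => by
      obtain ⟨s, hs, hs'⟩ := k2 t
      simp only [r5, hs']
      exact h.high s hs c)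
    (fun i => by
      by_cases hi : cell i = c
      · subst hi
        obtain ⟨r, hr, hr'⟩ := h.eig i
        refine .inr ⟨?_, r, Subtype.ext ?_, by rwa [r5, kb]⟩
        · rw [← h.card]
          exact Finset.card_pos.2 ⟨i, by simp⟩
        · rw [r1, Submodule.coe_smul, (hP _).2.1 i rfl, kb, hr]
      · exact .inl ((hP c).1 i hi))
    (h.card c ▸ (hP c).2.2.1)
  choose S s1 s2 using fun c => (hEc c).2
  obtain ⟨F, f1, f2⟩ := exists_F Cl S
  obtain ⟨U, U', A, u0, u1, u2, u3, u4, u5, u6, u7, u8⟩ := hU δ η H (K' (cell i₀)) a b m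
    ⟨eL, h.Lmem⟩ ⟨ψ i₀, h.mem i₀⟩ om h1 h2.2.2 h3 h4.2.2 hH2 (r2 _) (r3 _) (r4 _) h.tdim
    (fun t => by
      obtain ⟨s, hs, hs'⟩ := k2 t
      simp only [r5, hs']
      exact h.tlo s hs)
    (fun t => by
      obtain ⟨s, hs, hs'⟩ := k2 t
      simp only [r5, hs']
      exact h.thi s hs)
    (fun t => by
      obtain ⟨s, hs, hs'⟩ := k2 t
      simp only [r5, hs']
      exact h.tle s hs) h.Lnorm (Subtype.ext (by rw [r1, r5, ka]; exact h.Leig)) (h.on.1 i₀)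
    (Subtype.ext (by rw [r1, r5, kb]; exact h.Reig)) (fun t ht => by
      refine le_of_eq_of_le (intervalIntegral.integral_congr fun s hs => ?_) (h.omg t ht)
      rw [uIcc_of_le ht.1] at hs
      simp only [r5, k1 s ⟨hs.1, hs.2.trans ht.2⟩])
  obtain ⟨e, he⟩ : ∃ e, Real.exp (-(g / 2) * H) = e := ⟨_, rfl⟩
  have he0 : 0 < e := he ▸ Real.exp_pos _
  have hgH : 2 * (g * H) ≤ g * (b - a) := by nlinarith [hh.le]
  have hgH' : 0 ≤ g * H := by positivity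
  have p1 : Real.exp (-(g * (b - a))) ≤ e := he ▸ Real.exp_le_exp.2 (by linarith)
  have p2 : Real.exp (-(κ₀ / 2) * H) ≤ 1 * (e + η) := by
    have : Real.exp (-(κ₀ / 2) * H) ≤ e := he ▸ Real.exp_le_exp.2 (by nlinarith)
    linarith
  have hA : A ≠ 0 := by
    rintro rfl
    norm_num at u7
  have hA' := abs_pos.2 hA
  have hM : 0 ≤ M := by linarith
  have p3 : 1 ≤ C₃ * ((e + η) * |A|) := u7.trans (by rw [mul_assoc]; gcongr; linarith)
  have p4 : ∀ t ∈ Icc a b, Real.exp (-(μs * (b - t))) * |A| ≤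
      C₃ * (Real.exp (om t - om a) * Real.exp (-(g * (b - a)))) := fun t ht => by
    refine (mul_le_mul_of_nonneg_left (u8 t ht).2.2 (Real.exp_pos _).le).trans_eq ?_
    rw [mul_left_comm, ← Real.exp_add, ← Real.exp_add]
    congr 2
    ring
  simp only [he] at s2 u3 u5 u6 ⊢
  refine (assemble (μm := μm) (C := M) (h := M * (e + η)) (eL := eL) (eR := ψ i₀)
    (Lo := Submodule.span ℝ (range ψ)) (F := F) (om := om) hκ hK.cont (hK.pos a) hab
    (by positivity) hA ?_ (fun y y' hy hb => ?_) ?_ (fun y y' X hy ha hFy hX => ?_)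
    (r8 _ _ _ u0) (by rw [(r9 _ _ _ _).2, u1]; rfl) (by rw [(r9 _ _ _ _).1]; simpa using u2)
    (by rw [(r9 _ _ _ _).1]; exact u3.trans (by gcongr; linarith))
    (by rw [(r9 _ _ _ _).1]; exact (hP _).2.2.2.2 _ ((hEc _).1 u4))
    (by rw [(r9 _ _ _ _).1]; exact u5.trans (by gcongr; linarith))
    (by rw [(r9 _ _ _ _).2]; exact u6.trans (by gcongr))
    (fun t ht => (u8 t ht).2.1.trans (by gcongr))).elim
    fun 𝒜 h𝒜 => ⟨𝒜, A, phaseOut_congr hab k1 h𝒜⟩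
  · have h5 := p4 b (right_mem_Icc.2 hab)
    rw [sub_self, mul_zero, neg_zero, Real.exp_zero, one_mul] at h5
    have h6 : C₃ * Real.exp μm ≤ Real.exp (g * (b - a)) := by
      have h7 := (div_le_iff₀ hg).1 (show C₃ * Real.exp μm / g ≤ H by linarith)
      linarith [Real.add_one_le_exp (g * (b - a))]
    have h7 := mul_le_mul_of_nonneg_right h6 (Real.exp_pos (-(g * (b - a)))).le
    rw [← Real.exp_add, add_neg_cancel, Real.exp_zero] at h7
    nlinarith [Real.exp_pos μm, Real.exp_pos (om b - om a)]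
  · obtain ⟨d1, d2, d3⟩ := hD δ η H K a b y y' h1 h2.1 h3 h4.1 hH2 hK hF hh hy hb
    refine ⟨d1.trans (mul_le_of (norm_nonneg _) hC₁.le (by positivity) p2 m1), d2.trans ?_,
      fun t ht => (d3 t ht).trans ?_⟩
    · simpa only [mul_one, mul_assoc] using
        mul_le_of (norm_nonneg (Del (K a) (y a) (y' a))) hC₁.le (by positivity) p3 m4
    · simpa only [mul_one] using mul_le_of (norm_nonneg (Del (K a) (y a) (y' a))) hC₁.le
        (Real.exp_pos _).le ((Real.one_le_exp (u8 t ht).1).trans_eq (one_mul _).symm) m1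
  · rw [finrank_span_eq_card h.on.linearIndependent, Fintype.card,
      Finset.card_eq_sum_card_fiberwise (f := cell) (t := Finset.univ) (by simp)]
    simpa only [s1, h.card] using f1
  · have h5 := fun c => s2 c _ _ _ (r6 c y y' hy) (by rw [(r7 c _ _ _).2, ha, map_zero])
      (by rw [(r7 c _ _ _).1]; exact f2 _ hFy c) rfl
    simp only [(r7 _ _ _ _).1, (r7 _ _ _ _).2, (proj_lo (hP _).2.2.2.1 (hP _).2.2.2.2 _).1,
      (proj_lo (hP _).2.2.2.1 (hP _).2.2.2.2 _).2] at h5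
    have hX0 : 0 ≤ X := by rw [hX]; positivity
    have h6 : ∀ x : W, ∀ L, 0 ≤ L → (∀ c, ‖(Cl c).orthogonalProjectionOnto x‖ ≤ C₂ * L *
        ‖(Cl c).orthogonalProjectionOnto ((Submodule.span ℝ (range ψ))ᗮ.starProjection
          (Gam (K b) (y b) (y' b)))‖) → ‖x‖ ≤ C₂ * (L * |A|) * X := fun x L hL hx => by
      refine (norm_le_of_cells h.orth h.top (by positivity) hx).trans_eq ?_
      rw [hX]
      field_simp
    refine ⟨(h6 _ _ (Real.exp_pos _).le fun c => (h5 c).1).trans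
      (mul_le_of hX0 hC₂.le (by positivity) ((p4 a (left_mem_Icc.2 hab)).trans ?_) m5),
      (h6 _ _ he0.le fun c => (h5 c).2.1).trans ?_,
      (h6 _ _ (by positivity) fun c => (h5 c).2.2.1).trans ?_,
      fun t ht => (h6 _ _ (Real.exp_pos _).le fun c => (h5 c).2.2.2 t ht).trans
        (mul_le_of hX0 hC₂.le (by positivity) ((p4 t ht).trans ?_) m5)⟩
    · rw [sub_self, Real.exp_zero, one_mul]
      gcongr
      linarith
    · rw [mul_assoc M]
      gcongr <;> linarith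
    · rw [mul_assoc M]
      gcongr
      linarith
    · gcongr
      exact mul_le_of_le_one_right (Real.exp_pos _).le (Real.exp_le_one_iff.2 (by linarith))

end Crest.Agent.R202
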