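import Crest.Agent.R202.AEnds

/-!
# Row 202, A7 (auxiliary file 1): linear algebra, solution operators and weights
-/

set_option autoImplicit false
set_option linter.unusedSectionVars false
open scoped RealInnerProductSpace ContDiff
open Module Set MeasureTheory

noncomputable section
namespace Crest.Agent.R202.APhaseAux

variable {W : Type} [NormedAddCommGroup W] [InnerProductSpace ℝ W] [FiniteDimensional ℝ W]

theorem exists_sections (f g : (W × W) →ₗ[ℝ] W) (h : ∀ x, f x = 0 → g x = 0 → x = 0) :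
    ∃ j₁ j₂ : W →ₗ[ℝ] W × W, ∀ d, f (j₁ d) = d ∧ g (j₁ d) = 0 ∧ f (j₂ d) = 0 ∧ g (j₂ d) = d := by
  have hi : Function.Injective (f.prod g) := (injective_iff_map_eq_zero _).2 fun x hx =>
    h x (congrArg Prod.fst hx) (congrArg Prod.snd hx)
  let e := LinearEquiv.ofInjectiveEndo (f.prod g) hi
  have he : ∀ z, (f (e.symm z), g (e.symm z)) = z := fun z => e.apply_symm_apply z
  exact ⟨e.symm ∘ₗ LinearMap.inl ℝ W W, e.symm ∘ₗ LinearMap.inr ℝ W W, fun d =>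
    ⟨congrArg Prod.fst (he (d, 0)), congrArg Prod.snd (he (d, 0)), congrArg Prod.fst (he (0, d)),
      congrArg Prod.snd (he (0, d))⟩⟩

/-- a step of dimension one in a flag -/
theorem step_one {S₀ S₁ : Submodule ℝ W} (h : S₀ ≤ S₁) (hd : finrank ℝ S₀ + 1 = finrank ℝ S₁)
    {e : W} (h0 : e ∈ S₀ᗮ) (h1 : e ∈ S₁) (he : ‖e‖ = 1) :
    (∀ x ∈ S₀ᗮ, S₁.starProjection x = ⟪e, x⟫ • e) ∧
      ∀ x ∈ S₁, S₀ᗮ.starProjection x = ⟪e, x⟫ • e := by
  have h2 : Submodule.span ℝ {e} = S₀ᗮ ⊓ S₁ := by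
    refine Submodule.eq_of_le_of_finrank_eq ((Submodule.span_singleton_le_iff_mem _ _).2 ⟨h0, h1⟩) ?_
    rw [Submodule.finrank_add_inf_finrank_orthogonal' h hd,
      finrank_span_singleton (by rintro rfl; simp at he)]
  have h3 : ∀ x ∈ S₀ᗮ, x ∈ S₁ → x = ⟪e, x⟫ • e := by
    intro x hx hx'
    obtain ⟨c, rfl⟩ := Submodule.mem_span_singleton.1 (h2.ge ⟨hx, hx'⟩)
    rw [real_inner_smul_right, real_inner_self_eq_norm_sq, he]
    simp
  refine ⟨fun x hx => ?_, fun x hx => ?_⟩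
  · have h4 := h3 _ ((Submodule.mem_orthogonal _ _).2 fun s hs => by
      rw [← Submodule.inner_starProjection_left_eq_right,
        Submodule.starProjection_eq_self_iff.2 (h hs)]
      exact Submodule.inner_right_of_mem_orthogonal hs hx) (S₁.starProjection_apply_mem x)
    rwa [← Submodule.inner_starProjection_left_eq_right,
      Submodule.starProjection_eq_self_iff.2 h1] at h4
  · have h4 := h3 _ (S₀ᗮ.starProjection_apply_mem x) (by
      rw [Submodule.starProjection_orthogonal_val]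
      exact S₁.sub_mem hx (h (S₀.starProjection_apply_mem x)))
    rwa [← Submodule.inner_starProjection_left_eq_right,
      Submodule.starProjection_eq_self_iff.2 h0] at h4

/-- Pythagoras over the cells -/
theorem norm_le_of_cells {γ : Type} [Fintype γ] {Cl : γ → Submodule ℝ W}
    (ho : ∀ c c', c ≠ c' → Cl c ⟂ Cl c') (ht : ⨆ c, Cl c = ⊤) {x z : W} {M : ℝ} (hM : 0 ≤ M)
    (h : ∀ c, ‖(Cl c).orthogonalProjectionOnto x‖ ≤ M * ‖(Cl c).orthogonalProjectionOnto z‖) :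
    ‖x‖ ≤ M * ‖z‖ := by
  have hV : OrthogonalFamily ℝ (fun c => Cl c) fun c => (Cl c).subtypeₗᵢ :=
    OrthogonalFamily.of_pairwise fun c c' hc => ho c c' hc
  have h1 : ∀ x, ‖x‖ ^ 2 = ∑ c, ‖(Cl c).orthogonalProjectionOnto x‖ ^ 2 := fun x => by
    rw [← hV.norm_sum]
    exact congrArg (‖·‖ ^ 2) (hV.sum_projection_of_mem_iSup x (ht ▸ Submodule.mem_top)).symm
  refine (pow_le_pow_iff_left₀ (norm_nonneg _) (by positivity) two_ne_zero).1 ?_
  rw [mul_pow, h1, h1, Finset.mul_sum]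
  refine Finset.sum_le_sum fun c _ => ?_
  rw [← mul_pow]
  exact pow_le_pow_left₀ (norm_nonneg _) (h c) 2

theorem exists_gam_del (K : W →L[ℝ] W) : ∃ G D : (W × W) →ₗ[ℝ] W,
    ∀ x, G x = Gam K x.1 x.2 ∧ D x = Del K x.1 x.2 :=
  ⟨LinearMap.snd ℝ W W + (rt K : W →ₗ[ℝ] W) ∘ₗ LinearMap.fst ℝ W W,
    LinearMap.snd ℝ W W - (rt K : W →ₗ[ℝ] W) ∘ₗ LinearMap.fst ℝ W W, fun _ => ⟨rfl, rfl⟩⟩

theorem eq_zero_of_gam_del {κ₀ : ℝ} (hκ : 0 < κ₀) {K : W →L[ℝ] W} (hK : PosOp κ₀ K) {u v : W}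
    (h1 : Del K u v = 0) (h2 : Gam K u v = 0) : (u, v) = 0 := by
  have h3 := gam_del_en hK u v
  rw [h1, h2, norm_zero, en] at h3
  have h4 := hK.pos u
  have h5 : 0 ≤ κ₀ ^ 2 * ‖u‖ ^ 2 := by positivity
  have h6 : ‖v‖ ^ 2 = 0 := by nlinarith [sq_nonneg ‖v‖]
  have h7 : κ₀ ^ 2 * ‖u‖ ^ 2 = 0 := by nlinarith [sq_nonneg ‖v‖]
  simp only [mul_eq_zero, pow_eq_zero_iff two_ne_zero, hκ.ne', false_or, norm_eq_zero] at h6 h7
  rw [h6, h7]
  rfl

/-- the flow of the second order equation -/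
theorem exists_flow {K : ℝ → W →L[ℝ] W} (hK : Continuous K) (a : ℝ) :
    ∃ Φ : ℝ → (W × W) →ₗ[ℝ] W × W, ∀ x, Φ a x = x ∧
      SolOn K univ (fun t => (Φ t x).1) fun t => (Φ t x).2 := by
  obtain ⟨Φ, h1, h2, -⟩ := exists_prop (P := Unit) (V := W × W)
    (fun _ t => (ContinuousLinearMap.snd ℝ W W).prod ((K t).comp (ContinuousLinearMap.fst ℝ W W)))
    (by
      refine continuous_clm_apply.2 fun x => ?_
      simp only [ContinuousLinearMap.prod_apply, ContinuousLinearMap.comp_apply]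
      fun_prop)
  refine ⟨fun t => Φ () a t, fun x => ⟨by simp [h1], fun t _ => ?_⟩⟩
  exact ⟨(ContinuousLinearMap.fst ℝ W W).hasFDerivAt.comp_hasDerivAt t (h2 () a x t),
    (ContinuousLinearMap.snd ℝ W W).hasFDerivAt.comp_hasDerivAt t (h2 () a x t)⟩

/-- solutions without decaying components at `a` -/
theorem exists_grow {κ₀ : ℝ} (hκ : 0 < κ₀) {K : ℝ → W →L[ℝ] W} (hK : Continuous K) {a : ℝ}
    (ha : PosOp κ₀ (K a)) : ∃ Y Y' : ℝ → W →ₗ[ℝ] W, ∀ x,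
      SolOn K univ (fun t => Y t x) (fun t => Y' t x) ∧ Del (K a) (Y a x) (Y' a x) = 0 ∧
        Gam (K a) (Y a x) (Y' a x) = x := by
  obtain ⟨Φ, hΦ⟩ := exists_flow hK a
  obtain ⟨G, D, h⟩ := exists_gam_del (K a)
  obtain ⟨j₁, j₂, hj⟩ := exists_sections D G fun x h1 h2 =>
    eq_zero_of_gam_del hκ ha ((h x).2.symm.trans h1) ((h x).1.symm.trans h2)
  refine ⟨fun t => LinearMap.fst ℝ W W ∘ₗ Φ t ∘ₗ j₂, fun t => LinearMap.snd ℝ W W ∘ₗ Φ t ∘ₗ j₂,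
    fun x => ⟨(hΦ (j₂ x)).2, ?_, ?_⟩⟩
  · simpa [(hΦ _).1, ← (h _).2] using (hj x).2.2.1
  · simpa [(hΦ _).1, ← (h _).1] using (hj x).2.2.2

/-- solutions without growing components at `b` -/
theorem exists_dec {κ₀ : ℝ} (hκ : 0 < κ₀) {K : ℝ → W →L[ℝ] W} (hK : Continuous K) {a b : ℝ}
    (ha : PosOp κ₀ (K a)) (h0 : ∀ y y', SolOn K univ y y' → Gam (K b) (y b) (y' b) = 0 →
      Del (K a) (y a) (y' a) = 0 → Gam (K a) (y a) (y' a) = 0) :
    ∃ Z Z' : ℝ → W →ₗ[ℝ] W, ∀ x,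
      SolOn K univ (fun t => Z t x) (fun t => Z' t x) ∧ Del (K a) (Z a x) (Z' a x) = x ∧
        Gam (K b) (Z b x) (Z' b x) = 0 := by
  obtain ⟨Φ, hΦ⟩ := exists_flow hK a
  obtain ⟨G₀, D, h⟩ := exists_gam_del (K a)
  obtain ⟨G, D₀, h'⟩ := exists_gam_del (K b)
  obtain ⟨j₁, j₂, hj⟩ := exists_sections D (G ∘ₗ Φ b) fun x h1 h2 => by
    have h3 := h0 _ _ (hΦ x).2 ((h' _).1.symm.trans h2)
    simp only [(hΦ x).1] at h3
    exact eq_zero_of_gam_del hκ ha ((h x).2.symm.trans h1) (h3 ((h x).2.symm.trans h1))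
  refine ⟨fun t => LinearMap.fst ℝ W W ∘ₗ Φ t ∘ₗ j₁, fun t => LinearMap.snd ℝ W W ∘ₗ Φ t ∘ₗ j₁,
    fun x => ⟨(hΦ (j₁ x)).2, ?_, ?_⟩⟩
  · simpa [(hΦ _).1, ← (h _).2] using (hj x).1
  · simpa [← (h' _).1] using (hj x).2.1

theorem sq_le_lamk {κ₀ : ℝ} {K : W →L[ℝ] W} (hK : PosOp κ₀ K) {k : ℕ} (hk : k < finrank ℝ W) :
    κ₀ ^ 2 ≤ lamk (fK K) ⊤ k :=
  le_lamk_of_all (fun u _ => hK.pos u) (by rwa [finrank_top])

theorem le_sqrt_lamk {κ₀ : ℝ} {K : W →L[ℝ] W} (hK : PosOp κ₀ K) {k : ℕ} (hk : k < finrank ℝ W) :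
    κ₀ ≤ √(lamk (fK K) ⊤ k) :=
  Real.le_sqrt_of_sq_le (sq_le_lamk hK hk)

theorem slw_mono (K : W →L[ℝ] W) {μ μ' : ℝ} (h0 : 0 ≤ μ) (h : μ ≤ μ') : Slw K μ ≤ Slw K μ' :=
  iSup₂_le fun r hr => le_iSup₂_of_le r (hr.trans (pow_le_pow_left₀ h0 h 2)) le_rfl

theorem mem_slw {K : W →L[ℝ] W} {μ r : ℝ} {u : W} (hu : K u = r • u) (h : r ≤ μ ^ 2) :
    u ∈ Slw K μ :=
  Submodule.mem_iSup_of_mem r (Submodule.mem_iSup_of_mem h (Module.End.mem_eigenspace_iff.2 hu))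

theorem mem_fast {K : W →L[ℝ] W} {μ r : ℝ} {u : W} (hu : K u = r • u) (h : μ ^ 2 < r) :
    u ∈ Fast K μ :=
  Submodule.mem_iSup_of_mem r (Submodule.mem_iSup_of_mem h (Module.End.mem_eigenspace_iff.2 hu))

/-- the weight attached to a min-max value -/
theorem weight {κ₀ g μm δ η H a b σ : ℝ} {K : ℝ → W →L[ℝ] W} (hκ : 0 < κ₀) (hμm : 0 ≤ μm)
    (hδ : 0 ≤ δ) (hK : SlowW κ₀ κ₀ 0 δ K (fun _ => 0) fun _ => 0) (hF : Frozen K (fun _ => 0) a b)
    (hH : Holds K a b H η) (hη : η ≤ g / 4 * κ₀) {k : ℕ} (hk : k < finrank ℝ W) (hσ : |σ| ≤ g)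
    {μ : ℝ → ℝ} (hμ : ∀ t, μ t = min (√(lamk (fK (K t)) ⊤ k) + σ) μm) (hnn : ∀ t, 0 ≤ μ t)
    (hgap : ∀ t, GapAt (K t) (μ t) g) :
    SlowW κ₀ g μm (δ * (1 + μm + g)) K μ (fun t => ∫ s in a..t, μ s) ∧ Frozen K μ a b ∧
      (∀ t ∈ Icc a (a + H), μ t = μ a) ∧ (∀ t ∈ Icc (b - H) b, |μ t - μ b| ≤ g / 4) ∧
      Continuous μ := by
  have hg : 0 ≤ g := (abs_nonneg σ).trans hσ
  have hk' : k < finrank ℝ (⊤ : Submodule ℝ W) := by rwa [finrank_top]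
  have h1 : ∀ s t, μ t - μ s ≤ δ * (1 + μm + g) * |t - s| := by
    intro s t
    have h2 : 0 ≤ δ * |t - s| := by positivity
    have h3 := lamk_le_of_le (Q := fK (K t)) (Q' := fK (K s)) (S := ⊤) (c := 1 + δ * |t - s|)
      (b := 0) (by positivity) (fun u _ => by
        have := (abs_le.1 (hK.slow s t u)).2
        simp only [fK_apply]
        linarith) hk'
    have h4 := (sq_nonneg κ₀).trans (sq_le_lamk (hK.pos s) hk)
    have h5 : √(lamk (fK (K t)) ⊤ k) ≤ (1 + δ * |t - s|) * √(lamk (fK (K s)) ⊤ k) := by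
      refine Real.sqrt_le_iff.2 ⟨by positivity, ?_⟩
      rw [mul_pow, Real.sq_sqrt h4]
      nlinarith [mul_nonneg h2 h4, mul_nonneg (mul_nonneg h2 h2) h4]
    rw [hμ t, hμ s]
    rcases le_total μm (√(lamk (fK (K s)) ⊤ k) + σ) with h6 | h6
    · rw [min_eq_right h6]
      exact (sub_nonpos.2 (min_le_right _ _)).trans (by positivity)
    · rw [min_eq_left h6]
      have h7 := mul_le_mul_of_nonneg_left (show √(lamk (fK (K s)) ⊤ k) ≤ 1 + μm + g by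
        linarith [(abs_le.1 hσ).1]) h2
      linarith [min_le_left (√(lamk (fK (K t)) ⊤ k) + σ) μm]
  have h2 : ∀ s t, |μ t - μ s| ≤ δ * (1 + μm + g) * |t - s| := fun s t =>
    abs_sub_le_iff.2 ⟨h1 s t, by rw [abs_sub_comm]; exact h1 t s⟩
  have hc : Continuous μ := (LipschitzWith.of_dist_le' (K := δ * (1 + μm + g)) fun s t => by
    rw [Real.dist_eq, Real.dist_eq]; exact h2 t s).continuous
  have h3 : ∀ s t, K t = K s → μ t = μ s := fun s t h => by rw [hμ, hμ, h]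
  refine ⟨⟨hK.cont, hK.pos, fun s t u => (hK.slow s t u).trans ?_,
    fun t => (hc.integral_hasStrictDerivAt a t).hasDerivAt, h2, hnn,
    fun t => hμ t ▸ min_le_right _ _, hgap⟩, ⟨hF.le, fun t ht => ⟨(hF.left t ht).1,
    h3 _ _ (hF.left t ht).1⟩, fun t ht => ⟨(hF.right t ht).1, h3 _ _ (hF.right t ht).1⟩⟩,
    fun t ht => h3 _ _ (hH.left t ht), fun t ht => ?_, hc⟩
  · have h4 : 0 ≤ ⟪K s u, u⟫ := le_trans (by positivity) ((hK.pos s).pos u)
    have h5 : δ ≤ δ * (1 + μm + g) := le_mul_of_one_le_right hδ (by linarith)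
    gcongr
  · obtain ⟨θ, h4, h5⟩ := hH.right t ht
    have h6 := lamk_add_const (Q := fK (K t)) (Q' := fK (K b)) (S := ⊤) (b := θ) (fun u _ => by
      simp [fK_apply, h5, inner_add_left, real_inner_smul_left]) hk'
    rw [hμ t, hμ b]
    refine (abs_min_sub_min_le_max _ _ _ _).trans (max_le ?_ (by simp; positivity))
    have h7 := le_sqrt_lamk (hK.pos t) hk
    have h8 := le_sqrt_lamk (hK.pos b) hk
    have h9 := Real.sq_sqrt ((sq_nonneg κ₀).trans (sq_le_lamk (hK.pos t) hk))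
    have h10 := Real.sq_sqrt ((sq_nonneg κ₀).trans (sq_le_lamk (hK.pos b) hk))
    generalize √(lamk (fK (K t)) ⊤ k) = p at *
    generalize √(lamk (fK (K b)) ⊤ k) = q at *
    have h11 : θ = (p - q) * (p + q) := by linarith
    rw [h11, abs_mul, abs_of_pos (by linarith : 0 < p + q)] at h4
    rw [add_sub_add_right_eq_sub]
    refine le_of_mul_le_mul_right ?_ hκ
    nlinarith [abs_nonneg (p - q)]

end Crest.Agent.R202.APhaseAux
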