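import Crest.Agent.R202.APhaseAux

/-!
# Row 202, A7 (auxiliary file 2): the solutions of one cell
-/

set_option autoImplicit false
set_option linter.unusedSectionVars false
open scoped RealInnerProductSpace ContDiff
open Module Set MeasureTheory

noncomputable section
namespace Crest.Agent.R202.APhaseAux

theorem exists_delta {κ₀ g μm δ₁ : ℝ} (hκ : 0 < κ₀) (hg : 0 < g) (hμm : 0 ≤ μm) (h : 0 < δ₁) :
    ∃ δ₀ : ℝ, 0 < δ₀ ∧ ∀ δ, 0 ≤ δ → δ ≤ δ₀ →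
      δ * (1 + μm + g) ≤ δ₁ ∧ δ ≤ δ₁ ∧ δ ≤ g / 4 * κ₀ := by
  refine ⟨min (δ₁ / (1 + μm + g)) (g / 4 * κ₀), by positivity, fun δ h0 h1 => ?_⟩
  have h2 := (le_div_iff₀ (by positivity)).1 (h1.trans (min_le_left _ _))
  exact ⟨h2, (le_mul_of_one_le_right h0 (by linarith)).trans h2, h1.trans (min_le_right _ _)⟩

theorem le_sub_of_der {w μ : ℝ → ℝ} (h : ∀ t, HasDerivAt w (μ t) t) {m : ℝ} (hm : ∀ t, m ≤ μ t)
    {s t : ℝ} (hst : s ≤ t) : m * (t - s) ≤ w t - w s :=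
  mul_sub_le_image_sub_of_le_deriv (fun t => (h t).differentiableAt)
    (fun t => by rw [(h t).deriv]; exact hm t) hst

theorem sub_le_of_der {w μ : ℝ → ℝ} (h : ∀ t, HasDerivAt w (μ t) t) {m : ℝ} (hm : ∀ t, μ t ≤ m)
    {s t : ℝ} (hst : s ≤ t) : w t - w s ≤ m * (t - s) :=
  image_sub_le_mul_sub_of_deriv_le (fun t => (h t).differentiableAt)
    (fun t => by rw [(h t).deriv]; exact hm t) hst

theorem exists_ker {W : Type} [NormedAddCommGroup W] [InnerProductSpace ℝ W]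
    [FiniteDimensional ℝ W] (f : W →ₗ[ℝ] W) {S T : Submodule ℝ W}
    (h : finrank ℝ Tᗮ < finrank ℝ S) : ∃ x ∈ S, x ≠ 0 ∧ f x ∈ T := by
  let F : S →ₗ[ℝ] Tᗮ := Tᗮ.orthogonalProjectionOnto.toLinearMap ∘ₗ f ∘ₗ S.subtype
  have h1 : LinearMap.ker F ≠ ⊥ := LinearMap.ker_ne_bot_of_finrank_lt h
  obtain ⟨x, hx, hx0⟩ := (Submodule.ne_bot_iff _).1 h1
  refine ⟨x, x.2, by simpa using hx0, ?_⟩
  have h2 : Tᗮ.orthogonalProjectionOnto (f x) = 0 := hx
  have := Submodule.orthogonalProjectionOnto_eq_zero_iff.1 h2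
  rwa [Submodule.orthogonal_orthogonal] at this

/-- the solutions above the weight of the cell -/
theorem cellE {κ₀ g μs μm : ℝ} (hκ : 0 < κ₀) (hg : 0 < g) (hgκ : 2 * g ≤ κ₀) (hs : g ≤ μs)
    (hsm : μs ≤ μm) : ∃ δ₀ C : ℝ, 0 < δ₀ ∧ 0 < C ∧
    ∀ {W : Type} [NormedAddCommGroup W] [InnerProductSpace ℝ W] [FiniteDimensional ℝ W] {ι : Type}
      (δ η H : ℝ) (K : ℝ → W →L[ℝ] W) (a b : ℝ) (n : ℕ) (φ : ι → W),
      0 ≤ δ → δ ≤ δ₀ → 0 ≤ η → η ≤ δ₀ → 2 ≤ H →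
      SlowW κ₀ κ₀ 0 δ K (fun _ => 0) (fun _ => 0) → Frozen K (fun _ => 0) a b → Holds K a b H η →
      (∀ t, 0 < n → n < finrank ℝ W ∧
        √(lamk (fK (K t)) ⊤ (n - 1)) + 2 * g ≤ √(lamk (fK (K t)) ⊤ n) ∧
          √(lamk (fK (K t)) ⊤ n) ≤ μm) →
      (∀ t, n < finrank ℝ W → μs + g ≤ √(lamk (fK (K t)) ⊤ n)) →
      (∀ i, φ i = 0 ∨ 0 < n ∧ ∃ r, K b (φ i) = r • φ i ∧ r < lamk (fK (K b)) ⊤ n) →
      n ≤ finrank ℝ (Submodule.span ℝ (range φ)) →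
      Slw (K b) μs ≤ Submodule.span ℝ (range φ) ∧ ∃ S : Submodule ℝ W, finrank ℝ S = n ∧
        ∀ (y y' : ℝ → W) (X : ℝ), SolOn K univ y y' → Del (K a) (y a) (y' a) = 0 →
          Gam (K a) (y a) (y' a) ∈ Sᗮ →
          X = ‖(Submodule.span ℝ (range φ))ᗮ.starProjection (Gam (K b) (y b) (y' b))‖ →
          ‖Gam (K a) (y a) (y' a)‖ ≤ C * Real.exp (-(μs * (b - a))) * X ∧
          ‖(Submodule.span ℝ (range φ)).starProjection (Gam (K b) (y b) (y' b))‖ ≤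
            C * Real.exp (-(g / 2) * H) * X ∧
          ‖Del (K b) (y b) (y' b)‖ ≤ C * (Real.exp (-(g / 2) * H) + η) * X ∧
          ∀ t ∈ Icc a b, ‖y t‖ ≤ C * Real.exp (-(μs * (b - t))) * X := by
  have hμm : 0 ≤ μm := by linarith
  obtain ⟨δ₁, C, hδ₁, hC, hE⟩ := endE hκ hg (by linarith) hμm
  obtain ⟨δ₀, hδ₀, hδ⟩ := exists_delta hκ hg hμm hδ₁
  refine ⟨δ₀, C, hδ₀, hC, ?_⟩
  intro W _ _ _ ι δ η H K a b n φ h1 h2 h3 h4 hH hK hF hh hgap hhigh hφ hn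
  by_cases hk : n < finrank ℝ W
  swap
  · have hn0 : n = 0 := by
      by_contra h
      exact hk (hgap a (Nat.pos_of_ne_zero h)).1
    have : Subsingleton W := Module.finrank_zero_iff.1 (by omega : finrank ℝ W = 0)
    refine ⟨(Subsingleton.elim _ _).le, ⊥, by simp [hn0], fun y y' X _ _ _ hX => ?_⟩
    simp [hX, norm_of_subsingleton]
  obtain ⟨μ, hμ⟩ : ∃ μ : ℝ → ℝ, ∀ t, μ t = min (√(lamk (fK (K t)) ⊤ n) + -g) μm := ⟨_, fun _ => rfl⟩
  have hge : ∀ t, μs ≤ μ t := fun t => hμ t ▸ le_min (by linarith [hhigh t hk]) hsm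
  have hact : ∀ t, 0 < n → μ t = √(lamk (fK (K t)) ⊤ n) - g := fun t h => by
    rw [hμ t, min_eq_left (by linarith [(hgap t h).2.2]), sub_eq_add_neg]
  have hgp : ∀ t, GapAt (K t) (μ t) g ∧ finrank ℝ (Slw (K t) (μ t)) = n := fun t =>
    gap_of_lamk (hK.pos t) (by linarith [hge t]) hg hk.le
      (fun h => by linarith [hact t h, (hgap t h).2.1])
      (fun _ => by linarith [hμ t, min_le_left (√(lamk (fK (K t)) ⊤ n) + -g) μm])
  obtain ⟨w1, w2, -, w4, -⟩ := weight hκ hμm h1 hK hF hh (hδ η h3 h4).2.2 hk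
    (by rw [abs_neg, abs_of_pos hg]) hμ (fun t => by linarith [hge t]) fun t => (hgp t).1
  have hT : Submodule.span ℝ (range φ) = Slw (K b) (μ b) := by
    refine Submodule.eq_of_le_of_finrank_le (Submodule.span_le.2 ?_) ((hgp b).2.le.trans hn)
    rintro _ ⟨i, rfl⟩
    by_cases h0 : φ i = 0
    · rw [h0]
      exact zero_mem _
    obtain ⟨h5, r, h6, h7⟩ := (hφ i).resolve_left h0
    have h8 : 0 ≤ r := by
      have h9 := (hK.pos b).pos (φ i)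
      rw [h6, real_inner_smul_left, real_inner_self_eq_norm_sq] at h9
      exact (sq_nonneg κ₀).trans (le_of_mul_le_mul_right h9 (by positivity))
    have h9 := (hgp b).1 (√r) (φ i) (Real.sqrt_nonneg r) h0 (by rwa [Real.sq_sqrt h8])
    have h10 := Real.sqrt_lt_sqrt h8 h7
    have h11 := hact b h5
    refine mem_slw h6 ((Real.sqrt_le_left (by linarith [hge b])).1 ?_)
    rcases le_abs'.1 h9 with h | h <;> linarith
  refine ⟨hT ▸ slw_mono _ (by linarith) (hge b), Slw (K a) (μ a), (hgp a).2,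
    fun y y' X hy hD hG hX => ?_⟩
  have hX0 : 0 ≤ X := hX ▸ norm_nonneg _
  obtain ⟨e1, e2, e3, e4⟩ := hE _ η H K μ _ a b y y' X (by positivity) (hδ δ h1 h2).1 h3
    (hδ η h3 h4).2.1 hH w1 w2 hh (fun t => hs.trans (hge t)) w4 hy hD
    (by rwa [fast_eq_orth (hK.pos a)]) (by rw [hX, hT, fast_eq_orth (hK.pos b)])
  refine ⟨e1.trans ?_, by rwa [hT], e3, fun t ht => (e4 t ht).trans ?_⟩
  · have := le_sub_of_der w1.der hge hF.le
    gcongr
    linarith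
  · have := le_sub_of_der w1.der hge ht.2
    gcongr
    linarith

/-- the pure solution -/
theorem cellU {κ₀ g μs μm : ℝ} (hκ : 0 < κ₀) (hg : 0 < g) (hgκ : 2 * g ≤ κ₀) (hs : g ≤ μs)
    (hsm : μs ≤ μm) : ∃ δ₀ C : ℝ, 0 < δ₀ ∧ 0 < C ∧
    ∀ {W : Type} [NormedAddCommGroup W] [InnerProductSpace ℝ W] [FiniteDimensional ℝ W]
      (δ η H : ℝ) (K : ℝ → W →L[ℝ] W) (a b : ℝ) (m : ℕ) (eL eR : W) (om : ℝ → ℝ),
      0 ≤ δ → δ ≤ δ₀ → 0 ≤ η → η ≤ δ₀ → 2 ≤ H →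
      SlowW κ₀ κ₀ 0 δ K (fun _ => 0) (fun _ => 0) → Frozen K (fun _ => 0) a b → Holds K a b H η →
      m + 1 < finrank ℝ W →
      (∀ t, 0 < m → √(lamk (fK (K t)) ⊤ (m - 1)) + 2 * g ≤ √(lamk (fK (K t)) ⊤ m)) →
      (∀ t, √(lamk (fK (K t)) ⊤ m) + 2 * g ≤ √(lamk (fK (K t)) ⊤ (m + 1))) →
      (∀ t, √(lamk (fK (K t)) ⊤ m) + 2 * g ≤ μs) →
      ‖eL‖ = 1 → K a eL = lamk (fK (K a)) ⊤ m • eL → ‖eR‖ = 1 → K b eR = lamk (fK (K b)) ⊤ m • eR →
      (∀ t ∈ Icc a b, ∫ s in a..t, (√(lamk (fK (K s)) ⊤ m) + 2 * g) ≤ om t - om a) →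
      ∃ (y y' : ℝ → W) (A : ℝ), SolOn K univ y y' ∧ Del (K a) (y a) (y' a) = 0 ∧
        Gam (K a) (y a) (y' a) ≠ 0 ∧
        ‖Gam (K a) (y a) (y' a) - eL‖ ≤ C * Real.exp (-(g / 2) * H) ∧
        Gam (K b) (y b) (y' b) ∈ Slw (K b) μs ∧
        ‖Gam (K b) (y b) (y' b) - A • eR‖ ≤ C * Real.exp (-(g / 2) * H) * |A| ∧
        ‖Del (K b) (y b) (y' b)‖ ≤ C * (Real.exp (-(g / 2) * H) + η) * |A| ∧
        1 ≤ C * Real.exp (-(g * (b - a))) * |A| ∧
        ∀ t ∈ Icc a b, 0 ≤ om t - om a ∧ ‖y t‖ ≤ C * Real.exp (om t - om a) ∧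
          |A| ≤ C * Real.exp (om t - om a + μs * (b - t) - g * (b - a)) := by
  have hμm : 0 ≤ μm := by linarith
  obtain ⟨δ₁, C₁, hδ₁, hC₁, hE⟩ := endE hκ hg (by linarith) hμm
  obtain ⟨δ₂, C₂, hδ₂, hC₂, hL⟩ := endL hκ hg hμm
  obtain ⟨δ₀, hδ₀, hδ⟩ := exists_delta hκ hg hμm (lt_min hδ₁ hδ₂)
  refine ⟨δ₀, C₁ + C₂, hδ₀, by positivity, ?_⟩
  intro W _ _ _ δ η H K a b m eL eR om h1 h2 h3 h4 hH hK hF hh hm hlo hhi hle nL eigL nR eigR hom
  have hk : m < finrank ℝ W := by omega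
  obtain ⟨l, hl⟩ : ∃ l : ℝ → ℝ, ∀ t, √(lamk (fK (K t)) ⊤ m) = l t := ⟨_, fun _ => rfl⟩
  simp only [hl] at hlo hhi hle hom
  have hl0 : ∀ t, κ₀ ≤ l t := fun t => hl t ▸ le_sqrt_lamk (hK.pos t) hk
  have hl2 : ∀ t, lamk (fK (K t)) ⊤ m = l t ^ 2 := fun t => by
    rw [← hl t, Real.sq_sqrt ((sq_nonneg κ₀).trans (sq_le_lamk (hK.pos t) hk))]
  have g1 : ∀ t, GapAt (K t) (l t - g) g ∧ finrank ℝ (Slw (K t) (l t - g)) = m := fun t =>
    gap_of_lamk (hK.pos t) (by linarith [hl0 t]) hg hk.le (fun h => by linarith [hlo t h])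
      (fun _ => by linarith [hl t])
  have g2 : ∀ t, GapAt (K t) (l t + g) g ∧ finrank ℝ (Slw (K t) (l t + g)) = m + 1 := fun t =>
    gap_of_lamk (hK.pos t) (by linarith [hl0 t]) hg hm.le
      (fun _ => by rw [Nat.add_sub_cancel, hl]) (fun _ => by linarith [hhi t])
  obtain ⟨u1, u2, -, u4, -⟩ := weight (μ := fun t => l t - g) (σ := -g) hκ hμm h1 hK hF hh
    (hδ η h3 h4).2.2 hk (by rw [abs_neg, abs_of_pos hg])
    (fun t => by rw [hl, min_eq_left (by linarith [hle t]), sub_eq_add_neg])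
    (fun t => by linarith [hl0 t]) fun t => (g1 t).1
  obtain ⟨v1, v2, v3, -, v5⟩ := weight (μ := fun t => l t + g) (σ := g) hκ hμm h1 hK hF hh
    (hδ η h3 h4).2.2 hk (abs_of_pos hg).le
    (fun t => by rw [hl, min_eq_left (by linarith [hle t])])
    (fun t => by linarith [hl0 t]) fun t => (g2 t).1
  have st : ∀ t e, ‖e‖ = 1 → K t e = lamk (fK (K t)) ⊤ m • e →
      (∀ x ∈ (Slw (K t) (l t - g))ᗮ, (Slw (K t) (l t + g)).starProjection x = ⟪e, x⟫ • e) ∧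
      ∀ x ∈ Slw (K t) (l t + g), (Slw (K t) (l t - g))ᗮ.starProjection x = ⟪e, x⟫ • e := by
    intro t e he he'
    have := hl0 t
    refine step_one (slw_mono _ (by linarith) (by linarith)) (by rw [(g1 t).2, (g2 t).2]) ?_
      (mem_slw he' (by rw [hl2]; nlinarith)) he
    rw [← fast_eq_orth (hK.pos t)]
    exact mem_fast he' (by rw [hl2]; nlinarith)
  obtain ⟨Y, Y', hY⟩ := exists_grow hκ hK.cont (hK.pos a)
  obtain ⟨G, D, hG⟩ := exists_gam_del (K b)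
  have hδ' : 0 ≤ δ * (1 + μm + g) := by positivity
  have key : ∀ x ∈ (Slw (K a) (l a - g))ᗮ, Gam (K b) (Y b x) (Y' b x) ∈ Slw (K b) (l b + g) → _ :=
    fun x hx hx' => hL _ η H K _ _ a b (fun t => Y t x) (fun t => Y' t x) |⟪eL, x⟫| hδ'
      ((hδ δ h1 h2).1.trans (min_le_right _ _)) h3 ((hδ η h3 h4).2.1.trans (min_le_right _ _)) hH
      v1 v2 hh v3 (hY x).1 (hY x).2.1 hx'
      (by rw [(hY x).2.2, (st a eL nL eigL).1 x hx, norm_smul, nL, mul_one, Real.norm_eq_abs])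
  have key' : ∀ x ∈ (Slw (K a) (l a - g))ᗮ,
      (Fast (K a) (l a + g)).starProjection x = x - ⟪eL, x⟫ • eL := fun x hx => by
    rw [← (st a eL nL eigL).1 x hx, ← Submodule.starProjection_orthogonal_val]
    simp only [fast_eq_orth (hK.pos a)]
  obtain ⟨x, hx, hx', hx1⟩ : ∃ x ∈ (Slw (K a) (l a - g))ᗮ,
      Gam (K b) (Y b x) (Y' b x) ∈ Slw (K b) (l b + g) ∧ ⟪eL, x⟫ = 1 := by
    have d1 := (Slw (K a) (l a - g)).finrank_add_finrank_orthogonal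
    have d2 := (Slw (K b) (l b + g)).finrank_add_finrank_orthogonal
    rw [(g1 a).2] at d1
    rw [(g2 b).2] at d2
    have d3 : finrank ℝ (Slw (K b) (l b + g))ᗮ < finrank ℝ (Slw (K a) (l a - g))ᗮ := by omega
    obtain ⟨x, hx, hx0, hx1⟩ := exists_ker (G ∘ₗ (Y b).prod (Y' b)) d3
    have hG' : ∀ x, (G ∘ₗ (Y b).prod (Y' b)) x = Gam (K b) (Y b x) (Y' b x) := fun x => (hG _).1
    have hx2 : ⟪eL, x⟫ ≠ 0 := by
      intro h
      have h5 := (key x hx (hG' x ▸ hx1)).1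
      rw [(hY x).2.2, key' x hx, h] at h5
      exact hx0 (by simpa using h5)
    refine ⟨⟪eL, x⟫⁻¹ • x, Submodule.smul_mem _ _ hx, ?_, by
      rw [real_inner_smul_right, inv_mul_cancel₀ hx2]⟩
    rw [← hG', map_smul]
    exact Submodule.smul_mem _ _ hx1
  obtain ⟨k1, k2, k3⟩ := key x hx hx'
  rw [(hY x).2.2, key' x hx] at k1
  simp only [hx1, abs_one, mul_one, one_smul] at k1 k2 k3
  obtain ⟨A, hA⟩ : ∃ A, A = ⟪eR, Gam (K b) (Y b x) (Y' b x)⟫ := ⟨_, rfl⟩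
  have hR := (st b eR nR eigR).2 _ hx'
  rw [← hA] at hR
  have nA : ‖A • eR‖ = |A| := by rw [norm_smul, nR, mul_one, Real.norm_eq_abs]
  obtain ⟨e1, e2, e3, -⟩ := hE _ η H K _ _ a b (fun t => Y t x) (fun t => Y' t x) |A| hδ'
    ((hδ δ h1 h2).1.trans (min_le_left _ _)) h3 ((hδ η h3 h4).2.1.trans (min_le_left _ _)) hH
    u1 u2 hh (fun t => by linarith [hl0 t]) u4 (hY x).1 (hY x).2.1
    (by rwa [(hY x).2.2, fast_eq_orth (hK.pos a)])
    (by simp only [fast_eq_orth (hK.pos b)]; rw [hR, nA])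
  have hx3 : 1 ≤ ‖x‖ := by simpa [hx1, nL] using real_inner_le_norm eL x
  have hC₁' : C₁ ≤ C₁ + C₂ := by linarith
  have hC₂' : C₂ ≤ C₁ + C₂ := by linarith
  refine ⟨fun t => Y t x, fun t => Y' t x, A, (hY x).1, (hY x).2.1, ?_, ?_,
    slw_mono _ (by linarith [hl0 b]) (by linarith [hle b]) hx', ?_, e3.trans (by gcongr), ?_,
    fun t ht => ?_⟩
  · rw [(hY x).2.2]
    rintro rfl
    simp at hx1
  · rw [(hY x).2.2]
    exact k1.trans (by gcongr)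
  · rw [← hR, Submodule.starProjection_orthogonal_val, sub_sub_cancel]
    exact e2.trans (by gcongr)
  · rw [(hY x).2.2] at e1
    have := le_sub_of_der u1.der (m := g) (fun t => by linarith [hl0 t]) hF.le
    refine hx3.trans (e1.trans ?_)
    gcongr
    linarith
  · have h5 := hom t ht
    have h6 : ∫ s in a..t, (l s + 2 * g) = (∫ s in a..t, (l s + g)) + g * (t - a) := by
      rw [show (fun s => l s + 2 * g) = fun s => l s + g + g by ext; ring,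
        intervalIntegral.integral_add (v5.intervalIntegrable _ _) intervalIntegrable_const]
      simp [mul_comm]
    have h7 := le_sub_of_der v1.der (m := 0) v1.nn ht.1
    have h8 := sub_le_of_der v1.der (m := μs - g) (fun t => by linarith [hle t]) ht.2
    have h9 : 0 ≤ g * (t - a) := mul_nonneg hg.le (sub_nonneg.2 ht.1)
    simp only [intervalIntegral.integral_same, sub_zero] at h7 k2 k3
    refine ⟨by linarith, (k3 t ht).trans ?_, ?_⟩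
    · gcongr
      linarith
    · rw [← nA, ← hR]
      refine (Submodule.norm_starProjection_apply_le _ _).trans (k2.trans ?_)
      gcongr
      linarith

end Crest.Agent.R202.APhaseAux
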