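import Crest.Agent.R202.APhaseAux2

/-!
# Row 202, A7 (auxiliary file 3): restriction to a cell and assembly of the three kinds of solutions
-/

set_option autoImplicit false
set_option linter.unusedSectionVars false
open scoped RealInnerProductSpace ContDiff
open Module Set MeasureTheory

noncomputable section
namespace Crest.Agent.R202.APhaseAux

variable {W : Type} [NormedAddCommGroup W] [InnerProductSpace ℝ W] [FiniteDimensional ℝ W]

theorem exists_restrict {κ₀ δ η H a b : ℝ} {K : ℝ → W →L[ℝ] W}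
    (hK : SlowW κ₀ κ₀ 0 δ K (fun _ => 0) fun _ => 0) (hF : Frozen K (fun _ => 0) a b)
    (hH : Holds K a b H η) {V : Submodule ℝ W} (hV : ∀ t, ∀ u ∈ V, K t u ∈ V) :
    ∃ K' : ℝ → V →L[ℝ] V, (∀ t (u : V), (K' t u : W) = K t u) ∧
      SlowW κ₀ κ₀ 0 δ K' (fun _ => 0) (fun _ => 0) ∧ Frozen K' (fun _ => 0) a b ∧
      Holds K' a b H η ∧ (∀ t k, lamk (fK (K' t)) ⊤ k = lamk (fK (K t)) V k) ∧
      (∀ y y', SolOn K univ y y' → SolOn K' univ (fun t => V.orthogonalProjectionOnto (y t))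
        fun t => V.orthogonalProjectionOnto (y' t)) ∧
      (∀ t u v, Gam (K' t) (V.orthogonalProjectionOnto u) (V.orthogonalProjectionOnto v) =
          V.orthogonalProjectionOnto (Gam (K t) u v) ∧
        Del (K' t) (V.orthogonalProjectionOnto u) (V.orthogonalProjectionOnto v) =
          V.orthogonalProjectionOnto (Del (K t) u v)) ∧
      (∀ y y' : ℝ → V, SolOn K' univ y y' → SolOn K univ (fun t => y t) fun t => y' t) ∧
      ∀ t (u v : V), Gam (K t) u v = Gam (K' t) u v ∧ Del (K t) u v = Del (K' t) u v := by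
  obtain ⟨K', hK'⟩ : ∃ K' : ℝ → V →L[ℝ] V,
      ∀ t, K' t = V.orthogonalProjectionOnto ∘L K t ∘L V.subtypeL := ⟨_, fun _ => rfl⟩
  have h1 : ∀ t (u : V), (K' t u : W) = K t u := fun t u => by
    rw [hK']
    exact Submodule.starProjection_eq_self_iff.2 (hV t u u.2)
  have h2 : ∀ t (u w : V), ⟪K' t u, w⟫ = ⟪K t u, w⟫ := fun t u w => by
    rw [Submodule.coe_inner, h1]
  have h3 : ∀ s t, K s = K t → K' s = K' t := fun s t h => by rw [hK', hK', h]
  have h4 : ∀ t (u : V), (rt (K' t) u : W) = rt (K t) u := fun t u =>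
    rt_restrict (hK.pos t) (K' t) (h1 t) u
  have h5 : ∀ t u, rt (K' t) (V.orthogonalProjectionOnto u) =
      V.orthogonalProjectionOnto (rt (K t) u) := fun t u => Subtype.ext <| by
    rw [h4]
    exact (starProjection_comm (rt_sym (hK.pos t))
      (fun u hu => rt_mem (hK.pos t) (hV t) hu) u).symm
  refine ⟨K', h1, ⟨?_, fun t => ⟨fun u w => ?_, fun u => ?_⟩, fun s t u => ?_, hK.der, hK.lip,
    hK.nn, hK.le, fun t κ u hκ hu h => ?_⟩, ⟨hF.le, fun t ht => ⟨h3 _ _ (hF.left t ht).1, rfl⟩,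
    fun t ht => ⟨h3 _ _ (hF.right t ht).1, rfl⟩⟩, ⟨hH.le, fun t ht => h3 _ _ (hH.left t ht),
    fun t ht => ?_⟩, fun t k => ?_, fun y y' hy t ht => ⟨?_, ?_⟩, fun t u v => ⟨?_, ?_⟩,
    fun y y' hy t ht => ⟨?_, ?_⟩, fun t u v => ⟨?_, ?_⟩⟩
  · rw [funext hK']
    exact continuous_const.clm_comp (hK.cont.clm_comp continuous_const)
  · rw [h2, (hK.pos t).sym, Submodule.coe_inner, h1]
  · rw [h2]
    exact (hK.pos t).pos u
  · rw [h2, h2]
    exact hK.slow s t u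
  · exact hK.gap t κ u hκ (by simpa using hu) (by rw [← h1, h, Submodule.coe_smul])
  · obtain ⟨θ, h6, h7⟩ := hH.right t ht
    refine ⟨θ, h6, ContinuousLinearMap.ext fun u => Subtype.ext ?_⟩
    simp [h1, h7]
  · have h6 := lamk_map (Q := fK (K' t)) (S := ⊤) V.subtype (fK (K t)) (fun u _ => rfl)
      (fun u _ => (h2 t u u).symm) k
    rw [← h6, Submodule.map_subtype_top]
  · exact V.orthogonalProjectionOnto.hasFDerivAt.comp_hasDerivAt t (hy t ht).1
  · refine (V.orthogonalProjectionOnto.hasFDerivAt.comp_hasDerivAt t (hy t ht).2).congr_deriv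
      (Subtype.ext ?_)
    rw [h1]
    exact starProjection_comm (hK.pos t).sym (hV t) _
  · rw [Gam, Gam, map_add, h5]
  · rw [Del, Del, map_sub, h5]
  · exact V.subtypeL.hasFDerivAt.comp_hasDerivAt t (hy t ht).1
  · exact (V.subtypeL.hasFDerivAt.comp_hasDerivAt t (hy t ht).2).congr_deriv (h1 t _)
  · rw [Gam, Gam, Submodule.coe_add, h4]
  · rw [Del, Del, Submodule.coe_sub, h4]

theorem proj_lo {V Lo : Submodule ℝ W} {T : Submodule ℝ V}
    (h1 : ∀ x ∈ Lo, V.orthogonalProjectionOnto x ∈ T) (h2 : ∀ s ∈ T, (s : W) ∈ Lo) (z : W) :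
    T.starProjection (V.orthogonalProjectionOnto z) =
      V.orthogonalProjectionOnto (Lo.starProjection z) ∧
    Tᗮ.starProjection (V.orthogonalProjectionOnto z) =
      V.orthogonalProjectionOnto (Loᗮ.starProjection z) := by
  have h3 : T.starProjection (V.orthogonalProjectionOnto z) =
      V.orthogonalProjectionOnto (Lo.starProjection z) := by
    refine Submodule.eq_starProjection_of_mem_of_inner_eq_zero
      (h1 _ (Lo.starProjection_apply_mem z)) fun s hs => ?_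
    rw [← map_sub, Submodule.inner_orthogonalProjectionOnto_eq_of_mem_right]
    exact Lo.starProjection_inner_eq_zero z s (h2 s hs)
  refine ⟨h3, ?_⟩
  rw [Submodule.starProjection_orthogonal_val, Submodule.starProjection_orthogonal_val, h3, map_sub]

theorem exists_F {γ : Type} [Fintype γ] (Cl : γ → Submodule ℝ W) (S : ∀ c, Submodule ℝ (Cl c)) :
    ∃ F : Submodule ℝ W, finrank ℝ W ≤ finrank ℝ F + ∑ c, finrank ℝ (S c) ∧
      ∀ x ∈ F, ∀ c, (Cl c).orthogonalProjectionOnto x ∈ (S c)ᗮ := by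
  let L : W →ₗ[ℝ] ∀ c, S c := LinearMap.pi fun c =>
    (S c).orthogonalProjectionOnto.toLinearMap ∘ₗ (Cl c).orthogonalProjectionOnto.toLinearMap
  refine ⟨LinearMap.ker L, ?_, fun x hx c => ?_⟩
  · rw [← L.finrank_range_add_finrank_ker, add_comm, ← Module.finrank_pi_fintype ℝ]
    exact Nat.add_le_add_left (Submodule.finrank_le _) _
  · have h : (S c).orthogonalProjectionOnto ((Cl c).orthogonalProjectionOnto x) = 0 :=
      congrFun (LinearMap.mem_ker.1 hx) c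
    exact Submodule.orthogonalProjectionOnto_eq_zero_iff.1 h

theorem gam_comb (K : W →L[ℝ] W) (s : ℝ) (u₁ u₂ u₃ v₁ v₂ v₃ : W) :
    Gam K (u₁ + s • u₂ + u₃) (v₁ + s • v₂ + v₃) = Gam K u₁ v₁ + s • Gam K u₂ v₂ + Gam K u₃ v₃ := by
  simp only [Gam, map_add, map_smul]
  module

theorem del_comb (K : W →L[ℝ] W) (s : ℝ) (u₁ u₂ u₃ v₁ v₂ v₃ : W) :
    Del K (u₁ + s • u₂ + u₃) (v₁ + s • v₂ + v₃) = Del K u₁ v₁ + s • Del K u₂ v₂ + Del K u₃ v₃ := by
  simp only [Del, map_add, map_smul]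
  module

theorem norm_comb {u₁ u₂ u₃ : W} {s p q h : ℝ} (h1 : ‖u₁‖ ≤ h * p) (h2 : ‖u₂‖ ≤ h)
    (h3 : ‖u₃‖ ≤ h * q) : ‖u₁ + s • u₂ + u₃‖ ≤ h * (|s| + p + q) := by
  have h4 : ‖s • u₂‖ ≤ |s| * h := by
    rw [norm_smul]
    exact mul_le_mul_of_nonneg_left h2 (abs_nonneg s)
  linarith [norm_add₃_le (a := u₁) (b := s • u₂) (c := u₃)]

/-- assembly -/
theorem assemble {κ₀ a b μm C h A : ℝ} {K : ℝ → W →L[ℝ] W} {eL eR : W} {Lo F : Submodule ℝ W}
    {om : ℝ → ℝ} {U U' : ℝ → W} (hκ : 0 < κ₀) (hc : Continuous K) (ha : PosOp κ₀ (K a))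
    (hab : a ≤ b) (hh : 0 ≤ h) (hA : A ≠ 0)
    (hle : |A| * Real.exp μm ≤ Real.exp (om b - om a))
    (hD : ∀ y y', SolOn K univ y y' → Gam (K b) (y b) (y' b) = 0 →
      ‖Gam (K a) (y a) (y' a)‖ ≤ h * ‖Del (K a) (y a) (y' a)‖ ∧
      ‖Del (K b) (y b) (y' b)‖ ≤ h * |A| * ‖Del (K a) (y a) (y' a)‖ ∧
      ∀ t ∈ Icc a b, ‖y t‖ ≤ C * Real.exp (om t - om a) * ‖Del (K a) (y a) (y' a)‖)
    (hF : finrank ℝ W ≤ finrank ℝ F + finrank ℝ Lo)
    (hE : ∀ y y' X, SolOn K univ y y' → Del (K a) (y a) (y' a) = 0 → Gam (K a) (y a) (y' a) ∈ F →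
      X = ‖Loᗮ.starProjection (Gam (K b) (y b) (y' b))‖ / |A| →
      ‖Gam (K a) (y a) (y' a)‖ ≤ h * X ∧
      ‖Lo.starProjection (Gam (K b) (y b) (y' b))‖ ≤ h * |A| * X ∧
      ‖Del (K b) (y b) (y' b)‖ ≤ h * |A| * X ∧
      ∀ t ∈ Icc a b, ‖y t‖ ≤ C * Real.exp (om t - om a) * X)
    (hU : SolOn K univ U U') (u1 : Del (K a) (U a) (U' a) = 0) (u2 : Gam (K a) (U a) (U' a) ≠ 0)
    (u3 : ‖Gam (K a) (U a) (U' a) - eL‖ ≤ h) (u4 : Gam (K b) (U b) (U' b) ∈ Lo)
    (u5 : ‖Gam (K b) (U b) (U' b) - A • eR‖ ≤ h * |A|) (u6 : ‖Del (K b) (U b) (U' b)‖ ≤ h * |A|)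
    (u7 : ∀ t ∈ Icc a b, ‖U t‖ ≤ C * Real.exp (om t - om a)) :
    ∃ 𝒜, PhaseOut K a b eL eR Lo om μm C h 𝒜 A := by
  obtain ⟨Y, Y', hY⟩ := exists_grow hκ hc ha
  obtain ⟨Z, Z', hZ⟩ := exists_dec (b := b) hκ hc ha fun y y' h1 h2 h3 => by
    simpa [h3] using (hD y y' h1 h2).1
  have h0 : ∀ y y', SolOn K univ y y' → Del (K a) (y a) (y' a) = 0 → Gam (K a) (y a) (y' a) ∈ F →
      Gam (K b) (y b) (y' b) ∈ Lo → Gam (K a) (y a) (y' a) = 0 := fun y y' h1 h2 h3 h4 => by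
    have h5 := (hE y y' _ h1 h2 h3 rfl).1
    rw [(Submodule.starProjection_apply_eq_zero_iff _).2 (Lo.le_orthogonal_orthogonal h4)] at h5
    simpa using h5
  let J : W × ℝ × F →ₗ[ℝ] W × W := ((Z a).prod (Z' a)).coprod
    ((LinearMap.toSpanSingleton ℝ _ (U a, U' a)).coprod (((Y a).prod (Y' a)) ∘ₗ F.subtype))
  have hJ : ∀ d s φ, J (d, s, φ) = (Z a d + s • U a + Y a φ, Z' a d + s • U' a + Y' a φ) :=
    fun d s φ => by simp [J, add_assoc]
  refine ⟨LinearMap.range J, ?_, hA, hle, fun y y' hy hx => ?_⟩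
  · have h1 : Function.Injective J := by
      refine (injective_iff_map_eq_zero _).2 fun ⟨d, s, φ⟩ hx => ?_
      rw [hJ, Prod.mk_eq_zero] at hx
      have h2 := del_comb (K a) s (Z a d) (U a) (Y a φ) (Z' a d) (U' a) (Y' a φ)
      have h3 := gam_comb (K a) s (Z a d) (U a) (Y a φ) (Z' a d) (U' a) (Y' a φ)
      rw [hx.1, hx.2, (hZ d).2.1, u1, (hY φ).2.1] at h2
      obtain rfl : d = 0 := by simpa [Del] using h2.symm
      rw [hx.1, hx.2, (hY φ).2.2] at h3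
      have h4 : s • Gam (K a) (U a) (U' a) = -φ := by
        rw [eq_neg_iff_add_eq_zero]
        simpa [Gam] using h3.symm
      obtain rfl : s = 0 := by
        by_contra hs
        refine u2 (h0 U U' hU u1 ((F.smul_mem_iff hs).1 ?_) u4)
        rw [h4]
        exact F.neg_mem φ.2
      simpa using h4
    have h2 : finrank ℝ F ≤ finrank ℝ Loᗮ := by
      by_contra! h3
      obtain ⟨G, D, hG⟩ := exists_gam_del (K b)
      obtain ⟨x, hx, hx0, hx1⟩ := exists_ker (G ∘ₗ (Y b).prod (Y' b)) h3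
      have h4 := h0 _ _ (hY x).1 (hY x).2.1 (by rwa [(hY x).2.2]) ((hG (Y b x, Y' b x)).1 ▸ hx1)
      exact hx0 ((hY x).2.2.symm.trans h4)
    have h3 := Lo.finrank_add_finrank_orthogonal
    rw [LinearMap.finrank_range_of_inj h1, finrank_prod, finrank_prod, finrank_self]
    omega
  obtain ⟨⟨d, s, φ⟩, hx⟩ := hx
  rw [hJ, Prod.mk.injEq] at hx
  have h1 := solOn_unique hc.continuousOn hy (z := fun t => Z t d + s • U t + Y t φ)
    (z' := fun t => Z' t d + s • U' t + Y' t φ) (fun t _ =>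
      ⟨(((hZ d).1 t trivial).1.add ((hU t trivial).1.const_smul s)).add ((hY φ).1 t trivial).1,
        ((((hZ d).1 t trivial).2.add ((hU t trivial).2.const_smul s)).add
          ((hY φ).1 t trivial).2).congr_deriv (by simp)⟩) (left_mem_Icc.2 hab) hx.1.symm hx.2.symm
  obtain ⟨d1, d2, d3⟩ := hD _ _ (hZ d).1 (hZ d).2.2
  obtain ⟨e1, e2, e3, e4⟩ := hE _ _ _ (hY φ).1 (hY φ).2.1 (by rw [(hY φ).2.2]; exact φ.2) rfl
  have hb := h1 b (right_mem_Icc.2 hab)
  refine ⟨s, _, rfl, ?_⟩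
  rw [← hx.1, ← hx.2, hb.1, hb.2, gam_comb, gam_comb, del_comb, del_comb, (hZ d).2.2, u1,
    (hY φ).2.1, map_add, map_add, map_add, map_add, map_zero, map_zero, map_smul, map_smul,
    (Submodule.starProjection_apply_eq_zero_iff _).2 (Lo.le_orthogonal_orthogonal u4),
    Submodule.starProjection_eq_self_iff.2 u4]
  simp only [smul_zero, add_zero, zero_add]
  refine ⟨?_, ?_, norm_comb d2 u6 e3, fun t ht => ?_⟩
  · refine le_of_eq_of_le (congrArg norm ?_) (norm_comb d1 u3 e1)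
    module
  · refine le_of_eq_of_le (congrArg norm ?_) (norm_comb (u₁ := 0) (by
      rw [norm_zero]; positivity) u5 e2)
    module
  · rw [(h1 t ht).1]
    exact norm_comb (d3 t ht) (u7 t ht) (e4 t ht)

end Crest.Agent.R202.APhaseAux
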