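import Crest.Agent.R202.AOde

/-!
# Row 202, A2b: square roots and spectral subspaces (expand in `PosOp.exists_basis`)
-/

set_option autoImplicit false
open scoped RealInnerProductSpace ContDiff
open Module Set

noncomputable section
namespace Crest.Agent.R202

variable {W : Type} [NormedAddCommGroup W] [InnerProductSpace ℝ W] [FiniteDimensional ℝ W]
  {κ₀ : ℝ} {K : W →L[ℝ] W}

set_option linter.unusedSectionVars false

namespace ARootAux

variable {ι : Type} [Fintype ι]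

theorem ext_basis (e : OrthonormalBasis ι ℝ W) {x y : W} (h : ∀ i, ⟪e i, x⟫ = ⟪e i, y⟫) :
    x = y := by
  rw [← e.sum_repr' x, ← e.sum_repr' y]
  exact Finset.sum_congr rfl fun i _ => by rw [h i]

theorem diag_apply (e : OrthonormalBasis ι ℝ W) {A : W →L[ℝ] W} {a : ι → ℝ}
    (h : ∀ i, A (e i) = a i • e i) (u : W) : A u = ∑ i, (a i * ⟪e i, u⟫) • e i := by
  conv_lhs => rw [← e.sum_repr' u]
  rw [map_sum]
  refine Finset.sum_congr rfl fun i _ => ?_
  rw [map_smul, h i, smul_smul, mul_comm]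

theorem diag_inner (e : OrthonormalBasis ι ℝ W) {A : W →L[ℝ] W} {a : ι → ℝ}
    (h : ∀ i, A (e i) = a i • e i) (u w : W) :
    ⟪A u, w⟫ = ∑ i, a i * ⟪e i, u⟫ * ⟪e i, w⟫ := by
  rw [diag_apply e h u, sum_inner]
  exact Finset.sum_congr rfl fun i _ => by rw [real_inner_smul_left]

theorem diag_coord (e : OrthonormalBasis ι ℝ W) {A : W →L[ℝ] W} {a : ι → ℝ}
    (h : ∀ i, A (e i) = a i • e i) (u : W) (i : ι) : ⟪e i, A u⟫ = a i * ⟪e i, u⟫ := by
  classical
  rw [real_inner_comm, diag_inner e h, Finset.sum_eq_single i]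
  · rw [real_inner_self_eq_norm_sq, e.orthonormal.1 i]
    ring
  · intro j _ hj
    rw [e.orthonormal.2 hj, mul_zero]
  · simp

theorem diag_quad (e : OrthonormalBasis ι ℝ W) {A : W →L[ℝ] W} {a : ι → ℝ}
    (h : ∀ i, A (e i) = a i • e i) (u : W) : ⟪A u, u⟫ = ∑ i, a i * ⟪e i, u⟫ ^ 2 := by
  rw [diag_inner e h]
  exact Finset.sum_congr rfl fun i _ => by ring

theorem le_quad (e : OrthonormalBasis ι ℝ W) {A : W →L[ℝ] W} {a : ι → ℝ}
    (h : ∀ i, A (e i) = a i • e i) {u : W} {c : ℝ} (hc : ∀ i, ⟪e i, u⟫ ≠ 0 → c ≤ a i) :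
    c * ‖u‖ ^ 2 ≤ ⟪A u, u⟫ := by
  rw [diag_quad e h, ← e.sum_sq_inner_right u, Finset.mul_sum]
  refine Finset.sum_le_sum fun i _ => ?_
  by_cases hi : ⟪e i, u⟫ = 0
  · simp [hi]
  · exact mul_le_mul_of_nonneg_right (hc i hi) (sq_nonneg _)

theorem quad_le (e : OrthonormalBasis ι ℝ W) {A : W →L[ℝ] W} {a : ι → ℝ}
    (h : ∀ i, A (e i) = a i • e i) {u : W} {c : ℝ} (hc : ∀ i, ⟪e i, u⟫ ≠ 0 → a i ≤ c) :
    ⟪A u, u⟫ ≤ c * ‖u‖ ^ 2 := by
  rw [diag_quad e h, ← e.sum_sq_inner_right u, Finset.mul_sum]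
  refine Finset.sum_le_sum fun i _ => ?_
  by_cases hi : ⟪e i, u⟫ = 0
  · simp [hi]
  · exact mul_le_mul_of_nonneg_right (hc i hi) (sq_nonneg _)

theorem eig_coord (e : OrthonormalBasis ι ℝ W) {A : W →L[ℝ] W} {a : ι → ℝ}
    (h : ∀ i, A (e i) = a i • e i) {u : W} {r : ℝ} (hu : A u = r • u) {i : ι}
    (hi : ⟪e i, u⟫ ≠ 0) : a i = r := by
  have h1 := diag_coord e h u i
  rw [hu, real_inner_smul_right] at h1
  exact (mul_right_cancel₀ hi h1).symm

theorem mem_iSup_iff (e : OrthonormalBasis ι ℝ W) {A : W →L[ℝ] W} {a : ι → ℝ}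
    (h : ∀ i, A (e i) = a i • e i) (p : ℝ → Prop) (u : W) :
    u ∈ (⨆ (r : ℝ) (_ : p r), Module.End.eigenspace (A : W →ₗ[ℝ] W) r) ↔
      ∀ i, ⟪e i, u⟫ ≠ 0 → p (a i) := by
  constructor
  · intro hu i hi
    by_contra hp
    have hle : (⨆ (r : ℝ) (_ : p r), Module.End.eigenspace (A : W →ₗ[ℝ] W) r) ≤
        LinearMap.ker (innerₗ W (e i)) := by
      refine iSup_le fun r => iSup_le fun hr => fun v hv => ?_
      rw [LinearMap.mem_ker, innerₗ_apply_apply]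
      by_contra hne
      have := eig_coord e h (u := v) (r := r) (Module.End.mem_eigenspace_iff.1 hv) hne
      exact hp (this ▸ hr)
    have := hle hu
    rw [LinearMap.mem_ker, innerₗ_apply_apply] at this
    exact hi this
  · intro hu
    rw [← e.sum_repr' u]
    refine Submodule.sum_mem _ fun i _ => ?_
    by_cases hi : ⟪e i, u⟫ = 0
    · rw [hi, zero_smul]
      exact Submodule.zero_mem _
    · refine Submodule.smul_mem _ _ (Submodule.mem_iSup_of_mem (a i)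
        (Submodule.mem_iSup_of_mem (hu i hi) ?_))
      exact Module.End.mem_eigenspace_iff.2 (h i)

theorem iSup_inv (K : W →L[ℝ] W) (p : ℝ → Prop) :
    ∀ u ∈ (⨆ (r : ℝ) (_ : p r), Module.End.eigenspace (K : W →ₗ[ℝ] W) r),
      K u ∈ (⨆ (r : ℝ) (_ : p r), Module.End.eigenspace (K : W →ₗ[ℝ] W) r) := by
  have hle : (⨆ (r : ℝ) (_ : p r), Module.End.eigenspace (K : W →ₗ[ℝ] W) r) ≤
      (⨆ (r : ℝ) (_ : p r), Module.End.eigenspace (K : W →ₗ[ℝ] W) r).comap (K : W →ₗ[ℝ] W) := by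
    refine iSup_le fun r => iSup_le fun hr => fun v hv => ?_
    rw [Submodule.mem_comap, Module.End.mem_eigenspace_iff.1 hv]
    exact Submodule.smul_mem _ _ (Submodule.mem_iSup_of_mem r (Submodule.mem_iSup_of_mem hr hv))
  exact fun u hu => hle hu

theorem basis0 (hK : PosOp κ₀ K) :
    ∃ (e : OrthonormalBasis (Fin (finrank ℝ W)) ℝ W) (κ : Fin (finrank ℝ W) → ℝ),
      ∀ i, 0 ≤ κ i ∧ κ₀ ^ 2 ≤ κ i ^ 2 ∧ K (e i) = κ i ^ 2 • e i ∧ rt K (e i) = κ i • e i := by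
  have h : (K : W →ₗ[ℝ] W).IsSymmetric := fun u w => hK.sym u w
  refine ⟨h.eigenvectorBasis rfl, fun i => Real.sqrt (h.eigenvalues rfl i), fun i => ?_⟩
  have h1 : K (h.eigenvectorBasis rfl i) = h.eigenvalues rfl i • h.eigenvectorBasis rfl i :=
    h.apply_eigenvectorBasis rfl i
  have h2 : κ₀ ^ 2 ≤ h.eigenvalues rfl i := by
    have := hK.pos (h.eigenvectorBasis rfl i)
    rw [h1, real_inner_smul_left, real_inner_self_eq_norm_sq,
      (h.eigenvectorBasis rfl).orthonormal.1 i] at this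
    simpa using this
  have h3 : Real.sqrt (h.eigenvalues rfl i) ^ 2 = h.eigenvalues rfl i :=
    Real.sq_sqrt ((sq_nonneg _).trans h2)
  refine ⟨Real.sqrt_nonneg _, by rw [h3]; exact h2, by rw [h3]; exact h1, ?_⟩
  unfold rt
  rw [dif_pos h, sum_apply, Finset.sum_eq_single i]
  · rw [smul_apply, ContinuousLinearMap.smulRight_apply, innerSL_apply_apply,
      real_inner_self_eq_norm_sq, (h.eigenvectorBasis rfl).orthonormal.1 i, one_pow, one_smul]
  · intro j _ hj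
    rw [smul_apply, ContinuousLinearMap.smulRight_apply, innerSL_apply_apply,
      (h.eigenvectorBasis rfl).orthonormal.2 hj, zero_smul, smul_zero]
  · simp

theorem rt_eig' (hK : PosOp κ₀ K) {u : W} {κ : ℝ} (hκ : 0 ≤ κ) (h : K u = κ ^ 2 • u) :
    rt K u = κ • u := by
  obtain ⟨e, k, he⟩ := basis0 hK
  refine ext_basis e fun i => ?_
  rw [diag_coord e (fun i => (he i).2.2.2), real_inner_smul_right]
  by_cases hi : ⟪e i, u⟫ = 0
  · rw [hi, mul_zero, mul_zero]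
  · have := eig_coord e (fun i => (he i).2.2.1) h hi
    rw [(pow_left_inj₀ (he i).1 hκ two_ne_zero).1 this]

theorem posOp_restrict (hs : ∀ u w, ⟪K u, w⟫ = ⟪u, K w⟫) {V : Submodule ℝ W} (K' : V →L[ℝ] V)
    (h : ∀ u : V, (K' u : W) = K u) {ν : ℝ} (hp : ∀ u ∈ V, ν ^ 2 * ‖u‖ ^ 2 ≤ ⟪K u, u⟫) :
    PosOp ν K' := by
  constructor
  · intro u w
    rw [Submodule.coe_inner, Submodule.coe_inner, h, h, hs]
  · intro u
    rw [Submodule.coe_inner, h]
    exact hp u u.2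

theorem rt_restrict' (hK : PosOp κ₀ K) {V : Submodule ℝ W} (K' : V →L[ℝ] V)
    (h : ∀ u : V, (K' u : W) = K u) (u : V) : (rt K' u : W) = rt K u := by
  obtain ⟨e, k, he⟩ := basis0 (posOp_restrict hK.sym K' h fun u _ => hK.pos u)
  have h1 : ∀ i, rt K (e i : W) = k i • (e i : W) := fun i =>
    rt_eig' hK (he i).1 (by rw [← h, (he i).2.2.1, Submodule.coe_smul])
  rw [diag_apply e (fun i => (he i).2.2.2) u]
  conv_rhs => rw [← e.sum_repr' u]
  rw [Submodule.coe_sum, Submodule.coe_sum, map_sum]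
  refine Finset.sum_congr rfl fun i _ => ?_
  rw [Submodule.coe_smul, Submodule.coe_smul, map_smul, h1, smul_smul, mul_comm]

theorem exists_restrict {V : Submodule ℝ W} (hV : ∀ u ∈ V, K u ∈ V) :
    ∃ K' : V →L[ℝ] V, ∀ u : V, (K' u : W) = K u :=
  ⟨LinearMap.toContinuousLinearMap ((K : W →ₗ[ℝ] W).restrict hV), fun _ => rfl⟩

end ARootAux

open ARootAux

theorem PosOp.isSymmetric (hK : PosOp κ₀ K) : (K : W →ₗ[ℝ] W).IsSymmetric :=
  fun u w => hK.sym u w

/-- an orthonormal eigenbasis for `K` and `rt K` -/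
theorem PosOp.exists_basis (hκ : 0 ≤ κ₀) (hK : PosOp κ₀ K) :
    ∃ (e : OrthonormalBasis (Fin (finrank ℝ W)) ℝ W) (κ : Fin (finrank ℝ W) → ℝ),
      ∀ i, κ₀ ≤ κ i ∧ K (e i) = κ i ^ 2 • e i ∧ rt K (e i) = κ i • e i := by
  obtain ⟨e, k, he⟩ := basis0 hK
  exact ⟨e, k, fun i => ⟨(pow_le_pow_iff_left₀ hκ (he i).1 two_ne_zero).1 (he i).2.1,
    (he i).2.2⟩⟩

theorem rt_sym (hK : PosOp κ₀ K) (u w : W) : ⟪rt K u, w⟫ = ⟪u, rt K w⟫ := by
  obtain ⟨e, k, he⟩ := basis0 hK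
  rw [real_inner_comm (rt K w) u, diag_inner e (fun i => (he i).2.2.2),
    diag_inner e (fun i => (he i).2.2.2)]
  exact Finset.sum_congr rfl fun i _ => by ring

theorem rt_rt (hK : PosOp κ₀ K) (u : W) : rt K (rt K u) = K u := by
  obtain ⟨e, k, he⟩ := basis0 hK
  refine ext_basis e fun i => ?_
  rw [diag_coord e (fun i => (he i).2.2.2), diag_coord e (fun i => (he i).2.2.2),
    diag_coord e (fun i => (he i).2.2.1)]
  ring

theorem rt_eig (hK : PosOp κ₀ K) {u : W} {κ : ℝ} (hκ : 0 ≤ κ) (h : K u = κ ^ 2 • u) :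
    rt K u = κ • u :=
  rt_eig' hK hκ h

theorem rt_mem (hK : PosOp κ₀ K) {V : Submodule ℝ W} (hV : ∀ u ∈ V, K u ∈ V) {u : W}
    (hu : u ∈ V) : rt K u ∈ V := by
  obtain ⟨K', h⟩ := exists_restrict hV
  have := rt_restrict' hK K' h ⟨u, hu⟩
  rw [← show ((rt K' ⟨u, hu⟩ : V) : W) = rt K u from this]
  exact Submodule.coe_mem _

/-- lower bounds pass to the square root on invariant subspaces -/
theorem le_rt (hK : PosOp κ₀ K) {V : Submodule ℝ W} (hV : ∀ u ∈ V, K u ∈ V) {ν : ℝ} (hν : 0 ≤ ν)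
    (h : ∀ u ∈ V, ν ^ 2 * ‖u‖ ^ 2 ≤ ⟪K u, u⟫) {u : W} (hu : u ∈ V) :
    ν * ‖u‖ ^ 2 ≤ ⟪rt K u, u⟫ := by
  obtain ⟨K', hK'⟩ := exists_restrict hV
  obtain ⟨e, k, he⟩ := (posOp_restrict hK.sym K' hK' h).exists_basis hν
  have h1 := le_quad e (fun i => (he i).2.2) (u := ⟨u, hu⟩) (c := ν) fun i _ => (he i).1
  rw [Submodule.coe_inner, rt_restrict' hK K' hK'] at h1
  exact h1

theorem norm_rt_sq (hK : PosOp κ₀ K) (u : W) : ‖rt K u‖ ^ 2 = ⟪K u, u⟫ := by
  rw [← real_inner_self_eq_norm_sq, ← rt_sym hK, rt_rt hK]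

theorem gam_del_en (hK : PosOp κ₀ K) (u v : W) :
    ‖Gam K u v‖ ^ 2 + ‖Del K u v‖ ^ 2 = 2 * en K u v := by
  unfold Gam Del en
  rw [norm_add_sq_real, norm_sub_sq_real, norm_rt_sq hK]
  ring

/-- the square root of the restriction to an invariant subspace -/
theorem rt_restrict (hK : PosOp κ₀ K) {V : Submodule ℝ W} (K' : V →L[ℝ] V)
    (h : ∀ u : V, (K' u : W) = K u) (u : V) : (rt K' u : W) = rt K u :=
  rt_restrict' hK K' h u

theorem starProjection_comm (hK : ∀ u w, ⟪K u, w⟫ = ⟪u, K w⟫) {V : Submodule ℝ W}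
    (hV : ∀ u ∈ V, K u ∈ V) (u : W) : V.starProjection (K u) = K (V.starProjection u) := by
  refine Submodule.eq_starProjection_of_mem_of_inner_eq_zero
    (hV _ (V.starProjection_apply_mem u)) fun w hw => ?_
  rw [← map_sub, hK]
  exact Submodule.starProjection_inner_eq_zero u _ (hV w hw)

theorem fast_inv (K : W →L[ℝ] W) (μ : ℝ) : ∀ u ∈ Fast K μ, K u ∈ Fast K μ :=
  iSup_inv K fun r => μ ^ 2 < r

theorem slw_inv (K : W →L[ℝ] W) (μ : ℝ) : ∀ u ∈ Slw K μ, K u ∈ Slw K μ :=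
  iSup_inv K fun r => r ≤ μ ^ 2

theorem fast_eq_orth (hK : PosOp κ₀ K) (μ : ℝ) : Fast K μ = (Slw K μ)ᗮ := by
  obtain ⟨e, k, he⟩ := basis0 hK
  have hF := mem_iSup_iff e (fun i => (he i).2.2.1) fun r => μ ^ 2 < r
  have hS := mem_iSup_iff e (fun i => (he i).2.2.1) fun r => r ≤ μ ^ 2
  ext u
  rw [Submodule.mem_orthogonal]
  constructor
  · intro hu w hw
    rw [← e.sum_inner_mul_inner]
    refine Finset.sum_eq_zero fun i _ => ?_
    by_cases hi : ⟪e i, u⟫ = 0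
    · rw [hi, mul_zero]
    · have h1 := (hF u).1 hu i hi
      have h2 : ⟪e i, w⟫ = 0 := by
        by_contra hne
        exact absurd ((hS w).1 hw i hne) (not_le.2 h1)
      rw [real_inner_comm, h2, zero_mul]
  · intro hu
    refine (hF u).2 fun i hi => ?_
    by_contra hlt
    refine hi (hu _ ?_)
    exact Submodule.mem_iSup_of_mem (k i ^ 2) (Submodule.mem_iSup_of_mem (not_lt.1 hlt)
      (Module.End.mem_eigenspace_iff.2 (he i).2.2.1))

theorem fast_ge (hK : PosOp κ₀ K) {μ g : ℝ} (hμ : 0 ≤ μ) (hg : 0 ≤ g) (h : GapAt K μ g) :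
    ∀ u ∈ Fast K μ, (μ + g) ^ 2 * ‖u‖ ^ 2 ≤ ⟪K u, u⟫ := by
  obtain ⟨e, k, he⟩ := basis0 hK
  intro u hu
  refine le_quad e (fun i => (he i).2.2.1) fun i hi => ?_
  have h1 : μ ^ 2 < k i ^ 2 :=
    (mem_iSup_iff e (fun i => (he i).2.2.1) (fun r => μ ^ 2 < r) u).1 hu i hi
  have h2 : μ < k i := lt_of_pow_lt_pow_left₀ 2 (he i).1 h1
  have h3 := h (k i) (e i) (he i).1 (e.orthonormal.ne_zero i) (he i).2.2.1
  rw [abs_of_pos (by linarith)] at h3
  exact pow_le_pow_left₀ (by linarith) (by linarith) 2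

theorem slw_le (hK : PosOp κ₀ K) {μ g : ℝ} (hμ : g ≤ μ) (hg : 0 < g) (h : GapAt K μ g) :
    ∀ u ∈ Slw K μ, ⟪K u, u⟫ ≤ (μ - g) ^ 2 * ‖u‖ ^ 2 := by
  obtain ⟨e, k, he⟩ := basis0 hK
  intro u hu
  refine quad_le e (fun i => (he i).2.2.1) fun i hi => ?_
  have h1 : k i ^ 2 ≤ μ ^ 2 :=
    (mem_iSup_iff e (fun i => (he i).2.2.1) (fun r => r ≤ μ ^ 2) u).1 hu i hi
  have h2 : k i ≤ μ := le_of_pow_le_pow_left₀ two_ne_zero (by linarith) h1
  have h3 := h (k i) (e i) (he i).1 (e.orthonormal.ne_zero i) (he i).2.2.1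
  rw [abs_of_nonpos (by linarith)] at h3
  exact pow_le_pow_left₀ (he i).1 (by linarith) 2

theorem slw_le' (hK : PosOp κ₀ K) (μ : ℝ) : ∀ u ∈ Slw K μ, ⟪K u, u⟫ ≤ μ ^ 2 * ‖u‖ ^ 2 := by
  obtain ⟨e, k, he⟩ := basis0 hK
  intro u hu
  exact quad_le e (fun i => (he i).2.2.1) fun i hi =>
    (mem_iSup_iff e (fun i => (he i).2.2.1) (fun r => r ≤ μ ^ 2) u).1 hu i hi

/-- a gap between the `(m-1)`-st and the `m`-th min-max value -/
theorem gap_of_lamk (hK : PosOp κ₀ K) {μ g : ℝ} (hμ : 0 ≤ μ) (hg : 0 < g) {m : ℕ}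
    (hm : m ≤ finrank ℝ W)
    (hlo : 0 < m → Real.sqrt (lamk (fK K) ⊤ (m - 1)) + g ≤ μ)
    (hhi : m < finrank ℝ W → μ + g ≤ Real.sqrt (lamk (fK K) ⊤ m)) :
    GapAt K μ g ∧ finrank ℝ (Slw K μ) = m := by
  classical
  have hsym : SymF (fK K) := fun u w => by
    rw [fK_apply, fK_apply, hK.sym, real_inner_comm]
  obtain ⟨e₀, hon, hsp, heig⟩ := exists_eigen (S := (⊤ : Submodule ℝ W)) hsym
  have htop : finrank ℝ (⊤ : Submodule ℝ W) = finrank ℝ W := finrank_top ℝ W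
  obtain ⟨e, he⟩ : ∃ e : OrthonormalBasis (Fin (finrank ℝ (⊤ : Submodule ℝ W))) ℝ W,
      ∀ i, e i = e₀ i :=
    ⟨OrthonormalBasis.mk hon hsp.ge, fun i => by rw [OrthonormalBasis.coe_mk]⟩
  set a : Fin (finrank ℝ (⊤ : Submodule ℝ W)) → ℝ := fun i => lamk (fK K) ⊤ i with ha
  have hKe : ∀ i, K (e i) = a i • e i := fun i => by
    refine ext_inner_right ℝ fun w => ?_
    rw [real_inner_smul_left, he]
    exact (heig i).2 w trivial
  have ha0 : ∀ i, 0 ≤ a i := fun i => by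
    have := hK.pos (e i)
    rw [hKe, real_inner_smul_left, real_inner_self_eq_norm_sq, e.orthonormal.1 i] at this
    nlinarith [sq_nonneg κ₀]
  have hl : ∀ i : Fin (finrank ℝ (⊤ : Submodule ℝ W)), (i : ℕ) < m → Real.sqrt (a i) + g ≤ μ := by
    intro i hi
    have h1 : lamk (fK K) ⊤ i ≤ lamk (fK K) ⊤ (m - 1) := lamk_mono (by omega) (by omega)
    have h2 := Real.sqrt_le_sqrt h1
    have h3 := hlo (by omega)
    show Real.sqrt (lamk (fK K) ⊤ i) + g ≤ μ
    linarith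
  have hh : ∀ i : Fin (finrank ℝ (⊤ : Submodule ℝ W)), m ≤ (i : ℕ) → μ + g ≤ Real.sqrt (a i) := by
    intro i hi
    have h0 := i.2
    have h1 : lamk (fK K) ⊤ m ≤ lamk (fK K) ⊤ i := lamk_mono hi h0
    have h2 := Real.sqrt_le_sqrt h1
    have h3 := hhi (by omega)
    show μ + g ≤ Real.sqrt (lamk (fK K) ⊤ i)
    linarith
  have hiff : ∀ i : Fin (finrank ℝ (⊤ : Submodule ℝ W)), a i ≤ μ ^ 2 ↔ (i : ℕ) < m := by
    intro i
    rw [← Real.sqrt_le_left hμ]
    constructor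
    · intro h1
      by_contra h2
      have := hh i (not_lt.1 h2)
      linarith
    · intro h1
      have := hl i h1
      linarith
  constructor
  · intro κ u hκ hu hKu
    obtain ⟨i, hi⟩ : ∃ i, ⟪e i, u⟫ ≠ 0 := by
      by_contra hcon
      push Not at hcon
      exact hu (ext_basis e fun i => by rw [hcon i, inner_zero_right])
    have h1 : Real.sqrt (a i) = κ := by rw [eig_coord e hKe hKu hi, Real.sqrt_sq hκ]
    rcases lt_or_ge (i : ℕ) m with h2 | h2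
    · have := hl i h2
      rw [h1] at this
      exact le_abs.2 (Or.inr (by linarith))
    · have := hh i h2
      rw [h1] at this
      exact le_abs.2 (Or.inl (by linarith))
  · have hS : Slw K μ = Submodule.span ℝ (range fun j :
        {i : Fin (finrank ℝ (⊤ : Submodule ℝ W)) // (i : ℕ) < m} => e j.1) := by
      apply le_antisymm
      · intro u hu
        have h1 := (mem_iSup_iff e hKe (fun r => r ≤ μ ^ 2) u).1 hu
        rw [← e.sum_repr' u]
        refine Submodule.sum_mem _ fun i _ => ?_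
        by_cases hi : ⟪e i, u⟫ = 0
        · rw [hi, zero_smul]
          exact Submodule.zero_mem _
        · exact Submodule.smul_mem _ _
            (Submodule.subset_span ⟨⟨i, (hiff i).1 (h1 i hi)⟩, rfl⟩)
      · rw [Submodule.span_le]
        rintro _ ⟨j, rfl⟩
        exact Submodule.mem_iSup_of_mem (a j.1) (Submodule.mem_iSup_of_mem ((hiff j.1).2 j.2)
          (Module.End.mem_eigenspace_iff.2 (hKe j.1)))
    have hli : LinearIndependent ℝ fun j :
        {i : Fin (finrank ℝ (⊤ : Submodule ℝ W)) // (i : ℕ) < m} => e j.1 :=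
      e.orthonormal.linearIndependent.comp _ Subtype.val_injective
    rw [hS, finrank_span_eq_card hli]
    exact Fintype.card_fin_lt_of_le (by omega)

end Crest.Agent.R202
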