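import Crest.Agent.R202.ADefs

/-!
# Row 202, A1: min-max values of symmetric forms on finite-dimensional subspaces

Everything follows from `exists_eigen` (apply Mathlib's spectral theorem
`LinearMap.IsSymmetric.eigenvectorBasis` to the operator on `↥S` that represents `Q`, reverse the
order) and the two Courant-Fischer inequalities `lamk_le`, `le_lamk` (a subspace of dimension `k+1`
meets a subspace of codimension `k`).
-/

set_option autoImplicit false
open scoped RealInnerProductSpace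
open Module Set

noncomputable section
namespace Crest.Agent.R202

variable {X : Type} [NormedAddCommGroup X] [InnerProductSpace ℝ X]
  {Q Q' : X →ₗ[ℝ] X →ₗ[ℝ] ℝ} {S : Submodule ℝ X}

theorem ASpec_sub (T : Submodule ℝ X) {k : ℕ} (hk : k ≤ finrank ℝ T) :
    ∃ T' : Submodule ℝ X, T' ≤ T ∧ finrank ℝ T' = k := by
  obtain ⟨f, hf⟩ := exists_linearIndependent_of_le_finrank hk
  refine ⟨Submodule.span ℝ (range (T.subtype ∘ f)), ?_, ?_⟩
  · rw [Submodule.span_le]
    rintro _ ⟨i, rfl⟩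
    exact (f i).2
  · rw [finrank_span_eq_card (hf.map' T.subtype (Submodule.ker_subtype T)), Fintype.card_fin]

theorem ASpec_bound' {Y : Type} [NormedAddCommGroup Y] [NormedSpace ℝ Y] [FiniteDimensional ℝ Y]
    (P : Y →ₗ[ℝ] Y →ₗ[ℝ] ℝ) : ∃ C : ℝ, ∀ u, |P u u| ≤ C * ‖u‖ ^ 2 := by
  let B : Y →L[ℝ] Y →L[ℝ] ℝ := LinearMap.toContinuousLinearMap
    ((LinearMap.toContinuousLinearMap (𝕜 := ℝ) (E := Y) (F' := ℝ)).toLinearMap ∘ₗ P)
  refine ⟨‖B‖, fun u => ?_⟩
  have := B.le_opNorm₂ u u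
  rw [sq, ← mul_assoc]
  exact this

theorem ASpec_bound (Q : X →ₗ[ℝ] X →ₗ[ℝ] ℝ) (S : Submodule ℝ X) [FiniteDimensional ℝ S] :
    ∃ C : ℝ, ∀ u ∈ S, |Q u u| ≤ C * ‖u‖ ^ 2 := by
  obtain ⟨C, hC⟩ := ASpec_bound' (Y := S) (Q.compl₁₂ S.subtype S.subtype)
  exact ⟨C, fun u hu => hC ⟨u, hu⟩⟩

theorem ASpec_ne {T : Submodule ℝ X} (h : 0 < finrank ℝ T) : ∃ u ∈ T, u ≠ 0 :=
  Submodule.exists_mem_ne_zero_of_ne_bot fun h0 => by
    rw [h0, finrank_bot] at h
    exact lt_irrefl _ h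

theorem ASpec_bdd (Q : X →ₗ[ℝ] X →ₗ[ℝ] ℝ) (S : Submodule ℝ X) [FiniteDimensional ℝ S] (k : ℕ) :
    BddBelow {r | ∃ T : Submodule ℝ X, T ≤ S ∧ finrank ℝ T = k + 1 ∧
      ∀ u ∈ T, Q u u ≤ r * ‖u‖ ^ 2} := by
  obtain ⟨C, hC⟩ := ASpec_bound Q S
  refine ⟨-C, ?_⟩
  rintro r ⟨T, h1, h2, h3⟩
  obtain ⟨u, hu, h0⟩ := ASpec_ne (T := T) (by omega)
  have h4 := (abs_le.1 (hC u (h1 hu))).1.trans (h3 u hu)
  rw [← neg_mul] at h4
  exact le_of_mul_le_mul_right h4 (pow_pos (norm_pos_iff.2 h0) 2)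

theorem ASpec_le [FiniteDimensional ℝ S] {k : ℕ} (hk : k < finrank ℝ S) {r : ℝ}
    (h : ∀ (T : Submodule ℝ X) (t : ℝ), T ≤ S → finrank ℝ T = k + 1 →
      (∀ u ∈ T, Q u u ≤ t * ‖u‖ ^ 2) → r ≤ t) : r ≤ lamk Q S k := by
  obtain ⟨C, hC⟩ := ASpec_bound Q S
  obtain ⟨T, h1, h2⟩ := ASpec_sub S (k := k + 1) hk
  refine le_csInf ⟨C, T, h1, h2, fun u hu => (abs_le.1 (hC u (h1 hu))).2⟩ ?_
  rintro t ⟨T, h1, h2, h3⟩
  exact h T t h1 h2 h3

/-- Courant-Fischer, upper bound -/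
theorem lamk_le [FiniteDimensional ℝ S] {T : Submodule ℝ X} (hT : T ≤ S) {k : ℕ}
    (hk : k + 1 ≤ finrank ℝ T) {r : ℝ} (h : ∀ u ∈ T, Q u u ≤ r * ‖u‖ ^ 2) : lamk Q S k ≤ r := by
  have := Submodule.finiteDimensional_of_le hT
  obtain ⟨T', h1, h2⟩ := ASpec_sub T hk
  exact csInf_le (ASpec_bdd Q S k) ⟨T', h1.trans hT, h2, fun u hu => h u (h1 hu)⟩

/-- Courant-Fischer, lower bound -/
theorem le_lamk [FiniteDimensional ℝ S] {U : Submodule ℝ X} (hU : U ≤ S) {k : ℕ}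
    (hk : k < finrank ℝ S) (hdim : finrank ℝ S ≤ finrank ℝ U + k) {r : ℝ}
    (h : ∀ u ∈ U, r * ‖u‖ ^ 2 ≤ Q u u) : r ≤ lamk Q S k := by
  refine ASpec_le hk fun T t h1 h2 h3 => ?_
  have := Submodule.finiteDimensional_of_le h1
  have := Submodule.finiteDimensional_of_le hU
  have h4 := Submodule.finrank_sup_add_finrank_inf_eq T U
  have h5 : finrank ℝ (T ⊔ U : Submodule ℝ X) ≤ finrank ℝ S := Submodule.finrank_mono (sup_le h1 hU)
  obtain ⟨u, hu, h0⟩ := ASpec_ne (T := T ⊓ U) (by omega)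
  exact le_of_mul_le_mul_right ((h u hu.2).trans (h3 u hu.1)) (pow_pos (norm_pos_iff.2 h0) 2)

theorem ASpec_expand {ι : Type} [Fintype ι] {e : ι → X} {μ : ι → ℝ}
    (ho : ∀ i j, i ≠ j → ⟪e i, e j⟫ = 0) (heig : ∀ i, EigF Q S (e i) (μ i)) {u : X}
    (hu : u ∈ Submodule.span ℝ (range e)) :
    ∃ c : ι → ℝ, (∀ i, 0 ≤ c i) ∧ Q u u = ∑ i, μ i * c i ∧ ‖u‖ ^ 2 = ∑ i, c i := by
  have hS : u ∈ S := Submodule.span_le.2 (by rintro _ ⟨j, rfl⟩; exact (heig j).1) hu
  obtain ⟨a, ha⟩ := (Submodule.mem_span_range_iff_exists_fun ℝ).1 hu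
  refine ⟨fun i => a i * ⟪e i, u⟫, fun i => ?_, ?_, ?_⟩
  · show 0 ≤ a i * ⟪e i, u⟫
    rw [← ha, inner_sum, Finset.sum_eq_single i
      (fun j _ hj => by rw [real_inner_smul_right, ho i j hj.symm, mul_zero]) (by simp),
      real_inner_smul_right, ← mul_assoc]
    exact mul_nonneg (mul_self_nonneg _) real_inner_self_nonneg
  · conv_lhs => rw [← show Q (∑ i, a i • e i) = Q u by rw [ha]]
    rw [map_sum, LinearMap.sum_apply]
    refine Finset.sum_congr rfl fun i _ => ?_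
    rw [map_smul, LinearMap.smul_apply, (heig i).2 u hS, smul_eq_mul]
    ring
  · rw [← real_inner_self_eq_norm_sq]
    conv_lhs => rw [← show ⟪∑ i, a i • e i, u⟫ = ⟪u, u⟫ by rw [ha]]
    rw [sum_inner]
    exact Finset.sum_congr rfl fun i _ => real_inner_smul_left _ _ _

/-- an orthogonal family of eigenvectors spanning `S` with monotone eigenvalues -/
theorem lamk_eq_of_basis [FiniteDimensional ℝ S] {N : ℕ} (e : Fin N → X) (μ : Fin N → ℝ)
    (he : ∀ i, e i ≠ 0) (ho : ∀ i j, i ≠ j → ⟪e i, e j⟫ = 0) (hs : Submodule.span ℝ (range e) = S)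
    (heig : ∀ i, EigF Q S (e i) (μ i)) (hμ : Monotone μ) (i : Fin N) : lamk Q S i = μ i := by
  have hli := linearIndependent_of_ne_zero_of_inner_eq_zero (𝕜 := ℝ) he fun i j h => ho i j h
  have hN : finrank ℝ S = N := by rw [← hs, finrank_span_eq_card hli, Fintype.card_fin]
  have hsub : ∀ p : Fin N → Prop, Submodule.span ℝ (range fun j : Subtype p => e j) ≤ S :=
    fun p => Submodule.span_le.2 (by rintro _ ⟨j, rfl⟩; exact (heig j).1)
  have hor : ∀ (p : Fin N → Prop) (a b : Subtype p), a ≠ b → ⟪e a, e b⟫ = 0 :=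
    fun p a b h => ho a b fun h' => h (Subtype.ext h')
  have hrk : ∀ (p : Fin N → Prop) [DecidablePred p],
      finrank ℝ (Submodule.span ℝ (range fun j : Subtype p => e j)) =
      (Finset.univ.filter p).card := fun p _ => by
    rw [finrank_span_eq_card (b := fun j : Subtype p => e j) (hli.comp _ Subtype.val_injective),
      Fintype.card_subtype]
  refine le_antisymm (lamk_le (hsub fun j => j ≤ i) ?_ fun u hu => ?_)
    (le_lamk (hsub fun j => i ≤ j) (by rw [hN]; exact i.2) ?_ fun u hu => ?_)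
  · rw [hrk, Finset.filter_ge_eq_Iic, Fin.card_Iic]
  · obtain ⟨c, h0, h1, h2⟩ := ASpec_expand (hor _) (fun j => heig j) hu
    rw [h1, h2, Finset.mul_sum]
    exact Finset.sum_le_sum fun j _ => mul_le_mul_of_nonneg_right (hμ j.2) (h0 j)
  · rw [hrk, Finset.filter_le_eq_Ici, Fin.card_Ici, hN]
    omega
  · obtain ⟨c, h0, h1, h2⟩ := ASpec_expand (hor _) (fun j => heig j) hu
    rw [h1, h2, Finset.mul_sum]
    exact Finset.sum_le_sum fun j _ => mul_le_mul_of_nonneg_right (hμ j.2) (h0 j)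

theorem exists_eigen [FiniteDimensional ℝ S] (hQ : SymF Q) :
    ∃ e : Fin (finrank ℝ S) → X, Orthonormal ℝ e ∧ Submodule.span ℝ (range e) = S ∧
      ∀ i, EigF Q S (e i) (lamk Q S i) := by
  let b := stdOrthonormalBasis ℝ S
  let A : S →ₗ[ℝ] S := ∑ i, ((Q.flip (b i : X)).comp S.subtype).smulRight (b i)
  have hA : ∀ u w : S, ⟪A u, w⟫ = Q u w := fun u w => by
    have h1 : (w : X) = ∑ i, ⟪b i, w⟫ • (b i : X) := by
      conv_lhs => rw [← b.sum_repr' w]
      simp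
    simp only [A, LinearMap.sum_apply, sum_inner, LinearMap.smulRight_apply, real_inner_smul_left,
      LinearMap.comp_apply, LinearMap.flip_apply, Submodule.subtype_apply]
    conv_rhs => rw [h1]
    simp only [map_sum, map_smul, smul_eq_mul, mul_comm]
  have hs : A.IsSymmetric := fun u w => by rw [hA, real_inner_comm, hA, hQ]
  let v := hs.eigenvectorBasis rfl
  have ho : Orthonormal ℝ fun i => (v (Fin.rev i) : X) :=
    (S.subtypeₗᵢ.orthonormal_comp_iff.2 v.orthonormal).comp _ Fin.rev_injective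
  have hsp : Submodule.span ℝ (range fun i => (v (Fin.rev i) : X)) = S := by
    refine Submodule.eq_of_le_of_finrank_eq
      (Submodule.span_le.2 (by rintro _ ⟨j, rfl⟩; exact (v _).2)) ?_
    rw [finrank_span_eq_card ho.linearIndependent, Fintype.card_fin]
  have heig : ∀ i, EigF Q S (v (Fin.rev i) : X) (hs.eigenvalues rfl (Fin.rev i)) := fun i =>
    ⟨(v _).2, fun w hw => by
      rw [← hA (v _) ⟨w, hw⟩, hs.apply_eigenvectorBasis]
      exact real_inner_smul_left _ _ _⟩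
  refine ⟨_, ho, hsp, fun i => ?_⟩
  rw [lamk_eq_of_basis _ _ ho.ne_zero (fun i j h => ho.2 h) hsp heig
    (fun i j h => hs.eigenvalues_antitone rfl (Fin.rev_le_rev.2 h)) i]
  exact heig i

theorem lamk_mono [FiniteDimensional ℝ S] {k l : ℕ} (hkl : k ≤ l) (hl : l < finrank ℝ S) :
    lamk Q S k ≤ lamk Q S l :=
  ASpec_le hl fun _ _ h1 h2 h3 => lamk_le h1 (by omega) h3

theorem lamk_anti {S' : Submodule ℝ X} [FiniteDimensional ℝ S'] (h : S ≤ S') {k : ℕ}
    (hk : k < finrank ℝ S) : lamk Q S' k ≤ lamk Q S k := by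
  have := Submodule.finiteDimensional_of_le h
  exact ASpec_le hk fun _ _ h1 h2 h3 => lamk_le (h1.trans h) h2.ge h3

theorem lamk_le_of_le [FiniteDimensional ℝ S] {c b : ℝ} (hc : 0 ≤ c)
    (h : ∀ u ∈ S, Q u u ≤ c * Q' u u + b * ‖u‖ ^ 2) {k : ℕ} (hk : k < finrank ℝ S) :
    lamk Q S k ≤ c * lamk Q' S k + b := by
  have key : ∀ (T : Submodule ℝ X) (t : ℝ), T ≤ S → finrank ℝ T = k + 1 →
      (∀ u ∈ T, Q' u u ≤ t * ‖u‖ ^ 2) → lamk Q S k ≤ c * t + b := fun T t h1 h2 h3 =>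
    lamk_le h1 h2.ge fun u hu => (h u (h1 hu)).trans (by
      nlinarith [mul_le_mul_of_nonneg_left (h3 u hu) hc])
  rcases hc.eq_or_lt with rfl | hc'
  · obtain ⟨C, hC⟩ := ASpec_bound Q' S
    obtain ⟨T, h1, h2⟩ := ASpec_sub S (k := k + 1) hk
    simpa using key T C h1 h2 fun u hu => (abs_le.1 (hC u (h1 hu))).2
  · have := ASpec_le (Q := Q') hk (r := (lamk Q S k - b) / c) fun T t h1 h2 h3 => by
      rw [div_le_iff₀ hc']
      linarith [key T t h1 h2 h3]
    rw [div_le_iff₀ hc'] at this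
    linarith

theorem lamk_congr (h : ∀ u ∈ S, Q u u = Q' u u) (k : ℕ) : lamk Q S k = lamk Q' S k := by
  unfold lamk
  congr 1
  ext r
  exact exists_congr fun T => and_congr_right fun h1 => and_congr_right fun _ =>
    forall₂_congr fun u hu => by rw [h u (h1 hu)]

theorem lamk_add_const [FiniteDimensional ℝ S] {b : ℝ} (h : ∀ u ∈ S, Q u u = Q' u u + b * ‖u‖ ^ 2)
    {k : ℕ} (hk : k < finrank ℝ S) : lamk Q S k = lamk Q' S k + b := by
  have h1 := lamk_le_of_le (Q := Q) (Q' := Q') (c := 1) (b := b) zero_le_one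
    (fun u hu => by linarith [h u hu]) hk
  have h2 := lamk_le_of_le (Q := Q') (Q' := Q) (c := 1) (b := -b) zero_le_one
    (fun u hu => by linarith [h u hu]) hk
  linarith

theorem le_lamk_of_all [FiniteDimensional ℝ S] {r : ℝ} (h : ∀ u ∈ S, r * ‖u‖ ^ 2 ≤ Q u u) {k : ℕ}
    (hk : k < finrank ℝ S) : r ≤ lamk Q S k :=
  le_lamk le_rfl hk (Nat.le_add_right _ _) h

theorem lamk_zero_le [FiniteDimensional ℝ S] (hQ : SymF Q) {u : X} (hu : u ∈ S) :
    lamk Q S 0 * ‖u‖ ^ 2 ≤ Q u u := by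
  rcases eq_or_ne u 0 with rfl | h0
  · simp
  have hp : 0 < ‖u‖ ^ 2 := pow_pos (norm_pos_iff.2 h0) 2
  rw [← le_div_iff₀ hp]
  refine lamk_le (T := Submodule.span ℝ {u}) ((Submodule.span_singleton_le_iff_mem _ _).2 hu)
    (finrank_span_singleton h0).ge fun w hw => ?_
  obtain ⟨a, rfl⟩ := Submodule.mem_span_singleton.1 hw
  simp only [map_smul, LinearMap.smul_apply, smul_eq_mul, norm_smul, mul_pow, Real.norm_eq_abs,
    sq_abs]
  refine le_of_eq ?_
  field_simp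

/-- transport along a linear isometry -/
theorem lamk_map {Y : Type} [NormedAddCommGroup Y] [InnerProductSpace ℝ Y] (T : X →ₗ[ℝ] Y)
    (Q₂ : Y →ₗ[ℝ] Y →ₗ[ℝ] ℝ) (hn : ∀ u ∈ S, ‖T u‖ = ‖u‖) (hQ : ∀ u ∈ S, Q₂ (T u) (T u) = Q u u)
    (k : ℕ) : lamk Q₂ (S.map T) k = lamk Q S k := by
  have hr : ∀ U : Submodule ℝ X, U ≤ S → finrank ℝ (U.map T) = finrank ℝ U := fun U hU => by
    rw [← LinearMap.range_domRestrict]
    refine LinearMap.finrank_range_of_inj ((injective_iff_map_eq_zero _).2 fun u hu => ?_)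
    have := hn u (hU u.2)
    rw [show T u = 0 from hu, norm_zero] at this
    exact Subtype.ext (norm_eq_zero.1 this.symm)
  unfold lamk
  congr 1
  ext r
  constructor
  · rintro ⟨U, h1, h2, h3⟩
    have e : (S ⊓ U.comap T).map T = U := by
      rw [Submodule.map_inf_eq_map_inf_comap.symm]
      exact inf_eq_right.2 h1
    refine ⟨S ⊓ U.comap T, inf_le_left, by rw [← hr _ inf_le_left, e, h2], fun u hu => ?_⟩
    rw [← hQ u hu.1, ← hn u hu.1]
    exact h3 _ hu.2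
  · rintro ⟨U, h1, h2, h3⟩
    refine ⟨U.map T, Submodule.map_mono h1, by rw [hr U h1, h2], ?_⟩
    rintro _ ⟨u, hu, rfl⟩
    rw [hQ u (h1 hu), hn u (h1 hu)]
    exact h3 u hu

theorem ASpec_decomp (hQ : SymF Q) {ι : Type} [Fintype ι] {ψ : ι → X} {μ : ι → ℝ}
    (hψ : Orthonormal ℝ ψ) (heig : ∀ i, EigF Q S (ψ i) (μ i)) {Θ : ℝ}
    (hΘ : ∀ u ∈ S, (∀ i, ⟪ψ i, u⟫ = 0) → Θ * ‖u‖ ^ 2 ≤ Q u u) {u : X} (hu : u ∈ S) {r : ℝ}
    (hr : r ≤ Θ) (h : ∀ i, ⟪ψ i, u⟫ ≠ 0 → r ≤ μ i) : r * ‖u‖ ^ 2 ≤ Q u u := by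
  set v := ∑ i, ⟪ψ i, u⟫ • ψ i with hv
  have hvS : v ∈ S := Submodule.sum_mem _ fun i _ => Submodule.smul_mem _ _ (heig i).1
  have hwS : u - v ∈ S := Submodule.sub_mem _ hu hvS
  have h1 : ∀ i, ⟪ψ i, v⟫ = ⟪ψ i, u⟫ := fun i => hψ.inner_right_fintype _ i
  have h2 : ∀ i, ⟪ψ i, u - v⟫ = 0 := fun i => by rw [inner_sub_right, h1, sub_self]
  have h3 : ∀ w ∈ S, Q v w = ∑ i, μ i * (⟪ψ i, u⟫ * ⟪ψ i, w⟫) := fun w hw => by
    rw [hv, map_sum, LinearMap.sum_apply]
    refine Finset.sum_congr rfl fun i _ => ?_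
    rw [map_smul, LinearMap.smul_apply, (heig i).2 w hw, smul_eq_mul]
    ring
  have h4 : ∀ w, ⟪v, w⟫ = ∑ i, ⟪ψ i, u⟫ * ⟪ψ i, w⟫ := fun w => by
    rw [hv, sum_inner]
    exact Finset.sum_congr rfl fun i _ => real_inner_smul_left _ _ _
  have h5 : Q v (u - v) = 0 := by simp [h3 _ hwS, h2]
  have h6 : ⟪v, u - v⟫ = 0 := by simp [h4, h2]
  have h7 : r * ‖v‖ ^ 2 ≤ Q v v := by
    rw [← real_inner_self_eq_norm_sq, h3 v hvS, h4, Finset.mul_sum]
    refine Finset.sum_le_sum fun i _ => ?_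
    rw [h1]
    by_cases h0 : ⟪ψ i, u⟫ = 0
    · simp [h0]
    · exact mul_le_mul_of_nonneg_right (h i h0) (mul_self_nonneg _)
  have h8 := (mul_le_mul_of_nonneg_right hr (sq_nonneg ‖u - v‖)).trans (hΘ _ hwS h2)
  generalize hw : u - v = w at h5 h6 h8
  have e : u = v + w := by rw [← hw]; abel
  clear_value v
  rw [e, norm_add_sq_real, h6]
  simp only [map_add, LinearMap.add_apply, hQ w v, h5]
  linarith

/-- counting: orthonormal eigenvectors `ψ` with eigenvalues `≤ Θ`, and `Q ≥ Θ` on the complement -/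
theorem lamk_count [FiniteDimensional ℝ S] (hQ : SymF Q) {ι : Type} [Fintype ι] (ψ : ι → X)
    (μ : ι → ℝ) (hψ : Orthonormal ℝ ψ) (heig : ∀ i, EigF Q S (ψ i) (μ i)) {Θ : ℝ}
    (hμ : ∀ i, μ i ≤ Θ) (hΘ : ∀ u ∈ S, (∀ i, ⟪ψ i, u⟫ = 0) → Θ * ‖u‖ ^ 2 ≤ Q u u) :
    (∀ i, lamk Q S (Finset.univ.filter fun i' => μ i' < μ i).card = μ i) ∧
    (Fintype.card ι < finrank ℝ S → Θ ≤ lamk Q S (Fintype.card ι)) ∧
    (∀ k, k < Fintype.card ι → ∃ i, lamk Q S k = μ i) ∧ Fintype.card ι ≤ finrank ℝ S := by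
  classical
  have hsub : ∀ p : ι → Prop, Submodule.span ℝ (range fun j : Subtype p => ψ j) ≤ S :=
    fun p => Submodule.span_le.2 (by rintro _ ⟨j, rfl⟩; exact (heig j).1)
  have hrk : ∀ p : ι → Prop, finrank ℝ (Submodule.span ℝ (range fun j : Subtype p => ψ j)) =
      (Finset.univ.filter p).card := fun p => by
    rw [finrank_span_eq_card (b := fun j : Subtype p => ψ j)
      (hψ.linearIndependent.comp _ Subtype.val_injective), Fintype.card_subtype]
  have hcard : Fintype.card ι ≤ finrank ℝ S := by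
    simpa [hrk] using Submodule.finrank_mono (hsub fun _ => True)
  have hlow : ∀ (p : ι → Prop) (k : ℕ) (r : ℝ), k < finrank ℝ S →
      (Finset.univ.filter p).card ≤ k → r ≤ Θ → (∀ i, ¬ p i → r ≤ μ i) → r ≤ lamk Q S k := by
    intro p k r hk h1 h2 h3
    have h4 := Submodule.finrank_add_inf_finrank_orthogonal (hsub p)
    rw [hrk] at h4
    refine le_lamk (U := (Submodule.span ℝ (range fun j : Subtype p => ψ j))ᗮ ⊓ S) inf_le_right hk
      (by omega) fun u hu => ASpec_decomp hQ hψ heig hΘ hu.2 h2 fun i hi => h3 i fun hp => hi ?_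
    exact Submodule.inner_right_of_mem_orthogonal
      (Submodule.subset_span (mem_range_self (f := fun j : Subtype p => ψ j) ⟨i, hp⟩)) hu.1
  have key : ∀ (i : ι) (k : ℕ), (Finset.univ.filter fun i' => μ i' < μ i).card ≤ k →
      k < (Finset.univ.filter fun i' => μ i' ≤ μ i).card → lamk Q S k = μ i := by
    intro i k h1 h2
    refine le_antisymm (lamk_le (hsub fun j => μ j ≤ μ i) (by rw [hrk]; exact h2) fun u hu => ?_)
      (hlow _ k _ (h2.trans_le ((Finset.card_le_univ _).trans hcard)) h1 (hμ i)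
        fun j hj => not_lt.1 hj)
    obtain ⟨c, h0, a1, a2⟩ := ASpec_expand
      (fun a b h => hψ.2 fun h' => h (Subtype.ext h')) (fun j : Subtype _ => heig j) hu
    rw [a1, a2, Finset.mul_sum]
    exact Finset.sum_le_sum fun j _ => mul_le_mul_of_nonneg_right j.2 (h0 j)
  refine ⟨fun i => key i _ le_rfl (Finset.card_lt_card ⟨fun j hj => ?_, fun h => ?_⟩),
    fun h => hlow (fun _ => True) _ _ h (by simp) le_rfl fun i hi => (hi trivial).elim,
    fun k hk => ?_, hcard⟩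
  · simp only [Finset.mem_filter, Finset.mem_univ, true_and] at hj ⊢
    exact hj.le
  · have := h (Finset.mem_filter.2 ⟨Finset.mem_univ i, le_refl (μ i)⟩)
    simp at this
  · have hne : (Finset.univ : Finset ι).Nonempty := Finset.card_pos.1 (by simpa using by omega)
    obtain ⟨j, -, hj⟩ := Finset.exists_max_image Finset.univ μ hne
    obtain ⟨i, hi, hmin⟩ := Finset.exists_min_image (Finset.univ.filter fun i =>
      k < (Finset.univ.filter fun i' => μ i' ≤ μ i).card) μ ⟨j, by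
        simpa [Finset.filter_true_of_mem hj] using hk⟩
    refine ⟨i, key i k (not_lt.1 fun hlt => ?_) (Finset.mem_filter.1 hi).2⟩
    obtain ⟨l, hl, hmax⟩ := Finset.exists_max_image (Finset.univ.filter fun i' => μ i' < μ i) μ
      (Finset.card_pos.1 (by omega))
    refine (hmin l (Finset.mem_filter.2 ⟨Finset.mem_univ _, hlt.trans_le (Finset.card_le_card
      fun a ha => Finset.mem_filter.2 ⟨Finset.mem_univ _, hmax a ha⟩)⟩)).not_gt
      (Finset.mem_filter.1 hl).2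

/-- below the first `k` eigenvectors the form is at least `lamk k` -/
theorem lamk_le_of_orth [FiniteDimensional ℝ S] (hQ : SymF Q) {e : Fin (finrank ℝ S) → X}
    (he : Orthonormal ℝ e) (hs : Submodule.span ℝ (range e) = S)
    (heig : ∀ i, EigF Q S (e i) (lamk Q S i)) {k : ℕ} (hk : k < finrank ℝ S) {u : X} (hu : u ∈ S)
    (ho : ∀ i : Fin (finrank ℝ S), (i : ℕ) < k → ⟪e i, u⟫ = 0) : lamk Q S k * ‖u‖ ^ 2 ≤ Q u u := by
  refine ASpec_decomp hQ he heig (Θ := lamk Q S k) (fun w hw h0 => ?_) hu le_rfl fun i hi =>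
    lamk_mono (not_lt.1 fun h => hi (ho i h)) i.2
  obtain ⟨c, rfl⟩ := (Submodule.mem_span_range_iff_exists_fun ℝ).1 (hs.ge hw)
  have : ∀ i, c i = 0 := fun i => (he.inner_right_fintype c i).symm.trans (h0 i)
  simp [this]

theorem lamk_one_dim {e : X} (he : ‖e‖ = 1) : lamk Q (Submodule.span ℝ {e}) 0 = Q e e := by
  have h0 : e ≠ 0 := fun h => by simp [h] at he
  have : FiniteDimensional ℝ (Submodule.span ℝ ({e} : Set X)) :=
    FiniteDimensional.span_of_finite ℝ (finite_singleton e)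
  refine lamk_eq_of_basis (N := 1) (fun _ => e) (fun _ => Q e e) (fun _ => h0)
    (fun i j h => (h (Subsingleton.elim _ _)).elim) (by simp)
    (fun _ => ⟨Submodule.mem_span_singleton_self e, fun w hw => ?_⟩) monotone_const 0
  obtain ⟨a, rfl⟩ := Submodule.mem_span_singleton.1 hw
  rw [map_smul, real_inner_smul_right, real_inner_self_eq_norm_sq, he, smul_eq_mul]
  ring

theorem ASpec_two {N : ℕ} (hN : N = 2) {v : Fin N → X} (ho : Orthonormal ℝ v)
    (hs : Submodule.span ℝ (range v) = S) (heig : ∀ i, EigF Q S (v i) (lamk Q S i)) {e f : X}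
    (heS : e ∈ S) (hfS : f ∈ S) (he : ‖e‖ = 1) (hf : ‖f‖ = 1) (hef : ⟪e, f⟫ = 0) :
    (lamk Q S 1 - lamk Q S 0) ^ 2 = (Q e e - Q f f) ^ 2 + 4 * Q e f ^ 2 := by
  subst hN
  obtain ⟨a, ha⟩ := (Submodule.mem_span_range_iff_exists_fun ℝ).1 (hs.ge heS)
  obtain ⟨c, hc⟩ := (Submodule.mem_span_range_iff_exists_fun ℝ).1 (hs.ge hfS)
  have hQ : ∀ x y : Fin 2 → ℝ, Q (∑ i, x i • v i) (∑ i, y i • v i) =
      lamk Q S 0 * (x 0 * y 0) + lamk Q S 1 * (x 1 * y 1) := fun x y => by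
    have hy : ∑ i, y i • v i ∈ S :=
      Submodule.sum_mem _ fun i _ => Submodule.smul_mem _ _ (heig i).1
    rw [map_sum Q, LinearMap.sum_apply, Fin.sum_univ_two, map_smul, map_smul, LinearMap.smul_apply,
      LinearMap.smul_apply, (heig 0).2 _ hy, (heig 1).2 _ hy, ho.inner_right_fintype,
      ho.inner_right_fintype]
    simp only [smul_eq_mul, Fin.val_zero, Fin.val_one]
    ring
  have hI : ∀ x y : Fin 2 → ℝ, ⟪∑ i, x i • v i, ∑ i, y i • v i⟫ = x 0 * y 0 + x 1 * y 1 :=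
    fun x y => by simpa [Fin.sum_univ_two] using ho.inner_sum x y Finset.univ
  have h1 := hI a a
  have h2 := hI c c
  have h3 := hI a c
  have q1 := hQ a a
  have q2 := hQ c c
  have q3 := hQ a c
  rw [ha] at h1 h3 q1 q3
  rw [hc] at h2 h3 q2 q3
  rw [real_inner_self_eq_norm_sq, he] at h1
  rw [real_inner_self_eq_norm_sq, hf] at h2
  rw [hef] at h3
  rw [q1, q2, q3]
  generalize lamk Q S 0 = l0
  generalize lamk Q S 1 = l1
  have h4 : c 1 * c 1 = a 0 * a 0 := by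
    linear_combination (c 1 * c 1) * h1 - (a 0 * a 0) * h2 + (a 0 * c 0 - a 1 * c 1) * h3
  have h5 : c 0 * c 0 = a 1 * a 1 := by linarith
  have h6 : a 0 * c 0 = -(a 1 * c 1) := by linarith
  rw [h4, h5, h6]
  linear_combination ((l1 - l0) ^ 2 * (1 + a 0 * a 0 + a 1 * a 1)) * h1 -
    (4 * (l1 - l0) ^ 2 * (a 1 * a 1)) * h4

theorem lamk_two_dim (hQ : SymF Q) {e f : X} (he : ‖e‖ = 1) (hf : ‖f‖ = 1) (hef : ⟪e, f⟫ = 0) :
    lamk Q (Submodule.span ℝ {e, f}) 1 - lamk Q (Submodule.span ℝ {e, f}) 0 =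
      Real.sqrt ((Q e e - Q f f) ^ 2 + 4 * Q e f ^ 2) := by
  have : FiniteDimensional ℝ (Submodule.span ℝ ({e, f} : Set X)) :=
    FiniteDimensional.span_of_finite ℝ (toFinite _)
  have h2 : finrank ℝ (Submodule.span ℝ ({e, f} : Set X)) = 2 := by
    have ho : Orthonormal ℝ ![e, f] := by
      refine ⟨fun i => by fin_cases i <;> simpa, fun i j h => ?_⟩
      fin_cases i <;> fin_cases j <;> simp_all [real_inner_comm]
    have := finrank_span_eq_card ho.linearIndependent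
    rwa [Matrix.range_cons, Matrix.range_cons, Matrix.range_empty, union_empty, singleton_union,
      Fintype.card_fin] at this
  obtain ⟨v, ho, hs, heig⟩ := exists_eigen (S := Submodule.span ℝ {e, f}) hQ
  have hm := lamk_mono (Q := Q) (S := Submodule.span ℝ {e, f}) zero_le_one (by omega)
  rw [← ASpec_two h2 ho hs heig (Submodule.subset_span (by simp)) (Submodule.subset_span (by simp))
    he hf hef, Real.sqrt_sq (sub_nonneg.2 hm)]

end Crest.Agent.R202
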