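import Crest.Agent.R202.ARt

/-!
# Row 202, A3: the static weighted estimate

For one mode `v'' = κ² v + f` put `ṽ = e^{-μ t} v`, `f̃ = e^{-μ t} f`; then
`(∂ + μ - κ)(∂ + μ + κ) ṽ = f̃`.  For compactly supported `C¹` `z` with `z' + c z = f` one has
`∫ f² = ∫ z'² + c² ∫ z²`.  So with `z = (∂ + μ + κ) ṽ`: `(μ-κ)² ∫ z² ≤ ∫ f̃²` and
`∫ ṽ'² + (μ+κ)² ∫ ṽ² = ∫ z²`; finally `|μ - κ| ≥ g κ/(μm + g)`, `e^{-μ t} v' = ṽ' + μ ṽ`.
Sum over an eigenbasis (`PosOp.exists_basis`); `Σ f_i²/κ_i² ≤ φ` by testing the hypothesis with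
`u = Σ f_i κ_i⁻² e_i`.
-/

set_option autoImplicit false
open scoped RealInnerProductSpace ContDiff
open Module Set MeasureTheory

noncomputable section
namespace Crest.Agent.R202

/-- first-order estimate: `z' = c z + h` with zero boundary values gives `c² ∫ z² ≤ ∫ h²` -/
theorem static_first {c a b : ℝ} (hab : a ≤ b) {z h : ℝ → ℝ}
    (hz : ∀ t, HasDerivAt z (c * z t + h t) t) (hh : Continuous h) (ha : z a = 0) (hb : z b = 0) :
    c ^ 2 * ∫ t in a..b, z t ^ 2 ≤ ∫ t in a..b, h t ^ 2 := by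
  have hzc : Continuous z := continuous_iff_continuousAt.2 fun t => (hz t).continuousAt
  have hd : ∀ t, HasDerivAt (fun t => z t ^ 2) (2 * z t * (c * z t + h t)) t := fun t => by
    have := (hz t).fun_pow 2
    simpa using this
  have hc2 : Continuous fun t => 2 * z t * (c * z t + h t) := by fun_prop
  have h0 : ∫ t in a..b, 2 * z t * (c * z t + h t) = 0 := by
    rw [intervalIntegral.integral_eq_sub_of_hasDerivAt (fun t _ => hd t)
      (hc2.intervalIntegrable _ _), ha, hb]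
    simp
  have h1 : ∫ t in a..b, (c ^ 2 * z t ^ 2 - c * (2 * z t * (c * z t + h t))) ≤
      ∫ t in a..b, h t ^ 2 := by
    refine intervalIntegral.integral_mono_on hab
      ((by fun_prop : Continuous _).intervalIntegrable _ _)
      ((by fun_prop : Continuous _).intervalIntegrable _ _) fun t _ => ?_
    nlinarith [sq_nonneg (h t + c * z t)]
  rw [intervalIntegral.integral_sub ((by fun_prop : Continuous _).intervalIntegrable _ _)
    ((by fun_prop : Continuous _).intervalIntegrable _ _), intervalIntegral.integral_const_mul,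
    intervalIntegral.integral_const_mul, h0] at h1
  simpa using h1

/-- the estimate for one mode -/
theorem static_mode {κ g μ μm a b : ℝ} (hκ : 0 < κ) (hg : 0 < g) (hμ : 0 ≤ μ) (hμm : μ ≤ μm)
    (hgap : g ≤ |κ - μ|) (hab : a ≤ b) {v v' f : ℝ → ℝ}
    (hv : ∀ t, HasDerivAt v (v' t) t) (hv' : ∀ t, HasDerivAt v' (κ ^ 2 * v t + f t) t)
    (hf : Continuous f) (ha : v a = 0) (ha' : v' a = 0) (hb : v b = 0) (hb' : v' b = 0) :
    ∫ t in a..b, Real.exp (-2 * μ * t) * (v' t ^ 2 + κ ^ 2 * v t ^ 2) ≤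
      ((μm + g) / g) ^ 2 * ∫ t in a..b, Real.exp (-2 * μ * t) * (f t ^ 2 / κ ^ 2) := by
  have hvc : Continuous v := continuous_iff_continuousAt.2 fun t => (hv t).continuousAt
  have hvc' : Continuous v' := continuous_iff_continuousAt.2 fun t => (hv' t).continuousAt
  have hE : ∀ t, HasDerivAt (fun t => Real.exp (-μ * t)) (Real.exp (-μ * t) * (-μ)) t := fun t => by
    have := ((hasDerivAt_id t).const_mul (-μ)).exp
    simpa using this
  have hE2 : ∀ t, Real.exp (-2 * μ * t) = Real.exp (-μ * t) ^ 2 := fun t => by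
    rw [← Real.exp_nat_mul]; congr 1; push_cast; ring
  have hz : ∀ t, HasDerivAt (fun t => Real.exp (-μ * t) * (v' t + κ * v t))
      ((κ - μ) * (Real.exp (-μ * t) * (v' t + κ * v t)) + Real.exp (-μ * t) * f t) t := fun t => by
    have := (hE t).fun_mul ((hv' t).fun_add ((hv t).const_mul κ))
    refine this.congr_deriv ?_
    ring
  have hw : ∀ t, HasDerivAt (fun t => Real.exp (-μ * t) * (v' t - κ * v t))
      ((-(κ + μ)) * (Real.exp (-μ * t) * (v' t - κ * v t)) + Real.exp (-μ * t) * f t) t :=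
    fun t => by
    have := (hE t).fun_mul ((hv' t).fun_sub ((hv t).const_mul κ))
    refine this.congr_deriv ?_
    ring
  have hh : Continuous fun t => Real.exp (-μ * t) * f t := by fun_prop
  have h1 := static_first hab hz hh (by simp [ha, ha']) (by simp [hb, hb'])
  have h2 := static_first hab hw hh (by simp [ha, ha']) (by simp [hb, hb'])
  set Z := ∫ t in a..b, (Real.exp (-μ * t) * (v' t + κ * v t)) ^ 2 with hZ
  set Wd := ∫ t in a..b, (Real.exp (-μ * t) * (v' t - κ * v t)) ^ 2 with hWd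
  set H := ∫ t in a..b, (Real.exp (-μ * t) * f t) ^ 2 with hH
  have hZ0 : 0 ≤ Z := intervalIntegral.integral_nonneg hab fun t _ => sq_nonneg _
  have hW0 : 0 ≤ Wd := intervalIntegral.integral_nonneg hab fun t _ => sq_nonneg _
  have hH0 : 0 ≤ H := intervalIntegral.integral_nonneg hab fun t _ => sq_nonneg _
  have e1 : ∫ t in a..b, Real.exp (-2 * μ * t) * (v' t ^ 2 + κ ^ 2 * v t ^ 2) = (Z + Wd) / 2 := by
    rw [hZ, hWd, ← intervalIntegral.integral_add
      ((by fun_prop : Continuous _).intervalIntegrable _ _)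
      ((by fun_prop : Continuous _).intervalIntegrable _ _), ← intervalIntegral.integral_div]
    refine intervalIntegral.integral_congr fun t _ => ?_
    simp only [hE2]
    ring
  have e2 : ∫ t in a..b, Real.exp (-2 * μ * t) * (f t ^ 2 / κ ^ 2) = H / κ ^ 2 := by
    rw [hH, ← intervalIntegral.integral_div]
    refine intervalIntegral.integral_congr fun t _ => ?_
    simp only [hE2]
    ring
  rw [e1, e2]
  set c := (μm + g) / g with hc
  have hc1 : 1 ≤ c := by
    rw [hc, le_div_iff₀ hg]; linarith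
  have hκc : κ ≤ c * |κ - μ| := by
    have h3 : κ ≤ |κ - μ| + μm := by
      have := le_abs_self (κ - μ)
      linarith
    have h4 : μm ≤ μm / g * |κ - μ| := by
      have h5 : 0 ≤ μm / g := div_nonneg (hμ.trans hμm) hg.le
      calc μm = μm / g * g := by field_simp
        _ ≤ μm / g * |κ - μ| := mul_le_mul_of_nonneg_left hgap h5
    have h6 : c = 1 + μm / g := by rw [hc]; field_simp; ring
    rw [h6]; linarith
  have hκ2 : κ ^ 2 ≤ c ^ 2 * (κ - μ) ^ 2 := by
    rw [← sq_abs (κ - μ), ← mul_pow]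
    exact pow_le_pow_left₀ hκ.le hκc 2
  have hZ1 : κ ^ 2 * Z ≤ c ^ 2 * H := by
    calc κ ^ 2 * Z ≤ c ^ 2 * (κ - μ) ^ 2 * Z := mul_le_mul_of_nonneg_right hκ2 hZ0
      _ = c ^ 2 * ((κ - μ) ^ 2 * Z) := by ring
      _ ≤ c ^ 2 * H := mul_le_mul_of_nonneg_left h1 (sq_nonneg _)
  have hW1 : κ ^ 2 * Wd ≤ c ^ 2 * H := by
    have h7 : κ ^ 2 ≤ (-(κ + μ)) ^ 2 := by nlinarith
    have h8 : 1 ≤ c ^ 2 := one_le_pow₀ hc1
    calc κ ^ 2 * Wd ≤ (-(κ + μ)) ^ 2 * Wd := mul_le_mul_of_nonneg_right h7 hW0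
      _ ≤ H := h2
      _ ≤ c ^ 2 * H := by nlinarith
  have hκ0 : 0 < κ ^ 2 := by positivity
  rw [← mul_div_assoc, le_div_iff₀ hκ0]
  nlinarith

theorem static_est {κ₀ g μm : ℝ} (hκ : 0 < κ₀) (hg : 0 < g) (hμm : 0 ≤ μm) : ∃ C : ℝ, 0 < C ∧
    ∀ {W : Type} [NormedAddCommGroup W] [InnerProductSpace ℝ W] [FiniteDimensional ℝ W]
      (K : W →L[ℝ] W) (μ a b : ℝ) (y y' F : ℝ → W) (φ : ℝ → ℝ),
      PosOp κ₀ K → 0 ≤ μ → μ ≤ μm → GapAt K μ g → a ≤ b →
      (∀ t, HasDerivAt y (y' t) t) → (∀ t, HasDerivAt y' (K (y t) + F t) t) →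
      Continuous F → Continuous φ → (∀ t u, ⟪F t, u⟫ ^ 2 ≤ φ t * ⟪K u, u⟫) → (∀ t, 0 ≤ φ t) →
      y a = 0 → y' a = 0 → y b = 0 → y' b = 0 →
      ∫ t in a..b, Real.exp (-2 * μ * t) * en K (y t) (y' t) ≤
        C * ∫ t in a..b, Real.exp (-2 * μ * t) * φ t := by
  refine ⟨((μm + g) / g) ^ 2, by positivity, ?_⟩
  intro W _ _ _ K μ a b y y' F φ hK hμ hμ' hgap hab hy hy' hF hφ hFφ hφ0 ha ha' hb hb'
  obtain ⟨e, κ, he⟩ := hK.exists_basis hκ.le
  have hκi : ∀ i, 0 < κ i := fun i => hκ.trans_le (he i).1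
  have hKe : ∀ i u, ⟪e i, K u⟫ = κ i ^ 2 * ⟪e i, u⟫ := fun i u => by
    rw [← hK.sym, (he i).2.1, real_inner_smul_left]
  have hform : ∀ u, ⟪K u, u⟫ = ∑ i, κ i ^ 2 * ⟪e i, u⟫ ^ 2 := fun u => by
    rw [← e.sum_inner_mul_inner (K u) u]
    refine Finset.sum_congr rfl fun i _ => ?_
    rw [real_inner_comm, hKe]; ring
  have hnorm : ∀ u : W, ‖u‖ ^ 2 = ∑ i, ⟪e i, u⟫ ^ 2 := fun u => by
    rw [← real_inner_self_eq_norm_sq, ← e.sum_inner_mul_inner u u]
    refine Finset.sum_congr rfl fun i _ => ?_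
    rw [real_inner_comm]; ring
  have hen : ∀ u v, en K u v = ∑ i, (⟪e i, v⟫ ^ 2 + κ i ^ 2 * ⟪e i, u⟫ ^ 2) := fun u v => by
    rw [en, hnorm, hform, Finset.sum_add_distrib]
  have hdual : ∀ t, ∑ i, ⟪e i, F t⟫ ^ 2 / κ i ^ 2 ≤ φ t := fun t => by
    set S := ∑ i, ⟪e i, F t⟫ ^ 2 / κ i ^ 2 with hS
    set u : W := ∑ i, (⟪e i, F t⟫ / κ i ^ 2) • e i with hu
    have hue : ∀ i, ⟪e i, u⟫ = ⟪e i, F t⟫ / κ i ^ 2 := fun i => by
      rw [hu]; exact e.orthonormal.inner_right_fintype _ i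
    have h1 : ⟪F t, u⟫ = S := by
      rw [← e.sum_inner_mul_inner (F t) u, hS]
      refine Finset.sum_congr rfl fun i _ => ?_
      rw [hue, real_inner_comm]; ring
    have h2 : ⟪K u, u⟫ = S := by
      rw [hform, hS]
      refine Finset.sum_congr rfl fun i _ => ?_
      have := (hκi i).ne'
      rw [hue]; field_simp
    have h3 := hFφ t u
    rw [h1, h2] at h3
    have hS0 : 0 ≤ S := Finset.sum_nonneg fun i _ => by positivity
    by_contra hlt
    push Not at hlt
    have := hφ0 t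
    nlinarith
  have hyc : Continuous y := continuous_iff_continuousAt.2 fun t => (hy t).continuousAt
  have hyc' : Continuous y' := continuous_iff_continuousAt.2 fun t => (hy' t).continuousAt
  have hmode : ∀ i, ∫ t in a..b, Real.exp (-2 * μ * t) *
        (⟪e i, y' t⟫ ^ 2 + κ i ^ 2 * ⟪e i, y t⟫ ^ 2) ≤
      ((μm + g) / g) ^ 2 * ∫ t in a..b, Real.exp (-2 * μ * t) * (⟪e i, F t⟫ ^ 2 / κ i ^ 2) :=
    fun i => by
    refine static_mode (v := fun t => ⟪e i, y t⟫) (v' := fun t => ⟪e i, y' t⟫)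
      (f := fun t => ⟪e i, F t⟫) (hκi i) hg hμ hμ'
      (hgap (κ i) (e i) (hκi i).le (e.orthonormal.ne_zero i) (he i).2.1) hab
      (fun t => ?_) (fun t => ?_) (by fun_prop) (by simp [ha]) (by simp [ha'])
      (by simp [hb]) (by simp [hb'])
    · exact ((innerSL ℝ (e i)).hasFDerivAt.comp_hasDerivAt t (hy t))
    · have := ((innerSL ℝ (e i)).hasFDerivAt.comp_hasDerivAt t (hy' t))
      rw [← hKe, ← inner_add_right]
      exact this
  calc ∫ t in a..b, Real.exp (-2 * μ * t) * en K (y t) (y' t)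
      = ∑ i, ∫ t in a..b, Real.exp (-2 * μ * t) *
          (⟪e i, y' t⟫ ^ 2 + κ i ^ 2 * ⟪e i, y t⟫ ^ 2) := by
        rw [← intervalIntegral.integral_finsetSum fun i _ =>
          (by fun_prop : Continuous _).intervalIntegrable _ _]
        refine intervalIntegral.integral_congr fun t _ => ?_
        simp only [hen, Finset.mul_sum]
    _ ≤ ∑ i, ((μm + g) / g) ^ 2 *
          ∫ t in a..b, Real.exp (-2 * μ * t) * (⟪e i, F t⟫ ^ 2 / κ i ^ 2) :=
        Finset.sum_le_sum fun i _ => hmode i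
    _ = ((μm + g) / g) ^ 2 *
          ∫ t in a..b, Real.exp (-2 * μ * t) * ∑ i, ⟪e i, F t⟫ ^ 2 / κ i ^ 2 := by
        rw [← Finset.mul_sum, ← intervalIntegral.integral_finsetSum fun i _ =>
          (by fun_prop : Continuous _).intervalIntegrable _ _]
        congr 1
        refine intervalIntegral.integral_congr fun t _ => ?_
        simp only [Finset.mul_sum]
    _ ≤ ((μm + g) / g) ^ 2 * ∫ t in a..b, Real.exp (-2 * μ * t) * φ t := by
        refine mul_le_mul_of_nonneg_left ?_ (sq_nonneg _)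
        refine intervalIntegral.integral_mono_on hab
          ((by fun_prop : Continuous _).intervalIntegrable _ _)
          ((by fun_prop : Continuous _).intervalIntegrable _ _) fun t _ => ?_
        exact mul_le_mul_of_nonneg_left (hdual t) (Real.exp_pos _).le

end Crest.Agent.R202
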