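import Crest.Agent.R202.AStatic

/-!
# Row 202, A4: the weighted sup-window estimate for slowly varying operators

Let `M = sup_t e^{-2 w t} wen t` (finite by hypothesis).  Fix `t₀`, a `C²` cut-off `χ` equal to `1` on
`[t₀, t₀+1]`, vanishing outside `(t₀-L, t₀+L+1)` (`L` a large integer), `|χ'| ≤ c/L`, `|χ''| ≤ c/L²`
(rescale `Real.smoothTransition`, or a polynomial step).  `z = χ y` solves
`z'' = K(t₀) z + [χ (K t - K t₀) y + χ F + 2χ' y' + χ'' y]`.  Apply `static_est` with `μ(t₀)`;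
`|w t - w t₀ - μ(t₀)(t - t₀)| ≤ δ (L+1)²`, the forms of `K t`, `K t₀` agree up to `δ (L+1)`
(polarise with `abs_form_le`), `‖u‖ ≤ κ₀⁻¹ ⟪K u,u⟫^{1/2}`.  Summing the `2L+1` windows gives
`e^{-2 w t₀} wen t₀ ≤ C (δ² L³ + 1/L) M + C L B`; choose `L`, then `δ₀`.
-/

set_option autoImplicit false
open scoped RealInnerProductSpace ContDiff
open Module Set MeasureTheory

noncomputable section
namespace Crest.Agent.R202

namespace ASupAux

theorem cutoff : ∃ (η η' η'' : ℝ → ℝ) (c : ℝ), 0 < c ∧ (∀ t, HasDerivAt η (η' t) t) ∧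
    (∀ t, HasDerivAt η' (η'' t) t) ∧ Continuous η'' ∧ (∀ t, |η t| ≤ 1) ∧ (∀ t, |η' t| ≤ c) ∧
    (∀ t, |η'' t| ≤ c) ∧ (∀ t ∈ Icc (0 : ℝ) 1, η t = 1 ∧ η' t = 0) ∧
    (∀ t, t ≤ -1 ∨ 2 ≤ t → η t = 0 ∧ η' t = 0) := by
  let f : ContDiffBump (1 / 2 : ℝ) := ⟨1 / 2, 3 / 2, by norm_num, by norm_num⟩
  have hf : ContDiff ℝ ∞ f := f.contDiff
  have h1 : ContDiff ℝ ∞ (deriv f) := (contDiff_infty_iff_deriv.1 hf).2
  have h2 : ContDiff ℝ ∞ (deriv (deriv f)) := (contDiff_infty_iff_deriv.1 h1).2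
  obtain ⟨c₁, hc₁⟩ := f.hasCompactSupport.deriv.exists_bound_of_continuous h1.continuous
  obtain ⟨c₂, hc₂⟩ := f.hasCompactSupport.deriv.deriv.exists_bound_of_continuous h2.continuous
  refine ⟨f, deriv f, deriv (deriv f), max (max c₁ c₂) 1, by positivity,
    fun t => ((contDiff_infty_iff_deriv.1 hf).1 t).hasDerivAt,
    fun t => ((contDiff_infty_iff_deriv.1 h1).1 t).hasDerivAt, h2.continuous,
    fun t => abs_le.2 ⟨by linarith [f.nonneg (x := t)], f.le_one⟩,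
    fun t => (hc₁ t).trans ((le_max_left _ _).trans (le_max_left _ _)),
    fun t => (hc₂ t).trans ((le_max_right _ _).trans (le_max_left _ _)), fun t ht => ?_,
    fun t ht => ?_⟩
  · have e : f t = 1 := by
      refine f.one_of_mem_closedBall ?_
      rw [Metric.mem_closedBall, Real.dist_eq, abs_le]
      constructor <;> simp only [f] <;> linarith [ht.1, ht.2]
    refine ⟨e, IsLocalMax.deriv_eq_zero (Filter.Eventually.of_forall fun x => ?_)⟩
    rw [e]; exact f.le_one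
  · have e : f t = 0 := by
      refine f.zero_of_le_dist ?_
      rw [Real.dist_eq, le_abs]
      simp only [f]
      rcases ht with h | h
      · right; linarith
      · left; linarith
    refine ⟨e, IsLocalMin.deriv_eq_zero (Filter.Eventually.of_forall fun x => ?_)⟩
    rw [e]; exact f.nonneg

theorem windows {f : ℝ → ℝ} (hf : Continuous f) (a : ℝ) (N : ℕ) {E : ℝ}
    (h : ∀ j : ℕ, j < N → ∫ t in (a + j)..(a + j + 1), f t ≤ E) :
    ∫ t in a..(a + N), f t ≤ N * E := by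
  have e := intervalIntegral.sum_integral_adjacent_intervals (μ := volume) (f := f)
    (a := fun k : ℕ => a + k) (n := N) (fun k _ => hf.intervalIntegrable _ _)
  simp only [Nat.cast_zero, add_zero, Nat.cast_add, Nat.cast_one, ← add_assoc] at e
  rw [← e]
  refine (Finset.sum_le_card_nsmul _ _ E fun j hj => h j (Finset.mem_range.1 hj)).trans_eq ?_
  rw [Finset.card_range, nsmul_eq_mul]

theorem weight {δ R : ℝ} {μ w : ℝ → ℝ} (hδ : 0 ≤ δ) (hd : ∀ t, HasDerivAt w (μ t) t)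
    (hl : ∀ s t, |μ t - μ s| ≤ δ * |t - s|) {t₀ s : ℝ} (hs : |s - t₀| ≤ R) :
    w s - μ t₀ * s ≤ w t₀ - μ t₀ * t₀ + δ * R ^ 2 := by
  have hR : 0 ≤ R := (abs_nonneg _).trans hs
  have h := Convex.norm_image_sub_le_of_norm_hasDerivWithin_le (𝕜 := ℝ)
    (f := fun x => w x - μ t₀ * x) (f' := fun x => μ x - μ t₀) (C := δ * R)
    (s := Metric.closedBall t₀ R) (x := t₀) (y := s)
    (fun x _ => by
      have := ((hd x).sub ((hasDerivAt_id x).const_mul (μ t₀))).hasDerivWithinAt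
        (s := Metric.closedBall t₀ R)
      rw [mul_one] at this
      exact this)
    (fun x hx => by
      rw [Metric.mem_closedBall, Real.dist_eq] at hx
      exact (hl t₀ x).trans (mul_le_mul_of_nonneg_left hx hδ))
    (convex_closedBall _ _) (Metric.mem_closedBall_self hR)
    (by rwa [Metric.mem_closedBall, Real.dist_eq])
  rw [Real.norm_eq_abs, Real.norm_eq_abs] at h
  have h2 : δ * R * |s - t₀| ≤ δ * R * R := mul_le_mul_of_nonneg_left hs (by positivity)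
  have h3 := le_abs_self (w s - μ t₀ * s - (w t₀ - μ t₀ * t₀))
  nlinarith

variable {W : Type} [NormedAddCommGroup W] [InnerProductSpace ℝ W] [FiniteDimensional ℝ W]

omit [FiniteDimensional ℝ W] in
theorem form_nonneg {κ₀ : ℝ} {K : W →L[ℝ] W} (hK : PosOp κ₀ K) (u : W) : 0 ≤ ⟪K u, u⟫ :=
  le_trans (by positivity) (hK.pos u)

omit [FiniteDimensional ℝ W] in
theorem norm_le_form {κ₀ : ℝ} (hκ : 0 < κ₀) {K : W →L[ℝ] W} (hK : PosOp κ₀ K) (u : W) :
    ‖u‖ ^ 2 ≤ (κ₀ ^ 2)⁻¹ * ⟪K u, u⟫ := by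
  rw [← div_eq_inv_mul, le_div_iff₀ (by positivity), mul_comm]
  exact hK.pos u

omit [FiniteDimensional ℝ W] in
theorem en_nonneg {κ₀ : ℝ} {K : W →L[ℝ] W} (hK : PosOp κ₀ K) (u v : W) : 0 ≤ en K u v :=
  add_nonneg (by positivity) (form_nonneg hK u)

omit [FiniteDimensional ℝ W] in
theorem polar {κ₀ : ℝ} {K K₀ : W →L[ℝ] W} (hK : PosOp κ₀ K) (hK₀ : PosOp κ₀ K₀) {ρ : ℝ}
    (hρ : 0 ≤ ρ) (h : ∀ u, |⟪K u, u⟫ - ⟪K₀ u, u⟫| ≤ ρ * ⟪K₀ u, u⟫) (y u : W) :
    ⟪K y - K₀ y, u⟫ ^ 2 ≤ ρ ^ 2 * ⟪K₀ y, y⟫ * ⟪K₀ u, u⟫ := by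
  have h1 := abs_form_le (S := ⊤) (Q := fK (K - K₀)) (Q₀ := fK K₀)
    (fun u w => by
      simp only [fK_apply, sub_apply, inner_sub_left]
      rw [hK.sym u w, hK₀.sym u w, real_inner_comm (K w) u, real_inner_comm (K₀ w) u])
    (fun u w => by
      simp only [fK_apply]
      rw [hK₀.sym u w, real_inner_comm (K₀ w) u]) hρ
    (fun u _ => form_nonneg hK₀ u)
    (fun u _ => by
      simp only [fK_apply, sub_apply, inner_sub_left]
      exact h u) (u := y) (w := u) trivial trivial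
  simp only [fK_apply, sub_apply] at h1
  rw [← sq_abs]
  refine (pow_le_pow_left₀ (abs_nonneg _) h1 2).trans_eq ?_
  rw [mul_pow, mul_pow, Real.sq_sqrt (form_nonneg hK₀ y), Real.sq_sqrt (form_nonneg hK₀ u)]

omit [FiniteDimensional ℝ W] in
theorem continuous_en {K : ℝ → W →L[ℝ] W} {y y' : ℝ → W} (hK : Continuous K) (hy : Continuous y)
    (hy' : Continuous y') : Continuous fun t => en (K t) (y t) (y' t) := by
  unfold en
  exact (hy'.norm.pow 2).add ((hK.clm_apply hy).inner hy)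

omit [FiniteDimensional ℝ W] in
/-- the pointwise bound for the forcing term of the cut-off solution -/
theorem forcing {κ₀ ρ c₁ c₂ φ χ χ' χ'' : ℝ} (hκ : 0 < κ₀) {K K₀ : W →L[ℝ] W} (hK : PosOp κ₀ K)
    (hK₀ : PosOp κ₀ K₀) (hρ : 0 ≤ ρ) (hρ1 : ρ ≤ 1) (hφ : 0 ≤ φ) (y y' F : W)
    (hF : ∀ u, ⟪F, u⟫ ^ 2 ≤ φ * ⟪K u, u⟫) (h0 : |χ| ≤ 1) (h1 : |χ'| ≤ c₁) (h2 : |χ''| ≤ c₂)
    (h : χ = 0 ∨ ((∀ u, |⟪K u, u⟫ - ⟪K₀ u, u⟫| ≤ ρ * ⟪K₀ u, u⟫) ∧
      ∀ u, |⟪K₀ u, u⟫ - ⟪K u, u⟫| ≤ ρ * ⟪K u, u⟫)) (u : W) :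
    ⟪χ • (K y - K₀ y) + χ • F + (2 * χ') • y' + χ'' • y, u⟫ ^ 2 ≤
      ((8 * ρ ^ 2 + 16 * c₁ ^ 2 * (κ₀ ^ 2)⁻¹ + 4 * c₂ ^ 2 * (κ₀ ^ 2)⁻¹ ^ 2) * en K y y' + 8 * φ) *
        ⟪K₀ u, u⟫ := by
  have q0 := form_nonneg hK₀ u
  have q1 := form_nonneg hK y
  have q2 := norm_le_form hκ hK₀ u
  have q3 := norm_le_form hκ hK y
  have hk : 0 < (κ₀ ^ 2)⁻¹ := by positivity
  have e1 : ⟪K y, y⟫ ≤ en K y y' := le_add_of_nonneg_left (by positivity)
  have e2 : ‖y'‖ ^ 2 ≤ en K y y' := le_add_of_nonneg_right q1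
  have e0 := en_nonneg hK y y'
  have hχ : χ ^ 2 ≤ 1 := by rw [← sq_abs]; exact pow_le_one₀ (abs_nonneg _) h0
  have hχ' : χ' ^ 2 ≤ c₁ ^ 2 := by rw [← sq_abs]; exact pow_le_pow_left₀ (abs_nonneg _) h1 2
  have hχ'' : χ'' ^ 2 ≤ c₂ ^ 2 := by rw [← sq_abs]; exact pow_le_pow_left₀ (abs_nonneg _) h2 2
  have cs : ∀ v : W, ⟪v, u⟫ ^ 2 ≤ ‖v‖ ^ 2 * ‖u‖ ^ 2 := fun v => by
    rw [← sq_abs, ← mul_pow]
    exact pow_le_pow_left₀ (abs_nonneg _) (abs_real_inner_le_norm v u) 2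
  have a1 : (χ * ⟪K y - K₀ y, u⟫) ^ 2 ≤ 2 * ρ ^ 2 * en K y y' * ⟪K₀ u, u⟫ := by
    rcases h with h | h
    · rw [h, zero_mul, sq (0 : ℝ), zero_mul]; positivity
    · have b1 := polar hK hK₀ hρ h.1 y u
      have b2 : ⟪K₀ y, y⟫ ≤ 2 * en K y y' := by
        have := (abs_le.1 (h.2 y)).2
        nlinarith
      rw [mul_pow]
      calc _ ≤ 1 * (ρ ^ 2 * (2 * en K y y') * ⟪K₀ u, u⟫) := by
            gcongr
            exact b1.trans (by gcongr)
        _ = _ := by ring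
  have a2 : (χ * ⟪F, u⟫) ^ 2 ≤ 2 * φ * ⟪K₀ u, u⟫ := by
    rcases h with h | h
    · rw [h, zero_mul, sq (0 : ℝ), zero_mul]; positivity
    · have b2 : ⟪K u, u⟫ ≤ 2 * ⟪K₀ u, u⟫ := by
        have := (abs_le.1 (h.1 u)).2
        nlinarith
      rw [mul_pow]
      calc _ ≤ 1 * (φ * (2 * ⟪K₀ u, u⟫)) := by
            gcongr
            exact (hF u).trans (by gcongr)
        _ = _ := by ring
  have a3 : (2 * χ' * ⟪y', u⟫) ^ 2 ≤ 4 * c₁ ^ 2 * (κ₀ ^ 2)⁻¹ * en K y y' * ⟪K₀ u, u⟫ := by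
    rw [mul_pow, mul_pow]
    calc _ ≤ 2 ^ 2 * c₁ ^ 2 * (en K y y' * ((κ₀ ^ 2)⁻¹ * ⟪K₀ u, u⟫)) := by
          gcongr
          exact (cs y').trans (by gcongr)
      _ = _ := by ring
  have a4 : (χ'' * ⟪y, u⟫) ^ 2 ≤ c₂ ^ 2 * (κ₀ ^ 2)⁻¹ ^ 2 * en K y y' * ⟪K₀ u, u⟫ := by
    rw [mul_pow]
    calc _ ≤ c₂ ^ 2 * (((κ₀ ^ 2)⁻¹ * en K y y') * ((κ₀ ^ 2)⁻¹ * ⟪K₀ u, u⟫)) := by
          gcongr
          refine (cs y).trans ?_
          gcongr
          exact q3.trans (by gcongr)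
      _ = _ := by ring
  rw [inner_add_left, inner_add_left, inner_add_left, real_inner_smul_left, real_inner_smul_left,
    real_inner_smul_left, real_inner_smul_left]
  set x₁ := χ * ⟪K y - K₀ y, u⟫
  set x₂ := χ * ⟪F, u⟫
  set x₃ := 2 * χ' * ⟪y', u⟫
  set x₄ := χ'' * ⟪y, u⟫
  have s4 : (x₁ + x₂ + x₃ + x₄) ^ 2 ≤ 4 * (x₁ ^ 2 + x₂ ^ 2 + x₃ ^ 2 + x₄ ^ 2) := by
    nlinarith [sq_nonneg (x₁ - x₂), sq_nonneg (x₁ - x₃), sq_nonneg (x₁ - x₄), sq_nonneg (x₂ - x₃),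
      sq_nonneg (x₂ - x₄), sq_nonneg (x₃ - x₄)]
  refine s4.trans ?_
  linarith

/-- one step of the estimate -/
theorem step {κ₀ g μm : ℝ} (hκ : 0 < κ₀) (hg : 0 < g) (hμm : 0 ≤ μm) :
    ∃ D c : ℝ, 0 < D ∧ 0 < c ∧
    ∀ {W : Type} [NormedAddCommGroup W] [InnerProductSpace ℝ W] [FiniteDimensional ℝ W]
      (L : ℕ) (δ : ℝ) (K : ℝ → W →L[ℝ] W) (μ w : ℝ → ℝ) (y y' F : ℝ → W) (φ : ℝ → ℝ) (B M : ℝ),
      1 ≤ L → 0 ≤ δ → δ * (L : ℝ) ^ 2 ≤ 1 / 8 → SlowW κ₀ g μm δ K μ w →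
      (∀ t, HasDerivAt y (y' t) t) → (∀ t, HasDerivAt y' (K t (y t) + F t) t) →
      Continuous F → Continuous φ → (∀ t u, ⟪F t, u⟫ ^ 2 ≤ φ t * ⟪K t u, u⟫) → (∀ t, 0 ≤ φ t) →
      0 ≤ B → 0 ≤ M → (∀ t, ∫ s in t..t + 1, φ s ≤ B * Real.exp (2 * w t)) →
      (∀ t, wen K y y' t ≤ M * Real.exp (2 * w t)) →
      ∀ t, wen K y y' t ≤ D * L * ((32 * δ ^ 2 * L ^ 2 + c / L ^ 2) * M + 8 * B) *
        Real.exp (2 * w t) := by
  obtain ⟨C₀, hC₀, hst⟩ := static_est hκ hg hμm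
  obtain ⟨η, η', η'', c, hc, d1, d2, c2, b0, b1, b2, p1, p0⟩ := cutoff
  refine ⟨6 * Real.exp (2 * μm + 1) * C₀, 16 * c ^ 2 * (κ₀ ^ 2)⁻¹ + 4 * c ^ 2 * (κ₀ ^ 2)⁻¹ ^ 2,
    by positivity, by positivity, ?_⟩
  intro W _ _ _ L δ K μ w y y' F φ B M hL hδ hδL hS hy hy' hF hφ hFφ hφ0 hB0 hM0 hB hM t₀
  have hL1 : (1 : ℝ) ≤ L := by exact_mod_cast hL
  have hL0 : (0 : ℝ) < L := by linarith
  have cy : Continuous y := continuous_iff_continuousAt.2 fun t => (hy t).continuousAt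
  have cy' : Continuous y' := continuous_iff_continuousAt.2 fun t => (hy' t).continuousAt
  have c0 : Continuous η := continuous_iff_continuousAt.2 fun t => (d1 t).continuousAt
  have c1 : Continuous η' := continuous_iff_continuousAt.2 fun t => (d2 t).continuousAt
  have cen := continuous_en hS.cont cy cy'
  obtain ⟨σ, hσ⟩ : ∃ σ : ℝ → ℝ, σ = fun t => (t - t₀) / L := ⟨_, rfl⟩
  have dσ : ∀ t, HasDerivAt σ (1 / L) t := fun t => by
    rw [hσ]; exact ((hasDerivAt_id t).sub_const t₀).div_const _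
  have cσ : Continuous σ := continuous_iff_continuousAt.2 fun t => (dσ t).continuousAt
  have dχ : ∀ t, HasDerivAt (fun t => η (σ t)) (η' (σ t) * (1 / L)) t := fun t =>
    (d1 (σ t)).comp t (dσ t)
  have dχ' : ∀ t, HasDerivAt (fun t => η' (σ t) * (1 / L)) (η'' (σ t) * (1 / L) * (1 / L)) t :=
    fun t => ((d2 (σ t)).comp t (dσ t)).mul_const _
  obtain ⟨ρ, hρ⟩ : ∃ ρ : ℝ, ρ = δ * (2 * L) := ⟨_, rfl⟩
  have hρ0 : 0 ≤ ρ := by rw [hρ]; positivity
  have hρ1 : ρ ≤ 1 := by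
    have : δ * L ≤ δ * (L : ℝ) ^ 2 := mul_le_mul_of_nonneg_left (by nlinarith) hδ
    rw [hρ]; linarith
  have hcl : ∀ t, |t - t₀| ≤ 2 * L → (∀ u, |⟪K t u, u⟫ - ⟪K t₀ u, u⟫| ≤ ρ * ⟪K t₀ u, u⟫) ∧
      ∀ u, |⟪K t₀ u, u⟫ - ⟪K t u, u⟫| ≤ ρ * ⟪K t u, u⟫ := by
    intro t ht
    have k : δ * |t - t₀| ≤ ρ := by rw [hρ]; gcongr
    refine ⟨fun u => (hS.slow t₀ t u).trans ?_, fun u => (hS.slow t t₀ u).trans ?_⟩
    · exact mul_le_mul_of_nonneg_right k (form_nonneg (hS.pos _) u)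
    · rw [abs_sub_comm]
      exact mul_le_mul_of_nonneg_right k (form_nonneg (hS.pos _) u)
  obtain ⟨A, hA⟩ : ∃ A : ℝ, A = 8 * ρ ^ 2 + 16 * (c / L) ^ 2 * (κ₀ ^ 2)⁻¹ +
    4 * (c / L) ^ 2 * (κ₀ ^ 2)⁻¹ ^ 2 := ⟨_, rfl⟩
  have hA0 : 0 ≤ A := by rw [hA]; positivity
  have hAe : A = 32 * δ ^ 2 * L ^ 2 +
      (16 * c ^ 2 * (κ₀ ^ 2)⁻¹ + 4 * c ^ 2 * (κ₀ ^ 2)⁻¹ ^ 2) / L ^ 2 := by
    rw [hA, hρ]; field_simp; ring
  rw [← hAe]
  have cφ : Continuous fun t => A * en (K t) (y t) (y' t) + 8 * φ t :=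
    (cen.const_mul A).add (hφ.const_mul 8)
  have hab : t₀ - L ≤ t₀ - L + ((3 * L : ℕ) : ℝ) := le_add_of_nonneg_right (by positivity)
  have σa : σ (t₀ - L) = -1 := by rw [hσ]; field_simp; ring
  have σb : σ (t₀ - L + ((3 * L : ℕ) : ℝ)) = 2 := by rw [hσ]; push_cast; field_simp; ring
  have key := hst (K t₀) (μ t₀) (t₀ - L) (t₀ - L + ((3 * L : ℕ) : ℝ))
    (fun t => η (σ t) • y t) (fun t => (η' (σ t) * (1 / L)) • y t + η (σ t) • y' t)
    (fun t => η (σ t) • (K t (y t) - K t₀ (y t)) + η (σ t) • F t +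
      (2 * (η' (σ t) * (1 / L))) • y' t + (η'' (σ t) * (1 / L) * (1 / L)) • y t)
    (fun t => A * en (K t) (y t) (y' t) + 8 * φ t) (hS.pos t₀) (hS.nn t₀) (hS.le t₀) (hS.gap t₀) hab
    (fun t => by
      have := (dχ t).smul (hy t)
      rw [add_comm] at this
      exact this)
    (fun t => by
      have := ((dχ' t).smul (hy t)).add ((dχ t).smul (hy' t))
      refine HasDerivAt.congr_deriv this ?_
      rw [map_smul]
      module)
    (by
      have k1 : Continuous fun t => K t (y t) := hS.cont.clm_apply cy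
      have k2 : Continuous fun t => K t₀ (y t) := (K t₀).continuous.comp cy
      have k3 : Continuous fun t => η (σ t) := c0.comp cσ
      have k4 : Continuous fun t => η' (σ t) := c1.comp cσ
      have k5 : Continuous fun t => η'' (σ t) := c2.comp cσ
      exact (((k3.smul (k1.sub k2)).add (k3.smul hF)).add
        (((k4.mul_const _).const_mul 2).smul cy')).add (((k5.mul_const _).mul_const _).smul cy))
    cφ
    (fun t u => by
      rw [hA]
      refine forcing hκ (hS.pos t) (hS.pos t₀) hρ0 hρ1 (hφ0 t) _ _ _ (hFφ t) (b0 _) ?_ ?_ ?_ u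
      · rw [abs_mul, abs_of_pos (by positivity : (0 : ℝ) < 1 / L), mul_one_div]
        exact div_le_div_of_nonneg_right (b1 _) hL0.le
      · rw [abs_mul, abs_mul, abs_of_pos (by positivity : (0 : ℝ) < 1 / L), mul_one_div,
          mul_one_div]
        refine div_le_div_of_nonneg_right ((div_le_self (abs_nonneg _) hL1).trans (b2 _)) hL0.le
      · by_cases ht : |t - t₀| ≤ 2 * L
        · exact Or.inr (hcl t ht)
        · left
          refine (p0 _ ?_).1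
          rw [hσ]
          rcases le_abs.1 (not_le.1 ht).le with h | h
          · right; simp only; rw [le_div_iff₀ hL0]; exact h
          · left; simp only; rw [div_le_iff₀ hL0]; linarith)
    (fun t => add_nonneg (mul_nonneg hA0 (en_nonneg (hS.pos t) _ _)) (by have := hφ0 t; positivity))
    (by simp only [σa, (p0 _ (Or.inl le_rfl)).1, zero_smul])
    (by simp only [σa, (p0 _ (Or.inl le_rfl)).1, (p0 _ (Or.inl le_rfl)).2, zero_smul, zero_mul,
      add_zero])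
    (by simp only [σb, (p0 _ (Or.inr le_rfl)).1, zero_smul])
    (by simp only [σb, (p0 _ (Or.inr le_rfl)).1, (p0 _ (Or.inr le_rfl)).2, zero_smul, zero_mul,
      add_zero])
  have cexp : Continuous fun t => Real.exp (-2 * μ t₀ * t) := by fun_prop
  -- the right-hand side
  have hR : ∫ t in (t₀ - L)..(t₀ - L + ((3 * L : ℕ) : ℝ)), Real.exp (-2 * μ t₀ * t) *
      (A * en (K t) (y t) (y' t) + 8 * φ t) ≤ ((3 * L : ℕ) : ℝ) *
        (Real.exp (2 * (w t₀ - μ t₀ * t₀) + 1) * (A * M + 8 * B)) := by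
    refine windows (cexp.mul cφ) _ _ fun j hj => ?_
    have hj' : (j : ℝ) ≤ 3 * L := by exact_mod_cast hj.le
    have hj0 : (0 : ℝ) ≤ j := by positivity
    set s := t₀ - L + j with hs
    have k1 := weight (R := 2 * L) hδ hS.der hS.lip (t₀ := t₀) (s := s)
      (abs_le.2 ⟨by linarith, by linarith⟩)
    calc _ ≤ ∫ t in s..(s + 1), Real.exp (-2 * μ t₀ * s) *
            (A * en (K t) (y t) (y' t) + 8 * φ t) := by
          refine intervalIntegral.integral_mono_on (by linarith) ((cexp.mul cφ).intervalIntegrable _ _)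
            ((cφ.const_mul _).intervalIntegrable _ _) fun t ht => ?_
          refine mul_le_mul_of_nonneg_right (Real.exp_le_exp.2 ?_)
            (add_nonneg (mul_nonneg hA0 (en_nonneg (hS.pos t) _ _)) (by have := hφ0 t; positivity))
          nlinarith [hS.nn t₀, ht.1]
      _ = Real.exp (-2 * μ t₀ * s) * (A * wen K y y' s + 8 * ∫ t in s..(s + 1), φ t) := by
          rw [intervalIntegral.integral_const_mul, intervalIntegral.integral_add
            ((cen.const_mul A).intervalIntegrable _ _) ((hφ.const_mul 8).intervalIntegrable _ _),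
            intervalIntegral.integral_const_mul, intervalIntegral.integral_const_mul, wen]
      _ ≤ Real.exp (-2 * μ t₀ * s) * (A * (M * Real.exp (2 * w s)) +
            8 * (B * Real.exp (2 * w s))) := by
          gcongr
          exacts [hM s, hB s]
      _ = Real.exp (-2 * μ t₀ * s + 2 * w s) * (A * M + 8 * B) := by rw [Real.exp_add]; ring
      _ ≤ _ := by
          refine mul_le_mul_of_nonneg_right (Real.exp_le_exp.2 ?_) (by positivity)
          nlinarith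
  -- the left-hand side
  have cz : Continuous fun t => Real.exp (-2 * μ t₀ * t) * en (K t₀) (η (σ t) • y t)
      ((η' (σ t) * (1 / L)) • y t + η (σ t) • y' t) := by
    have k3 : Continuous fun t => η (σ t) := c0.comp cσ
    have k4 : Continuous fun t => η' (σ t) := c1.comp cσ
    exact cexp.mul (continuous_en continuous_const (k3.smul cy)
      (((k4.mul_const _).smul cy).add (k3.smul cy')))
  have hLh : Real.exp (-2 * μ t₀ * t₀ - 2 * μm) / 2 * wen K y y' t₀ ≤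
      ∫ t in (t₀ - L)..(t₀ - L + ((3 * L : ℕ) : ℝ)), Real.exp (-2 * μ t₀ * t) *
        en (K t₀) (η (σ t) • y t) ((η' (σ t) * (1 / L)) • y t + η (σ t) • y' t) := by
    refine le_trans ?_ (intervalIntegral.integral_mono_interval (a := t₀) (b := t₀ + 1)
      (by linarith) (by linarith) (by push_cast; linarith)
      (Filter.Eventually.of_forall fun t =>
        mul_nonneg (Real.exp_pos _).le (en_nonneg (hS.pos t₀) _ _)) (cz.intervalIntegrable _ _))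
    rw [wen, ← intervalIntegral.integral_const_mul]
    refine intervalIntegral.integral_mono_on (by linarith) ((cen.const_mul _).intervalIntegrable _ _)
      (cz.intervalIntegrable _ _) fun t ht => ?_
    have k1 : σ t ∈ Icc (0 : ℝ) 1 := by
      rw [hσ]
      exact ⟨div_nonneg (by linarith [ht.1]) hL0.le, (div_le_one hL0).2 (by linarith [ht.2])⟩
    rw [(p1 _ k1).1, (p1 _ k1).2, zero_mul, zero_smul, zero_add, one_smul, one_smul]
    have k2 : en (K t) (y t) (y' t) ≤ 2 * en (K t₀) (y t) (y' t) := by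
      have a1 := (abs_le.1 ((hcl t (abs_le.2 ⟨by linarith [ht.1], by linarith [ht.2]⟩)).1 (y t))).2
      have a2 := form_nonneg (hS.pos t₀) (y t)
      unfold en
      nlinarith [sq_nonneg ‖y' t‖]
    have k3 : Real.exp (-2 * μ t₀ * t₀ - 2 * μm) ≤ Real.exp (-2 * μ t₀ * t) := by
      refine Real.exp_le_exp.2 ?_
      nlinarith [hS.nn t₀, hS.le t₀, ht.1, ht.2]
    calc _ ≤ Real.exp (-2 * μ t₀ * t) / 2 * (2 * en (K t₀) (y t) (y' t)) := by
          gcongr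
          exact en_nonneg (hS.pos t) _ _
      _ = _ := by ring
  have fin := hLh.trans (key.trans (mul_le_mul_of_nonneg_left hR hC₀.le))
  have e1 : Real.exp (2 * (w t₀ - μ t₀ * t₀) + 1) = Real.exp (-2 * μ t₀ * t₀ - 2 * μm) *
      (Real.exp (2 * μm + 1) * Real.exp (2 * w t₀)) := by
    rw [← Real.exp_add, ← Real.exp_add]; congr 1; ring
  rw [e1] at fin
  push_cast at fin
  refine le_of_mul_le_mul_left (fin.trans_eq ?_)
    (show 0 < Real.exp (-2 * μ t₀ * t₀ - 2 * μm) / 2 by positivity)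
  ring

end ASupAux

theorem sup_est {κ₀ g μm : ℝ} (hκ : 0 < κ₀) (hg : 0 < g) (hμm : 0 ≤ μm) :
    ∃ δ₀ C : ℝ, 0 < δ₀ ∧ 0 < C ∧
    ∀ {W : Type} [NormedAddCommGroup W] [InnerProductSpace ℝ W] [FiniteDimensional ℝ W]
      (δ : ℝ) (K : ℝ → W →L[ℝ] W) (μ w : ℝ → ℝ) (y y' F : ℝ → W) (φ : ℝ → ℝ) (B : ℝ),
      0 ≤ δ → δ ≤ δ₀ → SlowW κ₀ g μm δ K μ w →
      (∀ t, HasDerivAt y (y' t) t) → (∀ t, HasDerivAt y' (K t (y t) + F t) t) →
      Continuous F → Continuous φ → (∀ t u, ⟪F t, u⟫ ^ 2 ≤ φ t * ⟪K t u, u⟫) → (∀ t, 0 ≤ φ t) →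
      (∀ t, ∫ s in t..t + 1, φ s ≤ B * Real.exp (2 * w t)) →
      (∃ B', ∀ t, wen K y y' t ≤ B' * Real.exp (2 * w t)) →
      ∀ t, wen K y y' t ≤ C * B * Real.exp (2 * w t) := by
  obtain ⟨D, c, hD, hc, h⟩ := ASupAux.step hκ hg hμm
  obtain ⟨L, hL⟩ := exists_nat_ge (4 * D * c + 1)
  have hL1 : (1 : ℝ) ≤ L := le_trans (by have : 0 ≤ 4 * D * c := by positivity
                                         linarith) hL
  have hL0 : (0 : ℝ) < L := by linarith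
  refine ⟨1 / (L ^ 2 * (128 * D + 8)), 16 * D * L, by positivity, by positivity, ?_⟩
  intro W _ _ _ δ K μ w y y' F φ B hδ hδ0 hS hy hy' hF hφ hFφ hφ0 hB hB' t
  obtain ⟨B', hB'⟩ := hB'
  have hδ1 : δ * L ^ 2 * (128 * D + 8) ≤ 1 := by
    rw [le_div_iff₀ (by positivity)] at hδ0
    linarith
  have hδ2 : 0 ≤ δ * L ^ 2 := by positivity
  have hδ3 : δ * (L : ℝ) ^ 2 ≤ 1 / 8 := by nlinarith
  have hB0 : 0 ≤ B := by
    have k1 : 0 ≤ ∫ s in (0 : ℝ)..0 + 1, φ s :=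
      intervalIntegral.integral_nonneg (by norm_num) fun s _ => hφ0 s
    exact nonneg_of_mul_nonneg_left (k1.trans (hB 0)) (Real.exp_pos _)
  have hbd : BddAbove (range fun t => wen K y y' t / Real.exp (2 * w t)) := by
    refine ⟨B', ?_⟩
    rintro _ ⟨s, rfl⟩
    exact (div_le_iff₀ (Real.exp_pos _)).2 (hB' s)
  obtain ⟨M, hM⟩ : ∃ M : ℝ, M = ⨆ t, wen K y y' t / Real.exp (2 * w t) := ⟨_, rfl⟩
  have hM1 : ∀ s, wen K y y' s ≤ M * Real.exp (2 * w s) := fun s => by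
    rw [← div_le_iff₀ (Real.exp_pos _), hM]
    exact le_ciSup hbd s
  have hM0 : 0 ≤ M := by
    have k1 : 0 ≤ wen K y y' 0 :=
      intervalIntegral.integral_nonneg (by norm_num) fun s _ => ASupAux.en_nonneg (hS.pos s) _ _
    exact nonneg_of_mul_nonneg_left (k1.trans (hM1 0)) (Real.exp_pos _)
  have hM2 : M ≤ D * L * ((32 * δ ^ 2 * L ^ 2 + c / L ^ 2) * M + 8 * B) := by
    conv_lhs => rw [hM]
    refine ciSup_le fun s => (div_le_iff₀ (Real.exp_pos _)).2 ?_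
    exact h L δ K μ w y y' F φ B M (by exact_mod_cast hL1) hδ hδ3 hS hy hy' hF hφ hFφ hφ0 hB0 hM0
      hB hM1 s
  have k1 : D * L * (32 * δ ^ 2 * L ^ 2) ≤ 1 / 4 := by
    have a1 : δ * L ≤ 1 := by
      have : δ * L ≤ δ * (L : ℝ) ^ 2 := mul_le_mul_of_nonneg_left (by nlinarith) hδ
      linarith
    have a2 : 32 * D * (δ * L ^ 2) ≤ 1 / 4 := by nlinarith
    calc _ = 32 * D * (δ * L ^ 2) * (δ * L) := by ring
      _ ≤ 1 / 4 * 1 := by gcongr
      _ = _ := by ring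
  have k2 : D * L * (c / L ^ 2) ≤ 1 / 4 := by
    have : D * L * (c / L ^ 2) = D * c / L := by field_simp
    rw [this, div_le_iff₀ hL0]
    linarith
  have k3 : M ≤ 16 * D * L * B := by nlinarith
  exact (hM1 t).trans (mul_le_mul_of_nonneg_right k3 (Real.exp_pos _).le)

/-- one-dimensional Sobolev inequality on a unit window -/
theorem norm_sq_le_wen {κ₀ : ℝ} (hκ : 0 < κ₀) : ∃ C : ℝ, 0 < C ∧
    ∀ {W : Type} [NormedAddCommGroup W] [InnerProductSpace ℝ W] [FiniteDimensional ℝ W]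
      (K : ℝ → W →L[ℝ] W) (y y' : ℝ → W) (t s : ℝ), Continuous K → (∀ t, PosOp κ₀ (K t)) →
      (∀ t, HasDerivAt y (y' t) t) → Continuous y' → s ∈ Icc t (t + 1) →
      ‖y s‖ ^ 2 ≤ C * wen K y y' t := by
  refine ⟨2 * (κ₀ ^ 2)⁻¹ + 1, by positivity, ?_⟩
  intro W _ _ _ K y y' t s hK hP hy cy' hs
  have cy : Continuous y := continuous_iff_continuousAt.2 fun t => (hy t).continuousAt
  have cen := ASupAux.continuous_en hK cy cy'
  have cG : Continuous fun r => ‖y r‖ ^ 2 + ‖y' r‖ ^ 2 := by fun_prop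
  have cf : Continuous fun r => 2 * ⟪y r, y' r⟫ := by fun_prop
  have hb : ∀ r, |2 * ⟪y r, y' r⟫| ≤ ‖y r‖ ^ 2 + ‖y' r‖ ^ 2 := fun r => by
    rw [abs_mul, abs_two]
    nlinarith [abs_real_inner_le_norm (y r) (y' r), sq_nonneg (‖y r‖ - ‖y' r‖)]
  have h1 : ∀ p q, t ≤ p → p ≤ q → q ≤ t + 1 →
      |‖y q‖ ^ 2 - ‖y p‖ ^ 2| ≤ ∫ r in t..t + 1, (‖y r‖ ^ 2 + ‖y' r‖ ^ 2) := by
    intro p q a1 a2 a3
    rw [← intervalIntegral.integral_eq_sub_of_hasDerivAt (f := fun r => ‖y r‖ ^ 2)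
      (fun r _ => (hy r).norm_sq) (cf.intervalIntegrable _ _)]
    refine (intervalIntegral.abs_integral_le_integral_abs a2).trans (le_trans
      (intervalIntegral.integral_mono_on a2 (cf.abs.intervalIntegrable _ _)
        (cG.intervalIntegrable _ _) fun r _ => hb r) ?_)
    exact intervalIntegral.integral_mono_interval a1 a2 a3
      (Filter.Eventually.of_forall fun r => by positivity) (cG.intervalIntegrable _ _)
  obtain ⟨I, hI⟩ : ∃ I : ℝ, I = ∫ r in t..t + 1, (‖y r‖ ^ 2 + ‖y' r‖ ^ 2) := ⟨_, rfl⟩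
  have h2 : ∀ r ∈ Icc t (t + 1), ‖y s‖ ^ 2 - I ≤ ‖y r‖ ^ 2 := by
    intro r hr
    rcases le_total r s with h | h
    · have := (abs_le.1 (h1 r s hr.1 h hs.2)).2
      linarith
    · have := (abs_le.1 (h1 s r hs.1 h hr.2)).1
      linarith
  have cn : Continuous fun r => ‖y r‖ ^ 2 := by fun_prop
  have h3 : ‖y s‖ ^ 2 - I ≤ ∫ r in t..t + 1, ‖y r‖ ^ 2 := by
    have := intervalIntegral.integral_mono_on (μ := volume) (f := fun _ => ‖y s‖ ^ 2 - I)
      (show t ≤ t + 1 by linarith) (continuous_const.intervalIntegrable _ _)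
      (cn.intervalIntegrable _ _) h2
    simpa using this
  have h4 : (∫ r in t..t + 1, ‖y r‖ ^ 2) + I ≤ (2 * (κ₀ ^ 2)⁻¹ + 1) * wen K y y' t := by
    rw [hI, ← intervalIntegral.integral_add (cn.intervalIntegrable _ _) (cG.intervalIntegrable _ _),
      wen, ← intervalIntegral.integral_const_mul]
    refine intervalIntegral.integral_mono_on (by linarith) ((cn.add cG).intervalIntegrable _ _)
      ((cen.const_mul _).intervalIntegrable _ _) fun r _ => ?_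
    have a1 := ASupAux.norm_le_form hκ (hP r) (y r)
    have a2 := ASupAux.form_nonneg (hP r) (y r)
    have a3 : 0 ≤ (κ₀ ^ 2)⁻¹ * ‖y' r‖ ^ 2 := by positivity
    unfold en
    nlinarith
  linarith

end Crest.Agent.R202
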