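import Crest.Agent.R202.BState
import Crest.Agent.R202.CBasic

/-!
# Row 202, B7: the coefficients `cT` of a path of states

For `p` near the unit sphere `(a, p) ↦ cf d (comb F a) i k p` is smooth on all of `(V → ℝ) × E (d+2)`:
the numerators vanish where `X < 1/16` (resp. `X > 9/10`, and for `d = 1` there is no pair
`2 ≤ i ≠ k`).  The class of functions `x ↦ Ψ (a t, a' t, ..., a^{(r)} t, x/|x|)`, `t = log |x|`, with `Ψ`
smooth is closed under `D0` and `Lf i k`; members are bounded by compactness, uniformly over all paths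
with the same derivative bounds (use `Ψ : (Fin (r+1) → V → ℝ) × E n → ℝ`, or jets in `ℕ → V → ℝ`
truncated at the length of the word).
-/

set_option autoImplicit false
set_option linter.unusedSectionVars false
open scoped ContDiff RealInnerProductSpace Topology
open MeasureTheory Set Filter Module
open Crest.GeometryTopology.CoordMetric
open Crest.Agent.R230 (E MP sph ev Harm)

noncomputable section
namespace Crest.Agent.R202

namespace BCoefAux

theorem contDiff_div {Y : Type} [NormedAddCommGroup Y] [NormedSpace ℝ Y] {N D : Y → ℝ}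
    (hN : ContDiff ℝ ∞ N) (hD : ContDiff ℝ ∞ D) (h : ∀ y, D y = 0 → ∀ᶠ z in 𝓝 y, N z = 0) :
    ContDiff ℝ ∞ fun y => N y / D y := by
  refine contDiff_iff_contDiffAt.2 fun y => ?_
  by_cases hy : D y = 0
  · refine (contDiffAt_const (c := (0 : ℝ))).congr_of_eventuallyEq ?_
    filter_upwards [h y hy] with z hz
    rw [hz, zero_div]
  · exact hN.contDiffAt.div hD.contDiffAt hy

theorem contDiff_zOf (d : ℕ) : ContDiff ℝ ∞ (zOf : E (d + 2) → E 2) := by
  unfold zOf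
  fun_prop

theorem xhi_eq {d : ℕ} {i k : Fin (d + 2)} (h : 2 ≤ (i : ℕ) ∧ 2 ≤ (k : ℕ) ∧ i ≠ k) :
    xhi d = 9 / 10 := by
  refine if_neg ?_
  rintro rfl
  exact h.2.2 (Fin.ext (by omega))

variable {n : ℕ} {W : Type} [NormedAddCommGroup W] [NormedSpace ℝ W]

/-- the jet of order `r` of a path -/
def jet (r : ℕ) (a : ℝ → W) (t : ℝ) : Fin (r + 1) → W := fun i => iteratedDeriv i a t

/-- functions of the jet and of the direction -/
def ext {r : ℕ} (Ψ : (Fin (r + 1) → W) × E n → ℝ) (a : ℝ → W) (x : E n) : ℝ :=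
  Ψ (jet r a (Real.log ‖x‖), ‖x‖⁻¹ • x)

theorem contDiff_iter {a : ℝ → W} (ha : ContDiff ℝ ∞ a) (i : ℕ) :
    ContDiff ℝ ∞ (iteratedDeriv i a) := by
  rw [iteratedDeriv_eq_iterate]
  exact ha.iterate_deriv i

theorem contDiff_jet (r : ℕ) {a : ℝ → W} (ha : ContDiff ℝ ∞ a) : ContDiff ℝ ∞ (jet r a) :=
  contDiff_pi.2 fun i => contDiff_iter ha i

theorem hasDerivAt_jet (r : ℕ) {a : ℝ → W} (ha : ContDiff ℝ ∞ a) (t : ℝ) :
    HasDerivAt (jet r a) (fun i => jet (r + 1) a t i.succ) t := by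
  refine hasDerivAt_pi.2 fun i => ?_
  have := ((contDiff_iter ha i).differentiable (by simp) t).hasDerivAt
  rwa [← iteratedDeriv_succ] at this

theorem contDiffOn_polar {Y : Type} [NormedAddCommGroup Y] [NormedSpace ℝ Y] {b : ℝ → Y}
    (hb : ContDiff ℝ ∞ b) :
    ContDiffOn ℝ ∞ (fun x : E n => (b (Real.log ‖x‖), ‖x‖⁻¹ • x)) {0}ᶜ := fun x hx => by
  have h1 : ContDiffAt ℝ ∞ (fun x : E n => ‖x‖) x := contDiffAt_norm ℝ hx
  have h2 : ‖x‖ ≠ 0 := norm_ne_zero_iff.2 hx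
  exact ((hb.contDiffAt.comp x (h1.log h2)).prodMk
    ((h1.inv h2).smul contDiffAt_id)).contDiffWithinAt

theorem contDiffOn_ext {r : ℕ} {Ψ : (Fin (r + 1) → W) × E n → ℝ} (hΨ : ContDiff ℝ ∞ Ψ)
    {a : ℝ → W} (ha : ContDiff ℝ ∞ a) : ContDiffOn ℝ ∞ (ext Ψ a) {0}ᶜ :=
  hΨ.comp_contDiffOn (contDiffOn_polar (contDiff_jet r ha))

theorem exists_D0 {r : ℕ} {Ψ : (Fin (r + 1) → W) × E n → ℝ} (hΨ : ContDiff ℝ ∞ Ψ) :
    ∃ Ψ' : (Fin (r + 1 + 1) → W) × E n → ℝ, ContDiff ℝ ∞ Ψ' ∧ ∀ a : ℝ → W, ContDiff ℝ ∞ a →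
      ∀ x, x ≠ 0 → D0 (ext Ψ a) x = ext Ψ' a x := by
  refine ⟨fun y => fderiv ℝ Ψ (fun i => y.1 i.castSucc, y.2) (fun i => y.1 i.succ, 0), ?_,
    fun a ha x hx => ?_⟩
  · exact ((hΨ.fderiv_right (m := ∞) (by simp)).comp (by fun_prop)).clm_apply (by fun_prop)
  · have h1 := hasDerivAt_ray (contDiffOn_ext hΨ ha) hx 0
    rw [Real.exp_zero, one_smul] at h1
    have h0 : ‖x‖ ≠ 0 := norm_ne_zero_iff.2 hx
    have h2 : (fun s => ext Ψ a (Real.exp s • x)) =
        fun s => Ψ (jet r a (Real.log ‖x‖ + s), ‖x‖⁻¹ • x) := by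
      funext s
      rw [ext, norm_smul, Real.norm_of_nonneg (Real.exp_pos s).le,
        Real.log_mul (Real.exp_pos s).ne' h0, Real.log_exp, add_comm s, smul_smul]
      congr 3
      field_simp
    have h3 : HasDerivAt (fun s => jet r a (Real.log ‖x‖ + s))
        (fun i => jet (r + 1) a (Real.log ‖x‖) i.succ) 0 := by
      have := hasDerivAt_jet r ha (Real.log ‖x‖ + 0)
      simpa using this.comp_const_add (Real.log ‖x‖) 0
    have h4 := ((hΨ.differentiable (by simp)) _).hasFDerivAt.comp_hasDerivAt 0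
      (h3.prodMk (hasDerivAt_const (0 : ℝ) (‖x‖⁻¹ • x)))
    rw [add_zero] at h4
    rw [h2] at h1
    exact h1.unique h4

theorem exists_Lf {r : ℕ} {Ψ : (Fin (r + 1) → W) × E n → ℝ} (hΨ : ContDiff ℝ ∞ Ψ) (i k : Fin n) :
    ∃ Ψ' : (Fin (r + 1) → W) × E n → ℝ, ContDiff ℝ ∞ Ψ' ∧ ∀ a : ℝ → W, ContDiff ℝ ∞ a →
      ∀ x, x ≠ 0 → Lf i k (ext Ψ a) x = ext Ψ' a x := by
  refine ⟨fun y => y.2 i * fderiv ℝ Ψ y (0, EuclideanSpace.single k 1) -
    y.2 k * fderiv ℝ Ψ y (0, EuclideanSpace.single i 1), ?_, fun a ha x hx => ?_⟩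
  · have h1 := hΨ.fderiv_right (m := ∞) (by simp)
    have h2 : ∀ l : Fin n, ContDiff ℝ ∞ fun y : (Fin (r + 1) → W) × E n => y.2 l := fun l => by
      fun_prop
    exact ((h2 i).mul (h1.clm_apply contDiff_const)).sub ((h2 k).mul (h1.clm_apply contDiff_const))
  · have h1 : HasFDerivAt (fun y : E n => (jet r a (Real.log ‖x‖), ‖x‖⁻¹ • y))
        (‖x‖⁻¹ • ContinuousLinearMap.inr ℝ _ _) x := by
      refine ((hasFDerivAt_const (jet r a (Real.log ‖x‖)) x).prodMk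
        ((hasFDerivAt_id x).const_smul ‖x‖⁻¹)).congr_fderiv ?_
      ext <;> simp
    have h2 := ((hΨ.differentiable (by simp)) _).hasFDerivAt.comp x h1
    rw [Lf_congr_sphere i k (CFieldAux.diffAt (contDiffOn_ext hΨ ha) hx) h2.differentiableAt
      fun y hy => by rw [ext, hy]; rfl]
    simp only [Lf, pderiv, h2.fderiv, ext, ContinuousLinearMap.comp_apply, smul_apply,
      ContinuousLinearMap.inr_apply, map_smul, smul_eq_mul, PiLp.smul_apply]
    ring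

theorem exists_wd {r₀ : ℕ} {Ψ₀ : (Fin (r₀ + 1) → W) × E n → ℝ} (hΨ : ContDiff ℝ ∞ Ψ₀)
    (w : List (Option (Fin n × Fin n))) : ∃ (r : ℕ) (Ψ : (Fin (r + 1) → W) × E n → ℝ),
      ContDiff ℝ ∞ Ψ ∧ ∀ a : ℝ → W, ContDiff ℝ ∞ a → ∀ x, x ≠ 0 →
        wd w (ext Ψ₀ a) x = ext Ψ a x := by
  induction w with
  | nil => exact ⟨r₀, Ψ₀, hΨ, fun _ _ _ _ => rfl⟩
  | cons l w ih =>
    obtain ⟨r, Ψ, h1, h2⟩ := ih
    cases l with
    | none =>
      obtain ⟨Ψ', h3, h4⟩ := exists_D0 h1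
      exact ⟨r + 1, Ψ', h3, fun a ha x hx => (wd_congr [none] (h2 a ha) x hx).trans (h4 a ha x hx)⟩
    | some l =>
      obtain ⟨Ψ', h3, h4⟩ := exists_Lf h1 l.1 l.2
      exact ⟨r, Ψ', h3, fun a ha x hx => (wd_congr [some l] (h2 a ha) x hx).trans (h4 a ha x hx)⟩

theorem exists_bd [FiniteDimensional ℝ W] {r : ℕ} {Ψ : (Fin (r + 1) → W) × E n → ℝ}
    (hΨ : Continuous Ψ) (Ba : ℕ → ℝ) : ∃ C : ℝ, ∀ a : ℝ → W,
      (∀ r t, ‖iteratedDeriv r a t‖ ≤ Ba r) → ∀ x, x ≠ 0 → |ext Ψ a x| ≤ C := by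
  have := FiniteDimensional.proper_real W
  obtain ⟨C, hC⟩ := ((isCompact_univ_pi fun i : Fin (r + 1) =>
    isCompact_closedBall (0 : W) (Ba i)).prod
    (isCompact_sphere (0 : E n) 1)).exists_bound_of_continuousOn hΨ.continuousOn
  refine ⟨C, fun a ha x hx => hC _ ⟨fun i _ => mem_closedBall_zero_iff.2 (ha i _), ?_⟩⟩
  rw [mem_sphere_zero_iff_norm, norm_smul, norm_inv, norm_norm,
    inv_mul_cancel₀ (norm_ne_zero_iff.2 hx)]

theorem abs_exp_sub {x y : ℝ} (hx : |x| ≤ 1 / 1000) (hy : |y| ≤ 1 / 1000) :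
    |Real.exp (2 * x) - Real.exp (2 * y)| ≤ 1 / 100 := by
  have h1 := Real.abs_exp_sub_one_le (x := 2 * x) (by rw [abs_mul, abs_two]; linarith)
  have h2 := Real.abs_exp_sub_one_le (x := 2 * y) (by rw [abs_mul, abs_two]; linarith)
  rw [abs_mul, abs_two] at h1 h2
  have h3 := abs_sub_le (Real.exp (2 * x)) 1 (Real.exp (2 * y))
  rw [abs_sub_comm 1] at h3
  linarith

end BCoefAux

variable {d : ℕ} [NeZero d] {V : Type} [Fintype V] {F : V → St}

theorem contDiff_cf (hF : ∀ v, Adm d (F v)) (i k : Fin (d + 2)) :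
    ContDiff ℝ ∞ fun x : (V → ℝ) × E (d + 2) => cf d (comb F x.1) i k x.2 := by
  have hz : ContDiff ℝ ∞ fun x : (V → ℝ) × E (d + 2) => zOf x.2 :=
    (BCoefAux.contDiff_zOf d).comp contDiff_snd
  have hX : ContDiff ℝ ∞ fun x : (V → ℝ) × E (d + 2) => XX (zOf x.2) := contDiff_XX.comp hz
  have h1 : ContDiff ℝ ∞ fun x : (V → ℝ) × E (d + 2) => (comb F x.1).1 (zOf x.2) := by
    simp only [comb, Prod.fst_sum, Finset.sum_apply, Prod.smul_fst, Pi.smul_apply, smul_eq_mul]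
    exact ContDiff.sum fun v _ => ContDiff.mul (by fun_prop) ((hF v).s1.comp hz)
  have h2 : ContDiff ℝ ∞ fun x : (V → ℝ) × E (d + 2) => (comb F x.1).2 (zOf x.2) := by
    simp only [comb, Prod.snd_sum, Finset.sum_apply, Prod.smul_snd, Pi.smul_apply, smul_eq_mul]
    exact ContDiff.sum fun v _ => ContDiff.mul (by fun_prop) ((hF v).s2.comp hz)
  have h3 : ContDiff ℝ ∞ fun x : (V → ℝ) × E (d + 2) =>
      bet d ((comb F x.1).1 (zOf x.2)) ((comb F x.1).2 (zOf x.2)) :=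
    h1.neg.sub (contDiff_const.mul h2)
  have e1 := (contDiff_const (c := (2 : ℝ)).mul h1).exp
  unfold cf
  refine e1.add ?_
  split_ifs with hc hc'
  · refine BCoefAux.contDiff_div ((contDiff_const.mul h3).exp.sub e1) hX fun y hy => ?_
    filter_upwards [hX.continuous.continuousAt.eventually_lt (g := fun _ => (1 / 16 : ℝ))
      continuousAt_const (by rw [hy]; norm_num)] with z hz'
    obtain ⟨a1, a2⟩ := (adm_comb hF z.1).supp (zOf z.2) fun h => absurd h.1 (not_le.2 hz')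
    simp [a1, a2, bet]
  · refine BCoefAux.contDiff_div ((contDiff_const.mul h2).exp.sub e1) (contDiff_const.sub hX)
      fun y hy => ?_
    filter_upwards [ContinuousAt.eventually_lt (f := fun _ => (9 / 10 : ℝ)) continuousAt_const
      hX.continuous.continuousAt (show (9 / 10 : ℝ) < XX (zOf y.2) by linarith)] with z hz'
    obtain ⟨a1, a2⟩ := (adm_comb hF z.1).supp (zOf z.2) fun h =>
      absurd (h.2.trans_eq (BCoefAux.xhi_eq hc')) (not_le.2 hz')
    simp [a1, a2]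
  · exact contDiff_const

theorem atT_cT (G : ℝ → St) (t : ℝ) (i k : Fin (d + 2)) {p : E (d + 2)} (hp : ‖p‖ = 1) :
    atT (cT d G) t i k p = cf d (G t) i k p := by
  rw [atT, cT, norm_smul, hp, mul_one, Real.norm_of_nonneg (Real.exp_pos t).le, Real.log_exp,
    inv_smul_smul₀ (Real.exp_pos t).ne']

theorem cT_smooth (hF : ∀ v, Adm d (F v)) {a : ℝ → V → ℝ} (ha : ContDiff ℝ ∞ a)
    (i k : Fin (d + 2)) : ContDiffOn ℝ ∞ (cT d (fun t => comb F (a t)) i k) {0}ᶜ :=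
  (contDiff_cf hF i k).comp_contDiffOn (BCoefAux.contDiffOn_polar ha)

theorem cT_one {G : ℝ → St} {x : E (d + 2)} (h : G (Real.log ‖x‖) = 0) (i k : Fin (d + 2)) :
    cT d G i k x = 1 := by
  simp [cT, h, cf, bet]

theorem cf_tendsto (hF : ∀ v, Adm d (F v)) {ι : Type} {l : Filter ι} {b : ι → V → ℝ} {b₀ : V → ℝ}
    (h : Tendsto b l (𝓝 b₀)) (i k : Fin (d + 2)) :
    TendstoUniformlyOn (fun M p => cf d (comb F (b M)) i k p) (cf d (comb F b₀) i k) l
      (Metric.sphere 0 1) := by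
  rw [tendstoUniformlyOn_iff_tendstoUniformly_comp_coe]
  have h1 := Continuous.tendstoUniformly
    (fun (a : V → ℝ) (p : Metric.sphere (0 : E (d + 2)) 1) => cf d (comb F a) i k p)
    ((contDiff_cf hF i k).continuous.comp
      (continuous_fst.prodMk (continuous_subtype_val.comp continuous_snd))) b₀
  exact fun u hu => h.eventually (h1 u hu)

theorem cf_ge {G : St} (hG : Adm d G) (h : ∀ z, |G.1 z| ≤ epsU d ∧ |G.2 z| ≤ epsU d)
    (i k : Fin (d + 2)) (p : E (d + 2)) : 1 / 2 ≤ cf d G i k p := by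
  have hd : (1 : ℝ) ≤ d := Nat.one_le_cast.2 (Nat.pos_of_ne_zero (NeZero.ne d))
  have he0 : 0 < epsU d := by unfold epsU; positivity
  have he : (d + 1) * epsU d = 1 / 1000 := by unfold epsU; field_simp
  have he1 : epsU d ≤ 1 / 1000 := by nlinarith
  obtain ⟨h1, h2⟩ := h (zOf p)
  have h3 : |bet d (G.1 (zOf p)) (G.2 (zOf p))| ≤ 1 / 1000 := by
    refine (abs_sub _ _).trans ?_
    rw [abs_neg, abs_mul, abs_of_nonneg (sub_nonneg.2 hd)]
    have := mul_le_mul_of_nonneg_left h2 (sub_nonneg.2 hd)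
    nlinarith
  have h4 := abs_le.1 (BCoefAux.abs_exp_sub (h1.trans he1) (y := 0) (by simp))
  rw [mul_zero, Real.exp_zero] at h4
  have h5 := abs_le.1 (BCoefAux.abs_exp_sub h3 (h1.trans he1))
  have h6 := abs_le.1 (BCoefAux.abs_exp_sub (h2.trans he1) (h1.trans he1))
  by_cases hX : XX (zOf p) ∈ Icc (1 / 16 : ℝ) (xhi d)
  · unfold cf
    split_ifs with hc hc'
    · have h7 : -(1 / 5) ≤ (Real.exp (2 * bet d (G.1 (zOf p)) (G.2 (zOf p))) -
          Real.exp (2 * G.1 (zOf p))) / XX (zOf p) := by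
        rw [le_div_iff₀ (by linarith [hX.1])]
        linarith [hX.1]
      linarith
    · have h8 := hX.2.trans_eq (BCoefAux.xhi_eq hc')
      have h7 : -(1 / 5) ≤ (Real.exp (2 * G.2 (zOf p)) - Real.exp (2 * G.1 (zOf p))) /
          (1 - XX (zOf p)) := by
        rw [le_div_iff₀ (by linarith)]
        linarith
      linarith
    · linarith
  · obtain ⟨a1, a2⟩ := hG.supp _ hX
    simp only [cf, a1, a2, bet, neg_zero, mul_zero, sub_self, zero_div, ite_self,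
      Real.exp_zero]
    norm_num

theorem coefBd_path (hF : ∀ v, Adm d (F v)) (Ba Bq : ℕ → ℝ) : ∃ Bd : ℕ → ℝ,
    ∀ (a : ℝ → V → ℝ) (q : ℝ → ℝ), ContDiff ℝ ∞ a → ContDiff ℝ ∞ q →
      (∀ r t, ‖iteratedDeriv r a t‖ ≤ Ba r) → (∀ r t, |iteratedDeriv r q t| ≤ Bq r) →
      (∀ t z, |(comb F (a t)).1 z| ≤ epsU d ∧ |(comb F (a t)).2 z| ≤ epsU d) →
      CoefBd (cT d fun t => comb F (a t)) q (1 / 2) Bd := by
  have key : ∀ y : (Fin (d + 2) × Fin (d + 2)) × List (Option (Fin (d + 2) × Fin (d + 2))),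
      ∃ C : ℝ, ∀ a : ℝ → V → ℝ, ContDiff ℝ ∞ a → (∀ r t, ‖iteratedDeriv r a t‖ ≤ Ba r) →
        ∀ x, x ≠ 0 → |wd y.2 (cT d (fun t => comb F (a t)) y.1.1 y.1.2) x| ≤ C := by
    rintro ⟨⟨i, k⟩, w⟩
    obtain ⟨r, Ψ, h1, h2⟩ := BCoefAux.exists_wd (r₀ := 0)
      (Ψ₀ := fun y : (Fin (0 + 1) → V → ℝ) × E (d + 2) => cf d (comb F (y.1 0)) i k y.2)
      ((contDiff_cf hF i k).comp (f := fun y : (Fin (0 + 1) → V → ℝ) × E (d + 2) => (y.1 0, y.2))
        (by fun_prop)) w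
    obtain ⟨C, hC⟩ := BCoefAux.exists_bd h1.continuous Ba
    exact ⟨C, fun a ha hb x hx => (congrArg abs (h2 a ha x hx)).trans_le (hC a hb x hx)⟩
  choose C hC using key
  have key2 : ∀ l : ℕ, ∃ B : ℝ, ∀ y, y.2.length = l → C y ≤ B := fun l => by
    obtain ⟨B, hB⟩ := ((finite_univ.prod (List.finite_length_eq _ l)).image C).bddAbove
    exact ⟨B, fun y hy => hB ⟨y, ⟨trivial, hy⟩, rfl⟩⟩
  choose B hB using key2
  exact ⟨fun l => max (B l) (Bq l), fun a q ha hq h1 h2 h3 =>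
    ⟨cT_smooth hF ha, hq, fun i k x _ => cf_ge (adm_comb hF _) (h3 _) i k _,
      fun i k w x hx => ((hC ((i, k), w) a ha h1 x hx).trans (hB _ _ rfl)).trans (le_max_left _ _),
      fun r t => (h2 r t).trans (le_max_right _ _)⟩⟩

end Crest.Agent.R202
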