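import Mathlib

/-!
# Row 202: definitions for the one-dimensional (radial) analysis

`X = sin² s ∈ (0,1)`.  A symmetric state is a pair of profiles `al, ga : ℝ → ℝ` (functions of `X`),
`β = -al - (d-1) ga`.  A radial eigenfunction solves
`4X(1-X)(A R')' + (4 - (4+2d) X) A R' = (V - λ) R`, `A = e^{2 al}`,
`V = m² e^{2β}/X + J e^{2 ga}/(1-X)`, `J = j(j+d-2)`.
-/

set_option autoImplicit false
open scoped ContDiff Topology
open Set Filter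

noncomputable section
namespace Crest.Agent.R202

/-- eigenvalue of the spherical harmonics of degree `j` on `S^{d-1}` -/
def Jd (d j : ℕ) : ℝ := (j : ℝ) * ((j : ℝ) + d - 2)

/-- `β = -α - (d-1) γ` -/
def bet (d : ℕ) (al ga : ℝ) : ℝ := -al - ((d : ℝ) - 1) * ga

/-- the potential of the radial equation -/
def Vp (d j m : ℕ) (al ga : ℝ → ℝ) (X : ℝ) : ℝ :=
  (m : ℝ) ^ 2 * Real.exp (2 * bet d (al X) (ga X)) / X + Jd d j * Real.exp (2 * ga X) / (1 - X)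

/-- radial eigenfunction `R` with derivative `P` -/
structure RadSol (d j m : ℕ) (al ga : ℝ → ℝ) (lam : ℝ) (R P : ℝ → ℝ) : Prop where
  d1 : ∀ X ∈ Ioo (0 : ℝ) 1, HasDerivAt R (P X) X
  d2 : ∀ X ∈ Ioo (0 : ℝ) 1, HasDerivAt (fun X => Real.exp (2 * al X) * P X)
    (((Vp d j m al ga X - lam) * R X - (4 - (4 + 2 * (d : ℝ)) * X) * (Real.exp (2 * al X) * P X)) /
      (4 * X * (1 - X))) X
  bd : ∃ B, ∀ X ∈ Ioo (0 : ℝ) 1, |R X| ≤ B ∧ Real.sqrt (X * (1 - X)) * |P X| ≤ B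
  ne : ∃ X ∈ Ioo (0 : ℝ) 1, R X ≠ 0
  b0 : j = 0 → Tendsto (fun X => Real.sqrt (1 - X) * P X) (𝓝[<] 1) (𝓝 0)
  b1 : j ≠ 0 → Tendsto R (𝓝[<] 1) (𝓝 0)

/-- the super-flat function `exp (-exp (1/s))` -/
def bfl (s : ℝ) : ℝ := expNegInvGlue (expNegInvGlue s)

/-- the state is round up to `X₁` and leaves the round state super-flatly -/
structure SF (al ga : ℝ → ℝ) (X₁ : ℝ) : Prop where
  cap : ∀ X, X ≤ X₁ → al X = 0 ∧ ga X = 0
  flat : ∃ κ δ : ℝ, κ ≠ 0 ∧ 0 < δ ∧ ∀ X ∈ Ioo X₁ (X₁ + δ), al X = κ * bfl (X - X₁) ∧ ga X = 0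

/-- the pointwise form of a linear relation `Σ x_i dλ_i = 0` between eigenvalue differentials -/
def Rel (d : ℕ) {ι : Type} [Fintype ι] (j m : ι → ℕ) (x : ι → ℝ) (al ga : ℝ → ℝ)
    (R P : ι → ℝ → ℝ) (I : Set ℝ) : Prop :=
  ∀ X ∈ I,
    Real.exp (2 * al X) * ∑ i, x i * (4 * X * (1 - X) * P i X ^ 2) =
      Real.exp (2 * bet d (al X) (ga X)) * (∑ i, x i * ((m i : ℝ) ^ 2 * R i X ^ 2)) / X ∧
    Real.exp (2 * ga X) * (∑ i, x i * (Jd d (j i) * R i X ^ 2)) / (1 - X) =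
      ((d : ℝ) - 1) * (Real.exp (2 * bet d (al X) (ga X)) *
        (∑ i, x i * ((m i : ℝ) ^ 2 * R i X ^ 2)) / X)

/-- hypergeometric coefficients -/
def hcoef (b b' c : ℝ) : ℕ → ℝ
  | 0 => 1
  | k + 1 => hcoef b b' c k * ((b + k) * (b' + k) / ((c + k) * (k + 1)))

/-- the hypergeometric function `₂F₁(b, b'; c; Y)` -/
def hyp (b b' c Y : ℝ) : ℝ := ∑' k, hcoef b b' c k * Y ^ k

/-- the regular solution on the round cap, in the variable `Y = X/(X-1)`, without the factor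
`X^{m/2}` -/
def capG (d j m : ℕ) (ν Y : ℝ) : ℝ :=
  (1 - Y) ^ (((m : ℝ) + ν + d) / 2) *
    hyp (((m : ℝ) + j + ν + d) / 2) (((m : ℝ) - j + ν + 2) / 2) ((m : ℝ) + 1) Y

/-- the regular solution on the round cap -/
def capR (d j m : ℕ) (ν X : ℝ) : ℝ := Real.sqrt X ^ m * capG d j m ν (X / (X - 1))

/-- its derivative -/
def capP (d j m : ℕ) (ν : ℝ) : ℝ → ℝ := deriv (capR d j m ν)

/-- admissible exponent: `λ = ν(ν+d)`, `ν > 0`, `ν > j - m - 2` -/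
structure NuOK (d j m : ℕ) (lam ν : ℝ) : Prop where
  eq : lam = ν * (ν + d)
  pos : 0 < ν
  big : (j : ℝ) - m - 2 < ν

/-- `F` grows like `(1-Y)^{-ρ}` (logarithmically) as `Y → 1⁻` -/
def Expo (F : ℝ → ℝ) (ρ : ℝ) : Prop :=
  (∀ᶠ Y in 𝓝[<] (1 : ℝ), F Y ≠ 0) ∧
    Tendsto (fun Y => Real.log |F Y| / (-Real.log (1 - Y))) (𝓝[<] 1) (𝓝 ρ)

end Crest.Agent.R202
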