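import Crest.Agent.R202.CDefs
import Crest.Agent.R202.EDefs
import Crest.Agent.R202.ASpec
import Crest.Agent.R230.Sphere

/-!
# Row 202: states, reduced Galerkin spaces, sectors

`n = d + 2`, `x = (z, y) ∈ ℝ² × ℝ^d`, `X = |z|²`.  A state is a pair `(α, γ)` of functions of `z`,
`β = -α - (d-1) γ`.  A polynomial `π` in `z` stands for the function `Y(y) π(z)` on the sphere, `Y` any
normalised harmonic polynomial of degree `j` on `ℝ^d`; `RP d j` is the space of such `π` with the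
inner product `∫ (1-X)^j π π'`, and `QG d j G` is the Dirichlet form of the state `G`:
`∫ e^{2α} D_s + e^{2β} D_θ + e^{2γ} D_ω` with the (averaged) densities `ψ_s²`, `ψ_θ²/sin² s`,
`|∇_ω ψ|²/cos² s`.
-/

set_option autoImplicit false
open scoped ContDiff RealInnerProductSpace Topology
open MeasureTheory Set Filter Module
open Crest.Agent.R230 (E MP sph ev Harm)

noncomputable section
namespace Crest.Agent.R202

/-- the index of a `z`-coordinate -/
def zI (d : ℕ) (i : Fin 2) : Fin (d + 2) := Fin.castLE (by omega) i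

/-- the index of a `y`-coordinate -/
def yI (d : ℕ) (a : Fin d) : Fin (d + 2) := a.succ.succ

def zOf {d : ℕ} (x : E (d + 2)) : E 2 := WithLp.toLp 2 fun i => x (zI d i)

def yOf {d : ℕ} (x : E (d + 2)) : E d := WithLp.toLp 2 fun a => x (yI d a)

/-- `X = |z|²` -/
def XX (z : E 2) : ℝ := z 0 ^ 2 + z 1 ^ 2

/-- the reflection `x₂ ↦ -x₂` -/
def rf2 (z : E 2) : E 2 := WithLp.toLp 2 ![z 0, -z 1]

/-- integral over the sphere of a function of `X` -/
def mS (d : ℕ) (f : ℝ → ℝ) : ℝ := ∫ p, f (XX (zOf p)) ∂sph (d + 2)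

/-- states `(α, γ)` -/
abbrev St : Type := (E 2 → ℝ) × (E 2 → ℝ)

/-- profiles of rotationally symmetric states (functions of `X`) -/
abbrev RSt : Type := (ℝ → ℝ) × (ℝ → ℝ)

/-- the state with given profiles -/
def toSt (g : RSt) : St := (fun z => g.1 (XX z), fun z => g.2 (XX z))

/-- upper end of the support of the states -/
def xhi (d : ℕ) : ℝ := if d = 1 then 2 else 9 / 10

/-- admissible states (and directions) -/
structure Adm (d : ℕ) (G : St) : Prop where
  s1 : ContDiff ℝ ∞ G.1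
  s2 : ContDiff ℝ ∞ G.2
  e1 : ∀ z, G.1 (rf2 z) = G.1 z
  e2 : ∀ z, G.2 (rf2 z) = G.2 z
  supp : ∀ z, XX z ∉ Icc (1 / 16 : ℝ) (xhi d) → G.1 z = 0 ∧ G.2 z = 0

/-- admissible profiles -/
structure RAdm (d : ℕ) (g : RSt) : Prop where
  s1 : ContDiff ℝ ∞ g.1
  s2 : ContDiff ℝ ∞ g.2
  supp : ∀ X, X ∉ Icc (1 / 16 : ℝ) (xhi d) → g.1 X = 0 ∧ g.2 X = 0

/-- `C²` size -/
def Sz (f : E 2 → ℝ) (ε : ℝ) : Prop := ∀ i : ℕ, i ≤ 2 → ∀ z, ‖iteratedFDeriv ℝ i f z‖ ≤ ε

/-- small admissible states (an open convex condition) -/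
structure Small (d : ℕ) (ε γ₀ : ℝ) (G : St) : Prop where
  adm : Adm d G
  sz : ∃ ε' γ', ε' < ε ∧ γ' < γ₀ ∧ Sz G.1 ε' ∧ Sz G.2 γ'

/-- the universal smallness under which all forms are comparable within a factor `2` -/
def epsU (d : ℕ) : ℝ := 1 / (1000 * ((d : ℝ) + 1))

/-- combination of finitely many states -/
def comb {V : Type} [Fintype V] (F : V → St) (a : V → ℝ) : St := ∑ v, a v • F v

/-- the coefficients of the Dirichlet form on the sphere in terms of the rotation fields -/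
def cf (d : ℕ) (G : St) (i k : Fin (d + 2)) (p : E (d + 2)) : ℝ :=
  Real.exp (2 * G.1 (zOf p)) +
    if (i : ℕ) + k = 1 then
      (Real.exp (2 * bet d (G.1 (zOf p)) (G.2 (zOf p))) - Real.exp (2 * G.1 (zOf p))) / XX (zOf p)
    else if 2 ≤ (i : ℕ) ∧ 2 ≤ (k : ℕ) ∧ i ≠ k then
      (Real.exp (2 * G.2 (zOf p)) - Real.exp (2 * G.1 (zOf p))) / (1 - XX (zOf p))
    else 0

/-- the coefficients of a time-dependent state on `ℝⁿ \ 0` -/
def cT (d : ℕ) (G : ℝ → St) (i k : Fin (d + 2)) (x : E (d + 2)) : ℝ :=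
  cf d (G (Real.log ‖x‖)) i k (‖x‖⁻¹ • x)

/-- `π ↦ Y(y) π(z)` -/
def iota {d : ℕ} (Y : MP d) : MP 2 →ₗ[ℝ] MP (d + 2) :=
  (LinearMap.mulLeft ℝ (MvPolynomial.rename (yI d) Y)).comp (MvPolynomial.rename (zI d)).toLinearMap

/-- polynomials in `z` with the inner product of the block `j` -/
@[nolint unusedArguments]
def RP (_d _j : ℕ) : Type := MP 2

instance (d j : ℕ) : AddCommGroup (RP d j) := inferInstanceAs (AddCommGroup (MP 2))
instance (d j : ℕ) : Module ℝ (RP d j) := inferInstanceAs (Module ℝ (MP 2))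

/-- the identity `RP d j → MP 2` -/
def toP (d j : ℕ) : RP d j ≃ₗ[ℝ] MP 2 := LinearEquiv.refl ℝ (MP 2)

/-- the inner product of the block `j` -/
def ipR (d j : ℕ) (π π' : MP 2) : ℝ :=
  ∫ p, (1 - XX (zOf p)) ^ j * (ev π (zOf p) * ev π' (zOf p)) ∂sph (d + 2)

theorem continuous_zOf (d : ℕ) : Continuous (zOf : E (d + 2) → E 2) := by
  unfold zOf; fun_prop

theorem continuous_XX : Continuous XX := by
  unfold XX; fun_prop

theorem ipR_cont (d j : ℕ) (π π' : MP 2) : Continuous fun p : E (d + 2) =>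
    (1 - XX (zOf p)) ^ j * (ev π (zOf p) * ev π' (zOf p)) := by
  have h1 := continuous_XX.comp (continuous_zOf d)
  have h2 := (Crest.Agent.R230.continuous_ev π).comp (continuous_zOf d)
  have h3 := (Crest.Agent.R230.continuous_ev π').comp (continuous_zOf d)
  exact ((continuous_const.sub h1).pow j).mul (h2.mul h3)

theorem XX_zOf_le {d : ℕ} (p : E (d + 2)) : XX (zOf p) ≤ ‖p‖ ^ 2 := by
  rw [EuclideanSpace.real_norm_sq_eq, Fin.sum_univ_succ, Fin.sum_univ_succ]
  have : 0 ≤ ∑ i : Fin d, p i.succ.succ ^ 2 := Finset.sum_nonneg fun _ _ => sq_nonneg _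
  have e : XX (zOf p) = p 0 ^ 2 + p (Fin.succ 0) ^ 2 := rfl
  rw [e]; linarith

theorem ipR_ae_nonneg (d j : ℕ) (π : MP 2) : ∀ᵐ p ∂sph (d + 2),
    0 ≤ (1 - XX (zOf p)) ^ j * (ev π (zOf p) * ev π (zOf p)) := by
  filter_upwards [Crest.Agent.R230.ae_norm (n := d + 2)] with p hp
  have := XX_zOf_le p
  rw [hp] at this
  exact mul_nonneg (pow_nonneg (by linarith) j) (mul_self_nonneg _)

theorem ipR_definite (d j : ℕ) [NeZero d] (π : MP 2) (h : ipR d j π π = 0) : π = 0 := by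
  have hc := ipR_cont d j π π
  have h0 := (integral_eq_zero_iff_of_nonneg_ae (ipR_ae_nonneg d j π)
    (Crest.Agent.R230.integrable_of_continuous hc)).1 h
  obtain ⟨e, rfl⟩ : ∃ e, d = e + 1 := ⟨d - 1, by have := NeZero.ne d; omega⟩
  refine MvPolynomial.funext_set (fun _ => Ioo (0 : ℝ) (1 / 2))
    (fun _ => Set.Ioo_infinite (by norm_num)) fun z hz => ?_
  have h1 := hz 0 trivial
  have h2 := hz 1 trivial
  have hX : z 0 ^ 2 + z 1 ^ 2 < 1 := by nlinarith [h1.1, h1.2, h2.1, h2.2]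
  let p : E (e + 1 + 2) := WithLp.toLp 2 (Fin.cons (z 0) (Fin.cons (z 1)
    (Fin.cons (Real.sqrt (1 - (z 0 ^ 2 + z 1 ^ 2))) fun _ => 0)))
  have hp : ‖p‖ = 1 := by
    have : ‖p‖ ^ 2 = 1 := by
      rw [EuclideanSpace.real_norm_sq_eq, Fin.sum_univ_succ, Fin.sum_univ_succ, Fin.sum_univ_succ]
      simp only [p, Fin.cons_zero, Fin.cons_succ, Real.sq_sqrt (sub_nonneg.2 hX.le)]
      simp only [ne_eq, OfNat.ofNat_ne_zero, not_false_eq_true, zero_pow, Finset.sum_const_zero]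
      ring
    nlinarith [norm_nonneg p]
  have h3 := Crest.Agent.R230.eq_on_sphere hc.continuousOn h0 hp
  have hz' : (fun i => zOf p i) = z := by
    funext i; fin_cases i <;> rfl
  have hXX : XX (zOf p) = z 0 ^ 2 + z 1 ^ 2 := rfl
  rw [hXX] at h3
  have h4 : ev π (zOf p) = MvPolynomial.eval z π := by unfold ev; rw [hz']
  rw [h4] at h3
  rcases mul_eq_zero.1 h3 with h5 | h5
  · exact absurd h5 (pow_ne_zero _ (by linarith))
  · simpa using h5

instance RP.core (d j : ℕ) [NeZero d] : InnerProductSpace.Core ℝ (RP d j) where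
  inner π π' := ipR d j π π'
  conj_inner_symm π π' := by
    simp only [conj_trivial, ipR, mul_comm (ev (show MP 2 from π) _)]
  re_inner_nonneg π := integral_nonneg_of_ae (ipR_ae_nonneg d j π)
  add_left π π' ρ := by
    have e : ∀ z, ev (show MP 2 from π + π') z = ev (show MP 2 from π) z + ev (show MP 2 from π') z :=
      fun z => Crest.Agent.R230.ev_add _ _ z
    simp only [ipR, e, add_mul, mul_add]
    exact integral_add (Crest.Agent.R230.integrable_of_continuous (ipR_cont d j π ρ))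
      (Crest.Agent.R230.integrable_of_continuous (ipR_cont d j π' ρ))
  smul_left π π' r := by
    have e : ∀ z, ev (show MP 2 from r • π) z = r * ev (show MP 2 from π) z :=
      fun z => Crest.Agent.R230.ev_smul _ _ z
    simp only [ipR, e, conj_trivial, ← integral_const_mul]
    congr 1; funext p; ring
  definite π h := ipR_definite d j π h

instance (d j : ℕ) [NeZero d] : NormedAddCommGroup (RP d j) :=
  InnerProductSpace.Core.toNormedAddCommGroup (𝕜 := ℝ)

instance (d j : ℕ) [NeZero d] : InnerProductSpace ℝ (RP d j) :=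
  InnerProductSpace.ofCore (RP.core d j).toCore

theorem inner_RP {d j : ℕ} [NeZero d] (π π' : RP d j) :
    ⟪π, π'⟫ = ipR d j (toP d j π) (toP d j π') := rfl

/-- `z·∇ π` -/
def Ez (π : MP 2) : MP 2 :=
  MvPolynomial.X 0 * MvPolynomial.pderiv 0 π + MvPolynomial.X 1 * MvPolynomial.pderiv 1 π

/-- `sin s cos s ∂_s (Y π) / Y` -/
def Nz (j : ℕ) (π : MP 2) (z : E 2) : ℝ := (1 - XX z) * ev (Ez π) z - j * XX z * ev π z

/-- density of `ψ_s ψ'_s` -/
def Ds (j : ℕ) (π π' : MP 2) (z : E 2) : ℝ :=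
  (1 - XX z) ^ j * (Nz j π z * Nz j π' z) / (XX z * (1 - XX z))

/-- density of `ψ_θ ψ'_θ / sin² s` -/
def Dt (j : ℕ) (π π' : MP 2) (z : E 2) : ℝ :=
  (1 - XX z) ^ j * (ev (Lp 0 1 π) z * ev (Lp 0 1 π') z) / XX z

/-- density of `∇_ω ψ · ∇_ω ψ' / cos² s` -/
def Dw (d j : ℕ) (π π' : MP 2) (z : E 2) : ℝ :=
  Jd d j * (1 - XX z) ^ j * (ev π z * ev π' z) / (1 - XX z)

/-- the weighted Dirichlet integral -/
def qf (d j : ℕ) (A B C : E 2 → ℝ) (π π' : MP 2) : ℝ :=
  ∫ p, (A (zOf p) * Ds j π π' (zOf p) + B (zOf p) * Dt j π π' (zOf p) +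
    C (zOf p) * Dw d j π π' (zOf p)) ∂sph (d + 2)

/-- the monomial basis of `RP d j` -/
def mb (d j : ℕ) : Basis (Fin 2 →₀ ℕ) ℝ (RP d j) :=
  (MvPolynomial.basisMonomials (Fin 2) ℝ).map (toP d j).symm

/-- the weighted Dirichlet integral as a bilinear form (equal to `qf` for continuous weights,
see `QF_apply`) -/
def QF (d j : ℕ) (A B C : E 2 → ℝ) : RP d j →ₗ[ℝ] RP d j →ₗ[ℝ] ℝ :=
  (mb d j).constr ℝ fun a => (mb d j).constr ℝ fun b =>
    qf d j A B C (MvPolynomial.monomial a 1) (MvPolynomial.monomial b 1)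

theorem qf_comm (d j : ℕ) (A B C : E 2 → ℝ) (π π' : MP 2) :
    qf d j A B C π π' = qf d j A B C π' π := by
  simp only [qf, Ds, Dt, Dw, mul_comm (Nz j π _), mul_comm (ev (Lp 0 1 π) _), mul_comm (ev π _)]

theorem QF_sym (d j : ℕ) [NeZero d] (A B C : E 2 → ℝ) : SymF (QF d j A B C) := by
  have : (QF d j A B C).flip = QF d j A B C := by
    refine (mb d j).ext fun a => (mb d j).ext fun b => ?_
    simp only [QF, LinearMap.flip_apply, Basis.constr_basis]
    exact qf_comm _ _ _ _ _ _ _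
  intro u w
  rw [← LinearMap.flip_apply, this]

/-- the Dirichlet form of the state `G` -/
def QG (d j : ℕ) (G : St) : RP d j →ₗ[ℝ] RP d j →ₗ[ℝ] ℝ :=
  QF d j (fun z => Real.exp (2 * G.1 z)) (fun z => Real.exp (2 * bet d (G.1 z) (G.2 z)))
    (fun z => Real.exp (2 * G.2 z))

/-- its derivative in the direction `F` -/
def QD (d j : ℕ) (G F : St) : RP d j →ₗ[ℝ] RP d j →ₗ[ℝ] ℝ :=
  QF d j (fun z => 2 * F.1 z * Real.exp (2 * G.1 z))
    (fun z => 2 * bet d (F.1 z) (F.2 z) * Real.exp (2 * bet d (G.1 z) (G.2 z)))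
    (fun z => 2 * F.2 z * Real.exp (2 * G.2 z))

/-- the sign of a parity -/
def sgn (s : Bool) : ℝ := if s then 1 else -1

/-- `π(x₁, x₂) ↦ π(x₁, -x₂)` -/
def rfP : MP 2 →ₗ[ℝ] MP 2 :=
  (MvPolynomial.aeval ![MvPolynomial.X 0, -MvPolynomial.X 1] : MP 2 →ₐ[ℝ] MP 2).toLinearMap

/-- the Galerkin space of the super-sector `(j, s)`: degree `≤ M`, parity `s`, mean zero -/
def WS (d j : ℕ) [NeZero d] (s : Bool) (M : ℕ) : Submodule ℝ (RP d j) :=
  ((MvPolynomial.restrictTotalDegree (Fin 2) ℝ M ⊓ Module.End.eigenspace rfP (sgn s)).comap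
      (toP d j).toLinearMap) ⊓
    (if j = 0 then (Submodule.span ℝ {(toP d j).symm 1})ᗮ else ⊤)

instance (d j : ℕ) [NeZero d] (s : Bool) (M : ℕ) : FiniteDimensional ℝ (WS d j s M) := by
  have h : FiniteDimensional ℝ
      ((MvPolynomial.restrictTotalDegree (Fin 2) ℝ M).comap (toP d j).toLinearMap) :=
    inferInstanceAs (FiniteDimensional ℝ (MvPolynomial.restrictTotalDegree (Fin 2) ℝ M))
  exact Submodule.finiteDimensional_of_le
    (S₂ := (MvPolynomial.restrictTotalDegree (Fin 2) ℝ M).comap (toP d j).toLinearMap)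
    (inf_le_left.trans (Submodule.comap_mono inf_le_left))

/-- `(Re z^m, Im z^m)` -/
def Hpair : ℕ → MP 2 × MP 2
  | 0 => (1, 0)
  | m + 1 => (MvPolynomial.X 0 * (Hpair m).1 - MvPolynomial.X 1 * (Hpair m).2,
      MvPolynomial.X 0 * (Hpair m).2 + MvPolynomial.X 1 * (Hpair m).1)

/-- `Re z^m` (parity `true`) and `Im z^m` (parity `false`) -/
def Hp (s : Bool) (m : ℕ) : MP 2 := if s then (Hpair m).1 else (Hpair m).2

/-- `p ↦ H_m(z) p(|z|²)` -/
def secMap (d j : ℕ) (s : Bool) (m : ℕ) : Polynomial ℝ →ₗ[ℝ] RP d j :=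
  (toP d j).symm.toLinearMap.comp ((LinearMap.mulLeft ℝ (Hp s m)).comp
    (Polynomial.aeval (MvPolynomial.X 0 ^ 2 + MvPolynomial.X 1 ^ 2 : MP 2)).toLinearMap)

/-- the sector `(j, s, m)` -/
def Sec (d j : ℕ) [NeZero d] (s : Bool) (m M : ℕ) : Submodule ℝ (RP d j) :=
  WS d j s M ⊓ LinearMap.range (secMap d j s m)

instance (d j : ℕ) [NeZero d] (s : Bool) (m M : ℕ) : FiniteDimensional ℝ (Sec d j s m M) :=
  Submodule.finiteDimensional_of_le (S₂ := WS d j s M) inf_le_left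

/-- the sector `(s, m)` is not trivial -/
def okS (s : Bool) (m : ℕ) : Prop := s = true ∨ 1 ≤ m

instance (s : Bool) (m : ℕ) : Decidable (okS s m) := inferInstanceAs (Decidable (_ ∨ _))

/-- harmonic polynomials of degree `j` in `d` variables exist -/
def okJ (d j : ℕ) : Prop := d = 1 → j ≤ 1

/-- the degree of the spherical harmonic with label `(j, m, k)` (`x = (m, k)`) -/
def ldeg (j : ℕ) (x : ℕ × ℕ) : ℕ := j + x.1 + 2 * x.2 + if j = 0 ∧ x.1 = 0 then 2 else 0

/-- Galerkin eigenvalue of the label `(j, m, k)` -/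
def lamM (d : ℕ) [NeZero d] (G : St) (j : ℕ) (x : ℕ × ℕ) (M : ℕ) : ℝ :=
  lamk (QG d j G) (Sec d j true x.1 M) x.2

/-- eigenvalue of the label `(j, m, k)` -/
def lamI (d : ℕ) [NeZero d] (G : St) (j : ℕ) (x : ℕ × ℕ) : ℝ :=
  ⨅ M : ℕ, lamM d G j x (M + x.1 + 2 * x.2 + 2)

/-- a chosen orthonormal eigenbasis of the sector -/
def psi (d : ℕ) [NeZero d] (G : St) (j : ℕ) (s : Bool) (x : ℕ × ℕ) (M : ℕ) : RP d j :=
  if h : x.2 < finrank ℝ (Sec d j s x.1 M) then
    (exists_eigen (S := Sec d j s x.1 M) (Q := QG d j G) (QF_sym d j _ _ _)).choose ⟨x.2, h⟩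
  else 0

theorem psi_mem_Sec (d : ℕ) [NeZero d] (G : St) (j : ℕ) (s : Bool) (x : ℕ × ℕ) (M : ℕ) :
    psi d G j s x M ∈ Sec d j s x.1 M := by
  unfold psi
  split_ifs with h
  · exact ((exists_eigen (S := Sec d j s x.1 M) (Q := QG d j G)
      (QF_sym d j _ _ _)).choose_spec.2.2 ⟨x.2, h⟩).1
  · exact Submodule.zero_mem _

/-- the eigenvector as an element of the Galerkin space -/
def psiW (d : ℕ) [NeZero d] (G : St) (j : ℕ) (s : Bool) (M : ℕ) (x : ℕ × ℕ) : WS d j s M :=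
  ⟨psi d G j s x M, (psi_mem_Sec d G j s x M).1⟩

/-- the operator on a finite-dimensional subspace that represents a form -/
def Kop {X : Type} [NormedAddCommGroup X] [InnerProductSpace ℝ X] (Q : X →ₗ[ℝ] X →ₗ[ℝ] ℝ)
    (S : Submodule ℝ X) [FiniteDimensional ℝ S] : S →L[ℝ] S :=
  ∑ a, ∑ b, Q (stdOrthonormalBasis ℝ S a) (stdOrthonormalBasis ℝ S b) •
    (innerSL ℝ (stdOrthonormalBasis ℝ S a)).smulRight (stdOrthonormalBasis ℝ S b)

/-- the operator `Λ_G + q` on the Galerkin space -/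
def KG (d j : ℕ) [NeZero d] (s : Bool) (M : ℕ) (G : St) (q : ℝ) : WS d j s M →L[ℝ] WS d j s M :=
  Kop (QG d j G) (WS d j s M) + q • ContinuousLinearMap.id ℝ (WS d j s M)

/-- radial function of the sector element `secMap p` -/
def RM (j m : ℕ) (p : Polynomial ℝ) (X : ℝ) : ℝ :=
  Real.sqrt X ^ m * Real.sqrt (1 - X) ^ j * p.eval X

/-- its `s`-derivative -/
def SM (j m : ℕ) (p : Polynomial ℝ) (X : ℝ) : ℝ :=
  Real.sqrt X ^ m * Real.sqrt (1 - X) ^ j *
    ((1 - X) * (m * p.eval X + 2 * X * p.derivative.eval X) - j * X * p.eval X) /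
      Real.sqrt (X * (1 - X))

/-- mean of `cos (r θ) cos (a θ)` -/
def eav (r a : ℕ) : ℝ := if r = a then (if r = 0 then 1 else 1 / 2) else 0

/-- mean of the square of the angular factor -/
def cm (s : Bool) (m : ℕ) : ℝ := (1 + sgn s * eav 0 (m + m)) / 2

/-- the fixed ultrafilter of Galerkin levels -/
def UU : Filter ℕ := (Filter.hyperfilter ℕ : Filter ℕ)

end Crest.Agent.R202
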