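import Crest.Agent.R202.BDefs

/-!
# Row 202, B1 (auxiliary file): the densities are bounded; `qf` is bilinear; smooth parametric integrals
-/

set_option autoImplicit false
open scoped ContDiff RealInnerProductSpace Topology
open MeasureTheory Set Filter Module
open Crest.Agent.R230 (E MP sph ev Harm)

noncomputable section
namespace Crest.Agent.R202

/-- smoothness of `a ↦ ∫ h exp (L a)` -/
theorem BF_hasFDerivAt {α P : Type} [MeasurableSpace α] {μ : Measure α} [NormedAddCommGroup P]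
    [NormedSpace ℝ P] [FiniteDimensional ℝ P] {L : α → P →L[ℝ] ℝ} (hL : AEStronglyMeasurable L μ)
    {C : ℝ} (hC : ∀ᵐ p ∂μ, ‖L p‖ ≤ C) {h : α → ℝ} (hh : Integrable h μ) (a : P) :
    Integrable (fun p => (h p * Real.exp (L p a)) • L p) μ ∧
    HasFDerivAt (fun a => ∫ p, h p * Real.exp (L p a) ∂μ)
      (∫ p, (h p * Real.exp (L p a)) • L p ∂μ) a := by
  have hm : ∀ b : P, AEStronglyMeasurable (fun p => h p * Real.exp (L p b)) μ := fun b =>
    hh.1.mul (Real.continuous_exp.comp_aestronglyMeasurable (hL.apply_continuousLinearMap b))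
  have hb : ∀ᵐ p ∂μ, ∀ b ∈ Metric.ball a 1,
      ‖h p * Real.exp (L p b)‖ ≤ ‖h p‖ * Real.exp (|C| * (‖a‖ + 1)) := by
    filter_upwards [hC] with p hp b hb
    rw [norm_mul, Real.norm_of_nonneg (Real.exp_pos _).le]
    refine mul_le_mul_of_nonneg_left (Real.exp_le_exp.2 ?_) (norm_nonneg _)
    have h1 : ‖b‖ ≤ ‖a‖ + 1 := by
      have := norm_le_norm_add_norm_sub' b a
      rw [mem_ball_iff_norm] at hb
      linarith
    calc L p b ≤ ‖L p b‖ := le_abs_self _
      _ ≤ ‖L p‖ * ‖b‖ := (L p).le_opNorm b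
      _ ≤ |C| * (‖a‖ + 1) :=
        mul_le_mul (hp.trans (le_abs_self C)) h1 (norm_nonneg _) (abs_nonneg _)
  have hb' : ∀ᵐ p ∂μ, ∀ b ∈ Metric.ball a 1,
      ‖(h p * Real.exp (L p b)) • L p‖ ≤ ‖h p‖ * Real.exp (|C| * (‖a‖ + 1)) * C := by
    filter_upwards [hC, hb] with p hp hq b hb
    rw [norm_smul]
    exact mul_le_mul (hq b hb) hp (norm_nonneg _) (by positivity)
  have hi : Integrable (fun p => ‖h p‖ * Real.exp (|C| * (‖a‖ + 1))) μ := hh.norm.mul_const _
  refine ⟨(hi.mul_const C).mono' ((hm a).smul hL)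
    (hb'.mono fun p hp => hp a (Metric.mem_ball_self one_pos)), ?_⟩
  refine hasFDerivAt_integral_of_dominated_of_fderiv_le
    (F' := fun b p => (h p * Real.exp (L p b)) • L p) (Metric.ball_mem_nhds a one_pos)
    (Eventually.of_forall hm)
    (hi.mono' (hm a) (hb.mono fun p hp => hp a (Metric.mem_ball_self one_pos)))
    ((hm a).smul hL) hb' (hi.mul_const C) (Eventually.of_forall fun p b _ => ?_)
  have := ((L p).hasFDerivAt (x := b)).exp.const_mul (h p)
  rwa [smul_smul] at this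

theorem BF_contDiff {α P : Type} [MeasurableSpace α] {μ : Measure α} [NormedAddCommGroup P]
    [NormedSpace ℝ P] [FiniteDimensional ℝ P] {L : α → P →L[ℝ] ℝ} (hL : AEStronglyMeasurable L μ)
    {C : ℝ} (hC : ∀ᵐ p ∂μ, ‖L p‖ ≤ C) {h : α → ℝ} (hh : Integrable h μ) :
    ContDiff ℝ ∞ fun a => ∫ p, h p * Real.exp (L p a) ∂μ := by
  rw [contDiff_infty]
  intro n
  induction n generalizing h with
  | zero =>
    exact contDiff_zero.2 (continuous_iff_continuousAt.2 fun a =>
      (BF_hasFDerivAt hL hC hh a).2.continuousAt)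
  | succ n ih =>
    rw [Nat.cast_succ, contDiff_succ_iff_fderiv_apply]
    refine ⟨fun a => (BF_hasFDerivAt hL hC hh a).2.differentiableAt, by simp, fun y => ?_⟩
    have hy : Integrable (fun p => h p * L p y) μ :=
      hh.mul_bdd (c := C * ‖y‖) (hL.apply_continuousLinearMap y) (hC.mono fun p hp =>
        ((L p).le_opNorm y).trans (mul_le_mul_of_nonneg_right hp (norm_nonneg _)))
    convert ih hy using 2 with a
    rw [(BF_hasFDerivAt hL hC hh a).2.fderiv,
      ContinuousLinearMap.integral_apply (BF_hasFDerivAt hL hC hh a).1]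
    congr 1
    funext p
    simp only [smul_apply, smul_eq_mul]
    ring

variable {d j : ℕ}

theorem BF_XX_nonneg (z : E 2) : 0 ≤ XX z := by unfold XX; positivity

/-- almost every point of the sphere has `0 < X < 1` -/
theorem BF_ae_XX (d : ℕ) [NeZero d] : ∀ᵐ p ∂sph (d + 2), 0 < XX (zOf p) ∧ XX (zOf p) < 1 := by
  obtain ⟨e, rfl⟩ : ∃ e, d = e + 1 := ⟨d - 1, by have := NeZero.ne d; omega⟩
  have h1 : ∀ i : Fin (e + 1 + 2), ∀ᵐ p ∂sph (e + 1 + 2), p i ≠ 0 := fun i => by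
    have h : (EuclideanSpace.single i (1 : ℝ) : E (e + 1 + 2)) ≠ 0 := by simp
    filter_upwards [Crest.Agent.R230.ae_inner_ne h] with p hp
    simpa [EuclideanSpace.inner_single_right] using hp
  filter_upwards [Crest.Agent.R230.ae_norm (n := e + 1 + 2), h1 0, h1 (Fin.succ (Fin.succ 0))]
    with p hp h0 h2
  have e1 : XX (zOf p) = p 0 ^ 2 + p (Fin.succ 0) ^ 2 := rfl
  have e2 : ‖p‖ ^ 2 = 1 := by rw [hp]; norm_num
  rw [EuclideanSpace.real_norm_sq_eq, Fin.sum_univ_succ, Fin.sum_univ_succ, Fin.sum_univ_succ] at e2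
  have : 0 ≤ ∑ i : Fin e, p i.succ.succ.succ ^ 2 := Finset.sum_nonneg fun _ _ => sq_nonneg _
  have h3 := sq_pos_of_ne_zero h0
  have h4 := sq_pos_of_ne_zero h2
  have h5 := sq_nonneg (p (Fin.succ 0))
  rw [e1]
  constructor <;> linarith

theorem BF_memLp {f : E 2 → ℝ} (hf : Continuous f) :
    MemLp (fun p : E (d + 2) => f (zOf p)) ⊤ (sph (d + 2)) :=
  Crest.Agent.R230.memLp_of_continuous (hf.comp (continuous_zOf d)) ⊤

theorem BF_memLp_mul {f g : E (d + 2) → ℝ} (hf : MemLp f ⊤ (sph (d + 2)))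
    (hg : MemLp g ⊤ (sph (d + 2))) : MemLp (fun p => f p * g p) ⊤ (sph (d + 2)) :=
  MemLp.mul' hg hf

theorem BF_memLp_dir (i : Fin 2) :
    MemLp (fun p : E (d + 2) => zOf p i / Real.sqrt (XX (zOf p))) ⊤ (sph (d + 2)) := by
  have h1 : Continuous fun p : E (d + 2) => zOf p i := by
    have := continuous_zOf d
    fun_prop
  have h2 : Continuous fun p : E (d + 2) => Real.sqrt (XX (zOf p)) :=
    (continuous_XX.comp (continuous_zOf d)).sqrt
  refine Crest.Agent.R230.memLp_of_bdd (h1.measurable.div h2.measurable).aestronglyMeasurable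
    (C := 1) (Eventually.of_forall fun p => ?_) ⊤
  rw [Pi.div_apply, norm_div, Real.norm_of_nonneg (Real.sqrt_nonneg _)]
  refine div_le_one_of_le₀ (Real.abs_le_sqrt ?_) (Real.sqrt_nonneg _)
  unfold XX
  fin_cases i
  · exact le_add_of_nonneg_right (sq_nonneg _)
  · exact le_add_of_nonneg_left (sq_nonneg _)

theorem BF_memLp_quot {f₀ f₁ g₀ g₁ : E 2 → ℝ} (h₀ : Continuous f₀) (h₁ : Continuous f₁)
    (k₀ : Continuous g₀) (k₁ : Continuous g₁) :
    MemLp (fun p : E (d + 2) => (zOf p 0 * f₀ (zOf p) + zOf p 1 * f₁ (zOf p)) *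
      (zOf p 0 * g₀ (zOf p) + zOf p 1 * g₁ (zOf p)) / XX (zOf p)) ⊤ (sph (d + 2)) := by
  have h := BF_memLp_mul (d := d)
    ((BF_memLp_mul (BF_memLp_dir 0) (BF_memLp h₀)).add (BF_memLp_mul (BF_memLp_dir 1) (BF_memLp h₁)))
    ((BF_memLp_mul (BF_memLp_dir 0) (BF_memLp k₀)).add (BF_memLp_mul (BF_memLp_dir 1) (BF_memLp k₁)))
  convert h using 2 with p
  simp only [Pi.add_apply]
  conv_lhs => rw [← Real.mul_self_sqrt (BF_XX_nonneg (zOf p)), ← div_mul_div_comm]
  congr 1 <;> ring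

theorem BF_ev_Ez (π : MP 2) (z : E 2) : ev (Ez π) z =
    z 0 * ev (MvPolynomial.pderiv 0 π) z + z 1 * ev (MvPolynomial.pderiv 1 π) z := by
  simp [Ez]

theorem BF_ev_Lp01 (π : MP 2) (z : E 2) : ev (Lp 0 1 π) z =
    z 0 * ev (MvPolynomial.pderiv 1 π) z - z 1 * ev (MvPolynomial.pderiv 0 π) z := by
  simp [Lp]

theorem BF_memLp_Ds (d j : ℕ) [NeZero d] (π π' : MP 2) :
    MemLp (fun p : E (d + 2) => Ds j π π' (zOf p)) ⊤ (sph (d + 2)) := by
  have hX := continuous_XX
  have he := fun π : MP 2 => Crest.Agent.R230.continuous_ev π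
  rcases j with _ | k
  · have h := BF_memLp_mul (d := d) (BF_memLp (f := fun z => 1 - XX z) (by fun_prop))
      (BF_memLp_quot (he (MvPolynomial.pderiv 0 π)) (he (MvPolynomial.pderiv 1 π))
        (he (MvPolynomial.pderiv 0 π')) (he (MvPolynomial.pderiv 1 π')))
    refine h.ae_eq ?_
    filter_upwards [BF_ae_XX d] with p hp
    have h1 := hp.1.ne'
    have h2 := (sub_pos.2 hp.2).ne'
    simp only [Ds, Nz, BF_ev_Ez]
    field_simp
    push_cast
    ring
  · have hc : ∀ (π : MP 2) (i : Fin 2), Continuous fun z : E 2 =>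
        (1 - XX z) * ev (MvPolynomial.pderiv i π) z - ((k + 1 : ℕ) : ℝ) * z i * ev π z := by
      intro π i
      have h1 := he (MvPolynomial.pderiv i π)
      have h2 := he π
      fun_prop
    have h := BF_memLp_mul (d := d) (BF_memLp (f := fun z => (1 - XX z) ^ k) (by fun_prop))
      (BF_memLp_quot (hc π 0) (hc π 1) (hc π' 0) (hc π' 1))
    refine h.ae_eq ?_
    filter_upwards [BF_ae_XX d] with p hp
    have h1 := hp.1.ne'
    have h2 := (sub_pos.2 hp.2).ne'
    have hN : ∀ (π : MP 2) (z : E 2), Nz (k + 1) π z =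
        z 0 * ((1 - XX z) * ev (MvPolynomial.pderiv 0 π) z - ((k + 1 : ℕ) : ℝ) * z 0 * ev π z) +
        z 1 * ((1 - XX z) * ev (MvPolynomial.pderiv 1 π) z - ((k + 1 : ℕ) : ℝ) * z 1 * ev π z) := by
      intro π z
      simp only [Nz, BF_ev_Ez, XX]
      ring
    simp only [Ds, ← hN]
    field_simp
    ring

theorem BF_memLp_Dt (d j : ℕ) (π π' : MP 2) :
    MemLp (fun p : E (d + 2) => Dt j π π' (zOf p)) ⊤ (sph (d + 2)) := by
  have hX := continuous_XX
  have he := fun π : MP 2 => Crest.Agent.R230.continuous_ev π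
  have h := BF_memLp_mul (d := d) (BF_memLp (f := fun z => (1 - XX z) ^ j) (by fun_prop))
    (BF_memLp_quot (he (MvPolynomial.pderiv 1 π)) (he (MvPolynomial.pderiv 0 π)).neg
      (he (MvPolynomial.pderiv 1 π')) (he (MvPolynomial.pderiv 0 π')).neg)
  convert h using 2 with p
  simp only [Dt, BF_ev_Lp01, Pi.neg_apply]
  ring

theorem BF_memLp_Dw (d j : ℕ) [NeZero d] (π π' : MP 2) :
    MemLp (fun p : E (d + 2) => Dw d j π π' (zOf p)) ⊤ (sph (d + 2)) := by
  have hX := continuous_XX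
  have h1 := Crest.Agent.R230.continuous_ev π
  have h2 := Crest.Agent.R230.continuous_ev π'
  rcases j with _ | k
  · simp only [Dw, Jd, Nat.cast_zero, zero_mul, zero_div]
    exact memLp_top_const 0
  · refine (BF_memLp (d := d) (f := fun z => Jd d (k + 1) * (1 - XX z) ^ k * (ev π z * ev π' z))
      (by fun_prop)).ae_eq ?_
    filter_upwards [BF_ae_XX d] with p hp
    have h2 := (sub_pos.2 hp.2).ne'
    simp only [Dw]
    field_simp
    ring

theorem BF_integrable_mul_Ds (d j : ℕ) [NeZero d] {A : E 2 → ℝ} (hA : Continuous A) (π π' : MP 2) :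
    Integrable (fun p : E (d + 2) => A (zOf p) * Ds j π π' (zOf p)) (sph (d + 2)) :=
  (BF_memLp_mul (BF_memLp hA) (BF_memLp_Ds d j π π')).integrable le_top

theorem BF_integrable_mul_Dt (d j : ℕ) {A : E 2 → ℝ} (hA : Continuous A) (π π' : MP 2) :
    Integrable (fun p : E (d + 2) => A (zOf p) * Dt j π π' (zOf p)) (sph (d + 2)) :=
  (BF_memLp_mul (BF_memLp hA) (BF_memLp_Dt d j π π')).integrable le_top

theorem BF_integrable_mul_Dw (d j : ℕ) [NeZero d] {A : E 2 → ℝ} (hA : Continuous A) (π π' : MP 2) :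
    Integrable (fun p : E (d + 2) => A (zOf p) * Dw d j π π' (zOf p)) (sph (d + 2)) :=
  (BF_memLp_mul (BF_memLp hA) (BF_memLp_Dw d j π π')).integrable le_top

/-- the integrand of `qf` is integrable for continuous weights -/
theorem BF_integrable_qf (d j : ℕ) [NeZero d] {A B C : E 2 → ℝ} (hA : Continuous A)
    (hB : Continuous B) (hC : Continuous C) (π π' : MP 2) :
    Integrable (fun p : E (d + 2) => A (zOf p) * Ds j π π' (zOf p) + B (zOf p) * Dt j π π' (zOf p) +
      C (zOf p) * Dw d j π π' (zOf p)) (sph (d + 2)) :=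
  ((BF_integrable_mul_Ds d j hA π π').add (BF_integrable_mul_Dt d j hB π π')).add
    (BF_integrable_mul_Dw d j hC π π')

theorem BF_Nz_add (j : ℕ) (π ρ : MP 2) (z : E 2) : Nz j (π + ρ) z = Nz j π z + Nz j ρ z := by
  simp only [Nz, BF_ev_Ez, map_add, Crest.Agent.R230.ev_add]
  ring

theorem BF_Nz_smul (j : ℕ) (r : ℝ) (π : MP 2) (z : E 2) : Nz j (r • π) z = r * Nz j π z := by
  simp only [Nz, BF_ev_Ez, Derivation.map_smul, Crest.Agent.R230.ev_smul]
  ring

theorem BF_qf_add_left (d j : ℕ) [NeZero d] {A B C : E 2 → ℝ} (hA : Continuous A)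
    (hB : Continuous B) (hC : Continuous C) (π ρ π' : MP 2) :
    qf d j A B C (π + ρ) π' = qf d j A B C π π' + qf d j A B C ρ π' := by
  unfold qf
  rw [← integral_add (BF_integrable_qf d j hA hB hC π π') (BF_integrable_qf d j hA hB hC ρ π')]
  congr 1
  funext p
  simp only [Ds, Dt, Dw, BF_Nz_add, BF_ev_Lp01, map_add, Crest.Agent.R230.ev_add]
  ring

theorem BF_qf_smul_left (d j : ℕ) (A B C : E 2 → ℝ) (r : ℝ) (π π' : MP 2) :
    qf d j A B C (r • π) π' = r * qf d j A B C π π' := by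
  unfold qf
  rw [← integral_const_mul]
  congr 1
  funext p
  simp only [Ds, Dt, Dw, BF_Nz_smul, BF_ev_Lp01, Derivation.map_smul, Crest.Agent.R230.ev_smul]
  ring

theorem BF_Ds_nonneg (j : ℕ) (π : MP 2) {z : E 2} (h : XX z ≤ 1) : 0 ≤ Ds j π π z :=
  div_nonneg (mul_nonneg (pow_nonneg (sub_nonneg.2 h) _) (mul_self_nonneg _))
    (mul_nonneg (BF_XX_nonneg z) (sub_nonneg.2 h))

theorem BF_Dt_nonneg (j : ℕ) (π : MP 2) {z : E 2} (h : XX z ≤ 1) : 0 ≤ Dt j π π z :=
  div_nonneg (mul_nonneg (pow_nonneg (sub_nonneg.2 h) _) (mul_self_nonneg _)) (BF_XX_nonneg z)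

theorem BF_Jd_nonneg (d j : ℕ) [NeZero d] : 0 ≤ Jd d j := by
  have hd : (1 : ℝ) ≤ d := Nat.one_le_cast.2 (Nat.pos_of_ne_zero (NeZero.ne d))
  rcases j with _ | k
  · simp [Jd]
  · have : (0 : ℝ) ≤ k := Nat.cast_nonneg k
    unfold Jd
    push_cast
    exact mul_nonneg (by linarith) (by linarith)

theorem BF_Dw_nonneg (d j : ℕ) [NeZero d] (π : MP 2) {z : E 2} (h : XX z ≤ 1) : 0 ≤ Dw d j π π z :=
  div_nonneg (mul_nonneg (mul_nonneg (BF_Jd_nonneg d j) (pow_nonneg (sub_nonneg.2 h) _))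
    (mul_self_nonneg _)) (sub_nonneg.2 h)

end Crest.Agent.R202
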