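import Crest.Agent.R202.BDefs
import Crest.Agent.R202.ACluster
import Crest.Agent.R202.BFormAux

/-!
# Row 202, B1: the reduced Dirichlet forms

For `0 < X < 1` (a.e. point of the sphere: `z ≠ 0`, `y ≠ 0`, use `R230.ae_inner_ne`) the densities
`Ds j π π, Dt j π π, Dw d j π π` are `≥ 0` and bounded: `|∇π|² X = (Ez π)² + (Lp 0 1 π)²`, so
`ev (Ez π) z ² ≤ C X`, `ev (Lp 0 1 π) z ² ≤ C X`, and `Nz j π z` contains the factor `1 - X` if `j = 0`;
`Jd d j ≥ 0`, `Jd d 0 = 0`.  So everything is integrable for continuous weights and `qf` is bilinear.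
Smoothness in the parameters: the class of functions `a ↦ ∫ h(p) exp(Σ a_v f_v(p))` (`h` bounded
measurable, `f_v` continuous) is closed under `∂/∂a_v`.
-/

set_option autoImplicit false
open scoped ContDiff RealInnerProductSpace Topology
open MeasureTheory Set Filter Module
open Crest.Agent.R230 (E MP sph ev Harm)

noncomputable section
namespace Crest.Agent.R202

variable {d j : ℕ} [NeZero d]

theorem Jd_nonneg (d j : ℕ) [NeZero d] : 0 ≤ Jd d j := BF_Jd_nonneg d j

theorem QF_apply {A B C : E 2 → ℝ} (hA : Continuous A) (hB : Continuous B) (hC : Continuous C)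
    (u w : RP d j) : QF d j A B C u w = qf d j A B C (toP d j u) (toP d j w) := by
  let Q : RP d j →ₗ[ℝ] RP d j →ₗ[ℝ] ℝ := LinearMap.mk₂ ℝ
    (fun u w => qf d j A B C (toP d j u) (toP d j w))
    (fun u u' w => by rw [map_add, BF_qf_add_left d j hA hB hC])
    (fun r u w => by rw [map_smul, BF_qf_smul_left, smul_eq_mul])
    (fun u w w' => by
      rw [map_add, qf_comm, BF_qf_add_left d j hA hB hC, qf_comm _ _ _ _ _ (toP d j w),
        qf_comm _ _ _ _ _ (toP d j w')])
    (fun r u w => by rw [map_smul, qf_comm, BF_qf_smul_left, smul_eq_mul, qf_comm])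
  have : QF d j A B C = Q := by
    refine (mb d j).ext fun a => (mb d j).ext fun b => ?_
    simp only [QF, Basis.constr_basis]
    simp [Q, mb]
  rw [this]
  rfl

theorem QF_add {A B C A' B' C' : E 2 → ℝ} (hA : Continuous A) (hB : Continuous B)
    (hC : Continuous C) (hA' : Continuous A') (hB' : Continuous B') (hC' : Continuous C') :
    QF d j (fun z => A z + A' z) (fun z => B z + B' z) (fun z => C z + C' z) =
      QF d j A B C + QF d j A' B' C' := by
  refine (mb d j).ext fun a => (mb d j).ext fun b => ?_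
  simp only [QF, Basis.constr_basis, LinearMap.add_apply, qf]
  rw [← integral_add (BF_integrable_qf d j hA hB hC _ _) (BF_integrable_qf d j hA' hB' hC' _ _)]
  congr 1
  funext p
  ring

theorem QF_smul (r : ℝ) (A B C : E 2 → ℝ) :
    QF d j (fun z => r * A z) (fun z => r * B z) (fun z => r * C z) = r • QF d j A B C := by
  refine (mb d j).ext fun a => (mb d j).ext fun b => ?_
  simp only [QF, Basis.constr_basis, LinearMap.smul_apply, qf, smul_eq_mul]
  rw [← integral_const_mul]
  congr 1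
  funext p
  ring

theorem QF_mono {A B C A' B' C' : E 2 → ℝ} (hA : Continuous A) (hB : Continuous B)
    (hC : Continuous C) (hA' : Continuous A') (hB' : Continuous B') (hC' : Continuous C')
    (h : ∀ z, 0 < XX z → XX z < 1 → A z ≤ A' z ∧ B z ≤ B' z ∧ C z ≤ C' z) (u : RP d j) :
    QF d j A B C u u ≤ QF d j A' B' C' u u := by
  rw [QF_apply hA hB hC, QF_apply hA' hB' hC']
  refine integral_mono_ae (BF_integrable_qf d j hA hB hC _ _) (BF_integrable_qf d j hA' hB' hC' _ _) ?_
  filter_upwards [BF_ae_XX d] with p hp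
  obtain ⟨h1, h2, h3⟩ := h _ hp.1 hp.2
  exact add_le_add (add_le_add (mul_le_mul_of_nonneg_right h1 (BF_Ds_nonneg _ _ hp.2.le))
    (mul_le_mul_of_nonneg_right h2 (BF_Dt_nonneg _ _ hp.2.le)))
    (mul_le_mul_of_nonneg_right h3 (BF_Dw_nonneg _ _ _ hp.2.le))

theorem BF_abs_le {A B C A' B' C' : E 2 → ℝ} (hA : Continuous A) (hB : Continuous B)
    (hC : Continuous C) (hA' : Continuous A') (hB' : Continuous B') (hC' : Continuous C') {c : ℝ}
    (h : ∀ z, |A z| ≤ c * A' z ∧ |B z| ≤ c * B' z ∧ |C z| ≤ c * C' z) (u : RP d j) :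
    |QF d j A B C u u| ≤ c * QF d j A' B' C' u u := by
  have h1 := QF_mono (A' := fun z => c * A' z) (B' := fun z => c * B' z) (C' := fun z => c * C' z)
    hA hB hC (continuous_const.mul hA') (continuous_const.mul hB')
    (continuous_const.mul hC') (fun z _ _ => ⟨(abs_le.1 (h z).1).2, (abs_le.1 (h z).2.1).2,
      (abs_le.1 (h z).2.2).2⟩) u
  have h2 := QF_mono (A := fun z => -c * A' z) (B := fun z => -c * B' z) (C := fun z => -c * C' z)
    (continuous_const.mul hA') (continuous_const.mul hB') (continuous_const.mul hC') hA hB hC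
    (fun z _ _ => ⟨by linarith [(abs_le.1 (h z).1).1], by linarith [(abs_le.1 (h z).2.1).1],
      by linarith [(abs_le.1 (h z).2.2).1]⟩) u
  rw [QF_smul] at h1 h2
  simp only [LinearMap.smul_apply, smul_eq_mul] at h1 h2
  exact abs_le.2 ⟨by linarith, h1⟩

theorem BF_sub {A B C A' B' C' : E 2 → ℝ} (hA : Continuous A) (hB : Continuous B)
    (hC : Continuous C) (hA' : Continuous A') (hB' : Continuous B') (hC' : Continuous C')
    (u w : RP d j) :
    QF d j (fun z => A z - A' z) (fun z => B z - B' z) (fun z => C z - C' z) u w =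
      QF d j A B C u w - QF d j A' B' C' u w := by
  have := QF_add (d := d) (j := j) (hA.fun_sub hA') (hB.fun_sub hB') (hC.fun_sub hC') hA' hB' hC'
  simp only [sub_add_cancel] at this
  rw [this]
  simp only [LinearMap.add_apply, add_sub_cancel_right]

omit [NeZero d] in
theorem BF_cont_bet {a b : E 2 → ℝ} (ha : Continuous a) (hb : Continuous b) :
    Continuous fun z => bet d (a z) (b z) := by
  unfold bet
  fun_prop

theorem BF_cont_exp {a : E 2 → ℝ} (ha : Continuous a) : Continuous fun z => Real.exp (2 * a z) := by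
  fun_prop

theorem BF_cont_der {a b : E 2 → ℝ} (ha : Continuous a) (hb : Continuous b) :
    Continuous fun z => 2 * a z * Real.exp (2 * b z) := by
  fun_prop

theorem BF_abs_bet {a b r : ℝ} (ha : |a| ≤ r) (hb : |b| ≤ r) :
    |a| ≤ d * r ∧ |bet d a b| ≤ d * r ∧ |b| ≤ d * r := by
  have hd : (1 : ℝ) ≤ d := Nat.one_le_cast.2 (Nat.pos_of_ne_zero (NeZero.ne d))
  have hr : 0 ≤ r := (abs_nonneg a).trans ha
  have h1 : r ≤ d * r := le_mul_of_one_le_left hr hd
  refine ⟨ha.trans h1, ?_, hb.trans h1⟩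
  obtain ⟨a1, a2⟩ := abs_le.1 ha
  obtain ⟨b1, b2⟩ := abs_le.1 hb
  unfold bet
  rw [abs_le]
  constructor <;> nlinarith

omit [NeZero d] in
theorem BF_bet_sub (a b a' b' : ℝ) : bet d a' b' - bet d a b = bet d (a' - a) (b' - b) := by
  unfold bet
  ring

omit [NeZero d] in
theorem BF_bet_add (a b a' b' : ℝ) : bet d (a + a') (b + b') = bet d a b + bet d a' b' := by
  unfold bet
  ring

theorem QG_sym (G : St) : SymF (QG d j G) := QF_sym d j _ _ _

theorem QD_sym (G F : St) : SymF (QD d j G F) := QF_sym d j _ _ _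

theorem QG_nonneg {G : St} (hG : Adm d G) (u : RP d j) : 0 ≤ QG d j G u u := by
  have c1 := hG.s1.continuous
  have c2 := hG.s2.continuous
  have := BF_abs_le (c := 1) (BF_cont_exp c1) (BF_cont_exp (BF_cont_bet (d := d) c1 c2))
    (BF_cont_exp c2) (BF_cont_exp c1) (BF_cont_exp (BF_cont_bet (d := d) c1 c2)) (BF_cont_exp c2)
    (fun z => by simp only [Real.abs_exp, one_mul, le_refl, and_self]) u
  rw [one_mul] at this
  exact (abs_nonneg _).trans this

theorem QG_le_exp {G G' : St} (hG : Adm d G) (hG' : Adm d G') {r : ℝ}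
    (h : ∀ z, |G'.1 z - G.1 z| ≤ r ∧ |G'.2 z - G.2 z| ≤ r) (u : RP d j) :
    QG d j G' u u ≤ Real.exp (2 * d * r) * QG d j G u u := by
  have c1 := hG.s1.continuous
  have c2 := hG.s2.continuous
  have c1' := hG'.s1.continuous
  have c2' := hG'.s2.continuous
  have key : ∀ a a' : ℝ, |a' - a| ≤ d * r →
      |Real.exp (2 * a')| ≤ Real.exp (2 * d * r) * Real.exp (2 * a) := fun a a' h => by
    rw [Real.abs_exp, ← Real.exp_add]
    exact Real.exp_le_exp.2 (by linarith [(abs_le.1 h).2])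
  refine (le_abs_self _).trans (BF_abs_le (BF_cont_exp c1') (BF_cont_exp (BF_cont_bet c1' c2'))
    (BF_cont_exp c2') (BF_cont_exp c1) (BF_cont_exp (BF_cont_bet c1 c2)) (BF_cont_exp c2)
    (fun z => ?_) u)
  obtain ⟨h1, h2, h3⟩ := BF_abs_bet (d := d) (h z).1 (h z).2
  rw [← BF_bet_sub] at h2
  exact ⟨key _ _ h1, key _ _ h2, key _ _ h3⟩

theorem QG_lip {G G' : St} (hG : Adm d G) (hG' : Adm d G') {r : ℝ} (hr : 2 * d * r ≤ 1)
    (h : ∀ z, |G'.1 z - G.1 z| ≤ r ∧ |G'.2 z - G.2 z| ≤ r) (u : RP d j) :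
    |QG d j G' u u - QG d j G u u| ≤ 4 * d * r * QG d j G u u := by
  have c1 := hG.s1.continuous
  have c2 := hG.s2.continuous
  have c1' := hG'.s1.continuous
  have c2' := hG'.s2.continuous
  have key : ∀ a a' : ℝ, |a' - a| ≤ d * r →
      |Real.exp (2 * a') - Real.exp (2 * a)| ≤ 4 * d * r * Real.exp (2 * a) := fun a a' h => by
    have e : |2 * (a' - a)| = 2 * |a' - a| := by rw [abs_mul, abs_two]
    have h1 := Real.abs_exp_sub_one_le (x := 2 * (a' - a)) (by linarith)
    have e2 : Real.exp (2 * a') - Real.exp (2 * a) =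
        (Real.exp (2 * (a' - a)) - 1) * Real.exp (2 * a) := by
      rw [sub_mul, ← Real.exp_add]; ring_nf
    rw [e2, abs_mul, Real.abs_exp]
    exact mul_le_mul_of_nonneg_right (by linarith) (Real.exp_pos _).le
  have e1 := BF_cont_exp c1
  have e2 := BF_cont_exp (BF_cont_bet (d := d) c1 c2)
  have e3 := BF_cont_exp c2
  have e1' := BF_cont_exp c1'
  have e2' := BF_cont_exp (BF_cont_bet (d := d) c1' c2')
  have e3' := BF_cont_exp c2'
  have := BF_abs_le (c := 4 * d * r) (e1'.fun_sub e1) (e2'.fun_sub e2) (e3'.fun_sub e3) e1 e2 e3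
    (fun z => by
      obtain ⟨h1, h2, h3⟩ := BF_abs_bet (d := d) (h z).1 (h z).2
      rw [← BF_bet_sub] at h2
      exact ⟨key _ _ h1, key _ _ h2, key _ _ h3⟩) u
  rwa [BF_sub e1' e2' e3' e1 e2 e3] at this

theorem QD_le {G F : St} (hG : Adm d G) (hF : Adm d F) {r : ℝ}
    (h : ∀ z, |F.1 z| ≤ r ∧ |F.2 z| ≤ r) (u : RP d j) :
    |QD d j G F u u| ≤ 2 * d * r * QG d j G u u := by
  have c1 := hG.s1.continuous
  have c2 := hG.s2.continuous
  have c1' := hF.s1.continuous
  have c2' := hF.s2.continuous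
  have key : ∀ a b : ℝ, |b| ≤ d * r →
      |2 * b * Real.exp (2 * a)| ≤ 2 * d * r * Real.exp (2 * a) := fun a b h => by
    rw [abs_mul, abs_mul, abs_two, Real.abs_exp]
    exact mul_le_mul_of_nonneg_right (by linarith) (Real.exp_pos _).le
  refine BF_abs_le (BF_cont_der c1' c1) (BF_cont_der (BF_cont_bet c1' c2') (BF_cont_bet c1 c2))
    (BF_cont_der c2' c2) (BF_cont_exp c1) (BF_cont_exp (BF_cont_bet c1 c2)) (BF_cont_exp c2)
    (fun z => ?_) u
  obtain ⟨h1, h2, h3⟩ := BF_abs_bet (d := d) (h z).1 (h z).2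
  exact ⟨key _ _ h1, key _ _ h2, key _ _ h3⟩

theorem QG_taylor {G F : St} (hG : Adm d G) (hF : Adm d F) {r : ℝ} (hr : 2 * d * r ≤ 1)
    (h : ∀ z, |F.1 z| ≤ r ∧ |F.2 z| ≤ r) (u : RP d j) :
    |QG d j (G + F) u u - QG d j G u u - QD d j G F u u| ≤ (2 * d * r) ^ 2 * QG d j G u u := by
  have c1 := hG.s1.continuous
  have c2 := hG.s2.continuous
  have c1' := hF.s1.continuous
  have c2' := hF.s2.continuous
  have key : ∀ a b : ℝ, |b| ≤ d * r →
      |Real.exp (2 * (a + b)) - Real.exp (2 * a) - 2 * b * Real.exp (2 * a)| ≤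
        (2 * d * r) ^ 2 * Real.exp (2 * a) := fun a b h => by
    have e : |2 * b| = 2 * |b| := by rw [abs_mul, abs_two]
    have h1 := Real.abs_exp_sub_one_sub_id_le (x := 2 * b) (by linarith)
    have e2 : Real.exp (2 * (a + b)) - Real.exp (2 * a) - 2 * b * Real.exp (2 * a) =
        (Real.exp (2 * b) - 1 - 2 * b) * Real.exp (2 * a) := by
      rw [mul_add, Real.exp_add]; ring
    rw [e2, abs_mul, Real.abs_exp]
    refine mul_le_mul_of_nonneg_right (h1.trans ?_) (Real.exp_pos _).le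
    rw [← sq_abs]
    exact pow_le_pow_left₀ (abs_nonneg _) (by linarith) 2
  have e1 := BF_cont_exp c1
  have e2 := BF_cont_exp (BF_cont_bet (d := d) c1 c2)
  have e3 := BF_cont_exp c2
  have e1' := BF_cont_exp (c1.fun_add c1')
  have e2' := BF_cont_exp (BF_cont_bet (d := d) (c1.fun_add c1') (c2.fun_add c2'))
  have e3' := BF_cont_exp (c2.fun_add c2')
  have d1 := BF_cont_der c1' c1
  have d2 := BF_cont_der (BF_cont_bet (d := d) c1' c2') (BF_cont_bet (d := d) c1 c2)
  have d3 := BF_cont_der c2' c2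
  have := BF_abs_le (c := (2 * d * r) ^ 2) ((e1'.fun_sub e1).fun_sub d1)
    ((e2'.fun_sub e2).fun_sub d2) ((e3'.fun_sub e3).fun_sub d3) e1 e2 e3
    (fun z => by
      obtain ⟨h1, h2, h3⟩ := BF_abs_bet (d := d) (h z).1 (h z).2
      rw [BF_bet_add]
      exact ⟨key _ _ h1, key _ _ h2, key _ _ h3⟩) u
  rwa [BF_sub (e1'.fun_sub e1) (e2'.fun_sub e2) (e3'.fun_sub e3) d1 d2 d3,
    BF_sub e1' e2' e3' e1 e2 e3] at this

theorem BF_QD_add {G F F' : St} (c1 : Continuous G.1) (c2 : Continuous G.2) (f1 : Continuous F.1)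
    (f2 : Continuous F.2) (f1' : Continuous F'.1) (f2' : Continuous F'.2) :
    QD d j G (F + F') = QD d j G F + QD d j G F' := by
  unfold QD
  rw [← QF_add (BF_cont_der f1 c1) (BF_cont_der (BF_cont_bet f1 f2) (BF_cont_bet c1 c2))
    (BF_cont_der f2 c2) (BF_cont_der f1' c1)
    (BF_cont_der (BF_cont_bet f1' f2') (BF_cont_bet c1 c2)) (BF_cont_der f2' c2)]
  simp only [Prod.fst_add, Prod.snd_add, Pi.add_apply, BF_bet_add, mul_add, add_mul]

theorem QD_add {G F F' : St} (hG : Adm d G) (hF : Adm d F) (hF' : Adm d F') :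
    QD d j G (F + F') = QD d j G F + QD d j G F' :=
  BF_QD_add hG.s1.continuous hG.s2.continuous hF.s1.continuous hF.s2.continuous hF'.s1.continuous
    hF'.s2.continuous

theorem QD_smul (G F : St) (r : ℝ) : QD d j G (r • F) = r • QD d j G F := by
  unfold QD
  rw [← QF_smul]
  congr 1 <;> funext z <;> simp only [Prod.smul_fst, Prod.smul_snd, Pi.smul_apply, smul_eq_mul, bet] <;>
    ring

theorem QD_comb {V : Type} [Fintype V] {G : St} (hG : Adm d G) {F : V → St} (hF : ∀ v, Adm d (F v))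
    (a : V → ℝ) : QD d j G (comb F a) = ∑ v, a v • QD d j G (F v) := by
  classical
  have key : ∀ s : Finset V, (Continuous (∑ v ∈ s, a v • F v).1 ∧ Continuous (∑ v ∈ s, a v • F v).2) ∧
      QD d j G (∑ v ∈ s, a v • F v) = ∑ v ∈ s, a v • QD d j G (F v) := by
    intro s
    induction s using Finset.induction_on with
    | empty =>
      refine ⟨⟨continuous_const, continuous_const⟩, ?_⟩
      have := QD_smul (d := d) (j := j) G 0 0
      simpa using this
    | insert v s hv ih =>
      have h1 : Continuous (a v • F v).1 := (hF v).s1.continuous.const_smul (a v)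
      have h2 : Continuous (a v • F v).2 := (hF v).s2.continuous.const_smul (a v)
      rw [Finset.sum_insert hv, Finset.sum_insert hv]
      refine ⟨⟨h1.add ih.1.1, h2.add ih.1.2⟩, ?_⟩
      rw [BF_QD_add hG.s1.continuous hG.s2.continuous h1 h2 ih.1.1 ih.1.2, ih.2, QD_smul]
  exact (key Finset.univ).2

/-- `Q_G ≥ e^{-2γ₀} J` (drop the first two terms, `1/(1-X) ≥ 1`) -/
theorem QG_ge_J {G : St} (hG : Adm d G) {γ₀ : ℝ} (h : ∀ z, |G.2 z| ≤ γ₀) (u : RP d j) :
    Real.exp (-2 * γ₀) * Jd d j * ‖u‖ ^ 2 ≤ QG d j G u u := by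
  have c1 := hG.s1.continuous
  have c2 := hG.s2.continuous
  refine le_trans ?_ (QF_mono (A := fun _ => 0) (B := fun _ => 0) (C := fun _ => Real.exp (-2 * γ₀))
    continuous_const continuous_const continuous_const (BF_cont_exp c1)
    (BF_cont_exp (BF_cont_bet c1 c2)) (BF_cont_exp c2) (fun z _ _ => ⟨(Real.exp_pos _).le,
      (Real.exp_pos _).le, Real.exp_le_exp.2 (by linarith [(abs_le.1 (h z)).1])⟩) u)
  rw [QF_apply continuous_const continuous_const continuous_const, ← real_inner_self_eq_norm_sq,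
    inner_RP, ipR, ← integral_const_mul]
  refine integral_mono_ae ((Crest.Agent.R230.integrable_of_continuous (ipR_cont d j _ _)).const_mul _)
    (BF_integrable_qf d j continuous_const continuous_const continuous_const _ _) ?_
  filter_upwards [BF_ae_XX d] with p hp
  have h1 := sub_pos.2 hp.2
  simp only [zero_mul, zero_add, Dw]
  rw [mul_assoc, ← mul_assoc (Jd d j)]
  refine mul_le_mul_of_nonneg_left (le_div_self ?_ h1 (by linarith [hp.1])) (Real.exp_pos _).le
  exact mul_nonneg (mul_nonneg (Jd_nonneg d j) (pow_nonneg h1.le _)) (mul_self_nonneg _)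

omit [NeZero d] in
theorem BF_contDiff_term {V : Type} [Fintype V] {f : V → E 2 → ℝ} (hf : ∀ v, Continuous (f v))
    {h : E (d + 2) → ℝ} (hh : Integrable h (sph (d + 2))) :
    ContDiff ℝ ∞ fun a : V → ℝ =>
      ∫ p, Real.exp (2 * ∑ v, a v * f v (zOf p)) * h p ∂sph (d + 2) := by
  let L : E (d + 2) → (V → ℝ) →L[ℝ] ℝ := fun p =>
    ∑ v, (2 * f v (zOf p)) • ContinuousLinearMap.proj v
  have hL : Continuous L := continuous_finsetSum _ fun v _ =>
    (continuous_const.mul ((hf v).comp (continuous_zOf d))).smul continuous_const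
  obtain ⟨C, hC⟩ := (isCompact_sphere (0 : E (d + 2)) 1).exists_bound_of_continuousOn
    hL.continuousOn
  have := BF_contDiff (μ := sph (d + 2)) hL.aestronglyMeasurable (C := C)
    (Crest.Agent.R230.ae_norm.mono fun p hp => hC p (by simpa using hp)) hh
  convert this using 4 with a p
  rw [mul_comm]
  congr 2
  simp only [L, sum_apply, smul_apply, ContinuousLinearMap.proj_apply,
    smul_eq_mul, Finset.mul_sum]
  exact Finset.sum_congr rfl fun v _ => by ring

theorem contDiff_QG {V : Type} [Fintype V] {F : V → St} (hF : ∀ v, Adm d (F v)) (u w : RP d j) :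
    ContDiff ℝ ∞ fun a : V → ℝ => QG d j (comb F a) u w := by
  have c1 := fun v => (hF v).s1.continuous
  have c2 := fun v => (hF v).s2.continuous
  have e1 : ∀ (a : V → ℝ) z, (comb F a).1 z = ∑ v, a v * (F v).1 z := fun a z => by
    simp [comb, Prod.fst_sum, Finset.sum_apply]
  have e2 : ∀ (a : V → ℝ) z, (comb F a).2 z = ∑ v, a v * (F v).2 z := fun a z => by
    simp [comb, Prod.snd_sum, Finset.sum_apply]
  have e3 : ∀ (a : V → ℝ) z, bet d ((comb F a).1 z) ((comb F a).2 z) =
      ∑ v, a v * bet d ((F v).1 z) ((F v).2 z) := fun a z => by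
    simp only [e1, e2, bet, Finset.mul_sum, ← Finset.sum_neg_distrib, ← Finset.sum_sub_distrib]
    exact Finset.sum_congr rfl fun v _ => by ring
  have k1 : ∀ a : V → ℝ, Continuous (comb F a).1 := fun a => by
    rw [funext (e1 a)]
    exact continuous_finsetSum _ fun v _ => continuous_const.mul (c1 v)
  have k2 : ∀ a : V → ℝ, Continuous (comb F a).2 := fun a => by
    rw [funext (e2 a)]
    exact continuous_finsetSum _ fun v _ => continuous_const.mul (c2 v)
  have h1 := BF_contDiff_term c1 ((BF_memLp_Ds d j (toP d j u) (toP d j w)).integrable le_top)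
  have h2 := BF_contDiff_term (fun v => BF_cont_bet (d := d) (c1 v) (c2 v))
    ((BF_memLp_Dt d j (toP d j u) (toP d j w)).integrable le_top)
  have h3 := BF_contDiff_term c2 ((BF_memLp_Dw d j (toP d j u) (toP d j w)).integrable le_top)
  convert (h1.add h2).add h3 using 2 with a
  have i1 := BF_integrable_mul_Ds d j (BF_cont_exp (k1 a)) (toP d j u) (toP d j w)
  have i2 := BF_integrable_mul_Dt d j (BF_cont_exp (BF_cont_bet (d := d) (k1 a) (k2 a)))
    (toP d j u) (toP d j w)
  have i3 := BF_integrable_mul_Dw d j (BF_cont_exp (k2 a)) (toP d j u) (toP d j w)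
  rw [QG, QF_apply (BF_cont_exp (k1 a)) (BF_cont_exp (BF_cont_bet (k1 a) (k2 a)))
    (BF_cont_exp (k2 a)), qf, integral_add (i1.fun_add i2) i3, integral_add i1 i2]
  simp only [e3]
  simp only [e1, e2]

theorem inner_Kop {X : Type} [NormedAddCommGroup X] [InnerProductSpace ℝ X]
    (Q : X →ₗ[ℝ] X →ₗ[ℝ] ℝ) (S : Submodule ℝ X) [FiniteDimensional ℝ S] (u w : S) :
    ⟪Kop Q S u, w⟫ = Q u w := by
  set b := stdOrthonormalBasis ℝ S
  have hu : (u : X) = ∑ a, ⟪b a, u⟫ • (b a : X) := by
    conv_lhs => rw [← b.sum_repr' u]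
    simp
  have hw : (w : X) = ∑ a, ⟪b a, w⟫ • (b a : X) := by
    conv_lhs => rw [← b.sum_repr' w]
    simp
  rw [hu, hw]
  simp only [Kop, sum_apply, smul_apply, ContinuousLinearMap.smulRight_apply,
    innerSL_apply_apply, sum_inner, real_inner_smul_left, map_sum, map_smul, LinearMap.sum_apply,
    LinearMap.smul_apply, smul_eq_mul, Finset.mul_sum]
  rw [Finset.sum_comm]
  exact Finset.sum_congr rfl fun _ _ => Finset.sum_congr rfl fun _ _ => by ring

theorem inner_KG (s : Bool) (M : ℕ) (G : St) (q : ℝ) (u w : WS d j s M) :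
    ⟪KG d j s M G q u, w⟫ = QG d j G u w + q * ⟪u, w⟫ := by
  rw [KG, add_apply, inner_add_left, inner_Kop, smul_apply,
    real_inner_smul_left, ContinuousLinearMap.id_apply]

theorem BF_smul_const {W P : Type} [NormedAddCommGroup W] [InnerProductSpace ℝ W]
    [NormedAddCommGroup P] [NormedSpace ℝ P] {q : P → ℝ} (hq : ContDiff ℝ ∞ q) (c : W →L[ℝ] W) :
    ContDiff ℝ ∞ fun a => q a • c := hq.smul contDiff_const

theorem BF_contDiff_Kop {X P : Type} [NormedAddCommGroup X] [InnerProductSpace ℝ X]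
    [NormedAddCommGroup P] [NormedSpace ℝ P] (S : Submodule ℝ X) [FiniteDimensional ℝ S]
    {Q : P → X →ₗ[ℝ] X →ₗ[ℝ] ℝ} (hQ : ∀ u w, ContDiff ℝ ∞ fun a => Q a u w) {q : P → ℝ}
    (hq : ContDiff ℝ ∞ q) :
    ContDiff ℝ ∞ fun a => Kop (Q a) S + q a • ContinuousLinearMap.id ℝ S := by
  unfold Kop
  exact ContDiff.add (ContDiff.sum fun a _ => ContDiff.sum fun b _ =>
    BF_smul_const (W := S) (hQ _ _) _) (BF_smul_const (W := S) hq _)

theorem contDiff_KG {V : Type} [Fintype V] {F : V → St} (hF : ∀ v, Adm d (F v)) (s : Bool) (M : ℕ) :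
    ContDiff ℝ ∞ fun a : (V → ℝ) × ℝ => KG d j s M (comb F a.1) a.2 :=
  BF_contDiff_Kop (WS d j s M) (Q := fun a : (V → ℝ) × ℝ => QG d j (comb F a.1))
    (fun u w => (contDiff_QG hF u w).comp contDiff_fst) contDiff_snd

theorem posOp_KG {G : St} (hG : Adm d G) (s : Bool) (M : ℕ) {κ₀ q : ℝ} (hq : κ₀ ^ 2 ≤ q) :
    PosOp κ₀ (KG d j s M G q) := by
  refine ⟨fun u w => ?_, fun u => ?_⟩
  · rw [real_inner_comm (KG d j s M G q w), inner_KG, inner_KG, QG_sym G (u : RP d j) (w : RP d j),
      real_inner_comm]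
  · rw [inner_KG, real_inner_self_eq_norm_sq]
    have h1 := QG_nonneg hG (u : RP d j)
    have h2 := mul_le_mul_of_nonneg_right hq (sq_nonneg ‖u‖)
    linarith

/-- min-max values of `KG` in a subspace of the Galerkin space -/
theorem lamk_KG (s : Bool) (M : ℕ) (G : St) (q : ℝ) {S : Submodule ℝ (RP d j)}
    (hS : S ≤ WS d j s M) {k : ℕ} (hk : k < finrank ℝ S) :
    lamk (fK (KG d j s M G q)) (S.comap (WS d j s M).subtype) k = lamk (QG d j G) S k + q ∧
      finrank ℝ (S.comap (WS d j s M).subtype) = finrank ℝ S := by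
  have hf : finrank ℝ (S.comap (WS d j s M).subtype) = finrank ℝ S :=
    (Submodule.comapSubtypeEquivOfLe hS).finrank_eq
  refine ⟨?_, hf⟩
  have h1 := lamk_map (S := S.comap (WS d j s M).subtype)
    (Q := (QG d j G).compl₁₂ (WS d j s M).subtype (WS d j s M).subtype) (WS d j s M).subtype
    (QG d j G) (fun _ _ => rfl) (fun _ _ => rfl) k
  rw [Submodule.map_comap_subtype, inf_eq_right.2 hS] at h1
  rw [h1]
  refine lamk_add_const (fun u _ => ?_) (hf ▸ hk)
  rw [fK_apply, inner_KG, real_inner_self_eq_norm_sq]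
  rfl

theorem KG_eig (s : Bool) (M : ℕ) (G : St) (q : ℝ) {e : WS d j s M} {r : ℝ}
    (h : EigF (QG d j G) (WS d j s M) e r) : KG d j s M G q e = (r + q) • e := by
  refine ext_inner_right ℝ fun w => ?_
  refine Eq.trans ?_ (real_inner_smul_left e w (r + q)).symm
  rw [inner_KG, h.2 w w.2, add_mul]
  rfl

end Crest.Agent.R202
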