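import Crest.Agent.R202.BDefs
import Crest.Agent.R230.Green

/-!
# Row 202, B5 (auxiliary): polarisation, dimension counts, harmonic polynomials
-/

set_option autoImplicit false
open scoped ContDiff RealInnerProductSpace Topology
open MeasureTheory Set Filter Module
open Crest.Agent.R230 (E MP sph ev Harm)

noncomputable section
namespace Crest.Agent.R202
namespace BI

open MvPolynomial Crest.Agent.R230

/-- polarisation: a functional that kills the `e`-th powers of the elements of `W` kills `W ^ e` -/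
theorem polarise {A : Type*} [CommRing A] [Algebra ℝ A] (W : Submodule ℝ A) (e : ℕ) :
    ∀ Λ : A →ₗ[ℝ] ℝ, (∀ l ∈ W, Λ (l ^ e) = 0) → ∀ x ∈ W ^ e, Λ x = 0 := by
  induction e with
  | zero =>
    intro Λ h x hx
    rw [pow_zero, Submodule.mem_one] at hx
    obtain ⟨c, rfl⟩ := hx
    have h1 := h 0 W.zero_mem
    rw [pow_zero] at h1
    rw [Algebra.algebraMap_eq_smul_one, map_smul, h1, smul_zero]
  | succ e ih =>
    intro Λ h x hx
    have key : ∀ w ∈ W, ∀ l ∈ W, Λ (w * l ^ e) = 0 := by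
      intro w hw l hl
      let q : Polynomial ℝ := ∑ k ∈ Finset.range (e + 2),
        Polynomial.monomial k (((e + 1).choose k : ℝ) * Λ (w ^ k * l ^ (e + 1 - k)))
      have hq : q = 0 := by
        refine Polynomial.funext fun t => ?_
        have h1 := h (t • w + l) (W.add_mem (W.smul_mem t hw) hl)
        rw [add_pow, map_sum] at h1
        rw [Polynomial.eval_zero, ← h1, Polynomial.eval_finsetSum]
        refine Finset.sum_congr rfl fun k _ => ?_
        rw [Polynomial.eval_monomial, smul_pow, smul_mul_assoc, smul_mul_assoc, map_smul,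
          mul_comm _ ((e + 1).choose k : A), ← nsmul_eq_mul ((e + 1).choose k) (w ^ k * _),
          map_nsmul, nsmul_eq_mul, smul_eq_mul]
        ring
      have h2 := congrArg (fun p => Polynomial.coeff p 1) hq
      simp only [q, Polynomial.finsetSum_coeff, Polynomial.coeff_monomial, Finset.sum_ite_eq',
        Finset.mem_range, Polynomial.coeff_zero] at h2
      rw [if_pos (by omega), Nat.choose_one_right, pow_one, Nat.add_sub_cancel] at h2
      exact (mul_eq_zero.1 h2).resolve_left (by positivity)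
    rw [pow_succ'] at hx
    refine Submodule.mul_induction_on hx (fun w hw y hy => ?_) fun y z hy hz => ?_
    · exact ih (Λ.comp (LinearMap.mulLeft ℝ w)) (fun l hl => key w hw l hl) y hy
    · rw [map_add, hy, hz, add_zero]

theorem finrank_hom (n k : ℕ) :
    finrank ℝ (homogeneousSubmodule (Fin n) ℝ k) = (n + k - 1).choose k := by
  classical
  have hs : {a : Fin n →₀ ℕ | a.degree = k} =
      ((Finset.univ : Finset (Fin n)).finsuppAntidiag k : Set (Fin n →₀ ℕ)) := by
    ext a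
    simp [Finset.mem_finsuppAntidiag, Finsupp.degree_eq_sum]
  rw [homogeneousSubmodule_eq_finsupp_supported, hs]
  have := finrank_eq_card_basis (basisRestrictSupport ℝ
    ((Finset.univ : Finset (Fin n)).finsuppAntidiag k : Set (Fin n →₀ ℕ)))
  refine this.trans ?_
  simp only [Finset.coe_sort_coe, Fintype.card_coe, Finset.card_finsuppAntidiag_nat_eq_choose,
    Finset.card_univ, Fintype.card_fin]

variable {n : ℕ}

theorem ev_smul_arg {Y : MP n} {k : ℕ} (hY : Y.IsHomogeneous k) (t : ℝ) (x : E n) :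
    ev Y (t • x) = t ^ k * ev Y x := by
  simp only [ev, eval_eq', Finset.mul_sum]
  refine Finset.sum_congr rfl fun d hd => ?_
  have h : ∑ i, d i = k := by
    rw [← Finsupp.degree_eq_sum]
    by_contra hne
    exact mem_support_iff.1 hd (hY.coeff_eq_zero hne)
  have e : ∀ i, (t • x).ofLp i ^ d i = t ^ d i * x.ofLp i ^ d i := fun i => by
    rw [PiLp.smul_apply, smul_eq_mul, mul_pow]
  simp only [e, Finset.prod_mul_distrib, Finset.prod_pow_eq_pow_sum, h]
  ring

theorem exists_unit (hn : 1 ≤ n) : ∃ u : E n, ‖u‖ = 1 :=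
  ⟨EuclideanSpace.single ⟨0, hn⟩ 1, by simp⟩

/-- a homogeneous polynomial with vanishing `L²` norm on the sphere is zero -/
theorem eq_zero_of_int (hn : 1 ≤ n) {Y : MP n} {k : ℕ} (hY : Y.IsHomogeneous k)
    (h : ∫ o, ev (Y * Y) o ∂sph n = 0) : Y = 0 := by
  have hc := continuous_ev (Y * Y)
  have h0 := (integral_eq_zero_iff_of_nonneg (fun o => by
    rw [ev_mul]; exact mul_self_nonneg _) (integrable_of_continuous hc)).1 h
  have h1 : ∀ p : E n, ‖p‖ = 1 → ev Y p = 0 := fun p hp => by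
    have := eq_on_sphere hc.continuousOn h0 hp
    rw [ev_mul] at this
    exact mul_self_eq_zero.1 this
  refine MvPolynomial.funext fun x => ?_
  obtain ⟨u, hu⟩ := exists_unit hn
  let y : E n := WithLp.toLp 2 x
  obtain ⟨R, hR⟩ := exists_iso_map (u := ‖y‖ • u) (v := y) (by
    rw [norm_smul, hu, mul_one, norm_norm])
  have h2 : ev Y y = 0 := by
    rw [← hR, map_smul, ev_smul_arg hY, h1 _ (by rw [R.norm_map, hu]), mul_zero]
  rw [map_zero]
  exact h2

theorem lap_add (A B : MP n) : lap (A + B) = lap A + lap B := by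
  simp [lap, Finset.sum_add_distrib]

theorem lap_smul (c : ℝ) (A : MP n) : lap (c • A) = c • lap A := by
  simp [lap, Finset.smul_sum]

theorem lap_hom {Y : MP n} {k : ℕ} (hY : Y.IsHomogeneous (k + 2)) : (lap Y).IsHomogeneous k :=
  IsHomogeneous.sum _ _ _ fun _ _ => hY.pderiv.pderiv

theorem lap_one {Y : MP n} (hY : Y.IsHomogeneous 1) : lap Y = 0 := by
  refine Finset.sum_eq_zero fun i _ => ?_
  have h : (pderiv i Y).IsHomogeneous 0 := hY.pderiv
  rw [totalDegree_eq_zero_iff_eq_C.1 ((totalDegree_zero_iff_isHomogeneous _).2 h), pderiv_C]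

instance finite_hom (k : ℕ) : Module.Finite ℝ (homogeneousSubmodule (Fin n) ℝ k) :=
  Module.Finite.iff_fg.2 (homogeneousSubmodule_fg _ _ k)

theorem finrank_harm_ge (k : ℕ) : finrank ℝ (homogeneousSubmodule (Fin n) ℝ (k + 2)) ≤
    finrank ℝ (Harm n (k + 2)) + finrank ℝ (homogeneousSubmodule (Fin n) ℝ k) := by
  let L : homogeneousSubmodule (Fin n) ℝ (k + 2) →ₗ[ℝ] homogeneousSubmodule (Fin n) ℝ k :=
    { toFun := fun Y => ⟨lap Y.1, lap_hom Y.2⟩
      map_add' := fun Y Z => Subtype.ext (lap_add _ _)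
      map_smul' := fun c Y => Subtype.ext (lap_smul _ _) }
  have h1 := L.finrank_range_add_finrank_ker
  have h2 : finrank ℝ (LinearMap.range L) ≤ finrank ℝ (homogeneousSubmodule (Fin n) ℝ k) :=
    Submodule.finrank_le _
  have h3 : finrank ℝ (LinearMap.ker L) ≤ finrank ℝ (Harm n (k + 2)) := by
    rw [← Submodule.finrank_map_subtype_eq]
    refine Submodule.finrank_mono ?_
    rintro _ ⟨Y, hY, rfl⟩
    exact ⟨Y.2, congrArg Subtype.val (LinearMap.mem_ker.1 hY)⟩
  omega

theorem harm_one : Harm n 1 = homogeneousSubmodule (Fin n) ℝ 1 := by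
  ext Y
  exact ⟨fun h => h.1, fun h => ⟨h, lap_one h⟩⟩

theorem r2_ne (hn : 1 ≤ n) : r2 n ≠ 0 := by
  intro h
  obtain ⟨u, hu⟩ := exists_unit hn
  have := ev_r2 u
  rw [h, ev_zero, hu] at this
  norm_num at this

theorem exists_harm_nz (hn : 1 ≤ n) {j : ℕ} (hj : n = 1 → j ≤ 1) : ∃ Y ∈ Harm n j, Y ≠ 0 := by
  have h1 : ∃ Y ∈ Harm n 1, Y ≠ 0 :=
    ⟨X ⟨0, hn⟩, ⟨isHomogeneous_X ℝ _, PolyAux.lap_X _⟩, X_ne_zero _⟩
  rcases Nat.lt_or_ge j 2 with h2 | h2
  · interval_cases j
    · exact ⟨C 1, C_mem_Harm 1, by simp⟩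
    · exact h1
  · have hn2 : 2 ≤ n := by
      by_contra hc
      have := hj (by omega)
      omega
    clear hj
    have key : ∀ k, ∃ Y ∈ Harm n (k + 1), Y ≠ 0 := by
      intro k
      induction k with
      | zero => exact h1
      | succ k ih =>
        obtain ⟨Y, hY, hne⟩ := ih
        by_contra hc
        push Not at hc
        have h3 : ∀ i, X i * Y = C ((n : ℝ) + 2 * k)⁻¹ * (r2 n * pderiv i Y) := fun i =>
          sub_eq_zero.1 (hc _ (raise_mem_Harm hn hY i))
        have h4 := hY.1.sum_X_mul_pderiv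
        have h5 : r2 n * Y = C ((n : ℝ) + 2 * k)⁻¹ * (r2 n * ((k + 1) • Y)) := by
          rw [← h4, Finset.mul_sum, Finset.mul_sum, r2, Finset.sum_mul]
          refine Finset.sum_congr rfl fun i _ => ?_
          rw [pow_two, mul_assoc, h3 i, r2]
          ring
        have h6 : (1 - ((n : ℝ) + 2 * k)⁻¹ * ((k : ℝ) + 1)) • (r2 n * Y) = 0 := by
          rw [sub_smul, one_smul, sub_eq_zero]
          conv_lhs => rw [h5]
          rw [← smul_eq_C_mul, ← Nat.cast_smul_eq_nsmul ℝ, mul_smul_comm, smul_smul]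
          push_cast
          rfl
        have hn' : (2 : ℝ) ≤ n := by exact_mod_cast hn2
        have hk : (0 : ℝ) ≤ k := Nat.cast_nonneg k
        have h7 : ((n : ℝ) + 2 * k)⁻¹ * ((k : ℝ) + 1) < 1 := by
          rw [inv_mul_lt_iff₀ (by linarith)]
          linarith
        rcases smul_eq_zero.1 h6 with h | h
        · linarith
        · exact mul_ne_zero (r2_ne hn) hne h
    obtain ⟨k, rfl⟩ : ∃ k, j = k + 1 := ⟨j - 1, by omega⟩
    exact key k

/-- the mean of `⟪y, ω⟫ ^ e` over the sphere depends only on `‖y‖` -/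
theorem int_inner_pow {u : E n} (hu : ‖u‖ = 1) (e : ℕ) (y : E n) :
    ∫ o, ⟪y, o⟫ ^ e ∂sph n = ‖y‖ ^ e * ∫ o, ⟪u, o⟫ ^ e ∂sph n := by
  obtain ⟨R, hR⟩ := exists_iso_map (u := ‖y‖ • u) (v := y) (by
    rw [norm_smul, hu, mul_one, norm_norm])
  rw [← integral_comp_iso R (fun o => ⟪y, o⟫ ^ e), ← integral_const_mul]
  refine integral_congr_ae (Eventually.of_forall fun o => ?_)
  have : ⟪y, R o⟫ = ‖y‖ * ⟪u, o⟫ := by
    conv_lhs => rw [← hR]
    rw [R.inner_map_map, real_inner_smul_left]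
  simp only [this, mul_pow]

variable {d : ℕ}

/-- the embedding `y ↦ (0, y)` -/
def emb (u : E d) : E (d + 2) := WithLp.toLp 2 (Fin.cons 0 (Fin.cons 0 fun a => u a))

theorem inner_emb (p : E (d + 2)) (u : E d) : ⟪p, emb u⟫ = ⟪yOf p, u⟫ := by
  rw [GreenAux.inner_sum, GreenAux.inner_sum, Fin.sum_univ_succ, Fin.sum_univ_succ]
  simp [emb, yOf, yI]

theorem yOf_emb (u : E d) : yOf (emb u) = u := by
  ext a
  simp [emb, yOf, yI]

theorem norm_emb (u : E d) : ‖emb u‖ = ‖u‖ := by
  rw [← sq_eq_sq₀ (norm_nonneg _) (norm_nonneg _), ← real_inner_self_eq_norm_sq,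
    ← real_inner_self_eq_norm_sq, inner_emb, yOf_emb]

theorem emb_zI (u : E d) (i : Fin 2) : emb u (zI d i) = 0 := by
  fin_cases i <;> rfl

/-- an isometry that fixes `z` and carries the linear form `⟪y, v⟫` to `⟪y, u⟫` -/
theorem exists_blk {u v : E d} (h : ‖u‖ = ‖v‖) : ∃ S : E (d + 2) ≃ₗᵢ[ℝ] E (d + 2),
    ∀ p, zOf (S p) = zOf p ∧ ⟪yOf (S p), v⟫ = ⟪yOf p, u⟫ := by
  refine ⟨(ℝ ∙ (emb u - emb v))ᗮ.reflection, fun p => ⟨?_, ?_⟩⟩
  · ext i
    rw [Submodule.reflection_orthogonal_apply, Submodule.reflection_singleton_apply]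
    simp [zOf, emb_zI]
  · have h1 : (ℝ ∙ (emb u - emb v))ᗮ.reflection (emb u) = emb v :=
      Submodule.reflection_sub (by rw [norm_emb, norm_emb, h])
    rw [← inner_emb, ← inner_emb, ← (ℝ ∙ (emb u - emb v))ᗮ.reflection.inner_map_map p (emb u), h1]

theorem continuous_yOf (d : ℕ) : Continuous (yOf : E (d + 2) → E d) := by
  unfold yOf; fun_prop

end BI
end Crest.Agent.R202
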