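import Crest.Agent.R202.BDefs

/-!
# Row 202, B2: admissible and small states
-/

set_option autoImplicit false
open scoped ContDiff RealInnerProductSpace Topology
open MeasureTheory Set Filter Module
open Crest.Agent.R230 (E MP sph ev Harm)

noncomputable section
namespace Crest.Agent.R202

variable {d : ℕ}

theorem contDiff_XX : ContDiff ℝ ∞ XX := by
  unfold XX; fun_prop

theorem XX_rf2 (z : E 2) : XX (rf2 z) = XX z := by
  simp [XX, rf2]

theorem adm_zero (d : ℕ) : Adm d 0 := by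
  exact ⟨contDiff_const, contDiff_const, fun _ => rfl, fun _ => rfl, fun _ _ => ⟨rfl, rfl⟩⟩

theorem Adm.add {G F : St} (hG : Adm d G) (hF : Adm d F) : Adm d (G + F) := by
  refine ⟨hG.s1.add hF.s1, hG.s2.add hF.s2, fun z => ?_, fun z => ?_, fun z hz => ?_⟩
  · simp [hG.e1, hF.e1]
  · simp [hG.e2, hF.e2]
  · simp [(hG.supp z hz).1, (hG.supp z hz).2, (hF.supp z hz).1, (hF.supp z hz).2]

theorem Adm.smul {G : St} (hG : Adm d G) (r : ℝ) : Adm d (r • G) := by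
  refine ⟨hG.s1.const_smul r, hG.s2.const_smul r, fun z => ?_, fun z => ?_, fun z hz => ?_⟩
  · simp [hG.e1]
  · simp [hG.e2]
  · simp [(hG.supp z hz).1, (hG.supp z hz).2]

theorem adm_comb {V : Type} [Fintype V] {F : V → St} (hF : ∀ v, Adm d (F v)) (a : V → ℝ) :
    Adm d (comb F a) := by
  unfold comb
  exact Finset.sum_induction _ (Adm d) (fun _ _ => Adm.add) (adm_zero d)
    fun v _ => (hF v).smul (a v)

theorem radm_zero (d : ℕ) : RAdm d 0 := by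
  exact ⟨contDiff_const, contDiff_const, fun _ _ => ⟨rfl, rfl⟩⟩

theorem RAdm.add {g f : RSt} (hg : RAdm d g) (hf : RAdm d f) : RAdm d (g + f) := by
  refine ⟨hg.s1.add hf.s1, hg.s2.add hf.s2, fun z hz => ?_⟩
  simp [(hg.supp z hz).1, (hg.supp z hz).2, (hf.supp z hz).1, (hf.supp z hz).2]

theorem RAdm.smul {g : RSt} (hg : RAdm d g) (r : ℝ) : RAdm d (r • g) := by
  refine ⟨hg.s1.const_smul r, hg.s2.const_smul r, fun z hz => ?_⟩
  simp [(hg.supp z hz).1, (hg.supp z hz).2]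

theorem RAdm.adm {g : RSt} (hg : RAdm d g) : Adm d (toSt g) := by
  refine ⟨hg.s1.comp contDiff_XX, hg.s2.comp contDiff_XX, fun z => ?_, fun z => ?_,
    fun z hz => hg.supp _ hz⟩
  · simp [toSt, XX_rf2]
  · simp [toSt, XX_rf2]

theorem toSt_zero : toSt 0 = 0 := by
  rfl

theorem toSt_add (g f : RSt) : toSt (g + f) = toSt g + toSt f := by
  rfl

theorem toSt_smul (r : ℝ) (g : RSt) : toSt (r • g) = r • toSt g := by
  rfl

theorem Sz.abs_le {f : E 2 → ℝ} {ε : ℝ} (h : Sz f ε) (z : E 2) : |f z| ≤ ε := by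
  have := h 0 (by norm_num) z
  rwa [norm_iteratedFDeriv_zero, Real.norm_eq_abs] at this

theorem Sz.mono {f : E 2 → ℝ} {ε ε' : ℝ} (h : Sz f ε) (hε : ε ≤ ε') : Sz f ε' := by
  exact fun i hi z => (h i hi z).trans hε

theorem Sz.add {f g : E 2 → ℝ} {ε ε' : ℝ} (hf : ContDiff ℝ ∞ f) (hg : ContDiff ℝ ∞ g) (h : Sz f ε)
    (h' : Sz g ε') : Sz (f + g) (ε + ε') := by
  intro i hi z
  have hi' : ((i : ℕ) : WithTop ℕ∞) ≤ ∞ := by exact_mod_cast le_top
  rw [iteratedFDeriv_add_apply (hf.of_le hi').contDiffAt (hg.of_le hi').contDiffAt]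
  exact (norm_add_le _ _).trans (add_le_add (h i hi z) (h' i hi z))

theorem Sz.smul {f : E 2 → ℝ} {ε : ℝ} (hf : ContDiff ℝ ∞ f) (h : Sz f ε) (r : ℝ) :
    Sz (r • f) (|r| * ε) := by
  intro i hi z
  have hi' : ((i : ℕ) : WithTop ℕ∞) ≤ ∞ := by exact_mod_cast le_top
  rw [iteratedFDeriv_const_smul_apply (hf.of_le hi').contDiffAt, norm_smul, Real.norm_eq_abs]
  exact mul_le_mul_of_nonneg_left (h i hi z) (abs_nonneg r)

theorem sz_zero {ε : ℝ} (h : 0 ≤ ε) : Sz 0 ε := by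
  intro i _ z
  have : iteratedFDeriv ℝ i (0 : E 2 → ℝ) = 0 := iteratedFDeriv_fun_zero
  rw [this]; simpa using h

theorem xhi_le_two (d : ℕ) : xhi d ≤ 2 := by
  unfold xhi; split_ifs <;> norm_num

theorem nine_tenth_le_xhi (d : ℕ) : (9 / 10 : ℝ) ≤ xhi d := by
  unfold xhi; split_ifs <;> norm_num

theorem XX_eq_norm_sq (z : E 2) : XX z = ‖z‖ ^ 2 := by
  rw [EuclideanSpace.real_norm_sq_eq, Fin.sum_univ_two]; rfl

theorem exists_sz_of {f : E 2 → ℝ} (hf : ContDiff ℝ ∞ f)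
    (h : ∀ z, XX z ∉ Icc (1 / 16 : ℝ) (xhi d) → f z = 0) : ∃ C : ℝ, 0 < C ∧ Sz f C := by
  have hc : HasCompactSupport f := by
    refine HasCompactSupport.intro (isCompact_closedBall (0 : E 2) 2) fun z hz => h z fun hX => hz ?_
    rw [mem_closedBall_zero_iff]
    have h1 := hX.2.trans (xhi_le_two d)
    rw [XX_eq_norm_sq] at h1
    nlinarith [norm_nonneg z]
  have hb : ∀ i : ℕ, ∃ C : ℝ, ∀ z, ‖iteratedFDeriv ℝ i f z‖ ≤ C := fun i =>
    (hc.iteratedFDeriv i).exists_bound_of_continuous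
      (hf.continuous_iteratedFDeriv (by exact_mod_cast le_top))
  choose C hC using hb
  refine ⟨1 + |C 0| + |C 1| + |C 2|, by positivity, fun i hi z => (hC i z).trans ?_⟩
  have h0 := abs_nonneg (C 0)
  have h1 := abs_nonneg (C 1)
  have h2 := abs_nonneg (C 2)
  interval_cases i
  · linarith [le_abs_self (C 0)]
  · linarith [le_abs_self (C 1)]
  · linarith [le_abs_self (C 2)]

/-- admissible states have compact support, hence finite size -/
theorem Adm.exists_sz {G : St} (hG : Adm d G) : ∃ C : ℝ, 0 < C ∧ Sz G.1 C ∧ Sz G.2 C := by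
  obtain ⟨C₁, h₁, s₁⟩ := exists_sz_of hG.s1 fun z hz => (hG.supp z hz).1
  obtain ⟨C₂, h₂, s₂⟩ := exists_sz_of hG.s2 fun z hz => (hG.supp z hz).2
  exact ⟨C₁ + C₂, by positivity, s₁.mono (by linarith), s₂.mono (by linarith)⟩

theorem sz_comb {V : Type} [Fintype V] {F : V → St} (hF : ∀ v, Adm d (F v)) :
    ∃ C : ℝ, 0 < C ∧ ∀ a : V → ℝ, Sz (comb F a).1 (C * ‖a‖) ∧ Sz (comb F a).2 (C * ‖a‖) := by
  classical
  choose C hC h1 h2 using fun v => (hF v).exists_sz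
  refine ⟨1 + ∑ v, C v, by have := Finset.sum_nonneg fun v (_ : v ∈ Finset.univ) => (hC v).le; linarith,
    fun a => ?_⟩
  have key : ∀ s : Finset V, Adm d (∑ v ∈ s, a v • F v) ∧
      Sz (∑ v ∈ s, a v • F v).1 ((∑ v ∈ s, C v) * ‖a‖) ∧
      Sz (∑ v ∈ s, a v • F v).2 ((∑ v ∈ s, C v) * ‖a‖) := by
    intro s
    induction s using Finset.induction_on with
    | empty => simpa using ⟨adm_zero d, sz_zero le_rfl⟩
    | insert v s hv ih =>
      rw [Finset.sum_insert hv, Finset.sum_insert hv]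
      have hav : |a v| * C v ≤ C v * ‖a‖ := by
        rw [mul_comm]
        exact mul_le_mul_of_nonneg_left (by simpa using norm_le_pi_norm a v) (hC v).le
      refine ⟨((hF v).smul _).add ih.1, ?_, ?_⟩
      · refine (Sz.add ((hF v).smul (a v)).s1 ih.1.s1 (Sz.smul (hF v).s1 (h1 v) (a v))
          ih.2.1).mono ?_
        rw [add_mul]; linarith
      · refine (Sz.add ((hF v).smul (a v)).s2 ih.1.s2 (Sz.smul (hF v).s2 (h2 v) (a v))
          ih.2.2).mono ?_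
        rw [add_mul]; linarith
  have hle : (∑ v, C v) * ‖a‖ ≤ (1 + ∑ v, C v) * ‖a‖ :=
    mul_le_mul_of_nonneg_right (by linarith) (norm_nonneg a)
  exact ⟨(key Finset.univ).2.1.mono hle, (key Finset.univ).2.2.mono hle⟩

theorem comb_add {V : Type} [Fintype V] (F : V → St) (a b : V → ℝ) :
    comb F (a + b) = comb F a + comb F b := by
  simp only [comb, Pi.add_apply, add_smul, Finset.sum_add_distrib]

theorem comb_smul {V : Type} [Fintype V] (F : V → St) (r : ℝ) (a : V → ℝ) :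
    comb F (r • a) = r • comb F a := by
  simp only [comb, Pi.smul_apply, smul_eq_mul, mul_smul, Finset.smul_sum]

theorem comb_single {V : Type} [Fintype V] [DecidableEq V] (F : V → St) (v : V) :
    comb F (Pi.single v 1) = F v := by
  unfold comb
  rw [Finset.sum_eq_single v]
  · simp
  · intro w _ hw; simp [Pi.single_eq_of_ne hw]
  · simp

theorem small_zero {ε γ₀ : ℝ} (hε : 0 < ε) (hγ : 0 < γ₀) : Small d ε γ₀ 0 := by
  exact ⟨adm_zero d, 0, 0, hε, hγ, sz_zero le_rfl, sz_zero le_rfl⟩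

theorem Small.abs_le {ε γ₀ : ℝ} {G : St} (h : Small d ε γ₀ G) (z : E 2) :
    |G.1 z| ≤ ε ∧ |G.2 z| ≤ γ₀ := by
  obtain ⟨ε', γ', h1, h2, s1, s2⟩ := h.sz
  exact ⟨(s1.abs_le z).trans h1.le, (s2.abs_le z).trans h2.le⟩

theorem Small.convex {ε γ₀ : ℝ} {G G' : St} (h : Small d ε γ₀ G) (h' : Small d ε γ₀ G') {τ : ℝ}
    (hτ : τ ∈ Icc (0 : ℝ) 1) : Small d ε γ₀ ((1 - τ) • G + τ • G') := by
  obtain ⟨ε₁, γ₁, h1, h2, s1, s2⟩ := h.sz
  obtain ⟨ε₂, γ₂, h1', h2', s1', s2'⟩ := h'.sz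
  have ha : |1 - τ| = 1 - τ := abs_of_nonneg (by linarith [hτ.2])
  have hb : |τ| = τ := abs_of_nonneg hτ.1
  refine ⟨(h.adm.smul _).add (h'.adm.smul _), max ε₁ ε₂, max γ₁ γ₂, max_lt h1 h1', max_lt h2 h2',
    ?_, ?_⟩
  · refine (Sz.add (h.adm.smul (1 - τ)).s1 (h'.adm.smul τ).s1 (Sz.smul h.adm.s1 s1 (1 - τ))
      (Sz.smul h'.adm.s1 s1' τ)).mono ?_
    rw [ha, hb]
    nlinarith [le_max_left ε₁ ε₂, le_max_right ε₁ ε₂, hτ.1, hτ.2]
  · refine (Sz.add (h.adm.smul (1 - τ)).s2 (h'.adm.smul τ).s2 (Sz.smul h.adm.s2 s2 (1 - τ))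
      (Sz.smul h'.adm.s2 s2' τ)).mono ?_
    rw [ha, hb]
    nlinarith [le_max_left γ₁ γ₂, le_max_right γ₁ γ₂, hτ.1, hτ.2]

theorem Small.exists_room {ε γ₀ C : ℝ} {G : St} (h : Small d ε γ₀ G) (hC : 0 < C) :
    ∃ r₀ : ℝ, 0 < r₀ ∧ ∀ F : St, Adm d F → Sz F.1 (C * r₀) → Sz F.2 (C * r₀) →
      Small d ε γ₀ (G + F) := by
  obtain ⟨ε', γ', h1, h2, s1, s2⟩ := h.sz
  have hm : 0 < min (ε - ε') (γ₀ - γ') := lt_min (by linarith) (by linarith)
  refine ⟨min (ε - ε') (γ₀ - γ') / (2 * C), by positivity, fun F hF c1 c2 => ?_⟩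
  have e : C * (min (ε - ε') (γ₀ - γ') / (2 * C)) = min (ε - ε') (γ₀ - γ') / 2 := by
    field_simp
  rw [e] at c1 c2
  refine ⟨h.adm.add hF, _, _, ?_, ?_, Sz.add h.adm.s1 hF.s1 s1 c1, Sz.add h.adm.s2 hF.s2 s2 c2⟩
  · linarith [min_le_left (ε - ε') (γ₀ - γ')]
  · linarith [min_le_right (ε - ε') (γ₀ - γ')]

theorem Small.open_dir {ε γ₀ : ℝ} {G F : St} (h : Small d ε γ₀ G) (hF : Adm d F) :
    ∃ r₀ : ℝ, 0 < r₀ ∧ ∀ r, |r| ≤ r₀ → Small d ε γ₀ (G + r • F) := by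
  obtain ⟨C, hC, c1, c2⟩ := hF.exists_sz
  obtain ⟨r₀, hr₀, hr⟩ := h.exists_room hC
  refine ⟨r₀, hr₀, fun r hrr => hr _ (hF.smul r) ?_ ?_⟩
  · exact (Sz.smul hF.s1 c1 r).mono (by nlinarith)
  · exact (Sz.smul hF.s2 c2 r).mono (by nlinarith)

theorem Small.open_comb {V : Type} [Fintype V] {ε γ₀ : ℝ} {G : St} (h : Small d ε γ₀ G)
    {F : V → St} (hF : ∀ v, Adm d (F v)) :
    ∃ r₀ : ℝ, 0 < r₀ ∧ ∀ a : V → ℝ, ‖a‖ ≤ r₀ → Small d ε γ₀ (G + comb F a) := by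
  obtain ⟨C, hC, hc⟩ := sz_comb hF
  obtain ⟨r₀, hr₀, hr⟩ := h.exists_room hC
  refine ⟨r₀, hr₀, fun a ha => hr _ (adm_comb hF a) ?_ ?_⟩
  · exact (hc a).1.mono (by nlinarith)
  · exact (hc a).2.mono (by nlinarith)

theorem ev_Hpair_rf2 (r : ℕ) (z : E 2) :
    ev (Hpair r).1 (rf2 z) = ev (Hpair r).1 z ∧ ev (Hpair r).2 (rf2 z) = -ev (Hpair r).2 z := by
  have h0 : rf2 z 0 = z 0 := rfl
  have h1 : rf2 z 1 = -z 1 := rfl
  induction r with
  | zero => simp [Hpair]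
  | succ r ih =>
    simp only [Hpair, Crest.Agent.R230.ev_sub, Crest.Agent.R230.ev_add, Crest.Agent.R230.ev_mul,
      Crest.Agent.R230.ev_X, ih.1, ih.2, h0, h1]
    constructor <;> ring

/-- the direction `φ(X) Re z^r` is admissible -/
theorem adm_ang {φ : ℝ → ℝ} (hφ : ContDiff ℝ ∞ φ)
    (h : ∀ X, X ∉ Icc (1 / 16 : ℝ) (9 / 10) → φ X = 0) (r : ℕ) :
    Adm d (fun z => φ (XX z) * ev (Hp true r) z, 0) := by
  refine ⟨(hφ.comp contDiff_XX).mul (Crest.Agent.R230.contDiff_ev _), contDiff_const,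
    fun z => ?_, fun _ => rfl, fun z hz => ⟨?_, rfl⟩⟩
  · show φ (XX (rf2 z)) * ev (Hp true r) (rf2 z) = φ (XX z) * ev (Hp true r) z
    rw [XX_rf2]
    congr 1
    simpa [Hp] using (ev_Hpair_rf2 r z).1
  · show φ (XX z) * ev (Hp true r) z = 0
    rw [h _ fun hX => hz ⟨hX.1, hX.2.trans (nine_tenth_le_xhi d)⟩, zero_mul]

end Crest.Agent.R202
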