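import Crest.Agent.R202.BForm
import Crest.Agent.R202.BState
import Crest.Agent.R202.CBasic
import Crest.Agent.R202.BInvAux

/-!
# Row 202, B5: averaging over the sphere `S^{d-1}`

`int_prod`: for `b` homogeneous of degree `e` on `ℝ^d` and `a` bounded measurable,
`∫ a(z) b(y) = (∫_{S^{d-1}} b) · ∫ a(z) |y|^e`.  Proof: the functional `T b = ∫ a(z) b(y)` on the
finite-dimensional space of homogeneous polynomials of degree `e` is invariant under `O(d)` acting on
`y` (`R230.integral_comp_iso` for the block isometry).  One way: by Fubini,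
`∫_{ω ∈ S^{d-1}} ∫_p a(z) b(|y| ω)` equals the right side; and `ω`-averaging does not change `T`
(represent `T b = ∫_{S^{d-1}} b c` by Riesz on the homogeneous polynomials of degree `e`; `c` is
invariant, hence constant on the sphere by `R230.exists_iso_map`; fix the constant with `b = |y|^e` for
even `e`; for odd `e` both sides vanish by `y ↦ -y`).
-/

set_option autoImplicit false
open scoped ContDiff RealInnerProductSpace Topology
open MeasureTheory Set Filter Module
open Crest.Agent.R230 (E MP sph ev Harm)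

noncomputable section
namespace Crest.Agent.R202

variable {d : ℕ} [NeZero d]

theorem norm_sq_split (p : E (d + 2)) : ‖p‖ ^ 2 = XX (zOf p) + ‖yOf p‖ ^ 2 := by
  rw [EuclideanSpace.real_norm_sq_eq, EuclideanSpace.real_norm_sq_eq, Fin.sum_univ_succ,
    Fin.sum_univ_succ, ← add_assoc]
  rfl

theorem ae_XX : ∀ᵐ p ∂sph (d + 2), 0 < XX (zOf p) ∧ XX (zOf p) < 1 := by
  have hd : 0 < d := Nat.pos_of_ne_zero (NeZero.ne d)
  have h1 := Crest.Agent.R230.ae_inner_ne (n := d + 2)
    (q := EuclideanSpace.single (zI d 0) (1 : ℝ)) (by simp)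
  have h2 := Crest.Agent.R230.ae_inner_ne (n := d + 2)
    (q := EuclideanSpace.single (yI d ⟨0, hd⟩) (1 : ℝ)) (by simp)
  filter_upwards [h1, h2, Crest.Agent.R230.ae_norm (n := d + 2)] with p hp1 hp2 hp
  rw [Crest.Agent.R230.GreenAux.inner_single] at hp1 hp2
  constructor
  · have e : XX (zOf p) = p (zI d 0) ^ 2 + p (zI d 1) ^ 2 := rfl
    rw [e]
    positivity
  · have h3 := norm_sq_split p
    have h4 : yOf p ≠ 0 := fun h => hp2 (by
      have := congrArg (fun v : E d => v ⟨0, hd⟩) h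
      exact this)
    have h5 : 0 < ‖yOf p‖ ^ 2 := by positivity
    rw [hp] at h3
    linarith

theorem ev_iota (Y : MP d) (π : MP 2) (x : E (d + 2)) :
    ev (iota Y π) x = ev Y (yOf x) * ev π (zOf x) := by
  simp only [iota, LinearMap.comp_apply, LinearMap.mulLeft_apply, AlgHom.toLinearMap_apply, ev,
    map_mul, MvPolynomial.eval_rename]
  rfl

theorem int_prod {e : ℕ} {b : MP d} (hb : b.IsHomogeneous e) {a : E 2 → ℝ} (ha : Measurable a)
    {C : ℝ} (hC : ∀ z, XX z < 1 → |a z| ≤ C) :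
    ∫ p, a (zOf p) * ev b (yOf p) ∂sph (d + 2) =
      (∫ o, ev b o ∂sph d) * ∫ p, a (zOf p) * Real.sqrt (1 - XX (zOf p)) ^ e ∂sph (d + 2) := by
  have hd : 1 ≤ d := Nat.pos_of_ne_zero (NeZero.ne d)
  have := Crest.Agent.R230.sph_prob hd
  have ham : Measurable fun p : E (d + 2) => a (zOf p) := ha.comp (continuous_zOf d).measurable
  have hab : ∀ᵐ p ∂sph (d + 2), ‖a (zOf p)‖ ≤ C := ae_XX.mono fun p hp => hC _ hp.2
  have hint : ∀ g : E (d + 2) → ℝ, Continuous g →
      Integrable (fun p => a (zOf p) * g p) (sph (d + 2)) := fun g hg =>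
    (Crest.Agent.R230.integrable_of_continuous hg).bdd_mul ham.aestronglyMeasurable hab
  set c := ∫ p, a (zOf p) * Real.sqrt (1 - XX (zOf p)) ^ e ∂sph (d + 2) with hc
  have hev : ∀ b : MP d, Continuous fun p : E (d + 2) => ev b (yOf p) := fun b =>
    (Crest.Agent.R230.continuous_ev b).comp (BI.continuous_yOf d)
  let Λ : MP d →ₗ[ℝ] ℝ :=
    { toFun := fun b => ∫ p, a (zOf p) * ev b (yOf p) ∂sph (d + 2) - (∫ o, ev b o ∂sph d) * c
      map_add' := fun b b' => by
        simp only [Crest.Agent.R230.ev_add, mul_add]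
        rw [integral_add (hint _ (hev b)) (hint _ (hev b')), integral_add
          (Crest.Agent.R230.integrable_of_continuous (Crest.Agent.R230.continuous_ev b))
          (Crest.Agent.R230.integrable_of_continuous (Crest.Agent.R230.continuous_ev b'))]
        ring
      map_smul' := fun r b => by
        simp only [Crest.Agent.R230.ev_smul, RingHom.id_apply, smul_eq_mul, mul_left_comm _ r,
          integral_const_mul]
        ring }
  obtain ⟨u₀, hu₀⟩ := BI.exists_unit hd
  -- the function `t u = ∫ a(z) ⟪y, u⟫ ^ e`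
  let t : E d → ℝ := fun u => ∫ p, a (zOf p) * ⟪yOf p, u⟫ ^ e ∂sph (d + 2)
  have ht : ∀ u, t u = ‖u‖ ^ e * t u₀ := by
    intro u
    obtain ⟨S, hS⟩ := BI.exists_blk (u := ‖u‖ • u₀) (v := u) (by
      rw [norm_smul, hu₀, mul_one, norm_norm])
    simp only [t]
    rw [← Crest.Agent.R230.integral_comp_iso S (fun p => a (zOf p) * ⟪yOf p, u⟫ ^ e),
      ← integral_const_mul]
    refine integral_congr_ae (Eventually.of_forall fun p => ?_)
    simp only [(hS p).1, (hS p).2, real_inner_smul_right, mul_pow]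
    ring
  have hprod : Integrable (Function.uncurry fun (o : E d) (p : E (d + 2)) =>
      a (zOf p) * ⟪yOf p, o⟫ ^ e) ((sph d).prod (sph (d + 2))) := by
    have hm : Measurable (Function.uncurry fun (o : E d) (p : E (d + 2)) =>
        a (zOf p) * ⟪yOf p, o⟫ ^ e) := by
      have h1 : Continuous fun q : E d × E (d + 2) => ⟪yOf q.2, q.1⟫ ^ e :=
        (((BI.continuous_yOf d).comp continuous_snd).inner continuous_fst).pow e
      exact (ham.comp measurable_snd).mul h1.measurable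
    refine Integrable.of_bound hm.aestronglyMeasurable C ?_
    filter_upwards [Measure.quasiMeasurePreserving_fst.ae (Crest.Agent.R230.ae_norm (n := d)),
      Measure.quasiMeasurePreserving_snd.ae (Crest.Agent.R230.ae_norm (n := d + 2)),
      Measure.quasiMeasurePreserving_snd.ae hab] with q h1 h2 h3
    have h4 : ‖yOf q.2‖ ≤ 1 := by
      have h5 := norm_sq_split q.2
      have h6 : 0 ≤ XX (zOf q.2) := by unfold XX; positivity
      rw [h2] at h5
      nlinarith [norm_nonneg (yOf q.2)]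
    have h5 : |⟪yOf q.2, q.1⟫| ≤ 1 := by
      have := abs_real_inner_le_norm (yOf q.2) q.1
      rw [h1, mul_one] at this
      exact this.trans h4
    have h6 : ‖⟪yOf q.2, q.1⟫ ^ e‖ ≤ 1 := by
      rw [norm_pow]
      exact pow_le_one₀ (norm_nonneg _) h5
    show ‖a (zOf q.2) * ⟪yOf q.2, q.1⟫ ^ e‖ ≤ C
    rw [norm_mul]
    calc _ ≤ C * 1 := mul_le_mul h3 h6 (norm_nonneg _) ((norm_nonneg _).trans h3)
      _ = C := mul_one C
  have ht0 : t u₀ = (∫ o, ⟪u₀, o⟫ ^ e ∂sph d) * c := by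
    have h1 : ∫ o, t o ∂sph d = t u₀ := by
      rw [integral_congr_ae (g := fun _ => t u₀)
        ((Crest.Agent.R230.ae_norm (n := d)).mono fun o ho => by
          show t o = t u₀
          rw [ht o, ho, one_pow, one_mul])]
      simp
    rw [← h1]
    simp only [t]
    rw [integral_integral_swap hprod, hc, ← integral_const_mul]
    refine integral_congr_ae ?_
    filter_upwards [Crest.Agent.R230.ae_norm (n := d + 2)] with p hp
    have h2 : Real.sqrt (1 - XX (zOf p)) = ‖yOf p‖ := by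
      have h3 := norm_sq_split p
      rw [hp] at h3
      rw [show 1 - XX (zOf p) = ‖yOf p‖ ^ 2 by linarith, Real.sqrt_sq (norm_nonneg _)]
    rw [integral_const_mul, BI.int_inner_pow hu₀, h2]
    ring
  have key : ∀ l ∈ MvPolynomial.homogeneousSubmodule (Fin d) ℝ 1, Λ (l ^ e) = 0 := by
    intro l hl
    rw [MvPolynomial.homogeneousSubmodule_one_eq_span_X,
      Submodule.mem_span_range_iff_exists_fun] at hl
    obtain ⟨w, rfl⟩ := hl
    let u : E d := WithLp.toLp 2 w
    have hl : ∀ y : E d, ev (∑ i, w i • MvPolynomial.X i) y = ⟪y, u⟫ := fun y => by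
      rw [Crest.Agent.R230.ev_sum, Crest.Agent.R230.GreenAux.inner_sum]
      refine Finset.sum_congr rfl fun i _ => ?_
      rw [Crest.Agent.R230.ev_smul, Crest.Agent.R230.ev_X, mul_comm]
    show ∫ p, a (zOf p) * ev ((∑ i, w i • MvPolynomial.X i) ^ e) (yOf p) ∂sph (d + 2) -
      (∫ o, ev ((∑ i, w i • MvPolynomial.X i) ^ e) o ∂sph d) * c = 0
    simp only [Crest.Agent.R230.ev_pow, hl]
    have h1 : ∫ o, ⟪o, u⟫ ^ e ∂sph d = ‖u‖ ^ e * ∫ o, ⟪u₀, o⟫ ^ e ∂sph d := by
      rw [← BI.int_inner_pow hu₀]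
      simp only [real_inner_comm]
    have h2 := ht u
    simp only [t] at h2 ht0
    rw [h1, h2, ht0]
    ring
  have hb' : b ∈ MvPolynomial.homogeneousSubmodule (Fin d) ℝ 1 ^ e := by
    rw [MvPolynomial.homogeneousSubmodule_one_pow]
    exact hb
  exact sub_eq_zero.1 (BI.polarise _ e Λ key b hb')

/-- Green's formula and orthogonality on `S^{d-1}`, including `d = 1` -/
theorem harm_pair {j j' : ℕ} {Y Y' : MP d} (hY : Y ∈ Harm d j) (hY' : Y' ∈ Harm d j') :
    (j ≠ j' → ∫ o, ev (Y * Y') o ∂sph d = 0) ∧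
      ∫ o, ev (∑ a, MvPolynomial.pderiv a Y * MvPolynomial.pderiv a Y') o ∂sph d =
        (Jd d j + (j : ℝ) * j') * ∫ o, ev (Y * Y') o ∂sph d := by
  have h1 := Crest.Agent.R230.green (Crest.Agent.R230.good_ev Y') hY
  have h2 := Crest.Agent.R230.green (Crest.Agent.R230.good_ev Y) hY'
  have h3 : ∫ o, ev Y' o * ev Y o ∂sph d = ∫ o, ev (Y * Y') o ∂sph d := by
    simp only [Crest.Agent.R230.ev_mul, mul_comm]
  have h4 : ∫ o, ev Y o * ev Y' o ∂sph d = ∫ o, ev (Y * Y') o ∂sph d := by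
    simp only [Crest.Agent.R230.ev_mul]
  have h5 : ∫ p, ⟪Crest.Agent.R230.tg (ev Y') p, Crest.Agent.R230.tg (ev Y) p⟫ ∂sph d =
      ∫ p, ⟪Crest.Agent.R230.tg (ev Y) p, Crest.Agent.R230.tg (ev Y') p⟫ ∂sph d := by
    simp only [real_inner_comm]
  rw [h3] at h1
  rw [h4] at h2
  constructor
  · intro hne
    by_cases hl : Crest.Agent.R230.lam d j = Crest.Agent.R230.lam d j'
    · have hd : 1 ≤ d := Nat.pos_of_ne_zero (NeZero.ne d)
      have hodd : j + j' = 1 := by
        unfold Crest.Agent.R230.lam at hl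
        have e1 : ((j : ℝ) - j') * ((j : ℝ) + j' + d - 2) = 0 := by linarith
        have e2 : (j : ℝ) + j' + d - 2 = 0 :=
          (mul_eq_zero.1 e1).resolve_left (sub_ne_zero.2 (by exact_mod_cast hne))
        have e3 : j + j' + d = 2 := by
          have : (j : ℝ) + j' + d = 2 := by linarith
          exact_mod_cast this
        omega
      have hh : (Y * Y').IsHomogeneous 1 := hodd ▸ hY.1.mul hY'.1
      have h6 := Crest.Agent.R230.integral_comp_neg (n := d) (ev (Y * Y'))
      simp only [Crest.Agent.R230.ev_neg_arg hh, pow_one, neg_mul, one_mul, integral_neg] at h6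
      linarith
    · have h6 : (Crest.Agent.R230.lam d j - Crest.Agent.R230.lam d j') *
          ∫ o, ev (Y * Y') o ∂sph d = 0 := by
        rw [sub_mul, ← h1, ← h2, h5, sub_self]
      exact (mul_eq_zero.1 h6).resolve_left (sub_ne_zero.2 hl)
  · have h6 : ∫ o, ev (∑ a, MvPolynomial.pderiv a Y * MvPolynomial.pderiv a Y') o ∂sph d =
        ∫ p, (⟪Crest.Agent.R230.tg (ev Y') p, Crest.Agent.R230.tg (ev Y) p⟫ +
          (j : ℝ) * j' * ev (Y * Y') p) ∂sph d := by
      refine integral_congr_ae ?_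
      filter_upwards [Crest.Agent.R230.ae_norm (n := d)] with p hp
      have e1 : ev (∑ a, MvPolynomial.pderiv a Y * MvPolynomial.pderiv a Y') p =
          ⟪gradient (ev Y') p, gradient (ev Y) p⟫ := by
        rw [Crest.Agent.R230.ev_sum, Crest.Agent.R230.GreenAux.inner_sum]
        refine Finset.sum_congr rfl fun i _ => ?_
        rw [Crest.Agent.R230.ev_mul, Crest.Agent.R230.gradient_ev_apply,
          Crest.Agent.R230.gradient_ev_apply, mul_comm]
      have e2 := Crest.Agent.R230.inner_gradient_ev_self hY.1 p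
      have e3 := Crest.Agent.R230.inner_gradient_ev_self hY'.1 p
      have e4 : ⟪p, gradient (ev Y) p⟫ = j * ev Y p := by rw [real_inner_comm, e2]
      rw [e1, Crest.Agent.R230.ev_mul]
      simp only [Crest.Agent.R230.tg, inner_sub_left, inner_sub_right, real_inner_smul_left,
        real_inner_smul_right, e2, e3, e4, real_inner_self_eq_norm_sq, hp]
      ring
    have i1 : Integrable (fun p => ⟪Crest.Agent.R230.tg (ev Y') p, Crest.Agent.R230.tg (ev Y) p⟫)
        (sph d) := Crest.Agent.R230.integrable_of_continuous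
      ((Crest.Agent.R230.continuous_tg_ev Y').inner (Crest.Agent.R230.continuous_tg_ev Y))
    have i2 : Integrable (fun p => (j : ℝ) * j' * ev (Y * Y') p) (sph d) :=
      (Crest.Agent.R230.integrable_of_continuous (Crest.Agent.R230.continuous_ev _)).const_mul _
    rw [h6, integral_add i1 i2, h1, integral_const_mul]
    have : Jd d j = Crest.Agent.R230.lam d j := rfl
    rw [this]
    ring

theorem exists_harm_ne {j : ℕ} (hj : okJ d j) : ∃ Y ∈ Harm d j, ∫ o, ev (Y * Y) o ∂sph d = 1 := by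
  have hd : 1 ≤ d := Nat.pos_of_ne_zero (NeZero.ne d)
  obtain ⟨Y, hY, hne⟩ := BI.exists_harm_nz hd hj
  have h0 : 0 ≤ ∫ o, ev (Y * Y) o ∂sph d := integral_nonneg fun o => by
    rw [Crest.Agent.R230.ev_mul]; exact mul_self_nonneg _
  have h1 : 0 < ∫ o, ev (Y * Y) o ∂sph d :=
    h0.lt_of_ne' fun h => hne (BI.eq_zero_of_int hd hY.1 h)
  refine ⟨(Real.sqrt (∫ o, ev (Y * Y) o ∂sph d))⁻¹ • Y, Submodule.smul_mem _ _ hY, ?_⟩
  rw [smul_mul_smul_comm]
  simp only [Crest.Agent.R230.ev_smul, integral_const_mul]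
  rw [← mul_inv, Real.mul_self_sqrt h0, inv_mul_cancel₀ h1.ne']

/-- orthonormal families of harmonic polynomials -/
theorem exists_harm_on (j : ℕ) : ∃ Y : Fin (finrank ℝ (Harm d j)) → MP d, (∀ a, Y a ∈ Harm d j) ∧
    ∀ a b, ∫ o, ev (Y a * Y b) o ∂sph d = if a = b then 1 else 0 := by
  have hd : 1 ≤ d := Nat.pos_of_ne_zero (NeZero.ne d)
  have hi : ∀ Y : MP d, Integrable (ev Y) (sph d) := fun Y =>
    Crest.Agent.R230.integrable_of_continuous (Crest.Agent.R230.continuous_ev Y)
  let I : MP d →ₗ[ℝ] ℝ :=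
    { toFun := fun Y => ∫ o, ev Y o ∂sph d
      map_add' := fun Y Z => by
        simp only [Crest.Agent.R230.ev_add]
        exact integral_add (hi Y) (hi Z)
      map_smul' := fun r Y => by
        simp only [Crest.Agent.R230.ev_smul, integral_const_mul, RingHom.id_apply, smul_eq_mul] }
  let B : LinearMap.BilinForm ℝ (Harm d j) :=
    ((LinearMap.mul ℝ (MP d)).compr₂ I).compl₁₂ (Harm d j).subtype (Harm d j).subtype
  have hB : ∀ Y Z : Harm d j, B Y Z = ∫ o, ev (Y.1 * Z.1) o ∂sph d := fun Y Z => rfl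
  have hs : LinearMap.IsSymm B := ⟨fun Y Z => by
    rw [RingHom.id_apply, hB, hB, mul_comm]⟩
  obtain ⟨v, hv⟩ := LinearMap.BilinForm.exists_orthogonal_basis (B := B) hs
  have h0 : ∀ a, 0 ≤ B (v a) (v a) := fun a => by
    rw [hB]
    exact integral_nonneg fun o => by
      rw [Crest.Agent.R230.ev_mul]; exact mul_self_nonneg _
  have h1 : ∀ a, 0 < B (v a) (v a) := fun a => (h0 a).lt_of_ne' fun h =>
    v.ne_zero a (Subtype.ext (BI.eq_zero_of_int hd (v a).2.1 h))
  refine ⟨fun a => (Real.sqrt (B (v a) (v a)))⁻¹ • (v a).1,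
    fun a => Submodule.smul_mem _ _ (v a).2, fun a b => ?_⟩
  rw [smul_mul_smul_comm]
  simp only [Crest.Agent.R230.ev_smul, integral_const_mul]
  rw [← hB]
  split_ifs with h
  · subst h
    rw [← mul_inv, Real.mul_self_sqrt (h0 a), inv_mul_cancel₀ (h1 a).ne']
  · have : B (v a) (v b) = 0 := hv h
    rw [this, mul_zero]

theorem finrank_harm_pos {j : ℕ} (hj : okJ d j) : 1 ≤ finrank ℝ (Harm d j) := by
  have hd : 1 ≤ d := Nat.pos_of_ne_zero (NeZero.ne d)
  obtain ⟨Y, hY, hne⟩ := BI.exists_harm_nz hd hj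
  exact Module.finrank_pos_iff_exists_ne_zero.2 ⟨⟨Y, hY⟩, fun h => hne (congrArg Subtype.val h)⟩

/-- `lap` maps homogeneous polynomials of degree `j` to those of degree `j - 2` -/
theorem finrank_harm_six (j : ℕ) :
    Nat.choose (j + 4) 4 + Nat.choose (j + 3) 4 ≤ finrank ℝ (Harm 6 j) := by
  rcases j with _ | _ | k
  · exact finrank_harm_pos (d := 6) (j := 0) fun h => absurd h (by norm_num)
  · rw [BI.harm_one, BI.finrank_hom]
    decide
  · have h := BI.finrank_harm_ge (n := 6) k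
    rw [BI.finrank_hom, BI.finrank_hom] at h
    have e1 : (6 + (k + 2) - 1).choose (k + 2) = (k + 7).choose 5 := by
      rw [show 6 + (k + 2) - 1 = (k + 2) + 5 by omega, Nat.choose_symm_add]
    have e2 : (6 + k - 1).choose k = (k + 5).choose 5 := by
      rw [show 6 + k - 1 = k + 5 by omega, Nat.choose_symm_add]
    have e3 : (k + 7).choose 5 = (k + 6).choose 4 + (k + 6).choose 5 := Nat.choose_succ_succ _ _
    have e4 : (k + 6).choose 5 = (k + 5).choose 4 + (k + 5).choose 5 := Nat.choose_succ_succ _ _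
    rw [e1, e2] at h
    show (k + 6).choose 4 + (k + 5).choose 4 ≤ finrank ℝ (Harm 6 (k + 2))
    omega

/-- the measure `mS` charges every subinterval of `(0,1)` -/
theorem mS_pos {f : ℝ → ℝ} (hf : ContinuousOn f (Ioo 0 1)) {C : ℝ}
    (hC : ∀ X ∈ Ioo (0 : ℝ) 1, |f X| ≤ C) (hm : Measurable f) (h0 : ∀ X ∈ Ioo (0 : ℝ) 1, 0 ≤ f X)
    {X₀ : ℝ} (hX : X₀ ∈ Ioo (0 : ℝ) 1) (h : 0 < f X₀) : 0 < mS d f := by
  have hXc : Continuous fun p : E (d + 2) => XX (zOf p) := continuous_XX.comp (continuous_zOf d)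
  have hi : Integrable (fun p : E (d + 2) => f (XX (zOf p))) (sph (d + 2)) :=
    Integrable.of_bound (hm.comp hXc.measurable).aestronglyMeasurable C
      (ae_XX.mono fun p hp => hC _ hp)
  have hn : 0 ≤ᵐ[sph (d + 2)] fun p : E (d + 2) => f (XX (zOf p)) :=
    ae_XX.mono fun p hp => h0 _ hp
  refine (integral_nonneg_of_ae hn).lt_of_ne' fun hz => ?_
  have h1 := (integral_eq_zero_iff_of_nonneg_ae hn hi).1 hz
  obtain ⟨δ, hδ, hball⟩ : ∃ δ > 0, ∀ X, dist X X₀ < δ → 0 < f X := by
    have := (hf.continuousAt (Ioo_mem_nhds hX.1 hX.2)).eventually (lt_mem_nhds h)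
    exact Metric.eventually_nhds_iff.1 this
  let g : E (d + 2) → ℝ := fun p => max 0 (δ - dist (XX (zOf p)) X₀)
  have hg : Continuous g := continuous_const.max (continuous_const.sub (hXc.dist continuous_const))
  have h2 : ∀ᵐ p ∂sph (d + 2), g p = 0 := by
    filter_upwards [h1] with p hp
    refine max_eq_left (sub_nonpos.2 (not_lt.1 fun hlt => ?_))
    exact (hball _ hlt).ne' hp
  have hd : 1 ≤ d := Nat.pos_of_ne_zero (NeZero.ne d)
  obtain ⟨u, hu⟩ := BI.exists_unit hd
  let p : E (d + 2) := WithLp.toLp 2 (Fin.cons (Real.sqrt X₀)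
    (Fin.cons 0 fun a => Real.sqrt (1 - X₀) * u a))
  have hp1 : XX (zOf p) = X₀ := by
    have : XX (zOf p) = Real.sqrt X₀ ^ 2 + 0 ^ 2 := rfl
    rw [this, Real.sq_sqrt hX.1.le]
    ring
  have hp2 : yOf p = Real.sqrt (1 - X₀) • u := rfl
  have hp : ‖p‖ = 1 := by
    have h3 := norm_sq_split p
    rw [hp1, hp2, norm_smul, hu, mul_one, Real.norm_eq_abs, sq_abs,
      Real.sq_sqrt (sub_nonneg.2 hX.2.le)] at h3
    nlinarith [norm_nonneg p]
  have h3 := Crest.Agent.R230.eq_on_sphere hg.continuousOn h2 hp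
  simp only [g, hp1, dist_self, sub_zero] at h3
  rw [max_eq_right hδ.le] at h3
  exact hδ.ne' h3

theorem mS_congr {f g : ℝ → ℝ} (h : ∀ X ∈ Ioo (0 : ℝ) 1, f X = g X) : mS d f = mS d g := by
  exact integral_congr_ae (ae_XX.mono fun p hp => h _ hp)

/-- fundamental lemma of the calculus of variations for `mS` -/
theorem eq_zero_of_mS {F : ℝ → ℝ} {Xa Xb : ℝ} (ha : 0 ≤ Xa) (hb : Xb ≤ 1)
    (hF : ContinuousOn F (Ioo Xa Xb))
    (h : ∀ φ : ℝ → ℝ, ContDiff ℝ ∞ φ → (∃ Ya Yb, Xa < Ya ∧ Yb < Xb ∧ ∀ X, X ∉ Icc Ya Yb → φ X = 0) →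
      mS d (fun X => φ X * F X) = 0) : ∀ X ∈ Ioo Xa Xb, F X = 0 := by
  intro X₀ hX
  by_contra hne
  obtain ⟨δ, hδ, hball⟩ : ∃ δ > 0, ∀ X, dist X X₀ < δ → X ∈ Ioo Xa Xb ∧ 0 < F X₀ * F X := by
    have h1 : ContinuousAt (fun X => F X₀ * F X) X₀ :=
      continuousAt_const.mul (hF.continuousAt (Ioo_mem_nhds hX.1 hX.2))
    have h2 := h1.eventually (lt_mem_nhds (mul_self_pos.2 hne))
    exact Metric.eventually_nhds_iff.1 ((show ∀ᶠ X in 𝓝 X₀, X ∈ Ioo Xa Xb from
      Ioo_mem_nhds hX.1 hX.2).and h2)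
  let β : ContDiffBump X₀ := ⟨δ / 4, δ / 2, by linarith, by linarith⟩
  have hz : ∀ X, X ∉ Icc (X₀ - δ / 2) (X₀ + δ / 2) → β X = 0 := by
    intro X hX'
    refine β.zero_of_le_dist (not_lt.1 fun hlt => hX' ?_)
    have : |X - X₀| < δ / 2 := hlt
    rw [abs_lt] at this
    exact ⟨by linarith [this.1], by linarith [this.2]⟩
  have hin : ∀ X ∈ Icc (X₀ - δ / 2) (X₀ + δ / 2), dist X X₀ < δ := by
    intro X hX'
    show |X - X₀| < δ
    rw [abs_lt]
    exact ⟨by linarith [hX'.1], by linarith [hX'.2]⟩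
  have hl := (hball _ (hin (X₀ - δ / 2) ⟨le_rfl, by linarith⟩)).1
  have hr := (hball _ (hin (X₀ + δ / 2) ⟨by linarith, le_rfl⟩)).1
  have h1 := h (fun X => F X₀ * β X) (contDiff_const.mul β.contDiff)
    ⟨X₀ - δ / 2, X₀ + δ / 2, hl.1, hr.2, fun X hX' => by rw [hz X hX', mul_zero]⟩
  have hc : Continuous fun X => F X₀ * β X * F X := by
    refine continuous_iff_continuousAt.2 fun X => ?_
    by_cases hX' : X ∈ Icc (X₀ - δ / 2) (X₀ + δ / 2)
    · have := (hball _ (hin X hX')).1
      exact (continuous_const.mul β.continuous).continuousAt.mul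
        (hF.continuousAt (Ioo_mem_nhds this.1 this.2))
    · refine (continuousAt_const (y := (0 : ℝ))).congr ?_
      filter_upwards [isClosed_Icc.isOpen_compl.mem_nhds hX'] with Y hY
      rw [hz Y hY, mul_zero, zero_mul]
  obtain ⟨C, hC⟩ := (isCompact_Icc (a := (0 : ℝ)) (b := 1)).exists_bound_of_continuousOn
    hc.continuousOn
  have hpos := mS_pos (d := d) (f := fun X => F X₀ * β X * F X) hc.continuousOn (C := C)
    (fun X hX' => hC X (Ioo_subset_Icc_self hX')) hc.measurable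
    (fun X _ => by
      by_cases hX' : X ∈ Icc (X₀ - δ / 2) (X₀ + δ / 2)
      · have h2 := (hball _ (hin X hX')).2
        have h3 : 0 ≤ β X := β.nonneg
        calc (0 : ℝ) ≤ β X * (F X₀ * F X) := mul_nonneg h3 h2.le
          _ = _ := by ring
      · rw [hz X hX', mul_zero, zero_mul])
    (X₀ := X₀) ⟨ha.trans_lt hX.1, hX.2.trans_le hb⟩ (by
      have h2 : β X₀ = 1 := β.one_of_mem_closedBall (Metric.mem_closedBall_self β.rIn_pos.le)
      show 0 < F X₀ * β X₀ * F X₀
      rw [h2, mul_one]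
      exact mul_self_pos.2 hne)
  exact hpos.ne' h1

end Crest.Agent.R202
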