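import Crest.Agent.R202.GDefs
import Crest.Agent.R244.CalcA

/-!
# Row 202, G3: Ricci curvature as a function of the 2-jet

`ricci_eq_ricJ`: product rule and `∂(g⁻¹) = -g⁻¹ (∂g) g⁻¹` (differentiate `g⁻¹ g = 1`).
`ricJ_scale`: homogeneity.  `ricJ_conf`: the value on the jet of a conformally flat metric
`e^{2u} δ` with `u(x) = 0`, `∂u = p`, `∂²u = S`:
`Ric = -(n-2)(S - p pᵀ) - (tr S + (n-2)|p|²) δ` (here `Γ^k_{ij} = δ_{ki} p_j + δ_{kj} p_i - δ_{ij} p_k`).
`tangential`: for `g = gmet φ N` at `x` with `r = |x|`, `t = log r`, the rescaled jet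
`(g, r ∂g, r² ∂²g) · (r/φ)²` is a continuous function of `(x/r, ϱ, ϱ₁, jet of N)` (product rule for
`e^{2u} N⁻¹`, `u = log φ(t) - t`, `r ∂u = (ϱ-1) x̂`, `r² ∂²u = ϱ₁ x̂x̂ᵀ + (ϱ-1)(δ - 2 x̂x̂ᵀ)`), at
`N = (1,0,0)` the conformal formula gives `r² Ric(v,v) = ((n-2)(1-ϱ²) - ϱ₁)|v|²` for `v ⊥ x`;
uniform continuity on the compact set of `(x̂, ϱ, ϱ₁) ∈ S × [0,1] × [-n,0]`.
The same compactness bounds `r Γ` and `N⁻¹`.
-/

set_option autoImplicit false
open scoped ContDiff Topology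
open Filter Set
open Crest.GeometryTopology.CoordMetric
open Crest.Agent.R230 (E MP sph ev Harm)

noncomputable section
namespace Crest.Agent.R202

variable {n : ℕ}

namespace GJ

variable {f f' : E n → ℝ} {x : E n}

theorem pd_congr (h : f =ᶠ[𝓝 x] f') (l : Fin n) : pderiv l f x = pderiv l f' x := by
  unfold pderiv; rw [h.fderiv_eq]

theorem pd_congr' (h : f =ᶠ[𝓝 x] f') (l : Fin n) : pderiv l f =ᶠ[𝓝 x] pderiv l f' := by
  filter_upwards [h.eventuallyEq_nhds] with y hy using pd_congr hy l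

theorem pd_const (c : ℝ) (l : Fin n) (x : E n) : pderiv l (fun _ => c) x = 0 := by
  simp [pderiv]

theorem pd_add (hf : DifferentiableAt ℝ f x) (hf' : DifferentiableAt ℝ f' x) (l : Fin n) :
    pderiv l (fun y => f y + f' y) x = pderiv l f x + pderiv l f' x := by
  unfold pderiv; rw [fderiv_fun_add hf hf']; rfl

theorem pd_sub (hf : DifferentiableAt ℝ f x) (hf' : DifferentiableAt ℝ f' x) (l : Fin n) :
    pderiv l (fun y => f y - f' y) x = pderiv l f x - pderiv l f' x := by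
  unfold pderiv; rw [fderiv_fun_sub hf hf']; rfl

theorem pd_mul (hf : DifferentiableAt ℝ f x) (hf' : DifferentiableAt ℝ f' x) (l : Fin n) :
    pderiv l (fun y => f y * f' y) x = pderiv l f x * f' x + f x * pderiv l f' x := by
  unfold pderiv; rw [fderiv_fun_mul hf hf']
  simp only [_root_.add_apply, _root_.smul_apply, smul_eq_mul]
  ring

theorem pd_const_mul (hf : DifferentiableAt ℝ f x) (c : ℝ) (l : Fin n) :
    pderiv l (fun y => c * f y) x = c * pderiv l f x := by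
  rw [pd_mul (differentiableAt_const c) hf, pd_const, zero_mul, zero_add]

theorem pd_mul_const (hf : DifferentiableAt ℝ f x) (c : ℝ) (l : Fin n) :
    pderiv l (fun y => f y * c) x = pderiv l f x * c := by
  rw [pd_mul hf (differentiableAt_const c), pd_const, mul_zero, add_zero]

theorem pd_sum {ι : Type*} (s : Finset ι) {F : ι → E n → ℝ}
    (hF : ∀ i ∈ s, DifferentiableAt ℝ (F i) x) (l : Fin n) :
    pderiv l (fun y => ∑ i ∈ s, F i y) x = ∑ i ∈ s, pderiv l (F i) x := by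
  unfold pderiv; rw [fderiv_fun_sum hF, _root_.sum_apply]

theorem diff_coord (i : Fin n) (x : E n) : DifferentiableAt ℝ (fun y : E n => y i) x :=
  (EuclideanSpace.proj i : E n →L[ℝ] ℝ).differentiableAt

theorem pd_coord (i l : Fin n) (x : E n) :
    pderiv l (fun y : E n => y i) x = (1 : Matrix (Fin n) (Fin n) ℝ) l i := by
  unfold pderiv
  have : fderiv ℝ (fun y : E n => y i) x = (EuclideanSpace.proj i : E n →L[ℝ] ℝ) :=
    (EuclideanSpace.proj i : E n →L[ℝ] ℝ).fderiv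
  rw [this]
  simp [Matrix.one_apply, eq_comm]

section metric
variable {g : MetricField n} {U : Set (E n)}

theorem diff_g (hg : IsRiemannianOn g U) (hx : x ∈ U) (i j : Fin n) :
    DifferentiableAt ℝ (fun y => g y i j) x :=
  ((hg.contDiffOn i j).contDiffAt (hg.isOpen.mem_nhds hx)).differentiableAt (by simp)

theorem diff_inv (hg : IsRiemannianOn g U) (hx : x ∈ U) (i j : Fin n) :
    DifferentiableAt ℝ (fun y => (g y)⁻¹ i j) x :=
  ((R244.contDiffOn_inverseField hg i j).contDiffAt (hg.isOpen.mem_nhds hx)).differentiableAt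
    (by simp)

theorem diff_pd (hg : IsRiemannianOn g U) (hx : x ∈ U) (l i j : Fin n) :
    DifferentiableAt ℝ (pderiv l fun y => g y i j) x :=
  ((R244.contDiffOn_pderiv hg.isOpen (hg.contDiffOn i j) l).contDiffAt
    (hg.isOpen.mem_nhds hx)).differentiableAt (by simp)

theorem diff_ch (hg : IsRiemannianOn g U) (hx : x ∈ U) (k i j : Fin n) :
    DifferentiableAt ℝ (fun y => christoffel g y k i j) x :=
  ((R244.contDiffOn_christoffel hg k i j).contDiffAt (hg.isOpen.mem_nhds hx)).differentiableAt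
    (by simp)

/-- `∂(g⁻¹) = -g⁻¹ (∂g) g⁻¹` -/
theorem pd_inv (hg : IsRiemannianOn g U) (hx : x ∈ U) (m k l : Fin n) :
    pderiv m (fun y => (g y)⁻¹ k l) x = (-((g x)⁻¹ * jet1 g x m * (g x)⁻¹)) k l := by
  have hu : ∀ y ∈ U, IsUnit (g y).det := fun y hy => (hg.posDef y hy).det_pos.ne'.isUnit
  have h1 : jet1 (fun y => (g y)⁻¹) x m * g x + (g x)⁻¹ * jet1 g x m = 0 := by
    ext a b
    have h2 : (fun y => ∑ c, (g y)⁻¹ a c * g y c b) =ᶠ[𝓝 x]
        fun _ => (1 : Matrix (Fin n) (Fin n) ℝ) a b := by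
      filter_upwards [hg.isOpen.mem_nhds hx] with y hy
      rw [← Matrix.nonsing_inv_mul _ (hu y hy), Matrix.mul_apply]
    have h3 := pd_congr h2 m
    rw [pd_const, pd_sum _ fun c _ => (diff_inv hg hx a c).fun_mul (diff_g hg hx c b)] at h3
    rw [Matrix.add_apply, Matrix.mul_apply, Matrix.mul_apply, ← Finset.sum_add_distrib,
      Matrix.zero_apply, ← h3]
    exact Finset.sum_congr rfl fun c _ => (pd_mul (diff_inv hg hx a c) (diff_g hg hx c b) m).symm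
  have h4 : jet1 (fun y => (g y)⁻¹) x m = -((g x)⁻¹ * jet1 g x m * (g x)⁻¹) := by
    rw [← Matrix.neg_mul, ← eq_neg_of_add_eq_zero_left h1, Matrix.mul_assoc,
      Matrix.mul_nonsing_inv _ (hu x hx), Matrix.mul_one]
  exact congrFun (congrFun h4 k) l

theorem pd_christoffel (hg : IsRiemannianOn g U) (hx : x ∈ U) (m k i j : Fin n) :
    pderiv m (fun y => christoffel g y k i j) x =
      dchJ (g x) (jet1 g x) (jet2 g x) m k i j := by
  have hT : ∀ l, DifferentiableAt ℝ (fun y => pderiv i (fun y => g y j l) y +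
      pderiv j (fun y => g y i l) y - pderiv l (fun y => g y i j) y) x := fun l =>
    ((diff_pd hg hx _ _ _).add (diff_pd hg hx _ _ _)).sub (diff_pd hg hx _ _ _)
  unfold christoffel dchJ inverseField
  rw [pd_const_mul (DifferentiableAt.fun_sum fun l _ => (diff_inv hg hx k l).fun_mul (hT l)),
    pd_sum _ fun l _ => (diff_inv hg hx k l).fun_mul (hT l)]
  congr 1
  refine Finset.sum_congr rfl fun l _ => ?_
  rw [pd_mul (diff_inv hg hx k l) (hT l), pd_inv hg hx,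
    pd_sub ((diff_pd hg hx _ _ _).fun_add (diff_pd hg hx _ _ _)) (diff_pd hg hx _ _ _),
    pd_add (diff_pd hg hx _ _ _) (diff_pd hg hx _ _ _)]
  rfl

end metric

section scale
variable (G : Matrix (Fin n) (Fin n) ℝ) (G₁ : Fin n → Matrix (Fin n) (Fin n) ℝ)
  (G₂ : Fin n → Fin n → Matrix (Fin n) (Fin n) ℝ)

theorem inv_smul' (hG : G.det ≠ 0) {c : ℝ} (hc : c ≠ 0) : (c • G)⁻¹ = c⁻¹ • G⁻¹ := by
  refine Matrix.inv_eq_right_inv ?_
  rw [Matrix.smul_mul, Matrix.mul_smul, Matrix.mul_nonsing_inv _ hG.isUnit, smul_smul,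
    mul_inv_cancel₀ hc, one_smul]

theorem chJ_scale (hG : G.det ≠ 0) {c : ℝ} (hc : c ≠ 0) (r : ℝ) (k i j : Fin n) :
    chJ (c • G) (fun l => (c * r) • G₁ l) k i j = r * chJ G G₁ k i j := by
  unfold chJ
  rw [inv_smul' G hG hc, mul_left_comm, Finset.mul_sum (a := r)]
  congr 1
  refine Finset.sum_congr rfl fun l _ => ?_
  simp only [Matrix.smul_apply, smul_eq_mul]
  field_simp

theorem dchJ_scale (hG : G.det ≠ 0) {c : ℝ} (hc : c ≠ 0) (r : ℝ) (m k i j : Fin n) :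
    dchJ (c • G) (fun l => (c * r) • G₁ l) (fun m l => (c * r ^ 2) • G₂ m l) m k i j =
      r ^ 2 * dchJ G G₁ G₂ m k i j := by
  unfold dchJ
  rw [inv_smul' G hG hc, mul_left_comm, Finset.mul_sum (a := r ^ 2)]
  congr 1
  refine Finset.sum_congr rfl fun l _ => ?_
  simp only [Matrix.smul_mul, Matrix.mul_smul, Matrix.neg_apply, Matrix.smul_apply, smul_eq_mul]
  field_simp

end scale

section conf
variable (p : Fin n → ℝ) (S : Fin n → Fin n → ℝ)

theorem chJ_conf (k i j : Fin n) :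
    chJ (1 : Matrix (Fin n) (Fin n) ℝ) (fun l => (2 * p l) • (1 : Matrix (Fin n) (Fin n) ℝ)) k i j =
      (if j = k then p i else 0) + (if i = k then p j else 0) - (if i = j then p k else 0) := by
  unfold chJ
  rw [inv_one, Finset.sum_eq_single k (fun l _ h => by rw [Matrix.one_apply_ne h.symm, zero_mul])
    (by simp)]
  simp only [Matrix.smul_apply, Matrix.one_apply, smul_eq_mul]
  split_ifs <;> ring

theorem dchJ_conf (m k i j : Fin n) :
    dchJ (1 : Matrix (Fin n) (Fin n) ℝ) (fun l => (2 * p l) • (1 : Matrix (Fin n) (Fin n) ℝ))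
        (fun m l => (2 * S m l + 4 * p m * p l) • (1 : Matrix (Fin n) (Fin n) ℝ)) m k i j =
      (if j = k then S m i else 0) + (if i = k then S m j else 0) -
        (if i = j then S m k else 0) := by
  unfold dchJ
  rw [inv_one, Matrix.one_mul, Matrix.mul_one, Finset.sum_eq_single k (fun l _ h => by
    simp only [Matrix.neg_apply, Matrix.smul_apply, Matrix.one_apply_ne h.symm, smul_zero, neg_zero,
      zero_mul, add_zero]) (by simp)]
  simp only [Matrix.neg_apply, Matrix.smul_apply, Matrix.one_apply, smul_eq_mul]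
  split_ifs <;> ring

end conf

section radial

theorem hasFDerivAt_log_norm (hx : x ≠ 0) :
    HasFDerivAt (fun y : E n => Real.log ‖y‖) ((‖x‖ ^ 2)⁻¹ • innerSL ℝ x) x := by
  have h0 : ‖x‖ ^ 2 ≠ 0 := pow_ne_zero 2 (norm_ne_zero_iff.2 hx)
  have h1 := (((hasStrictFDerivAt_norm_sq x).hasFDerivAt).log h0).const_mul (1 / 2 : ℝ)
  have e : (fun y : E n => Real.log ‖y‖) = fun y => (1 / 2 : ℝ) * Real.log (‖y‖ ^ 2) := by
    funext y; rw [Real.log_pow]; push_cast; ring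
  rw [e]
  refine h1.congr_fderiv ?_
  ext v
  simp only [_root_.smul_apply, smul_eq_mul, nsmul_eq_mul]
  push_cast
  ring

theorem diff_rad {F : ℝ → ℝ} {F' : ℝ} (hx : x ≠ 0) (hF : HasDerivAt F F' (Real.log ‖x‖)) :
    DifferentiableAt ℝ (fun y : E n => F (Real.log ‖y‖)) x :=
  (hF.comp_hasFDerivAt x (hasFDerivAt_log_norm hx)).differentiableAt

/-- partial derivatives of a function of `log |x|` -/
theorem pd_rad {F : ℝ → ℝ} {F' : ℝ} (hx : x ≠ 0) (hF : HasDerivAt F F' (Real.log ‖x‖))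
    (l : Fin n) : pderiv l (fun y : E n => F (Real.log ‖y‖)) x = F' * (x l / ‖x‖ ^ 2) := by
  have h : HasFDerivAt (fun y : E n => F (Real.log ‖y‖)) _ x :=
    hF.comp_hasFDerivAt x (hasFDerivAt_log_norm hx)
  unfold pderiv
  rw [h.fderiv]
  simp only [_root_.smul_apply, smul_eq_mul, innerSL_apply_apply,
    EuclideanSpace.inner_single_right]
  simp [div_eq_inv_mul]

/-- the conformal factor -/
def wf (φ : ℝ → ℝ) (y : E n) : ℝ := (φ (Real.log ‖y‖) / ‖y‖) ^ 2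

variable {φ ϱ ϱ₁ : ℝ → ℝ} {a : ℝ}

theorem wf_pos (hφ : Warp n φ ϱ ϱ₁ a) (hx : x ≠ 0) : 0 < wf φ x :=
  pow_pos (div_pos (hφ.pos _) (norm_pos_iff.2 hx)) 2

theorem wf_eq (φ : ℝ → ℝ) (hx : x ≠ 0) :
    wf φ x = (φ (Real.log ‖x‖) * Real.exp (-Real.log ‖x‖)) ^ 2 := by
  rw [wf, Real.exp_neg, Real.exp_log (norm_pos_iff.2 hx), div_eq_mul_inv]

theorem wf_ev (φ : ℝ → ℝ) (hx : x ≠ 0) : wf φ =ᶠ[𝓝 x]
    fun y : E n => (fun t => (φ t * Real.exp (-t)) ^ 2) (Real.log ‖y‖) := by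
  filter_upwards [isOpen_compl_singleton.mem_nhds hx] with y hy using wf_eq φ hy

theorem hasDerivAt_F (hφ : Warp n φ ϱ ϱ₁ a) (t : ℝ) :
    HasDerivAt (fun t => (φ t * Real.exp (-t)) ^ 2)
      (2 * (ϱ t - 1) * (φ t * Real.exp (-t)) ^ 2) t := by
  refine (((hφ.d1 t).mul (hasDerivAt_neg t).exp).pow 2).congr_deriv ?_
  simp only [Pi.mul_apply]
  push_cast
  ring

theorem diff_wf (hφ : Warp n φ ϱ ϱ₁ a) (hx : x ≠ 0) : DifferentiableAt ℝ (wf φ) x :=
  (diff_rad hx (hasDerivAt_F hφ _)).congr_of_eventuallyEq (wf_ev φ hx)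

theorem pd_wf (hφ : Warp n φ ϱ ϱ₁ a) (hx : x ≠ 0) (l : Fin n) :
    pderiv l (wf φ) x = wf φ x * (2 * ((ϱ (Real.log ‖x‖) - 1) * x l / ‖x‖ ^ 2)) := by
  rw [pd_congr (wf_ev φ hx), pd_rad hx (hasDerivAt_F hφ _), wf_eq φ hx]
  ring

theorem pd_wf_ev (hφ : Warp n φ ϱ ϱ₁ a) (hx : x ≠ 0) (l : Fin n) : pderiv l (wf φ) =ᶠ[𝓝 x]
    fun y : E n => (fun t => 2 * (ϱ t - 1) * (φ t * Real.exp (-t)) ^ 2 * Real.exp (-t) ^ 2)
      (Real.log ‖y‖) * y l := by
  filter_upwards [isOpen_compl_singleton.mem_nhds hx] with y hy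
  have hy' : y ≠ 0 := hy
  rw [pd_wf hφ hy', wf_eq φ hy']
  simp only []
  rw [Real.exp_neg, Real.exp_log (norm_pos_iff.2 hy')]
  ring

theorem hasDerivAt_H (hφ : Warp n φ ϱ ϱ₁ a) (t : ℝ) :
    HasDerivAt (fun t => 2 * (ϱ t - 1) * (φ t * Real.exp (-t)) ^ 2 * Real.exp (-t) ^ 2)
      ((2 * ϱ₁ t + 4 * (ϱ t - 1) ^ 2 - 4 * (ϱ t - 1)) * (φ t * Real.exp (-t)) ^ 2 *
        Real.exp (-t) ^ 2) t := by
  refine (((((hφ.d2 t).sub_const 1).const_mul 2).mul (hasDerivAt_F hφ t)).mul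
    ((hasDerivAt_neg t).exp.pow 2)).congr_deriv ?_
  simp only [Pi.mul_apply, Pi.pow_apply]
  push_cast
  ring

theorem diff_pd_wf (hφ : Warp n φ ϱ ϱ₁ a) (hx : x ≠ 0) (l : Fin n) :
    DifferentiableAt ℝ (pderiv l (wf φ)) x :=
  ((diff_rad hx (hasDerivAt_H hφ _)).mul (diff_coord l x)).congr_of_eventuallyEq
    (pd_wf_ev hφ hx l)

theorem pd_pd_wf (hφ : Warp n φ ϱ ϱ₁ a) (hx : x ≠ 0) (m l : Fin n) :
    pderiv m (pderiv l (wf φ)) x = wf φ x *
      (2 * (ϱ₁ (Real.log ‖x‖) * (x m * x l) / ‖x‖ ^ 4 + (ϱ (Real.log ‖x‖) - 1) *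
          ((1 : Matrix (Fin n) (Fin n) ℝ) m l / ‖x‖ ^ 2 - 2 * (x m * x l) / ‖x‖ ^ 4)) +
        4 * ((ϱ (Real.log ‖x‖) - 1) * x m / ‖x‖ ^ 2) * ((ϱ (Real.log ‖x‖) - 1) * x l / ‖x‖ ^ 2)) := by
  rw [pd_congr (pd_wf_ev hφ hx l), pd_mul (diff_rad hx (hasDerivAt_H hφ _)) (diff_coord l x),
    pd_rad hx (hasDerivAt_H hφ _), pd_coord, wf_eq φ hx]
  simp only []
  rw [Real.exp_neg, Real.exp_log (norm_pos_iff.2 hx)]
  ring

end radial

theorem quad_outer (b v : Fin n → ℝ) (c : ℝ) :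
    ∑ i, ∑ j, c * (b i * b j) * v i * v j = c * (∑ i, b i * v i) ^ 2 := by
  rw [sq, Finset.sum_mul_sum, Finset.mul_sum]
  refine Finset.sum_congr rfl fun i _ => ?_
  rw [Finset.mul_sum]
  exact Finset.sum_congr rfl fun j _ => by ring

theorem quad_one (v : Fin n → ℝ) (c : ℝ) :
    ∑ i, ∑ j, c * (1 : Matrix (Fin n) (Fin n) ℝ) i j * v i * v j = c * ∑ i, v i ^ 2 := by
  rw [Finset.mul_sum]
  refine Finset.sum_congr rfl fun i _ => ?_
  rw [Finset.sum_eq_single i (fun j _ h => by rw [Matrix.one_apply_ne h.symm]; ring) (by simp),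
    Matrix.one_apply_eq]
  ring

end GJ

theorem christoffel_eq_chJ (g : MetricField n) (x : E n) (k i j : Fin n) :
    christoffel g x k i j = chJ (g x) (jet1 g x) k i j := by
  rfl

theorem ricci_eq_ricJ {g : MetricField n} {U : Set (E n)} (hg : IsRiemannianOn g U) {x : E n}
    (hx : x ∈ U) (i j : Fin n) : ricci g x i j = ricJ (g x) (jet1 g x) (jet2 g x) i j := by
  unfold ricci ricJ
  rw [GJ.pd_sum _ fun k _ => GJ.diff_ch hg hx k k i]
  simp only [GJ.pd_christoffel hg hx]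
  rfl

theorem ricJ_scale (G : Matrix (Fin n) (Fin n) ℝ) (G₁ : Fin n → Matrix (Fin n) (Fin n) ℝ)
    (G₂ : Fin n → Fin n → Matrix (Fin n) (Fin n) ℝ) (hG : G.det ≠ 0) {c : ℝ} (hc : c ≠ 0) (r : ℝ)
    (i j : Fin n) :
    ricJ (c • G) (fun l => (c * r) • G₁ l) (fun m l => (c * r ^ 2) • G₂ m l) i j =
      r ^ 2 * ricJ G G₁ G₂ i j := by
  unfold ricJ
  simp only [GJ.chJ_scale G G₁ hG hc, GJ.dchJ_scale G G₁ G₂ hG hc, mul_sub, mul_add, Finset.mul_sum]
  congr 1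
  · congr 1
    exact Finset.sum_congr rfl fun k _ => Finset.sum_congr rfl fun l _ => by ring
  · exact Finset.sum_congr rfl fun k _ => Finset.sum_congr rfl fun l _ => by ring

theorem ricJ_conf (p : Fin n → ℝ) (S : Fin n → Fin n → ℝ) (hS : ∀ i j, S i j = S j i) (i j : Fin n) :
    ricJ (1 : Matrix (Fin n) (Fin n) ℝ) (fun l => (2 * p l) • (1 : Matrix (Fin n) (Fin n) ℝ))
        (fun m l => (2 * S m l + 4 * p m * p l) • (1 : Matrix (Fin n) (Fin n) ℝ)) i j =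
      -((n : ℝ) - 2) * (S i j - p i * p j) -
        ((∑ k, S k k) + ((n : ℝ) - 2) * ∑ k, p k ^ 2) * (1 : Matrix (Fin n) (Fin n) ℝ) i j := by
  unfold ricJ
  simp only [GJ.chJ_conf, GJ.dchJ_conf]
  have hq : ∑ k, p k * p k = ∑ k, p k ^ 2 := Finset.sum_congr rfl fun k _ => (sq _).symm
  by_cases h : i = j
  · subst h
    simp only [mul_add, mul_sub, add_mul, sub_mul, Finset.sum_add_distrib, Finset.sum_sub_distrib,
      ite_mul, mul_ite, zero_mul, mul_zero, Finset.sum_ite_eq, Finset.sum_ite_eq', Finset.mem_univ,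
      if_true, Finset.sum_const, Finset.card_univ, Fintype.card_fin, nsmul_eq_mul,
      Matrix.one_apply_eq, Finset.sum_ite_irrel, hq]
    ring
  · have h' : ¬ j = i := fun e => h e.symm
    simp only [mul_add, mul_sub, add_mul, sub_mul, Finset.sum_add_distrib, Finset.sum_sub_distrib,
      ite_mul, mul_ite, zero_mul, mul_zero, Finset.sum_ite_eq, Finset.sum_ite_eq', Finset.mem_univ,
      if_true, Finset.sum_const, Finset.card_univ, Fintype.card_fin, nsmul_eq_mul,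
      Matrix.one_apply_ne h, Finset.sum_ite_irrel, hq, h, h', if_false,
      hS j i]
    ring

/-- Ricci curvature where the cross-section is round -/
theorem ricci_round {φ ϱ ϱ₁ : ℝ → ℝ} {a : ℝ} (hφ : Warp n φ ϱ ϱ₁ a) {N : MetricField n}
    (hg : IsRiemannianOn (gmet φ N) univ) {x : E n} (hx : x ≠ 0) (hN : ∀ᶠ y in 𝓝 x, N y = 1)
    (v : E n) :
    ‖x‖ ^ 2 * ∑ i, ∑ j, ricci (gmet φ N) x i j * v i * v j =
      (((n : ℝ) - 2) * (1 - ϱ (Real.log ‖x‖) ^ 2) - ϱ₁ (Real.log ‖x‖)) *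
          (‖v‖ ^ 2 - inner ℝ x v ^ 2 / ‖x‖ ^ 2) -
        ((n : ℝ) - 1) * ϱ₁ (Real.log ‖x‖) * (inner ℝ x v ^ 2 / ‖x‖ ^ 2) := by
  have hr : ‖x‖ ≠ 0 := norm_ne_zero_iff.2 hx
  have hev : ∀ i j, (fun y => gmet φ N y i j) =ᶠ[𝓝 x]
      fun y => GJ.wf φ y * (1 : Matrix (Fin n) (Fin n) ℝ) i j := by
    intro i j
    filter_upwards [hN, isOpen_compl_singleton.mem_nhds hx] with y h1 h2
    rw [gmet, if_neg (show ¬ y = 0 from h2), h1, inv_one, Matrix.smul_apply, smul_eq_mul, GJ.wf]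
  set R := ϱ (Real.log ‖x‖) - 1 with hR
  set R₁ := ϱ₁ (Real.log ‖x‖) with hR₁
  set p : Fin n → ℝ := fun l => R * x l / ‖x‖ ^ 2 with hp
  set S : Fin n → Fin n → ℝ := fun m l => R₁ * (x m * x l) / ‖x‖ ^ 4 +
    R * ((1 : Matrix (Fin n) (Fin n) ℝ) m l / ‖x‖ ^ 2 - 2 * (x m * x l) / ‖x‖ ^ 4) with hS
  have e0 : gmet φ N x = GJ.wf φ x • (1 : Matrix (Fin n) (Fin n) ℝ) := by
    ext i j
    exact (hev i j).eq_of_nhds
  have e1 : jet1 (gmet φ N) x =
      fun l => (GJ.wf φ x * 1) • ((2 * p l) • (1 : Matrix (Fin n) (Fin n) ℝ)) := by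
    funext l
    ext i j
    rw [jet1, Matrix.of_apply, GJ.pd_congr (hev i j), GJ.pd_mul_const (GJ.diff_wf hφ hx),
      GJ.pd_wf hφ hx]
    simp only [Matrix.smul_apply, smul_eq_mul, hp, hR]
    ring
  have e2 : jet2 (gmet φ N) x = fun m l => (GJ.wf φ x * 1 ^ 2) •
      ((2 * S m l + 4 * p m * p l) • (1 : Matrix (Fin n) (Fin n) ℝ)) := by
    funext m l
    ext i j
    have h1 : pderiv l (fun y => gmet φ N y i j) =ᶠ[𝓝 x]
        fun y => pderiv l (GJ.wf φ) y * (1 : Matrix (Fin n) (Fin n) ℝ) i j := by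
      filter_upwards [GJ.pd_congr' (hev i j) l, isOpen_compl_singleton.mem_nhds hx] with y h1 h2
      rw [h1, GJ.pd_mul_const (GJ.diff_wf hφ h2)]
    rw [jet2, Matrix.of_apply, GJ.pd_congr h1, GJ.pd_mul_const (GJ.diff_pd_wf hφ hx l),
      GJ.pd_pd_wf hφ hx]
    simp only [Matrix.smul_apply, smul_eq_mul, hp, hR, hS, hR₁]
    ring
  have hsym : ∀ i j, S i j = S j i := by
    intro i j
    simp only [hS, Matrix.one_apply, eq_comm (a := i), mul_comm (x i)]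
  have hx2 : ∑ k, x k ^ 2 = ‖x‖ ^ 2 := by
    rw [EuclideanSpace.norm_sq_eq]
    simp
  have hv2 : ∑ k, v k ^ 2 = ‖v‖ ^ 2 := by
    rw [EuclideanSpace.norm_sq_eq]
    simp
  have hxv : ∑ k, x k * v k = inner ℝ x v := by
    simp [PiLp.inner_apply, mul_comm]
  have t1 : ∑ k, S k k = (R₁ + ((n : ℝ) - 2) * R) / ‖x‖ ^ 2 := by
    have : ∀ k, S k k = R / ‖x‖ ^ 2 + (R₁ - 2 * R) / ‖x‖ ^ 4 * x k ^ 2 := fun k => by
      simp only [hS, Matrix.one_apply_eq]; ring
    simp only [this]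
    rw [Finset.sum_add_distrib, ← Finset.mul_sum, hx2, Finset.sum_const, Finset.card_univ,
      Fintype.card_fin, nsmul_eq_mul]
    field_simp
    ring
  have t2 : ∑ k, p k ^ 2 = R ^ 2 / ‖x‖ ^ 2 := by
    have : ∀ k, p k ^ 2 = R ^ 2 / ‖x‖ ^ 4 * x k ^ 2 := fun k => by simp only [hp]; ring
    simp only [this]
    rw [← Finset.mul_sum, hx2]
    field_simp
  have key : ∀ i j, ricci (gmet φ N) x i j * v i * v j =
      (-((n : ℝ) - 2) * (R₁ - 2 * R - R ^ 2) / ‖x‖ ^ 4) * (x i * x j) * v i * v j +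
      (-(R₁ + ((n : ℝ) - 2) * (2 * R + R ^ 2)) / ‖x‖ ^ 2) *
        (1 : Matrix (Fin n) (Fin n) ℝ) i j * v i * v j := by
    intro i j
    rw [ricci_eq_ricJ hg (mem_univ x), e0, e1, e2,
      ricJ_scale _ _ _ (by simp) (GJ.wf_pos hφ hx).ne', ricJ_conf p S hsym, t1, t2]
    simp only [hS, hp]
    ring
  simp only [key, Finset.sum_add_distrib]
  rw [GJ.quad_outer, GJ.quad_one, hxv, hv2, show ϱ (Real.log ‖x‖) = R + 1 by rw [hR]; ring]
  field_simp
  ring

end Crest.Agent.R202
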