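import Crest.Agent.R202.BNc
import Crest.Agent.R202.GJet

/-!
# Row 202, B9: jets of the inverse cross-section field

Each entry of `N - 1` is a finite sum of terms `h(x̂) · (e^{2ℓ} - 1)` where `ℓ ∈ {α, β, γ}` is evaluated at
`(log|x|, zOf x̂)` and `h` is a fixed function, smooth on a neighbourhood of the part of the sphere
where states can be non-zero (insert fixed cut-offs in `X`: equal to `1` on `[1/16, xhi d]`, vanishing
near `X = 0` and, for `d ≥ 2`, near `X = 1`, so that `h` is smooth on `ℝⁿ \ 0` and homogeneous of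
degree `0`).  A small calculus for `Jet1Le`, `Jet2Le` (sums, products, `exp`, homogeneous smooth
functions have bounded jets by compactness and scaling, chain rule for
`x ↦ Σ_v a_v(log|x|) F_v(zOf x̂)`: the derivatives falling on `F` are controlled by `Sz (comb F (a t))`,
those falling on `a` by `sz_comb` with `a₁ t`, `a₂ t`) gives the result.
`D0 (h · e^{2ℓ}) = h · 2 ℓ₁ e^{2ℓ}` with `ℓ₁` built from `comb F (a₁ t)`.
-/

set_option autoImplicit false
open scoped ContDiff RealInnerProductSpace Topology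
open MeasureTheory Set Filter Module
open Crest.GeometryTopology.CoordMetric
open Crest.Agent.R230 (E MP sph ev Harm)

noncomputable section
namespace Crest.Agent.R202

namespace BJ

variable {n : ℕ} {f g : E n → ℝ} {x : E n}

/-- smooth off the origin -/
def Sm (f : E n → ℝ) : Prop := ∀ y, y ≠ 0 → ContDiffAt ℝ ∞ f y

theorem Sm.diff (hf : Sm f) (hx : x ≠ 0) : DifferentiableAt ℝ f x :=
  (hf x hx).differentiableAt (by simp)

theorem Sm.fd (hf : Sm f) (hx : x ≠ 0) : ContDiffAt ℝ ∞ (fderiv ℝ f) x :=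
  (hf x hx).fderiv_right (by simp)

theorem Sm.pd (hf : Sm f) (i : Fin n) : Sm (pderiv i f) := fun _ hy =>
  (hf.fd hy).clm_apply contDiffAt_const

theorem Sm.dz (hf : Sm f) : Sm (D0 f) := fun _ hy =>
  (hf.fd hy).clm_apply contDiffAt_id

theorem Sm.add (hf : Sm f) (hg : Sm g) : Sm (fun y => f y + g y) := fun y hy =>
  (hf y hy).add (hg y hy)

theorem Sm.mul (hf : Sm f) (hg : Sm g) : Sm (fun y => f y * g y) := fun y hy =>
  (hf y hy).mul (hg y hy)

theorem Sm.exp (hf : Sm f) : Sm (fun y => Real.exp (f y)) := fun y hy => (hf y hy).exp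

theorem sm_const (c : ℝ) : Sm (fun _ : E n => c) := fun _ _ => contDiffAt_const

theorem Sm.sum {ι : Type*} (s : Finset ι) {F : ι → E n → ℝ} (hF : ∀ i ∈ s, Sm (F i)) :
    Sm (fun y => ∑ i ∈ s, F i y) := fun y hy => ContDiffAt.sum fun i hi => hF i hi y hy

theorem ev_of (hx : x ≠ 0) (h : ∀ y, y ≠ 0 → f y = g y) : f =ᶠ[𝓝 x] g := by
  filter_upwards [isOpen_compl_singleton.mem_nhds hx] with y hy using h y hy

theorem Sm.congr (hf : Sm f) (h : ∀ y, y ≠ 0 → g y = f y) : Sm g := fun y hy =>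
  (hf y hy).congr_of_eventuallyEq (ev_of hy h)

/-- weighted bound for the 1-jet -/
def W1 (k : ℕ) (f : E n → ℝ) (x : E n) (B : ℝ) : Prop :=
  ‖x‖ ^ k * |f x| ≤ B ∧ ∀ i, ‖x‖ ^ (k + 1) * |pderiv i f x| ≤ B

theorem jet1_iff {B : ℝ} : Jet1Le f x B ↔ W1 0 f x B := by
  simp [Jet1Le, W1]

theorem jet2_iff {B : ℝ} : Jet2Le f x B ↔ |f x| ≤ B ∧ ∀ j, W1 1 (pderiv j f) x B := by
  simp only [Jet2Le, W1, pow_one]
  exact ⟨fun h => ⟨h.1, fun j => ⟨h.2.1 j, fun i => h.2.2 i j⟩⟩,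
    fun h => ⟨h.1, fun j => (h.2 j).1, fun i j => (h.2 j).2 i⟩⟩

theorem jet2_W {B : ℝ} (h : Jet2Le f x B) : W1 0 f x B := jet1_iff.1 ⟨h.1, h.2.1⟩

theorem W1.nonneg {k : ℕ} {B : ℝ} (h : W1 k f x B) : 0 ≤ B := le_trans (by positivity) h.1

theorem W1.mono {k : ℕ} {A B : ℝ} (h : W1 k f x A) (hAB : A ≤ B) : W1 k f x B :=
  ⟨h.1.trans hAB, fun i => (h.2 i).trans hAB⟩

theorem W1.congr {k : ℕ} {B : ℝ} (h : W1 k f x B) (e : g =ᶠ[𝓝 x] f) : W1 k g x B := by
  refine ⟨?_, fun i => ?_⟩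
  · rw [e.eq_of_nhds]; exact h.1
  · rw [GJ.pd_congr e]; exact h.2 i

theorem W1.add {k : ℕ} {A B : ℝ} (hf : DifferentiableAt ℝ f x) (hg : DifferentiableAt ℝ g x)
    (h : W1 k f x A) (h' : W1 k g x B) : W1 k (fun y => f y + g y) x (A + B) := by
  refine ⟨?_, fun i => ?_⟩
  · refine le_trans (mul_le_mul_of_nonneg_left (abs_add_le _ _) (by positivity)) ?_
    rw [mul_add]; exact add_le_add h.1 h'.1
  · rw [GJ.pd_add hf hg]
    refine le_trans (mul_le_mul_of_nonneg_left (abs_add_le _ _) (by positivity)) ?_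
    rw [mul_add]; exact add_le_add (h.2 i) (h'.2 i)

theorem W1.mul {k m : ℕ} {A B : ℝ} (hf : DifferentiableAt ℝ f x) (hg : DifferentiableAt ℝ g x)
    (h : W1 k f x A) (h' : W1 m g x B) : W1 (k + m) (fun y => f y * g y) x (2 * A * B) := by
  have hA := h.nonneg
  have hB := h'.nonneg
  refine ⟨?_, fun i => ?_⟩
  · have := mul_le_mul h.1 h'.1 (by positivity) hA
    have e : ‖x‖ ^ (k + m) * |f x * g x| = ‖x‖ ^ k * |f x| * (‖x‖ ^ m * |g x|) := by
      rw [abs_mul]; ring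
    rw [e]; nlinarith [mul_nonneg hA hB]
  · rw [GJ.pd_mul hf hg]
    refine le_trans (mul_le_mul_of_nonneg_left (abs_add_le _ _) (by positivity)) ?_
    have h1 := mul_le_mul (h.2 i) h'.1 (by positivity) hA
    have h2 := mul_le_mul h.1 (h'.2 i) (by positivity) hA
    have e : ‖x‖ ^ (k + m + 1) * (|pderiv i f x * g x| + |f x * pderiv i g x|) =
        ‖x‖ ^ (k + 1) * |pderiv i f x| * (‖x‖ ^ m * |g x|) +
          ‖x‖ ^ k * |f x| * (‖x‖ ^ (m + 1) * |pderiv i g x|) := by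
      rw [abs_mul, abs_mul]; ring
    rw [e]; linarith

theorem pd_exp (hf : DifferentiableAt ℝ f x) (i : Fin n) :
    pderiv i (fun y => Real.exp (f y)) x = Real.exp (f x) * pderiv i f x := by
  unfold pderiv; rw [fderiv_exp hf]; rfl

theorem W1.exp {A K : ℝ} (hf : DifferentiableAt ℝ f x) (h : W1 0 f x A) (hA : A ≤ K) :
    W1 0 (fun y => Real.exp (f y)) x (Real.exp K * (1 + K)) := by
  have h0 := h.nonneg
  have h1 : Real.exp (f x) ≤ Real.exp K := by
    have := h.1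
    rw [pow_zero, one_mul] at this
    exact Real.exp_le_exp.2 ((le_abs_self _).trans (this.trans hA))
  have hK := Real.exp_pos K
  refine ⟨?_, fun i => ?_⟩
  · rw [pow_zero, one_mul, abs_of_pos (Real.exp_pos _)]
    nlinarith
  · rw [pd_exp hf, abs_mul, abs_of_pos (Real.exp_pos _), mul_left_comm]
    have := mul_le_mul h1 ((h.2 i).trans hA) (by positivity) hK.le
    nlinarith

theorem abs_exp_sub_one {t A K : ℝ} (ht : |t| ≤ A) (hA : A ≤ K) :
    |Real.exp t - 1| ≤ Real.exp K * A := by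
  have h0 : 0 ≤ A := (abs_nonneg _).trans ht
  have h1 : 1 ≤ Real.exp K := Real.one_le_exp (h0.trans hA)
  have h2 := Real.add_one_le_exp t
  have h3 := abs_le.1 ht
  rw [abs_le]
  constructor
  · nlinarith
  · have h4 := Real.add_one_le_exp (-t)
    have h5 : Real.exp (-t) * Real.exp t = 1 := by rw [← Real.exp_add]; simp
    have h6 : Real.exp t ≤ Real.exp K := Real.exp_le_exp.2 (h3.2.trans hA)
    have h7 := Real.exp_pos t
    nlinarith [mul_le_mul_of_nonneg_right h4 h7.le, mul_le_mul_of_nonneg_right h3.2 h7.le,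
      mul_le_mul_of_nonneg_right h6 h0]

theorem jet2_congr {B : ℝ} (h : Jet2Le f x B) (e : g =ᶠ[𝓝 x] f) : Jet2Le g x B := by
  rw [jet2_iff] at h ⊢
  exact ⟨by rw [e.eq_of_nhds]; exact h.1, fun j => (h.2 j).congr (GJ.pd_congr' e j)⟩

theorem jet2_mono {A B : ℝ} (h : Jet2Le f x A) (hAB : A ≤ B) : Jet2Le f x B := by
  rw [jet2_iff] at h ⊢
  exact ⟨h.1.trans hAB, fun j => (h.2 j).mono hAB⟩

theorem jet2_add {A B : ℝ} (hx : x ≠ 0) (hf : Sm f) (hg : Sm g) (h : Jet2Le f x A)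
    (h' : Jet2Le g x B) : Jet2Le (fun y => f y + g y) x (A + B) := by
  rw [jet2_iff] at h h' ⊢
  refine ⟨(abs_add_le _ _).trans (add_le_add h.1 h'.1), fun j => ?_⟩
  exact (W1.add ((hf.pd j).diff hx) ((hg.pd j).diff hx) (h.2 j) (h'.2 j)).congr
    (ev_of hx fun y hy => GJ.pd_add (hf.diff hy) (hg.diff hy) j)

theorem jet2_mul {A B : ℝ} (hx : x ≠ 0) (hf : Sm f) (hg : Sm g) (h : Jet2Le f x A)
    (h' : Jet2Le g x B) : Jet2Le (fun y => f y * g y) x (4 * A * B) := by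
  have w := jet2_W h
  have w' := jet2_W h'
  have hA := w.nonneg
  have hB := w'.nonneg
  rw [jet2_iff] at h h' ⊢
  refine ⟨?_, fun j => ?_⟩
  · rw [abs_mul]
    nlinarith [mul_le_mul h.1 h'.1 (abs_nonneg _) hA, mul_nonneg hA hB]
  · have h1 := W1.mul ((hf.pd j).diff hx) (hg.diff hx) (h.2 j) w'
    have h2 := W1.mul (hf.diff hx) ((hg.pd j).diff hx) w (h'.2 j)
    refine ((W1.add (((hf.pd j).mul hg).diff hx) ((hf.mul (hg.pd j)).diff hx) h1 h2).congr
      (ev_of hx fun y hy => GJ.pd_mul (hf.diff hy) (hg.diff hy) j)).mono (by linarith)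

theorem jet2_exp {A K : ℝ} (hx : x ≠ 0) (hf : Sm f) (h : Jet2Le f x A) (hA : A ≤ K) :
    Jet2Le (fun y => Real.exp (f y) - 1) x (2 * (Real.exp K * (1 + K)) * A) := by
  have w := jet2_W h
  have h0 := w.nonneg
  rw [jet2_iff] at h ⊢
  refine ⟨(abs_exp_sub_one h.1 hA).trans ?_, fun j => ?_⟩
  · have := Real.exp_pos K
    nlinarith [mul_nonneg this.le h0, mul_nonneg (mul_nonneg this.le h0) (h0.trans hA)]
  · refine (W1.mul (hf.exp.diff hx) ((hf.pd j).diff hx) (w.exp (hf.diff hx) hA) (h.2 j)).congr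
      (ev_of hx fun y hy => ?_)
    rw [GJ.pd_sub (hf.exp.diff hy) (differentiableAt_const _), GJ.pd_const, sub_zero,
      pd_exp (hf.diff hy)]

/-! ### the Euler field -/

theorem dz_congr (h : f =ᶠ[𝓝 x] g) : D0 f x = D0 g x := by
  unfold D0; rw [h.fderiv_eq]

theorem dz_add (hf : DifferentiableAt ℝ f x) (hg : DifferentiableAt ℝ g x) :
    D0 (fun y => f y + g y) x = D0 f x + D0 g x := by
  unfold D0; rw [fderiv_fun_add hf hg]; rfl

theorem dz_mul (hf : DifferentiableAt ℝ f x) (hg : DifferentiableAt ℝ g x) :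
    D0 (fun y => f y * g y) x = D0 f x * g x + f x * D0 g x := by
  unfold D0; rw [fderiv_fun_mul hf hg]
  simp only [_root_.add_apply, _root_.smul_apply, smul_eq_mul]
  ring

theorem dz_sum {ι : Type*} (s : Finset ι) {F : ι → E n → ℝ}
    (hF : ∀ i ∈ s, DifferentiableAt ℝ (F i) x) :
    D0 (fun y => ∑ i ∈ s, F i y) x = ∑ i ∈ s, D0 (F i) x := by
  unfold D0; rw [fderiv_fun_sum hF, _root_.sum_apply]

theorem dz_sub_const (f : E n → ℝ) (c : ℝ) : D0 (fun y => f y - c) = D0 f := by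
  funext x; unfold D0; rw [fderiv_sub_const]

theorem dz_exp (hf : DifferentiableAt ℝ f x) :
    D0 (fun y => Real.exp (f y)) x = Real.exp (f x) * D0 f x := by
  unfold D0; rw [fderiv_exp hf]; rfl

theorem dz_rad {F : ℝ → ℝ} {F' : ℝ} (hx : x ≠ 0) (hF : HasDerivAt F F' (Real.log ‖x‖)) :
    D0 (fun y : E n => F (Real.log ‖y‖)) x = F' := by
  have h : HasFDerivAt (fun y : E n => F (Real.log ‖y‖)) _ x :=
    hF.comp_hasFDerivAt x (GJ.hasFDerivAt_log_norm hx)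
  have h0 : ‖x‖ ≠ 0 := norm_ne_zero_iff.2 hx
  unfold D0
  rw [h.fderiv]
  simp only [_root_.smul_apply, smul_eq_mul, innerSL_apply_apply, real_inner_self_eq_norm_sq]
  field_simp

/-! ### homogeneous functions -/

/-- homogeneous of degree `-k` -/
def Hom (k : ℕ) (f : E n → ℝ) : Prop := ∀ c : ℝ, 0 < c → ∀ y, f y = c ^ k * f (c • y)

theorem Hom.pd {k : ℕ} (h : Hom k f) (i : Fin n) : Hom (k + 1) (pderiv i f) := by
  intro c hc y
  have e : f = c ^ k • fun y => f (c • y) := funext fun y => h c hc y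
  unfold pderiv
  conv_lhs => rw [e]
  rw [fderiv_const_smul_field, Pi.smul_apply, fderiv_comp_smul]
  simp only [_root_.smul_apply, smul_eq_mul]
  ring

theorem Hom.bound {k : ℕ} (h : Hom k f) (hf : Sm f) :
    ∃ C : ℝ, 0 < C ∧ ∀ x : E n, x ≠ 0 → ‖x‖ ^ k * |f x| ≤ C := by
  have hc : ContinuousOn f (Metric.sphere (0 : E n) 1) := fun y hy =>
    (hf y (by rintro rfl; simp at hy)).continuousAt.continuousWithinAt
  obtain ⟨C, hC⟩ := (isCompact_sphere (0 : E n) 1).exists_bound_of_continuousOn hc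
  refine ⟨|C| + 1, by positivity, fun x hx => ?_⟩
  have h0 : 0 < ‖x‖ := norm_pos_iff.2 hx
  have h1 := hC (‖x‖⁻¹ • x) (by simp [norm_smul, h0.ne'])
  rw [h _ (inv_pos.2 h0) x, abs_mul, abs_of_pos (by positivity), ← mul_assoc, ← mul_pow,
    mul_inv_cancel₀ h0.ne', one_pow, one_mul]
  rw [Real.norm_eq_abs] at h1
  linarith [le_abs_self C]

theorem Hom.w1 {k : ℕ} (h : Hom k f) (hf : Sm f) :
    ∃ C : ℝ, 0 < C ∧ ∀ x : E n, x ≠ 0 → W1 k f x C := by
  obtain ⟨C, hC, h1⟩ := h.bound hf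
  choose D hD h2 using fun i => (h.pd i).bound (hf.pd i)
  have hs : 0 ≤ ∑ i, D i := Finset.sum_nonneg fun i _ => (hD i).le
  refine ⟨C + ∑ i, D i, by positivity, fun x hx => ⟨(h1 x hx).trans (by linarith), fun i => ?_⟩⟩
  have := Finset.single_le_sum (fun i _ => (hD i).le) (Finset.mem_univ i)
  linarith [h2 i x hx]

theorem Hom.jet2 (h : Hom 0 f) (hf : Sm f) :
    ∃ C : ℝ, 0 < C ∧ ∀ x : E n, x ≠ 0 → Jet2Le f x C := by
  obtain ⟨C, hC, h1⟩ := h.bound hf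
  choose D hD h2 using fun i => (h.pd i).w1 (hf.pd i)
  have hs : 0 ≤ ∑ i, D i := Finset.sum_nonneg fun i _ => (hD i).le
  refine ⟨C + ∑ i, D i, by positivity, fun x hx => jet2_iff.2 ⟨?_, fun i => (h2 i x hx).mono ?_⟩⟩
  · have := h1 x hx
    rw [pow_zero, one_mul] at this
    linarith
  · have := Finset.single_le_sum (fun i _ => (hD i).le) (Finset.mem_univ i)
    linarith

theorem Hom.dz (h : Hom 0 f) (hf : DifferentiableAt ℝ f x) : D0 f x = 0 := by
  have h1 : HasDerivAt (fun c : ℝ => c • x) x 1 := by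
    simpa using (hasDerivAt_id (1 : ℝ)).smul_const x
  have h2 : HasFDerivAt f (fderiv ℝ f x) ((fun c : ℝ => c • x) 1) := by
    simpa using hf.hasFDerivAt
  have h3 := h2.comp_hasDerivAt (1 : ℝ) h1
  have h4 : (fun _ : ℝ => f x) =ᶠ[𝓝 1] (f ∘ fun c : ℝ => c • x) := by
    filter_upwards [Ioi_mem_nhds (zero_lt_one' ℝ)] with c hc
    simpa using h c hc x
  exact (h3.congr_of_eventuallyEq h4).unique (hasDerivAt_const _ _)

/-- the direction -/
def dir (y : E n) : E n := ‖y‖⁻¹ • y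

theorem dir_smul {c : ℝ} (hc : 0 < c) (y : E n) : dir (c • y) = dir y := by
  unfold dir
  rw [norm_smul, Real.norm_eq_abs, abs_of_pos hc, smul_smul, mul_inv, mul_comm c⁻¹, mul_assoc,
    inv_mul_cancel₀ hc.ne', mul_one]

theorem contDiffAt_dir (hx : x ≠ 0) : ContDiffAt ℝ ∞ (dir : E n → E n) x :=
  ((contDiffAt_norm ℝ hx).inv (norm_ne_zero_iff.2 hx)).smul contDiffAt_id

theorem hom_dir (H : E n → ℝ) : Hom 0 (fun y => H (dir y)) := fun c hc y => by
  simp only [dir_smul hc, pow_zero, one_mul]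

theorem sm_dir {H : E n → ℝ} (hH : ContDiff ℝ ∞ H) : Sm (fun y => H (dir y)) := fun y hy =>
  hH.contDiffAt.comp y (contDiffAt_dir hy)

/-! ### good pairs of bounds -/

/-- `f` has 2-jet bounded by `A` and `D0 f` has 1-jet bounded by `B` -/
structure GP (f : E n → ℝ) (x : E n) (A B : ℝ) : Prop where
  sm : Sm f
  j2 : Jet2Le f x A
  j1 : W1 0 (D0 f) x B

theorem GP.nonneg {A B : ℝ} (h : GP f x A B) : 0 ≤ A ∧ 0 ≤ B :=
  ⟨(jet2_W h.j2).nonneg, h.j1.nonneg⟩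

theorem GP.mono {A B A' B' : ℝ} (h : GP f x A B) (hA : A ≤ A') (hB : B ≤ B') : GP f x A' B' :=
  ⟨h.sm, jet2_mono h.j2 hA, h.j1.mono hB⟩

theorem GP.congr {A B : ℝ} (hx : x ≠ 0) (h : GP f x A B) (e : ∀ y, y ≠ 0 → g y = f y) :
    GP g x A B :=
  ⟨h.sm.congr e, jet2_congr h.j2 (ev_of hx e),
    h.j1.congr (ev_of hx fun _ hy => dz_congr (ev_of hy e))⟩

theorem GP.add {A B A' B' : ℝ} (hx : x ≠ 0) (h : GP f x A B) (h' : GP g x A' B') :
    GP (fun y => f y + g y) x (A + A') (B + B') :=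
  ⟨h.sm.add h'.sm, jet2_add hx h.sm h'.sm h.j2 h'.j2,
    (W1.add (h.sm.dz.diff hx) (h'.sm.dz.diff hx) h.j1 h'.j1).congr
      (ev_of hx fun _ hy => dz_add (h.sm.diff hy) (h'.sm.diff hy))⟩

theorem GP.hom_mul {A B C : ℝ} (hx : x ≠ 0) (hg : Sm g) (h0 : Hom 0 g) (hC : Jet2Le g x C)
    (h : GP f x A B) : GP (fun y => g y * f y) x (4 * C * A) (4 * C * B) := by
  refine ⟨hg.mul h.sm, jet2_mul hx hg h.sm hC h.j2,
    ((W1.mul (hg.diff hx) (h.sm.dz.diff hx) (jet2_W hC) h.j1).congr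
      (ev_of hx fun y hy => ?_)).mono ?_⟩
  · rw [dz_mul (hg.diff hy) (h.sm.diff hy), h0.dz (hg.diff hy), zero_mul, zero_add]
  · nlinarith [mul_nonneg (jet2_W hC).nonneg h.nonneg.2]

theorem GP.exp {A B K : ℝ} (hx : x ≠ 0) (h : GP f x A B) (hA : A ≤ K) :
    GP (fun y => Real.exp (f y) - 1) x (2 * (Real.exp K * (1 + K)) * A)
      (2 * (Real.exp K * (1 + K)) * B) := by
  refine ⟨fun y hy => (h.sm.exp y hy).sub contDiffAt_const, jet2_exp hx h.sm h.j2 hA, ?_⟩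
  rw [dz_sub_const]
  exact (W1.mul (h.sm.exp.diff hx) (h.sm.dz.diff hx) ((jet2_W h.j2).exp (h.sm.diff hx) hA)
    h.j1).congr (ev_of hx fun y hy => dz_exp (h.sm.diff hy))

/-- operators that preserve good bounds -/
def Good (K : ℝ) (T : (E n → ℝ) → (E n → ℝ) → E n → ℝ) : Prop :=
  ∃ C : ℝ, 0 < C ∧ ∀ (x : E n) (α γ : E n → ℝ) (A B : ℝ), x ≠ 0 → GP α x A B → GP γ x A B →
    A ≤ K → GP (T α γ) x (C * A) (C * B)

variable {K : ℝ} {T T' : (E n → ℝ) → (E n → ℝ) → E n → ℝ}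

theorem good_fst : Good K (fun (α _ : E n → ℝ) => α) :=
  ⟨1, one_pos, fun _ _ _ _ _ _ h _ _ => by simpa using h⟩

theorem good_snd : Good K (fun (_ γ : E n → ℝ) => γ) :=
  ⟨1, one_pos, fun _ _ _ _ _ _ _ h _ => by simpa using h⟩

theorem Good.add (h : Good K T) (h' : Good K T') : Good K (fun α γ y => T α γ y + T' α γ y) := by
  obtain ⟨C, hC, h⟩ := h
  obtain ⟨C', hC', h'⟩ := h'
  refine ⟨C + C', by positivity, fun x α γ A B hx ha hg hA => ?_⟩
  rw [add_mul, add_mul]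
  exact (h x α γ A B hx ha hg hA).add hx (h' x α γ A B hx ha hg hA)

theorem Good.hmul (h : Good K T) {H : E n → ℝ} (hH : ContDiff ℝ ∞ H) :
    Good K (fun α γ y => H (dir y) * T α γ y) := by
  obtain ⟨C, hC, h⟩ := h
  obtain ⟨D, hD, h'⟩ := (hom_dir H).jet2 (sm_dir hH)
  refine ⟨4 * D * C, by positivity, fun x α γ A B hx ha hg hA => ?_⟩
  rw [mul_assoc _ C, mul_assoc _ C]
  exact (h x α γ A B hx ha hg hA).hom_mul hx (sm_dir hH) (hom_dir H) (h' x hx)

theorem Good.cmul (h : Good K T) (c : ℝ) : Good K (fun α γ y => c * T α γ y) :=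
  h.hmul (H := fun _ => c) contDiff_const

theorem Good.sub (h : Good K T) (h' : Good K T') : Good K (fun α γ y => T α γ y - T' α γ y) := by
  simpa only [neg_one_mul, ← sub_eq_add_neg] using h.add (h'.cmul (-1))

theorem good_zero : Good K (fun (_ _ : E n → ℝ) _ => 0) := by
  simpa only [zero_mul] using (good_fst (n := n) (K := K)).cmul 0

theorem Good.sum {ι : Type*} (s : Finset ι) {T : ι → (E n → ℝ) → (E n → ℝ) → E n → ℝ}
    (h : ∀ i ∈ s, Good K (T i)) : Good K (fun α γ y => ∑ i ∈ s, T i α γ y) := by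
  classical
  induction s using Finset.induction_on with
  | empty => simpa only [Finset.sum_empty] using good_zero
  | insert i s hi ih =>
    simp only [Finset.sum_insert hi]
    exact (h i (Finset.mem_insert_self _ _)).add (ih fun j hj => h j (Finset.mem_insert_of_mem hj))

theorem Good.exp (hK : 0 ≤ K) (h : Good K T) : Good K (fun α γ y => Real.exp (T α γ y) - 1) := by
  obtain ⟨C, hC, h⟩ := h
  refine ⟨2 * (Real.exp (C * K) * (1 + C * K)) * C, by positivity,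
    fun x α γ A B hx ha hg hA => ?_⟩
  rw [mul_assoc _ C, mul_assoc _ C]
  exact (h x α γ A B hx ha hg hA).exp hx (mul_le_mul_of_nonneg_left hA hC.le)
/-! ### the states along the ray -/

theorem contDiff_zOf (d : ℕ) : ContDiff ℝ ∞ (zOf : E (d + 2) → E 2) := by
  refine contDiff_euclidean.2 fun i => ?_
  exact (EuclideanSpace.proj (zI d i) : E (d + 2) →L[ℝ] ℝ).contDiff

theorem clm_expand {m : ℕ} (L : E m →L[ℝ] ℝ) (w : E m) :
    L w = ∑ p, L (EuclideanSpace.single p 1) * w p := by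
  conv_lhs => rw [← (EuclideanSpace.basisFun (Fin m) ℝ).sum_repr w]
  simp [mul_comm]

theorem pd_comp {m : ℕ} {φ : E m → ℝ} {Z : E n → E m} (hφ : DifferentiableAt ℝ φ (Z x))
    (hZ : DifferentiableAt ℝ Z x) (j : Fin n) :
    pderiv j (fun y => φ (Z y)) x = ∑ p, pderiv p φ (Z x) * pderiv j (fun y => Z y p) x := by
  unfold pderiv
  rw [fderiv_fun_comp x hφ hZ, ContinuousLinearMap.comp_apply, clm_expand]
  refine Finset.sum_congr rfl fun p _ => ?_
  congr 1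
  have h := ((EuclideanSpace.proj p : E m →L[ℝ] ℝ).hasFDerivAt.comp x hZ.hasFDerivAt).fderiv
  have e : (fun y => Z y p) = (EuclideanSpace.proj p : E m →L[ℝ] ℝ) ∘ Z := rfl
  rw [e, h]; rfl

theorem contDiff_pd {m : ℕ} {φ : E m → ℝ} (hφ : ContDiff ℝ ∞ φ) (p : Fin m) :
    ContDiff ℝ ∞ (pderiv p φ) :=
  (hφ.fderiv_right (m := ∞) (by simp)).clm_apply contDiff_const

theorem sz_pd {φ : E 2 → ℝ} {ε : ℝ} (h : Sz φ ε) (p : Fin 2) (z : E 2) : |pderiv p φ z| ≤ ε := by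
  have h1 := h 1 (by norm_num) z
  rw [norm_iteratedFDeriv_one] at h1
  have h2 := (fderiv ℝ φ z).le_opNorm (EuclideanSpace.single p 1)
  rw [Real.norm_eq_abs, PiLp.norm_single, norm_one, mul_one] at h2
  exact h2.trans h1

theorem sz_pd_pd {φ : E 2 → ℝ} {ε : ℝ} (hφ : ContDiff ℝ ∞ φ) (h : Sz φ ε) (p q : Fin 2)
    (z : E 2) : |pderiv q (pderiv p φ) z| ≤ ε := by
  have h1 := h 2 le_rfl z
  have h2 := (iteratedFDeriv ℝ 2 φ z).le_opNorm
    ![EuclideanSpace.single q 1, EuclideanSpace.single p 1]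
  rw [iteratedFDeriv_two_apply, Fin.prod_univ_two] at h2
  simp only [Matrix.cons_val_zero, Matrix.cons_val_one, PiLp.norm_single, norm_one,
    mul_one, Real.norm_eq_abs] at h2
  have hd : DifferentiableAt ℝ (fderiv ℝ φ) z :=
    ((hφ.fderiv_right (m := ∞) (by simp)).differentiable (by simp)) z
  have e : pderiv q (pderiv p φ) z =
      fderiv ℝ (fderiv ℝ φ) z (EuclideanSpace.single q 1) (EuclideanSpace.single p 1) := by
    unfold pderiv
    rw [fderiv_clm_apply hd (differentiableAt_const _)]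
    simp
  rw [e]; exact h2.trans h1

variable {d : ℕ} {V : Type} [Fintype V]

/-- `Σ_v b_v φ_v` -/
def cb (b : V → ℝ) (φ : V → E 2 → ℝ) (z : E 2) : ℝ := ∑ v, b v * φ v z

theorem contDiff_cb (b : V → ℝ) {φ : V → E 2 → ℝ} (hφ : ∀ v, ContDiff ℝ ∞ (φ v)) :
    ContDiff ℝ ∞ (cb b φ) :=
  ContDiff.sum fun v _ => contDiff_const.mul (hφ v)

theorem pd_cb (b : V → ℝ) {φ : V → E 2 → ℝ} (hφ : ∀ v, ContDiff ℝ ∞ (φ v)) (p : Fin 2) :
    pderiv p (cb b φ) = cb b fun v => pderiv p (φ v) := by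
  funext z
  have hd : ∀ v, DifferentiableAt ℝ (φ v) z := fun v => (hφ v).differentiable (by simp) z
  unfold cb
  rw [GJ.pd_sum _ fun v _ => (hd v).const_mul _]
  exact Finset.sum_congr rfl fun v _ => GJ.pd_const_mul (hd v) _ _

theorem comb_fst (F : V → St) (b : V → ℝ) : (comb F b).1 = cb b fun v => (F v).1 := by
  funext z; simp [comb, cb, Prod.fst_sum, Finset.sum_apply]

theorem comb_snd (F : V → St) (b : V → ℝ) : (comb F b).2 = cb b fun v => (F v).2 := by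
  funext z; simp [comb, cb, Prod.snd_sum, Finset.sum_apply]

/-- `y ↦ Σ_v a_v(log|y|) φ_v(zOf ŷ)` -/
def L (d : ℕ) (a : ℝ → V → ℝ) (φ : V → E 2 → ℝ) (y : E (d + 2)) : ℝ :=
  cb (a (Real.log ‖y‖)) φ (zOf (dir y))

variable {a : ℝ → V → ℝ} {φ : V → E 2 → ℝ}

theorem sm_rad {F : ℝ → ℝ} (hF : ContDiff ℝ ∞ F) : Sm (fun y : E n => F (Real.log ‖y‖)) :=
  fun y hy => hF.contDiffAt.comp y ((contDiffAt_norm ℝ hy).log (norm_ne_zero_iff.2 hy))

theorem sm_L (ha : ContDiff ℝ ∞ a) (hφ : ∀ v, ContDiff ℝ ∞ (φ v)) : Sm (L d a φ) :=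
  Sm.sum _ fun v _ => (sm_rad (contDiff_pi.1 ha v)).mul (sm_dir ((hφ v).comp (contDiff_zOf d)))

theorem hasDerivAt_a (ha : ContDiff ℝ ∞ a) (v : V) (t : ℝ) :
    HasDerivAt (fun t => a t v) (deriv a t v) t :=
  hasDerivAt_pi.1 (ha.differentiable (by simp) t).hasDerivAt v

theorem contDiff_deriv (ha : ContDiff ℝ ∞ a) : ContDiff ℝ ∞ (deriv a) :=
  (contDiff_infty_iff_deriv.1 ha).2

theorem dz_L (ha : ContDiff ℝ ∞ a) (hφ : ∀ v, ContDiff ℝ ∞ (φ v)) {y : E (d + 2)} (hy : y ≠ 0) :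
    D0 (L d a φ) y = L d (deriv a) φ y := by
  have h1 : ∀ v, Sm fun y : E (d + 2) => a (Real.log ‖y‖) v := fun v =>
    sm_rad (contDiff_pi.1 ha v)
  have h2 : ∀ v, Sm fun y : E (d + 2) => φ v (zOf (dir y)) := fun v =>
    sm_dir ((hφ v).comp (contDiff_zOf d))
  unfold L cb
  rw [dz_sum _ fun v _ => ((h1 v).mul (h2 v)).diff hy]
  refine Finset.sum_congr rfl fun v _ => ?_
  rw [dz_mul ((h1 v).diff hy) ((h2 v).diff hy), dz_rad hy (hasDerivAt_a ha v _),
    (hom_dir fun p => φ v (zOf p)).dz ((h2 v).diff hy), mul_zero, add_zero]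

/-- `∂_j log|y|` -/
def rj (j : Fin n) (y : E n) : ℝ := y j / ‖y‖ ^ 2

/-- the coordinates of `zOf ŷ` -/
def Zp (d : ℕ) (p : Fin 2) (y : E (d + 2)) : ℝ := zOf (dir y) p

theorem sm_rj (j : Fin n) : Sm (rj j) := fun _ hy =>
  (EuclideanSpace.proj j : E n →L[ℝ] ℝ).contDiff.contDiffAt.div ((contDiffAt_norm ℝ hy).pow 2)
    (pow_ne_zero 2 (norm_ne_zero_iff.2 hy))

theorem hom_rj (j : Fin n) : Hom 1 (rj j) := fun c hc y => by
  unfold rj
  rw [norm_smul, Real.norm_eq_abs, abs_of_pos hc, PiLp.smul_apply, smul_eq_mul]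
  rcases eq_or_ne ‖y‖ 0 with h | h
  · simp [h]
  · field_simp

theorem sm_Zp (d : ℕ) (p : Fin 2) : Sm (Zp d p) :=
  sm_dir (H := fun q => zOf q p) (contDiff_euclidean.1 (contDiff_zOf d) p)

theorem hom_Zp (d : ℕ) (p : Fin 2) : Hom 0 (Zp d p) := hom_dir fun q => zOf q p

theorem pd_L (ha : ContDiff ℝ ∞ a) (hφ : ∀ v, ContDiff ℝ ∞ (φ v)) {y : E (d + 2)} (hy : y ≠ 0)
    (j : Fin (d + 2)) : pderiv j (L d a φ) y = L d (deriv a) φ y * rj j y +
      (L d a (fun v => pderiv 0 (φ v)) y * pderiv j (Zp d 0) y +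
        L d a (fun v => pderiv 1 (φ v)) y * pderiv j (Zp d 1) y) := by
  have h1 : ∀ v, Sm fun y : E (d + 2) => a (Real.log ‖y‖) v := fun v =>
    sm_rad (contDiff_pi.1 ha v)
  have h2 : ∀ v, Sm fun y : E (d + 2) => φ v (zOf (dir y)) := fun v =>
    sm_dir ((hφ v).comp (contDiff_zOf d))
  have h3 : DifferentiableAt ℝ (fun y : E (d + 2) => zOf (dir y)) y :=
    ((contDiff_zOf d).contDiffAt.comp y (contDiffAt_dir hy)).differentiableAt (by simp)
  unfold L cb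
  rw [GJ.pd_sum _ fun v _ => ((h1 v).mul (h2 v)).diff hy, Finset.sum_mul, Finset.sum_mul,
    Finset.sum_mul, ← Finset.sum_add_distrib, ← Finset.sum_add_distrib]
  refine Finset.sum_congr rfl fun v _ => ?_
  rw [GJ.pd_mul ((h1 v).diff hy) ((h2 v).diff hy), GJ.pd_rad hy (hasDerivAt_a ha v _),
    pd_comp ((hφ v).differentiable (by simp) _) h3, Fin.sum_univ_two]
  unfold rj Zp
  ring

theorem exists_c (d : ℕ) : ∃ c : ℝ, 0 < c ∧ ∀ x : E (d + 2), x ≠ 0 → ∀ j,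
    W1 1 (rj j) x c ∧ ∀ p, W1 1 (pderiv j (Zp d p)) x c := by
  choose C hC h1 using fun j : Fin (d + 2) => (hom_rj j).w1 (sm_rj j)
  obtain ⟨D₀, hD₀, h2⟩ := (hom_Zp d 0).jet2 (sm_Zp d 0)
  obtain ⟨D₁, hD₁, h3⟩ := (hom_Zp d 1).jet2 (sm_Zp d 1)
  have hs : 0 ≤ ∑ j, C j := Finset.sum_nonneg fun j _ => (hC j).le
  refine ⟨∑ j, C j + D₀ + D₁, by positivity, fun x hx j => ⟨(h1 j x hx).mono ?_, ?_⟩⟩
  · linarith [Finset.single_le_sum (fun j _ => (hC j).le) (Finset.mem_univ j)]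
  · rw [Fin.forall_fin_two]
    exact ⟨((jet2_iff.1 (h2 x hx)).2 j).mono (by linarith),
      ((jet2_iff.1 (h3 x hx)).2 j).mono (by linarith)⟩

section
variable {c B : ℝ} {x : E (d + 2)} (hx : x ≠ 0)
  (hc : ∀ j, W1 1 (rj j) x c ∧ ∀ p, W1 1 (pderiv j (Zp d p)) x c)
  (ha : ContDiff ℝ ∞ a) (hφ : ∀ v, ContDiff ℝ ∞ (φ v))
include hx hc ha hφ

theorem L_W (h0 : |L d a φ x| ≤ B) (h1 : |L d (deriv a) φ x| ≤ B)
    (h2 : ∀ p, |L d a (fun v => pderiv p (φ v)) x| ≤ B) : W1 0 (L d a φ) x ((1 + 3 * c) * B) := by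
  have hB : 0 ≤ B := (abs_nonneg _).trans h0
  have hc0 : 0 ≤ c := (hc 0).1.nonneg
  refine ⟨?_, fun j => ?_⟩
  · rw [pow_zero, one_mul]; nlinarith [mul_nonneg hc0 hB]
  · rw [pd_L ha hφ hx]
    have e1 := mul_le_mul h1 (hc j).1.1 (by positivity) hB
    have e2 := mul_le_mul (h2 0) ((hc j).2 0).1 (by positivity) hB
    have e3 := mul_le_mul (h2 1) ((hc j).2 1).1 (by positivity) hB
    refine le_trans (mul_le_mul_of_nonneg_left ((abs_add_le _ _).trans
      (add_le_add le_rfl (abs_add_le _ _))) (by positivity)) ?_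
    rw [abs_mul, abs_mul, abs_mul, zero_add]
    linarith

theorem L_GP {A : ℝ} (hBA : B ≤ A) (h0 : Sz (cb (a (Real.log ‖x‖)) φ) A)
    (h1 : Sz (cb (deriv a (Real.log ‖x‖)) φ) B)
    (h2 : Sz (cb (deriv (deriv a) (Real.log ‖x‖)) φ) B) :
    GP (L d a φ) x ((1 + 3 * c) * (1 + 6 * c) * A) ((1 + 3 * c) * (1 + 6 * c) * B) := by
  have hB : 0 ≤ B := (abs_nonneg _).trans (h1.abs_le 0)
  have hc0 : 0 ≤ c := (hc 0).1.nonneg
  have ha' := contDiff_deriv ha
  have hφ' : ∀ p v, ContDiff ℝ ∞ (pderiv p (φ v)) := fun p v => contDiff_pd (hφ v) p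
  have k1 : ∀ {b : ℝ → V → ℝ} {ε : ℝ}, Sz (cb (b (Real.log ‖x‖)) φ) ε → ∀ p,
      |L d b (fun v => pderiv p (φ v)) x| ≤ ε := fun h p => by
    unfold L; rw [← pd_cb _ hφ]; exact sz_pd h p _
  have k2 : ∀ p q, |L d a (fun v => pderiv q (pderiv p (φ v))) x| ≤ A := fun p q => by
    unfold L; rw [← pd_cb _ (hφ' p), ← pd_cb _ hφ]; exact sz_pd_pd (contDiff_cb _ hφ) h0 p q _
  have w1 : W1 0 (L d (deriv a) φ) x ((1 + 3 * c) * B) :=
    L_W hx hc ha' hφ (h1.abs_le _) (h2.abs_le _) (k1 h1)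
  have w2 : ∀ p, W1 0 (L d a fun v => pderiv p (φ v)) x ((1 + 3 * c) * A) := fun p =>
    L_W hx hc ha (hφ' p) (k1 h0 p) ((k1 h1 p).trans hBA) (k2 p)
  have hA : 0 ≤ A := hB.trans hBA
  refine ⟨sm_L ha hφ, jet2_iff.2 ⟨(h0.abs_le _).trans ?_, fun j => ?_⟩,
    (w1.congr (ev_of hx fun y hy => dz_L ha hφ hy)).mono ?_⟩
  · nlinarith [mul_nonneg hc0 hA, mul_nonneg hc0 (mul_nonneg hc0 hA)]
  · have s1 := sm_L (d := d) ha' hφ
    have s2 := fun p => sm_L (d := d) ha (hφ' p)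
    have s3 := fun p => (sm_Zp d p).pd j
    have m1 := W1.mul (s1.diff hx) ((sm_rj j).diff hx) w1 (hc j).1
    have m2 := fun p => W1.mul ((s2 p).diff hx) ((s3 p).diff hx) (w2 p) ((hc j).2 p)
    refine ((W1.add ((s1.mul (sm_rj j)).diff hx)
      ((((s2 0).mul (s3 0)).add ((s2 1).mul (s3 1))).diff hx) m1
      (W1.add (((s2 0).mul (s3 0)).diff hx) (((s2 1).mul (s3 1)).diff hx) (m2 0) (m2 1))).congr
      (ev_of hx fun y hy => pd_L ha hφ hy j)).mono ?_
    have : 0 ≤ (1 + 3 * c) * c := by positivity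
    nlinarith [mul_le_mul_of_nonneg_left hBA this, mul_nonneg hc0 hA]
  · have : 0 ≤ (1 + 3 * c) * c * B := by positivity
    nlinarith

end

/-! ### the cut-off -/

/-- a smooth function equal to `1/X` for `X ≥ 1/16` -/
def chi (X : ℝ) : ℝ :=
  (X * Real.smoothTransition (32 * X - 1) + (1 - Real.smoothTransition (32 * X - 1)))⁻¹

theorem contDiff_chi : ContDiff ℝ ∞ chi := by
  have h : ContDiff ℝ ∞ fun X : ℝ => Real.smoothTransition (32 * X - 1) :=
    Real.smoothTransition.contDiff.comp (by fun_prop)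
  refine ((contDiff_id.mul h).add (contDiff_const.sub h)).inv fun X => ne_of_gt ?_
  rcases le_or_gt X (1 / 32) with hX | hX
  · rw [Real.smoothTransition.zero_of_nonpos (by linarith)]; simp
  · have h0 := Real.smoothTransition.nonneg (32 * X - 1)
    have h1 := Real.smoothTransition.le_one (32 * X - 1)
    simp only [id]
    nlinarith [mul_nonneg h0 (sub_nonneg.2 hX.le)]

theorem chi_eq {X : ℝ} (hX : 1 / 16 ≤ X) : chi X = X⁻¹ := by
  unfold chi
  rw [Real.smoothTransition.one_of_one_le (by linarith)]; simp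

/-- `cf - 1` with the cut-offs inserted -/
def cg (d : ℕ) (i k : Fin (d + 2)) (α γ : E (d + 2) → ℝ) (y : E (d + 2)) : ℝ :=
  (Real.exp (2 * α y) - 1) +
    if (i : ℕ) + k = 1 then
      chi (XX (zOf (dir y))) * ((Real.exp (2 * bet d (α y) (γ y)) - 1) - (Real.exp (2 * α y) - 1))
    else if 2 ≤ (i : ℕ) ∧ 2 ≤ (k : ℕ) ∧ i ≠ k then
      chi (1 - XX (zOf (dir y))) * ((Real.exp (2 * γ y) - 1) - (Real.exp (2 * α y) - 1))
    else 0

theorem good_cg (hK : 0 ≤ K) (d : ℕ) (i k : Fin (d + 2)) : Good K (cg d i k) := by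
  have h1 : Good K fun (α _ : E (d + 2) → ℝ) y => Real.exp (2 * α y) - 1 :=
    (good_fst.cmul 2).exp hK
  have h2 : Good K fun (_ γ : E (d + 2) → ℝ) y => Real.exp (2 * γ y) - 1 :=
    (good_snd.cmul 2).exp hK
  have h3 : Good K fun (α γ : E (d + 2) → ℝ) y => Real.exp (2 * bet d (α y) (γ y)) - 1 := by
    have := ((((good_fst (n := d + 2) (K := K)).cmul (-1)).sub
      (good_snd.cmul ((d : ℝ) - 1))).cmul 2).exp hK
    simpa only [bet, neg_one_mul] using this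
  have hX : ContDiff ℝ ∞ fun p : E (d + 2) => XX (zOf p) := contDiff_XX.comp (contDiff_zOf d)
  unfold cg
  refine h1.add ?_
  split_ifs
  · exact (h3.sub h1).hmul (contDiff_chi.comp hX)
  · exact (h2.sub h1).hmul (contDiff_chi.comp (contDiff_const.sub hX))
  · exact good_zero

theorem cf_eq {G : St} (hG : Adm d G) (i k : Fin (d + 2)) (y : E (d + 2)) {α γ : E (d + 2) → ℝ}
    (h1 : α y = G.1 (zOf (dir y))) (h2 : γ y = G.2 (zOf (dir y))) :
    cf d G i k (dir y) - 1 = cg d i k α γ y := by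
  unfold cf cg
  rw [h1, h2]
  by_cases hX : XX (zOf (dir y)) ∈ Icc (1 / 16 : ℝ) (xhi d)
  · split_ifs with c1 c2
    · rw [chi_eq hX.1]; ring
    · have hd : d ≠ 1 := by
        rintro rfl
        have := i.2
        have := k.2
        exact c2.2.2 (Fin.ext (by omega))
      have h3 := hX.2
      rw [xhi, if_neg hd] at h3
      rw [chi_eq (by linarith)]; ring
    · ring
  · rw [(hG.supp _ hX).1, (hG.supp _ hX).2]
    simp [bet]

/-- the entries of `N - 1` -/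
def Ng (d : ℕ) (i j : Fin (d + 2)) (α γ : E (d + 2) → ℝ) (y : E (d + 2)) : ℝ :=
  (1 / 2) * ∑ l, ∑ k, rotv l k (dir y) i * rotv l k (dir y) j * cg d l k α γ y

theorem contDiff_rotv (l k i : Fin n) : ContDiff ℝ ∞ fun p : E n => rotv l k p i := by
  unfold rotv
  refine ContDiff.sub ?_ ?_ <;> split_ifs <;> fun_prop

theorem good_Ng (hK : 0 ≤ K) (d : ℕ) (i j : Fin (d + 2)) : Good K (Ng d i j) :=
  Good.cmul (Good.sum _ fun l _ => Good.sum _ fun k _ => (good_cg hK d l k).hmul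
    ((contDiff_rotv l k i).mul (contDiff_rotv l k j))) _

theorem rotv_dir (l k i : Fin n) (y : E n) : rotv l k (dir y) i = ‖y‖⁻¹ * rotv l k y i := by
  unfold rotv dir
  split_ifs <;> simp [mul_sub]

theorem Nc_eq {F : V → St} (hF : ∀ v, Adm d (F v)) (a : ℝ → V → ℝ) (i j : Fin (d + 2))
    (y : E (d + 2)) :
    Nc (cT d fun t => comb F (a t)) y i j - (1 : Matrix (Fin (d + 2)) (Fin (d + 2)) ℝ) i j =
      Ng d i j (L d a fun v => (F v).1) (L d a fun v => (F v).2) y := by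
  unfold Nc Ng
  rw [Matrix.of_apply, add_sub_cancel_left]
  congr 1
  refine Finset.sum_congr rfl fun l _ => Finset.sum_congr rfl fun k _ => ?_
  rw [← cf_eq (adm_comb hF (a (Real.log ‖y‖))) l k y (by rw [comb_fst]; rfl)
    (by rw [comb_snd]; rfl), rotv_dir, rotv_dir]
  unfold cT dir
  ring

end BJ

theorem N_jets (d : ℕ) [NeZero d] : ∃ C₀ : ℝ, 0 < C₀ ∧
    ∀ {V : Type} [Fintype V] (F : V → St), (∀ v, Adm d (F v)) → ∃ C₁ : ℝ, 0 < C₁ ∧
    ∀ (a : ℝ → V → ℝ) (ε s : ℝ) (x : E (d + 2)), ContDiff ℝ ∞ a → x ≠ 0 → ε ≤ 1 →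
      Sz (comb F (a (Real.log ‖x‖))).1 ε → Sz (comb F (a (Real.log ‖x‖))).2 ε →
      ‖deriv a (Real.log ‖x‖)‖ ≤ s → ‖deriv (deriv a) (Real.log ‖x‖)‖ ≤ s → C₁ * s ≤ ε →
      ∀ i j, Jet2Le (fun y => Nc (cT d fun t => comb F (a t)) y i j -
          (1 : Matrix (Fin (d + 2)) (Fin (d + 2)) ℝ) i j) x (C₀ * ε) ∧
        Jet1Le (D0 fun y => Nc (cT d fun t => comb F (a t)) y i j) x (C₀ * C₁ * s) := by
  obtain ⟨c, hc, hcx⟩ := BJ.exists_c d
  set K := (1 + 3 * c) * (1 + 6 * c) with hK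
  have hK0 : 0 < K := by positivity
  choose C hC hN using fun p : Fin (d + 2) × Fin (d + 2) => BJ.good_Ng hK0.le d p.1 p.2
  have hs : 0 < ∑ p, C p := Finset.sum_pos (fun p _ => hC p) Finset.univ_nonempty
  refine ⟨(∑ p, C p) * K, by positivity, fun {V} _ F hF => ?_⟩
  obtain ⟨C₁, hC₁, hsz⟩ := sz_comb hF
  refine ⟨C₁, hC₁, fun a ε s x ha hx hε s1 s2 d1 d2 hle i j => ?_⟩
  have e1 := mul_le_mul_of_nonneg_left d1 hC₁.le
  have e2 := mul_le_mul_of_nonneg_left d2 hC₁.le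
  have g1 : BJ.GP (BJ.L d a fun v => (F v).1) x (K * ε) (K * (C₁ * s)) := by
    refine BJ.L_GP hx (hcx x hx) ha (fun v => (hF v).s1) hle ?_ ?_ ?_ <;> rw [← BJ.comb_fst]
    exacts [s1, (hsz _).1.mono e1, (hsz _).1.mono e2]
  have g2 : BJ.GP (BJ.L d a fun v => (F v).2) x (K * ε) (K * (C₁ * s)) := by
    refine BJ.L_GP hx (hcx x hx) ha (fun v => (hF v).s2) hle ?_ ?_ ?_ <;> rw [← BJ.comb_snd]
    exacts [s2, (hsz _).2.mono e1, (hsz _).2.mono e2]
  have hp : C (i, j) ≤ ∑ p, C p :=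
    Finset.single_le_sum (fun p _ => (hC p).le) (Finset.mem_univ (i, j))
  have g3 := ((hN (i, j) x _ _ _ _ hx g1 g2 (by nlinarith)).mono
    (mul_le_mul_of_nonneg_right hp g1.nonneg.1) (mul_le_mul_of_nonneg_right hp g1.nonneg.2)).congr
    hx fun y _ => BJ.Nc_eq hF a i j y
  refine ⟨by rw [mul_assoc]; exact g3.j2, ?_⟩
  have g4 := g3.j1
  rw [BJ.dz_sub_const] at g4
  rw [mul_assoc, mul_assoc]
  exact BJ.jet1_iff.2 g4

end Crest.Agent.R202
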