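import Crest.Agent.R202.BInv

/-!
# Row 202, B6: auxiliary lemmas for `BLink`
-/

set_option autoImplicit false
open scoped ContDiff RealInnerProductSpace Topology
open MeasureTheory Set Filter Module
open Crest.Agent.R230 (E MP sph ev Harm)

noncomputable section
namespace Crest.Agent.R202
namespace BLink

open MvPolynomial R230

variable {d : ℕ}

theorem zI_inj (d : ℕ) : Function.Injective (zI d) := Fin.castLE_injective (by omega)

theorem yI_inj (d : ℕ) : Function.Injective (yI d) := fun _ _ h =>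
  Fin.succ_injective _ (Fin.succ_injective _ h)

theorem yI_ne_zI (a : Fin d) (i : Fin 2) : yI d a ≠ zI d i := fun h => by
  have := congrArg Fin.val h
  simp only [yI, zI, Fin.val_succ, Fin.val_castLE] at this
  omega

theorem sum_split (f : Fin (d + 2) → ℝ) :
    ∑ i, f i = f (zI d 0) + f (zI d 1) + ∑ a, f (yI d a) := by
  rw [Fin.sum_univ_succ, Fin.sum_univ_succ, add_assoc (f (zI d 0))]
  rfl

theorem iota_eq (Y : MP d) (π : MP 2) : iota Y π = rename (yI d) Y * rename (zI d) π := rfl

theorem pderiv_z (Y : MP d) (π : MP 2) (i : Fin 2) :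
    pderiv (zI d i) (iota Y π) = iota Y (pderiv i π) := by
  rw [iota_eq, iota_eq, pderiv_mul, pderiv_rename (zI_inj d), pderiv_eq_zero_of_notMem_vars
    fun h => by obtain ⟨a, -, ha⟩ := mem_vars_rename _ _ h; exact yI_ne_zI a i ha]
  ring

theorem pderiv_y (Y : MP d) (π : MP 2) (a : Fin d) :
    pderiv (yI d a) (iota Y π) = iota (pderiv a Y) π := by
  rw [iota_eq, iota_eq, pderiv_mul, pderiv_rename (yI_inj d), pderiv_eq_zero_of_notMem_vars
    (i := yI d a) (f := rename (zI d) π)
    fun h => by obtain ⟨i, -, hi⟩ := mem_vars_rename _ _ h; exact yI_ne_zI a i hi.symm]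
  ring

theorem ev_Lp {n : ℕ} (i k : Fin n) (P : MP n) (p : E n) :
    ev (Lp i k P) p = p i * ev (pderiv k P) p - p k * ev (pderiv i P) p := by
  simp [Lp]

theorem lagrange {ι : Type} [Fintype ι] (x v w : ι → ℝ) :
    ∑ i, ∑ k, (x i * v k - x k * v i) * (x i * w k - x k * w i) =
      2 * ((∑ i, x i ^ 2) * (∑ i, v i * w i) - (∑ i, x i * v i) * ∑ i, x i * w i) := by
  have e : ∀ i k, (x i * v k - x k * v i) * (x i * w k - x k * w i) =
      x i ^ 2 * (v k * w k) + (v i * w i) * x k ^ 2 - (x i * w i) * (x k * v k) -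
        (x i * v i) * (x k * w k) := fun i k => by ring
  simp only [e, Finset.sum_add_distrib, Finset.sum_sub_distrib, ← Finset.mul_sum, ← Finset.sum_mul]
  ring

theorem sum_extra (F : Fin (d + 2) → Fin (d + 2) → ℝ) (hF : ∀ i, F i i = 0) (b g : ℝ) :
    ∑ i : Fin (d + 2), ∑ k : Fin (d + 2), (if (i : ℕ) + k = 1 then b
      else if 2 ≤ (i : ℕ) ∧ 2 ≤ (k : ℕ) ∧ i ≠ k then g else 0) * F i k =
      b * (F (zI d 0) (zI d 1) + F (zI d 1) (zI d 0)) +
        (if d = 1 then 0 else g) * ∑ a, ∑ c, F (yI d a) (yI d c) := by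
  have v0 : (zI d 0 : ℕ) = 0 := rfl
  have v1 : (zI d 1 : ℕ) = 1 := rfl
  have vy : ∀ a, (yI d a : ℕ) = a + 2 := fun a => rfl
  simp only [sum_split (d := d), v0, v1, vy]
  have e : ∀ a c : Fin d, (if (a : ℕ) + 2 + (c + 2) = 1 then b
      else if 2 ≤ (a : ℕ) + 2 ∧ 2 ≤ (c : ℕ) + 2 ∧ yI d a ≠ yI d c then g else 0) *
        F (yI d a) (yI d c) = (if d = 1 then 0 else g) * F (yI d a) (yI d c) := by
    intro a c
    by_cases h : a = c
    · rw [h, hF, mul_zero, mul_zero]
    · rw [if_neg (by omega), if_pos ⟨by omega, by omega, fun h' => h (yI_inj d h')⟩, if_neg]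
      rintro rfl
      exact h (Subsingleton.elim _ _)
  simp only [e]
  generalize (if d = 1 then 0 else g) = g'
  simp [Finset.mul_sum, mul_add]

theorem cont_div {X : Type} [TopologicalSpace X] {f g : X → ℝ} (hf : Continuous f)
    (hg : Continuous g) {U : Set X} (hU : IsOpen U) (h0 : ∀ x ∈ U, f x = 0)
    (h1 : ∀ x, x ∉ U → g x ≠ 0) : Continuous fun x => f x / g x := by
  refine continuous_iff_continuousAt.2 fun x => ?_
  by_cases hx : x ∈ U
  · refine (continuousAt_const (y := (0 : ℝ))).congr ?_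
    filter_upwards [hU.mem_nhds hx] with y hy
    rw [h0 y hy, zero_div]
  · exact hf.continuousAt.div hg.continuousAt (h1 x hx)

/-- the three weights -/
def wA (G : St) (z : E 2) : ℝ := Real.exp (2 * G.1 z)

/-- the three weights -/
def wB (d : ℕ) (G : St) (z : E 2) : ℝ := Real.exp (2 * bet d (G.1 z) (G.2 z))

/-- the three weights -/
def wC (G : St) (z : E 2) : ℝ := Real.exp (2 * G.2 z)

theorem cont_wA {G : St} (hG : Adm d G) : Continuous (wA G) :=
  (continuous_const.mul hG.s1.continuous).rexp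

theorem cont_wB {G : St} (hG : Adm d G) : Continuous (wB d G) := by
  have h1 := hG.s1.continuous
  have h2 := hG.s2.continuous
  unfold wB bet
  fun_prop

theorem cont_wC {G : St} (hG : Adm d G) : Continuous (wC G) :=
  (continuous_const.mul hG.s2.continuous).rexp

theorem cont_b {G : St} (hG : Adm d G) : Continuous fun z => (wB d G z - wA G z) / XX z := by
  refine cont_div ((cont_wB hG).sub (cont_wA hG)) continuous_XX
    (isOpen_lt continuous_XX (continuous_const (y := (1 / 16 : ℝ)))) (fun z hz => ?_) fun z hz => ?_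
  · obtain ⟨h1, h2⟩ := hG.supp z fun h => absurd h.1 (not_le.2 hz)
    simp [wA, wB, bet, h1, h2]
  · have : (1 / 16 : ℝ) ≤ XX z := not_lt.1 hz
    exact (lt_of_lt_of_le (by norm_num) this).ne'

theorem cont_g {G : St} (hG : Adm d G) (hd : d ≠ 1) :
    Continuous fun z => (wC G z - wA G z) / (1 - XX z) := by
  refine cont_div ((cont_wC hG).sub (cont_wA hG)) (continuous_const.sub continuous_XX)
    (isOpen_lt (continuous_const (y := (9 / 10 : ℝ))) continuous_XX) (fun z hz => ?_) fun z hz => ?_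
  · obtain ⟨h1, h2⟩ := hG.supp z fun h => by
      rw [xhi, if_neg hd] at h
      exact absurd h.2 (not_le.2 hz)
    simp [wA, wC, h1, h2]
  · have : XX z ≤ 9 / 10 := not_lt.1 hz
    exact (show (0 : ℝ) < 1 - XX z by linarith).ne'

theorem cont_g' {G : St} (hG : Adm d G) :
    Continuous fun z => if d = 1 then 0 else (wC G z - wA G z) / (1 - XX z) := by
  split_ifs with h
  exacts [continuous_const, cont_g hG h]

theorem int_prod_c [NeZero d] {e : ℕ} {b : MP d} (hb : b.IsHomogeneous e) {a : E 2 → ℝ}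
    (ha : Continuous a) : ∫ p, a (zOf p) * ev b (yOf p) ∂sph (d + 2) =
      (∫ o, ev b o ∂sph d) * ∫ p, a (zOf p) * Real.sqrt (1 - XX (zOf p)) ^ e ∂sph (d + 2) := by
  obtain ⟨C, hC⟩ := (isCompact_closedBall (0 : E 2) 1).exists_bound_of_continuousOn ha.continuousOn
  refine int_prod hb ha.measurable (C := C) fun z hz => hC z ?_
  rw [mem_closedBall_zero_iff, ← sq_le_one_iff₀ (norm_nonneg _), EuclideanSpace.real_norm_sq_eq,
    Fin.sum_univ_two]
  exact hz.le

theorem continuous_yOf (d : ℕ) : Continuous (yOf : E (d + 2) → E d) := by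
  unfold yOf; fun_prop

/-! ### parity -/

theorem ev_rfP (π : MP 2) (z : E 2) : ev (rfP π) z = ev π (rf2 z) := by
  induction π using MvPolynomial.induction_on with
  | C a => simp [rfP]
  | add p q hp hq => simp [hp, hq]
  | mul_X p i hp =>
    have : rfP (p * X i) = rfP p * rfP (X i) := map_mul (aeval _) _ _
    rw [this, ev_mul, ev_mul, hp]
    fin_cases i <;> simp [rfP, rf2]

theorem rfP_mul (p q : MP 2) : rfP (p * q) = rfP p * rfP q := map_mul (aeval _) _ _

theorem rfP_X0 : rfP (X 0) = X 0 := by simp [rfP]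

theorem rfP_X1 : rfP (X 1) = -X 1 := by simp [rfP]

theorem rfP_one : rfP 1 = 1 := map_one (aeval _)

theorem pderiv_rfP (π : MP 2) :
    pderiv 0 (rfP π) = rfP (pderiv 0 π) ∧ pderiv 1 (rfP π) = -rfP (pderiv 1 π) := by
  induction π using MvPolynomial.induction_on with
  | C a => simp [rfP]
  | add p q hp hq => simp [hp.1, hp.2, hq.1, hq.2, add_comm]
  | mul_X p i hp =>
    fin_cases i <;>
      simp [rfP_mul, rfP_X0, rfP_X1, hp.1, hp.2, pderiv_X]

theorem eq_of_ev {n : ℕ} {P Q : MP n} (h : ∀ z, ev P z = ev Q z) : P = Q :=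
  MvPolynomial.funext fun x => h (WithLp.toLp 2 x)

theorem rf2_rf2 (z : E 2) : rf2 (rf2 z) = z := by
  ext i; fin_cases i <;> simp [rf2]

theorem rfP_rfP (π : MP 2) : rfP (rfP π) = π :=
  eq_of_ev fun z => by rw [ev_rfP, ev_rfP, rf2_rf2]

theorem rfP_Ez (π : MP 2) : rfP (Ez π) = Ez (rfP π) := by
  simp [Ez, rfP_mul, rfP_X0, rfP_X1, (pderiv_rfP π).1, (pderiv_rfP π).2]

theorem rfP_Lp (π : MP 2) : rfP (Lp 0 1 π) = -Lp 0 1 (rfP π) := by
  simp only [Lp, map_sub, rfP_mul, rfP_X0, rfP_X1, (pderiv_rfP π).1, (pderiv_rfP π).2]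
  ring

theorem totalDegree_rfP (π : MP 2) : (rfP π).totalDegree ≤ π.totalDegree := by
  conv_lhs => rw [π.as_sum, map_sum]
  refine totalDegree_finsetSum_le fun m hm => le_trans ?_ (le_totalDegree hm)
  have e : rfP (monomial m (coeff m π)) = C ((-1) ^ m 1) * monomial m (coeff m π) := by
    refine eq_of_ev fun z => ?_
    rw [ev_rfP, ev_mul, ev_C, ev, ev, eval_monomial, eval_monomial, Finsupp.prod_fintype _ _ (by simp),
      Finsupp.prod_fintype _ _ (by simp), Fin.prod_univ_two, Fin.prod_univ_two]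
    simp only [rf2, Matrix.cons_val_zero, Matrix.cons_val_one]
    rw [neg_pow (z 1)]
    ring
  rw [e, C_mul_monomial]
  exact totalDegree_monomial_le _ _

theorem integral_rf2 (f : E 2 → ℝ) :
    ∫ p, f (rf2 (zOf p)) ∂sph (d + 2) = ∫ p, f (zOf p) ∂sph (d + 2) := by
  let R : E (d + 2) ≃ₗᵢ[ℝ] E (d + 2) := LinearIsometryEquiv.piLpCongrRight 2
    fun i => if i = zI d 1 then LinearIsometryEquiv.neg ℝ else LinearIsometryEquiv.refl ℝ ℝ
  rw [← integral_comp_iso R fun p => f (zOf p)]
  congr 1
  funext p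
  congr 1
  have h01 : zI d 0 ≠ zI d 1 := fun h => absurd (zI_inj d h) (by decide)
  ext i
  fin_cases i <;> simp [R, rf2, zOf, h01]

theorem integral_odd {f : E 2 → ℝ} (h : ∀ z, f (rf2 z) = -f z) :
    ∫ p, f (zOf p) ∂sph (d + 2) = 0 := by
  have := integral_rf2 (d := d) f
  simp only [h, integral_neg] at this
  linarith

/-! ### linearity of the forms on the sphere -/

variable {n : ℕ}

/-- `ipw` as a linear map in the second argument -/
def ipwL {c : E n → ℝ} (hc : Continuous c) (P : MP n) : MP n →ₗ[ℝ] ℝ where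
  toFun R := ipw c P R
  map_add' R R' := by
    simp only [ipw, ev_add, mul_add]
    exact integral_add
      (integrable_of_continuous (hc.mul ((continuous_ev _).mul (continuous_ev _))))
      (integrable_of_continuous (hc.mul ((continuous_ev _).mul (continuous_ev _))))
  map_smul' r R := by
    simp only [ipw, ev_smul, RingHom.id_apply, smul_eq_mul, ← integral_const_mul]
    congr 1; funext p; ring

/-- `QS` as a linear map in the second argument -/
def QSL {c : Fin n → Fin n → E n → ℝ} (hc : ∀ i k, Continuous (c i k)) (P : MP n) :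
    MP n →ₗ[ℝ] ℝ :=
  (1 / 2 : ℝ) • ∑ i, ∑ k, (ipwL (hc i k) (Lp i k P)).comp (TowerAux.LpL i k)

theorem QSL_apply {c : Fin n → Fin n → E n → ℝ} (hc : ∀ i k, Continuous (c i k)) (P R : MP n) :
    QSL hc P R = QS c P R := by
  simp only [QSL, QS, LinearMap.smul_apply, LinearMap.sum_apply, smul_eq_mul]
  rfl

theorem ipw_congr (c : E n → ℝ) (P : MP n) {R R' : MP n} (h : ∀ p, ‖p‖ = 1 → ev R p = ev R' p) :
    ipw c P R = ipw c P R' := by
  refine integral_congr_ae ?_
  filter_upwards [ae_norm (n := n)] with p hp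
  rw [h p hp]

theorem QS_congr (c : Fin n → Fin n → E n → ℝ) (P : MP n) {R R' : MP n}
    (h : ∀ p, ‖p‖ = 1 → ev R p = ev R' p) : QS c P R = QS c P R' := by
  unfold QS
  refine congrArg _ ?_
  refine Finset.sum_congr rfl fun i _ => Finset.sum_congr rfl fun k _ => ipw_congr _ _ fun p hp => ?_
  have := Lf_congr_sphere i k (differentiableAt_ev R p) (differentiableAt_ev R' p)
    fun x hx => h x (hx.trans hp)
  rwa [Lf_ev, Lf_ev] at this

/-- A functional on the sphere that kills the products `H(y) π(z)` of degree `≤ N` kills all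
polynomials of degree `≤ N`. -/
theorem span_iota [NeZero d] (Φ : MP (d + 2) →ₗ[ℝ] ℝ)
    (h1 : ∀ R R', (∀ p, ‖p‖ = 1 → ev R p = ev R' p) → Φ R = Φ R') {N : ℕ}
    (h2 : ∀ i H π, H ∈ Harm d i → i + π.totalDegree ≤ N → Φ (iota H π) = 0) {w : MP (d + 2)}
    (hw : w.totalDegree ≤ N) : Φ w = 0 := by
  have key : ∀ (m : Fin (d + 2) →₀ ℕ) (a : ℝ) (i : ℕ) (H : MP d) (π : MP 2), H ∈ Harm d i →
      i + π.totalDegree + (monomial m a).totalDegree ≤ N → Φ (monomial m a * iota H π) = 0 := by
    refine induction_on_monomial (motive := fun P => ∀ (i : ℕ) (H : MP d) (π : MP 2),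
      H ∈ Harm d i → i + π.totalDegree + P.totalDegree ≤ N → Φ (P * iota H π) = 0)
      (fun a i H π hH h => ?_) fun P l ih i H π hH h => ?_
    · rw [C_mul', map_smul, h2 i H π hH (by omega), smul_zero]
    rcases eq_or_ne P 0 with rfl | hP
    · simp
    rw [totalDegree_mul_of_isDomain hP (X_ne_zero l), totalDegree_X] at h
    have hz : ∀ c : Fin 2, l = zI d c → Φ (P * X l * iota H π) = 0 := by
      rintro c rfl
      have e : P * X (zI d c) * iota H π = P * iota H (X c * π) := by
        rw [iota_eq, iota_eq, map_mul, rename_X]; ring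
      have := totalDegree_mul (X c : MP 2) π
      rw [totalDegree_X] at this
      rw [e]
      exact ih i H _ hH (by omega)
    have hy : ∀ c : Fin d, l = yI d c → Φ (P * X l * iota H π) = 0 := by
      rintro c rfl
      have e : P * X (yI d c) * iota H π = P * iota (X c * H) π := by
        rw [iota_eq, iota_eq, map_mul, rename_X]; ring
      rw [e]
      cases i with
      | zero =>
        obtain ⟨r, rfl⟩ := eq_C_of_mem_Harm hH
        refine ih 1 _ π ?_ (by omega)
        rw [mul_comm]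
        exact ⟨(isHomogeneous_X ℝ c).C_mul r, by rw [PolyAux.lap_C_mul, PolyAux.lap_X, mul_zero]⟩
      | succ k =>
        have a1 := ih _ _ π (raise_mem_Harm NeZero.one_le hH c) (by omega)
        have a2 : (1 - (X 0 ^ 2 + X 1 ^ 2) : MP 2).totalDegree ≤ 2 := by
          refine (totalDegree_sub _ _).trans (max_le (by simp) ((totalDegree_add _ _).trans
            (max_le ?_ ?_))) <;> simp
        have a3 := totalDegree_mul (1 - (X 0 ^ 2 + X 1 ^ 2) : MP 2) π
        have a4 := ih k _ ((1 - (X 0 ^ 2 + X 1 ^ 2)) * π) (pderiv_mem_Harm hH c) (by omega)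
        rw [h1 _ (P * iota (X c * H - C ((d : ℝ) + 2 * k)⁻¹ * (r2 d * pderiv c H)) π +
          ((d : ℝ) + 2 * k)⁻¹ • (P * iota (pderiv c H) ((1 - (X 0 ^ 2 + X 1 ^ 2)) * π))) ?_,
          map_add, map_smul, a1, a4, smul_zero, add_zero]
        intro p hp
        have := norm_sq_split p
        rw [hp, XX] at this
        simp only [ev_mul, ev_add, ev_sub, ev_smul, ev_iota, ev_C, ev_X, ev_r2, ev_one, ev_pow]
        rw [show ‖yOf p‖ ^ 2 = 1 - (zOf p 0 ^ 2 + zOf p 1 ^ 2) by linarith]
        ring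
    refine Fin.cases (fun h => hz 0 h) (fun l' => Fin.cases (fun h => hz 1 h) (fun c h => hy c h) l')
      l (motive := fun l' => l = l' → _) rfl
  rw [w.as_sum, map_sum]
  refine Finset.sum_eq_zero fun m hm => ?_
  have := key m (coeff m w) 0 (C 1) 1 (C_mem_Harm 1) (by
    rw [totalDegree_one]
    have := (totalDegree_monomial_le m (coeff m w)).trans ((le_totalDegree hm).trans hw)
    omega)
  rwa [iota_eq, C_1, map_one, map_one, mul_one, mul_one] at this

end BLink
end Crest.Agent.R202
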