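import Crest.Agent.R202.BInv
import Crest.Agent.R202.BLinkAux

/-!
# Row 202, B6: the reduced forms and the forms on the sphere; Galerkin consistency

For `ψ = Y π`, `ψ' = Y' π'` split `½ Σ_{i,k} c_{ik} L_{ik}ψ L_{ik}ψ'` into the pairs `(0,1)`, `(i, a)`,
`(a, b)`:  `L_{01}ψ = Y Lp 0 1 π`, `L_{ab} ψ = π L_{ab} Y` with
`½ Σ L_{ab}Y L_{ab}Y' = |y|² ∇Y·∇Y' - j j' Y Y'`, and
`Σ_{i,a} L_{ia}ψ L_{ia}ψ' = X ∇Y·∇Y' π π' - j' Y Y' (Ez π) π' - j Y Y' π (Ez π') + |y|² Y Y' ∇π·∇π'`
(Euler's identity).  Average with `int_prod`, `harm_pair`; then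
`X ∇π·∇π' = Ez π Ez π' + Lp π Lp π'` turns the result into `qf` (a.e. `0 < X < 1`).
Consistency: on the sphere a polynomial `w` of degree `≤ M + j` is a sum of terms `iota H π₁`,
`H ∈ Harm d i`, `i + deg π₁ ≤ M + j` (monomials `z^a y^b`; decompose the homogeneous `y^b` as
`Σ |y|^{2r} H_{|b|-2r}` with degree control, e.g. by induction with `R230.raise_mem_Harm`, or
`R230.exists_harm_decomp` + parity/degree; `|y|² = 1 - X`).  Terms with `i ≠ j` and the part of `H`
orthogonal to `Y` drop out; split `π₁` by parity (`QG_parity`) and, for `j = 0`, remove the mean.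
-/

set_option autoImplicit false
open scoped ContDiff RealInnerProductSpace Topology
open MeasureTheory Set Filter Module
open Crest.Agent.R230 (E MP sph ev Harm)

noncomputable section
namespace Crest.Agent.R202

variable {d : ℕ} [NeZero d]

theorem totalDegree_iota {j : ℕ} {Y : MP d} (hY : Y ∈ Harm d j) (π : MP 2) :
    (iota Y π).totalDegree ≤ π.totalDegree + j := by
  refine (MvPolynomial.totalDegree_mul _ _).trans ?_
  rw [add_comm]
  exact add_le_add (MvPolynomial.totalDegree_rename_le _ _)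
    ((MvPolynomial.totalDegree_rename_le _ _).trans hY.1.totalDegree_le)

theorem continuous_cf {G : St} (hG : Adm d G) (i k : Fin (d + 2)) : Continuous (cf d G i k) := by
  refine ((BLink.cont_wA hG).comp (continuous_zOf d)).add ?_
  split_ifs with h1 h2
  · exact (BLink.cont_b hG).comp (continuous_zOf d)
  · refine (BLink.cont_g hG ?_).comp (continuous_zOf d)
    rintro rfl
    exact h2.2.2 (Fin.ext (by omega))
  · exact continuous_const

theorem ipw_iota {j j' : ℕ} {Y Y' : MP d} (hY : Y ∈ Harm d j) (hY' : Y' ∈ Harm d j') (π π' : MP 2) :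
    ipw (fun _ => 1) (iota Y π) (iota Y' π') =
      if j = j' then (∫ o, ev (Y * Y') o ∂sph d) * ipR d j π π' else 0 := by
  have h := BLink.int_prod_c (hY.1.mul hY'.1) (a := fun z => ev π z * ev π' z)
    ((R230.continuous_ev π).mul (R230.continuous_ev π'))
  have e : ipw (fun _ => 1) (iota Y π) (iota Y' π') =
      ∫ p, ev π (zOf p) * ev π' (zOf p) * ev (Y * Y') (yOf p) ∂sph (d + 2) := by
    unfold ipw
    congr 1
    funext p
    rw [ev_iota, ev_iota, R230.ev_mul]
    ring
  rw [e, h]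
  split_ifs with hj
  · subst hj
    congr 1
    refine integral_congr_ae ?_
    filter_upwards [ae_XX (d := d)] with p hp
    rw [← two_mul, pow_mul, Real.sq_sqrt (by linarith [hp.2]), mul_comm]
  · rw [(harm_pair hY hY').1 hj, zero_mul]

/-- the gradient pairing of two harmonic polynomials -/
def BLink.W (Y Y' : MP d) : MP d := ∑ a, MvPolynomial.pderiv a Y * MvPolynomial.pderiv a Y'

omit [NeZero d] in
theorem BLink.hom_W {j j' : ℕ} {Y Y' : MP d} (hY : Y ∈ Harm d j) (hY' : Y' ∈ Harm d j') :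
    (BLink.W Y Y').IsHomogeneous (j - 1 + (j' - 1)) :=
  MvPolynomial.IsHomogeneous.sum _ _ _ fun a _ =>
    (R230.pderiv_mem_Harm hY a).1.mul (R230.pderiv_mem_Harm hY' a).1

omit [NeZero d] in
theorem BLink.omega_part {j j' : ℕ} {Y Y' : MP d} (hY : Y ∈ Harm d j) (hY' : Y' ∈ Harm d j')
    (y : E d) : ∑ a, ∑ c, ev (Lp a c Y) y * ev (Lp a c Y') y =
      2 * (‖y‖ ^ 2 * ev (BLink.W Y Y') y - j * j' * ev (Y * Y') y) := by
  simp only [BLink.ev_Lp]
  rw [BLink.lagrange (fun a => y a), R230.GreenAux.euler hY.1, R230.GreenAux.euler hY'.1,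
    EuclideanSpace.real_norm_sq_eq, BLink.W, R230.ev_sum]
  simp only [R230.ev_mul]
  ring

/-- the first reduced density -/
def BLink.a₁ (d : ℕ) (G : St) (j j' : ℕ) (π π' : MP 2) (z : E 2) : ℝ :=
  BLink.wA G z * (ev (MvPolynomial.pderiv 0 π) z * ev (MvPolynomial.pderiv 0 π') z +
    ev (MvPolynomial.pderiv 1 π) z * ev (MvPolynomial.pderiv 1 π') z -
      (ev (Ez π) z + j * ev π z) * (ev (Ez π') z + j' * ev π' z)) +
    (BLink.wB d G z - BLink.wA G z) / XX z * (ev (Lp 0 1 π) z * ev (Lp 0 1 π') z) -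
    (if d = 1 then 0 else (BLink.wC G z - BLink.wA G z) / (1 - XX z)) *
      (j * j' * (ev π z * ev π' z))

/-- the third weight, modified for `d = 1` -/
def BLink.wC' (d : ℕ) (G : St) (z : E 2) : ℝ :=
  BLink.wA G z + (if d = 1 then 0 else (BLink.wC G z - BLink.wA G z) / (1 - XX z)) * (1 - XX z)

theorem BLink.density (G : St) {j j' : ℕ} {Y Y' : MP d} (hY : Y ∈ Harm d j) (hY' : Y' ∈ Harm d j')
    (π π' : MP 2) {p : E (d + 2)} (hp : ‖p‖ = 1) :
    (1 / 2) * ∑ i, ∑ k, cf d G i k p * (ev (Lp i k (iota Y π)) p * ev (Lp i k (iota Y' π')) p) =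
      BLink.a₁ d G j j' π π' (zOf p) * ev (Y * Y') (yOf p) +
        BLink.wC' d G (zOf p) * (ev π (zOf p) * ev π' (zOf p)) * ev (BLink.W Y Y') (yOf p) := by
  have hz : ∀ i, p (zI d i) = zOf p i := fun _ => rfl
  have hy : ∀ a, p (yI d a) = yOf p a := fun _ => rfl
  have hρ : ‖yOf p‖ ^ 2 = 1 - XX (zOf p) := by
    have := norm_sq_split p
    rw [hp] at this
    linarith
  have e1 : ∑ i, ∑ k, ev (Lp i k (iota Y π)) p * ev (Lp i k (iota Y' π')) p =
      2 * (ev (Y * Y') (yOf p) * (ev (MvPolynomial.pderiv 0 π) (zOf p) *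
        ev (MvPolynomial.pderiv 0 π') (zOf p) + ev (MvPolynomial.pderiv 1 π) (zOf p) *
          ev (MvPolynomial.pderiv 1 π') (zOf p) - (ev (Ez π) (zOf p) + j * ev π (zOf p)) *
            (ev (Ez π') (zOf p) + j' * ev π' (zOf p))) +
        ev π (zOf p) * ev π' (zOf p) * ev (BLink.W Y Y') (yOf p)) := by
    have a1 : ∀ {j : ℕ} {Y : MP d} (π : MP 2), Y ∈ Harm d j →
        ∑ i, p i * ev (MvPolynomial.pderiv i (iota Y π)) p =
          ev Y (yOf p) * (ev (Ez π) (zOf p) + j * ev π (zOf p)) := by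
      intro j Y π hY
      simp only [BLink.sum_split (d := d), BLink.pderiv_z, BLink.pderiv_y, ev_iota, hz, hy,
        ← mul_assoc, ← Finset.sum_mul]
      rw [R230.GreenAux.euler hY.1, Ez]
      simp only [R230.ev_add, R230.ev_mul, R230.ev_X]
      ring
    simp only [BLink.ev_Lp]
    rw [BLink.lagrange (fun i => p i), a1 π hY, a1 π' hY', ← EuclideanSpace.real_norm_sq_eq, hp,
      BLink.W, R230.ev_sum]
    simp only [BLink.sum_split (d := d), BLink.pderiv_z, BLink.pderiv_y, ev_iota, R230.ev_mul]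
    rw [Finset.sum_congr rfl fun a _ => (by ring : ev (MvPolynomial.pderiv a Y) (yOf p) *
      ev π (zOf p) * (ev (MvPolynomial.pderiv a Y') (yOf p) * ev π' (zOf p)) =
      ev π (zOf p) * ev π' (zOf p) *
        (ev (MvPolynomial.pderiv a Y) (yOf p) * ev (MvPolynomial.pderiv a Y') (yOf p))),
      ← Finset.mul_sum]
    ring
  have e2 : ∀ (Y : MP d) (π : MP 2) (i k : Fin 2), ev (Lp (zI d i) (zI d k) (iota Y π)) p =
      ev Y (yOf p) * ev (Lp i k π) (zOf p) := by
    intro Y π i k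
    simp only [BLink.ev_Lp, BLink.pderiv_z, ev_iota, hz]
    ring
  have e3 : ∀ (Y : MP d) (π : MP 2) (a c : Fin d), ev (Lp (yI d a) (yI d c) (iota Y π)) p =
      ev (Lp a c Y) (yOf p) * ev π (zOf p) := by
    intro Y π a c
    simp only [BLink.ev_Lp, BLink.pderiv_y, ev_iota, hy]
    ring
  have e4 : ∑ a, ∑ c, ev (Lp (yI d a) (yI d c) (iota Y π)) p *
      ev (Lp (yI d a) (yI d c) (iota Y' π')) p = ev π (zOf p) * ev π' (zOf p) *
        (2 * ((1 - XX (zOf p)) * ev (BLink.W Y Y') (yOf p) - j * j' * ev (Y * Y') (yOf p))) := by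
    rw [← hρ, ← BLink.omega_part hY hY', Finset.mul_sum]
    refine Finset.sum_congr rfl fun a _ => ?_
    rw [Finset.mul_sum]
    exact Finset.sum_congr rfl fun c _ => by rw [e3, e3]; ring
  have e5 : ∀ π : MP 2, ev (Lp 1 0 π) (zOf p) = -ev (Lp 0 1 π) (zOf p) := fun π => by
    rw [BLink.ev_Lp, BLink.ev_Lp]; ring
  simp only [cf, add_mul, Finset.sum_add_distrib, ← Finset.mul_sum]
  rw [BLink.sum_extra (fun i k => ev (Lp i k (iota Y π)) p * ev (Lp i k (iota Y' π')) p)
    (fun i => by simp [BLink.ev_Lp]), e1, e4, e2, e2, e2, e2, e5, e5, R230.ev_mul]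
  simp only [BLink.a₁, BLink.wC', BLink.wA, BLink.wB, BLink.wC]
  ring

omit [NeZero d] in
theorem BLink.cont_a₁ {G : St} (hG : Adm d G) (j j' : ℕ) (π π' : MP 2) :
    Continuous (BLink.a₁ d G j j' π π') := by
  have h := fun P : MP 2 => R230.continuous_ev P
  exact (((BLink.cont_wA hG).mul ((((h _).mul (h _)).add ((h _).mul (h _))).sub
    (((h _).add (continuous_const.mul (h _))).mul ((h _).add (continuous_const.mul (h _)))))).add
    ((BLink.cont_b hG).mul ((h _).mul (h _)))).sub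
    ((BLink.cont_g' hG).mul (continuous_const.mul ((h _).mul (h _))))

omit [NeZero d] in
theorem BLink.cont_wC' {G : St} (hG : Adm d G) : Continuous (BLink.wC' d G) :=
  (BLink.cont_wA hG).add ((BLink.cont_g' hG).mul (continuous_const.sub continuous_XX))

theorem BLink.J_mul {j : ℕ} {Y Y' : MP 1} (hY : Y ∈ Harm 1 j) (hY' : Y' ∈ Harm 1 j) :
    Jd 1 j * ∫ o, ev (Y * Y') o ∂sph 1 = 0 := by
  have h1 := (harm_pair hY hY').2
  have h2 : ∫ o, ev (BLink.W Y Y') o ∂sph 1 = j * j * ∫ o, ev (Y * Y') o ∂sph 1 := by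
    rw [← integral_const_mul]
    refine integral_congr_ae ?_
    filter_upwards [R230.ae_norm (n := 1)] with o ho
    have := BLink.omega_part hY hY' o
    rw [ho, Fin.sum_univ_one, Fin.sum_univ_one, BLink.ev_Lp, sub_self, zero_mul] at this
    linarith
  rw [BLink.W, h1] at h2
  linarith

theorem QS_iota {G : St} (hG : Adm d G) {j j' : ℕ} {Y Y' : MP d} (hY : Y ∈ Harm d j)
    (hY' : Y' ∈ Harm d j') (π π' : MP 2) :
    QS (cf d G) (iota Y π) (iota Y' π') =
      if j = j' then (∫ o, ev (Y * Y') o ∂sph d) *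
        QG d j G ((toP d j).symm π) ((toP d j).symm π') else 0 := by
  have c0 : ∀ i k, Integrable (fun p => cf d G i k p *
      (ev (Lp i k (iota Y π)) p * ev (Lp i k (iota Y' π')) p)) (sph (d + 2)) :=
    fun i k => R230.integrable_of_continuous ((continuous_cf hG i k).mul
      ((R230.continuous_ev (Lp i k (iota Y π))).mul (R230.continuous_ev (Lp i k (iota Y' π')))))
  have c1 := BLink.cont_a₁ hG j j' π π'
  have c2 : Continuous fun z => BLink.wC' d G z * (ev π z * ev π' z) :=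
    (BLink.cont_wC' hG).mul ((R230.continuous_ev π).mul (R230.continuous_ev π'))
  have cz := continuous_zOf d
  have cy := BLink.continuous_yOf d
  have e1 : QS (cf d G) (iota Y π) (iota Y' π') =
      ∫ p, BLink.a₁ d G j j' π π' (zOf p) * ev (Y * Y') (yOf p) ∂sph (d + 2) +
        ∫ p, BLink.wC' d G (zOf p) * (ev π (zOf p) * ev π' (zOf p)) *
          ev (BLink.W Y Y') (yOf p) ∂sph (d + 2) := by
    have i1 : Integrable (fun p => BLink.a₁ d G j j' π π' (zOf p) * ev (Y * Y') (yOf p))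
        (sph (d + 2)) :=
      R230.integrable_of_continuous ((c1.comp cz).mul ((R230.continuous_ev _).comp cy))
    have i2 : Integrable (fun p => BLink.wC' d G (zOf p) * (ev π (zOf p) * ev π' (zOf p)) *
        ev (BLink.W Y Y') (yOf p)) (sph (d + 2)) :=
      R230.integrable_of_continuous ((c2.comp cz).mul ((R230.continuous_ev _).comp cy))
    rw [← integral_add i1 i2]
    unfold QS ipw
    rw [Finset.sum_congr rfl fun i _ => (integral_finsetSum _ fun k _ => c0 i k).symm,
      ← integral_finsetSum _ fun i _ => integrable_finsetSum _ fun k _ => c0 i k,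
      ← integral_const_mul]
    refine integral_congr_ae ?_
    filter_upwards [R230.ae_norm (n := d + 2)] with p hp
    exact BLink.density G hY hY' π π' hp
  rw [e1, BLink.int_prod_c (hY.1.mul hY'.1) c1, BLink.int_prod_c (BLink.hom_W hY hY') c2,
    BLink.W, (harm_pair hY hY').2]
  split_ifs with hj
  swap
  · rw [(harm_pair hY hY').1 hj]; simp
  subst hj
  have cs : Continuous fun p : E (d + 2) => Real.sqrt (1 - XX (zOf p)) :=
    (continuous_const.sub (continuous_XX.comp cz)).sqrt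
  have i1 : Integrable (fun p : E (d + 2) => BLink.a₁ d G j j π π' (zOf p) *
      Real.sqrt (1 - XX (zOf p)) ^ (j + j)) (sph (d + 2)) :=
    R230.integrable_of_continuous ((c1.comp cz).mul (cs.pow _))
  have i2 : Integrable (fun p : E (d + 2) => (Jd d j + j * j) * (BLink.wC' d G (zOf p) *
      (ev π (zOf p) * ev π' (zOf p)) * Real.sqrt (1 - XX (zOf p)) ^ (j - 1 + (j - 1))))
      (sph (d + 2)) :=
    R230.integrable_of_continuous (continuous_const.mul ((c2.comp cz).mul (cs.pow _)))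
  rw [mul_comm (Jd d j + _), mul_assoc, ← mul_add, ← integral_const_mul (Jd d j + _),
    ← integral_add i1 i2]
  have e2 : (∫ o, ev (Y * Y') o ∂sph d) * qf d j (BLink.wA G) (BLink.wB d G) (BLink.wC' d G) π π' =
      (∫ o, ev (Y * Y') o ∂sph d) * qf d j (BLink.wA G) (BLink.wB d G) (BLink.wC G) π π' := by
    rcases eq_or_ne d 1 with rfl | hd
    · rcases mul_eq_zero.1 (BLink.J_mul hY hY') with h | h
      · simp only [qf, Dw, h, zero_mul, zero_div, mul_zero]
      · rw [h, zero_mul, zero_mul]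
    · congr 1
      refine integral_congr_ae ?_
      filter_upwards [ae_XX (d := d)] with p hp
      rw [BLink.wC', if_neg hd, div_mul_cancel₀ _ (sub_pos.2 hp.2).ne', add_sub_cancel]
  have e3 : QG d j G ((toP d j).symm π) ((toP d j).symm π') =
      qf d j (BLink.wA G) (BLink.wB d G) (BLink.wC G) π π' :=
    QF_apply (BLink.cont_wA hG) (BLink.cont_wB hG) (BLink.cont_wC hG) _ _
  rw [e3, ← e2]
  congr 1
  refine integral_congr_ae ?_
  filter_upwards [ae_XX (d := d)] with p hp
  have h0 := hp.1.ne'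
  have h1 := (sub_pos.2 hp.2).ne'
  have a1 : Real.sqrt (1 - XX (zOf p)) ^ (j + j) = (1 - XX (zOf p)) ^ j := by
    rw [← two_mul, pow_mul, Real.sq_sqrt (by linarith [hp.2])]
  have a2 : (Jd d j + j * j) * Real.sqrt (1 - XX (zOf p)) ^ (j - 1 + (j - 1)) =
      (Jd d j + j * j) * ((1 - XX (zOf p)) ^ j / (1 - XX (zOf p))) := by
    rw [← two_mul, pow_mul, Real.sq_sqrt (by linarith [hp.2])]
    cases j with
    | zero => simp [Jd]
    | succ k => rw [Nat.add_sub_cancel, pow_succ, mul_div_cancel_right₀ _ h1]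
  have a3 : ev (MvPolynomial.pderiv 0 π) (zOf p) * ev (MvPolynomial.pderiv 0 π') (zOf p) +
      ev (MvPolynomial.pderiv 1 π) (zOf p) * ev (MvPolynomial.pderiv 1 π') (zOf p) =
      (ev (Ez π) (zOf p) * ev (Ez π') (zOf p) +
        ev (Lp 0 1 π) (zOf p) * ev (Lp 0 1 π') (zOf p)) / XX (zOf p) := by
    rw [eq_div_iff h0]
    simp only [Ez, BLink.ev_Lp, R230.ev_add, R230.ev_mul, R230.ev_X, XX]
    ring
  rw [mul_left_comm (Jd d j + _), a1, a2]
  simp only [BLink.a₁, BLink.wC', Ds, Dt, Dw, Nz, a3]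
  generalize (if d = 1 then 0 else (BLink.wC G (zOf p) - BLink.wA G (zOf p)) / (1 - XX (zOf p))) = g
  field_simp
  ring

/-- different parities are orthogonal for the inner product and for all admissible states -/
theorem QG_parity {G : St} (hG : Adm d G) {j : ℕ} {u w : RP d j}
    (hu : ∀ z, ev (toP d j u) (rf2 z) = ev (toP d j u) z)
    (hw : ∀ z, ev (toP d j w) (rf2 z) = -ev (toP d j w) z) : ⟪u, w⟫ = 0 ∧ QG d j G u w = 0 := by
  have hu' : rfP (toP d j u) = toP d j u := BLink.eq_of_ev fun z => by rw [BLink.ev_rfP, hu]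
  have hw' : rfP (toP d j w) = -toP d j w := BLink.eq_of_ev fun z => by
    rw [BLink.ev_rfP, hw, R230.ev_neg]
  have a1 : ∀ z, ev (Ez (toP d j u)) (rf2 z) = ev (Ez (toP d j u)) z := fun z => by
    rw [← BLink.ev_rfP, BLink.rfP_Ez, hu']
  have a2 : ∀ z, ev (Ez (toP d j w)) (rf2 z) = -ev (Ez (toP d j w)) z := fun z => by
    rw [← BLink.ev_rfP, BLink.rfP_Ez, hw']
    simp only [Ez, map_neg, R230.ev_add, R230.ev_mul, R230.ev_neg]
    ring
  have a3 : ∀ z, ev (Lp 0 1 (toP d j u)) (rf2 z) = -ev (Lp 0 1 (toP d j u)) z := fun z => by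
    rw [← BLink.ev_rfP, BLink.rfP_Lp, hu', R230.ev_neg]
  have a4 : ∀ z, ev (Lp 0 1 (toP d j w)) (rf2 z) = ev (Lp 0 1 (toP d j w)) z := fun z => by
    rw [← BLink.ev_rfP, BLink.rfP_Lp, hw']
    simp only [map_neg, BLink.ev_Lp, R230.ev_neg]
    ring
  refine ⟨BLink.integral_odd (f := fun z => (1 - XX z) ^ j * (ev (toP d j u) z * ev (toP d j w) z))
    fun z => ?_, ?_⟩
  · rw [XX_rf2, hu, hw]; ring
  · refine (QF_apply (BLink.cont_wA hG) (BLink.cont_wB hG) (BLink.cont_wC hG) u w).trans ?_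
    refine BLink.integral_odd (f := fun z => BLink.wA G z * Ds j (toP d j u) (toP d j w) z +
      BLink.wB d G z * Dt j (toP d j u) (toP d j w) z +
      BLink.wC G z * Dw d j (toP d j u) (toP d j w) z) fun z => ?_
    simp only [BLink.wA, BLink.wB, BLink.wC, Ds, Dt, Dw, Nz, XX_rf2, hG.e1, hG.e2, hu, hw, a1, a2,
      a3, a4]
    ring

theorem BLink.parity {G : St} (hG : Adm d G) {j : ℕ} {s : Bool} {u w : RP d j}
    (hu : rfP (toP d j u) = sgn s • toP d j u) (hw : rfP (toP d j w) = -(sgn s • toP d j w)) :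
    ⟪u, w⟫ = 0 ∧ QG d j G u w = 0 := by
  cases s with
  | true =>
    exact QG_parity hG (fun z => by rw [← BLink.ev_rfP, hu]; simp [sgn])
      (fun z => by rw [← BLink.ev_rfP, hw]; simp [sgn])
  | false =>
    rw [real_inner_comm, QG_sym]
    exact QG_parity hG (fun z => by rw [← BLink.ev_rfP, hw]; simp [sgn])
      (fun z => by rw [← BLink.ev_rfP, hu]; simp [sgn])

theorem BLink.mem_WS {j : ℕ} {s : Bool} {M : ℕ} {u : RP d j} : u ∈ WS d j s M ↔
    ((toP d j u).totalDegree ≤ M ∧ rfP (toP d j u) = sgn s • toP d j u) ∧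
      (j = 0 → ⟪(toP d j).symm 1, u⟫ = 0) := by
  rw [WS, Submodule.mem_inf, Submodule.mem_comap, Submodule.mem_inf,
    MvPolynomial.mem_restrictTotalDegree, Module.End.mem_eigenspace_iff]
  refine and_congr Iff.rfl ?_
  split_ifs with h
  · rw [Submodule.mem_orthogonal_singleton_iff_inner_right]
    exact ⟨fun h' _ => h', fun h' => h' h⟩
  · simp [h]

theorem BLink.reduced {G : St} (hG : Adm d G) {j : ℕ} {s : Bool} {M : ℕ} {u u₂ : RP d j}
    (hu : u ∈ WS d j s M) (hu₂ : u₂ ∈ WS d j s M) {q : ℝ}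
    (h : ∀ w ∈ WS d j s M, ⟪u₂, w⟫ = QG d j G u w + q * ⟪u, w⟫) (w : RP d j)
    (hw : (toP d j w).totalDegree ≤ M) : ⟪u₂, w⟫ = QG d j G u w + q * ⟪u, w⟫ := by
  rw [BLink.mem_WS] at hu hu₂
  have hs : sgn s * sgn s = 1 := by cases s <;> simp [sgn]
  set r : RP d j := (toP d j).symm (sgn s • rfP (toP d j w)) with hr
  have hr' : toP d j r = sgn s • rfP (toP d j w) := rfl
  have e : w = (1 / 2 : ℝ) • ((w + r) + (w - r)) := by module
  have h1 : rfP (toP d j (w - r)) = -(sgn s • toP d j (w - r)) := by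
    rw [map_sub, map_sub, hr', map_smul, BLink.rfP_rfP, smul_sub, smul_smul, hs, one_smul, neg_sub]
  have h2 : rfP (toP d j (w + r)) = sgn s • toP d j (w + r) := by
    rw [map_add, map_add, hr', map_smul, BLink.rfP_rfP, smul_add, smul_smul, hs, one_smul, add_comm]
  have h3 : (toP d j (w + r)).totalDegree ≤ M := by
    rw [map_add, hr']
    exact (MvPolynomial.totalDegree_add _ _).trans (max_le hw
      ((MvPolynomial.totalDegree_smul_le _ _).trans ((BLink.totalDegree_rfP _).trans hw)))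
  have a1 := BLink.parity hG hu.1.2 h1
  have a2 := BLink.parity hG hu₂.1.2 h1
  have a3 : ⟪u₂, w + r⟫ = QG d j G u (w + r) + q * ⟪u, w + r⟫ := by
    set v := w + r
    by_cases hj : j = 0
    swap
    · exact h v (BLink.mem_WS.2 ⟨⟨h3, h2⟩, fun h => absurd h hj⟩)
    set o : RP d j := (toP d j).symm 1 with ho
    have ho' : toP d j o = 1 := rfl
    cases s with
    | false =>
      refine h v (BLink.mem_WS.2 ⟨⟨h3, h2⟩, fun _ => (BLink.parity hG (s := true) ?_ ?_).1⟩)
      · rw [ho', BLink.rfP_one]; simp [sgn]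
      · rw [h2]; simp [sgn]
    | true =>
      have b0 : o ≠ 0 := fun h0 => one_ne_zero (ho'.symm.trans (by rw [h0, map_zero]))
      have b1 : ⟪o, o⟫ ≠ 0 := inner_self_ne_zero.2 b0
      have b2 := h (v - (⟪o, v⟫ / ⟪o, o⟫) • o) (BLink.mem_WS.2 ⟨⟨?_, ?_⟩, fun _ => ?_⟩)
      · have b3 : QG d j G u o = 0 := by
          subst hj
          refine (QF_apply (BLink.cont_wA hG) (BLink.cont_wB hG) (BLink.cont_wC hG) u o).trans ?_
          simp [qf, ho', Ds, Dt, Dw, Nz, Ez, Lp, Jd]
        rw [inner_sub_right, inner_sub_right, map_sub, inner_smul_right, inner_smul_right, map_smul,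
          b3, real_inner_comm o u₂, real_inner_comm o u, hu.2 hj, hu₂.2 hj] at b2
        simpa using b2
      · rw [map_sub, map_smul, ho']
        exact (MvPolynomial.totalDegree_sub _ _).trans (max_le h3
          ((MvPolynomial.totalDegree_smul_le _ _).trans (by simp)))
      · rw [map_sub, map_sub, map_smul, map_smul, ho', BLink.rfP_one, h2]
        simp [sgn]
      · rw [inner_sub_right, inner_smul_right, div_mul_cancel₀ _ b1, sub_self]
  rw [e, inner_smul_right, inner_smul_right, map_smul, inner_add_right u₂ (w + r),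
    inner_add_right u (w + r), map_add _ (w + r), a1.1, a1.2, a2.1, a3, smul_eq_mul]
  ring

theorem gal_consistent {G : St} (hG : Adm d G) {j : ℕ} {Y : MP d} (hY : Y ∈ Harm d j)
    (hY1 : ∫ o, ev (Y * Y) o ∂sph d = 1) {s : Bool} {M : ℕ} {u u₂ : RP d j} (hu : u ∈ WS d j s M)
    (hu₂ : u₂ ∈ WS d j s M) {q : ℝ}
    (h : ∀ w ∈ WS d j s M, ⟪u₂, w⟫ = QG d j G u w + q * ⟪u, w⟫) (w : MP (d + 2))
    (hw : w.totalDegree ≤ M + j) :
    ipw (fun _ => 1) (iota Y (toP d j u₂)) w =
      QS (cf d G) (iota Y (toP d j u)) w + q * ipw (fun _ => 1) (iota Y (toP d j u)) w := by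
  have _ := hY1
  set Φ : MP (d + 2) →ₗ[ℝ] ℝ := BLink.ipwL (c := fun _ => 1) continuous_const (iota Y (toP d j u₂)) -
    BLink.QSL (continuous_cf hG) (iota Y (toP d j u)) -
      q • BLink.ipwL (c := fun _ => 1) continuous_const (iota Y (toP d j u)) with hΦ
  have e : ∀ R, Φ R = ipw (fun _ => 1) (iota Y (toP d j u₂)) R -
      QS (cf d G) (iota Y (toP d j u)) R - q * ipw (fun _ => 1) (iota Y (toP d j u)) R := fun R => by
    rw [hΦ, LinearMap.sub_apply, LinearMap.sub_apply, LinearMap.smul_apply, BLink.QSL_apply]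
    rfl
  have := BLink.span_iota Φ (fun R R' hR => by
    rw [e, e, BLink.ipw_congr _ _ hR, BLink.ipw_congr _ _ hR, BLink.QS_congr _ _ hR])
    (N := M + j) (fun i H π hH hπ => by
      rw [e, ipw_iota hY hH, ipw_iota hY hH, QS_iota hG hY hH]
      split_ifs with hj
      · subst hj
        have h1 := BLink.reduced hG hu hu₂ h ((toP d j).symm π)
          (by rw [LinearEquiv.apply_symm_apply]; omega)
        rw [inner_RP, inner_RP, LinearEquiv.apply_symm_apply] at h1
        rw [LinearEquiv.symm_apply_apply, h1]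
        ring
      · simp) hw
  rw [e] at this
  linarith

/-- a solution of the reduced equation gives a Galerkin solution on the sphere -/
theorem gal_of_sol {G : ℝ → St} (hG : ∀ t, Adm d (G t)) {q : ℝ → ℝ} {j : ℕ} {Y : MP d}
    (hY : Y ∈ Harm d j) (hY1 : ∫ o, ev (Y * Y) o ∂sph d = 1) {s : Bool} {M : ℕ}
    {y y' : ℝ → WS d j s M} (hy : ContDiff ℝ ∞ y)
    (hsol : SolOn (fun t => KG d j s M (G t) (q t)) univ y y') :
    Gal (M + j) (cT d G) q fun r t => iota Y (toP d j (iteratedDeriv r y t : WS d j s M)) := by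
  refine ⟨tower_of_smooth ((iota Y).comp ((toP d j).toLinearMap.comp (WS d j s M).subtype))
    (fun u => (totalDegree_iota hY _).trans (Nat.add_le_add_right (BLink.mem_WS.1 u.2).1.1 j)) hy,
    fun t w hw => ?_⟩
  have e1 : deriv y = y' := funext fun t => (hsol t (mem_univ t)).1.deriv
  have e2 : iteratedDeriv 2 y t = KG d j s M (G t) (q t) (y t) := by
    rw [iteratedDeriv_succ, iteratedDeriv_one, e1, (hsol t (mem_univ t)).2.deriv]
  have e3 : ∀ P R : MP (d + 2), QS (atT (cT d G) t) P R = QS (cf d (G t)) P R := by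
    intro P R
    unfold QS ipw
    refine congrArg _ (Finset.sum_congr rfl fun i _ => Finset.sum_congr rfl fun k _ =>
      integral_congr_ae ?_)
    filter_upwards [R230.ae_norm (n := d + 2)] with p hp
    have : ‖Real.exp t • p‖ = Real.exp t := by
      rw [norm_smul, hp, mul_one, Real.norm_of_nonneg (Real.exp_pos t).le]
    rw [atT, cT, this, Real.log_exp, smul_smul, inv_mul_cancel₀ (Real.exp_pos t).ne', one_smul]
  rw [e2, e3, iteratedDeriv_zero]
  exact gal_consistent (hG t) hY hY1 (y t).2 (KG d j s M (G t) (q t) (y t)).2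
    (fun w hw => inner_KG s M (G t) (q t) (y t) ⟨w, hw⟩) w hw

end Crest.Agent.R202
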