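import Crest.Agent.R202.BRound

/-!
# Row 202, B-mom: moments of `X = |z|²` on the sphere

`Im_rec`: integrate the rotation derivatives (`ip1_Lp` / `ipw_Lp` with the constant polynomial `1`, whose `Lp` vanishes) of
`z_i y_a ψ(X)`: `Σ_a L_{i,a}(z_i y_a ψ) = d z_i² ψ - (1-X)(ψ + 2 z_i² ψ')` on the sphere; summing over `i = 0, 1` gives
`∫ (d X ψ - 2(1-X) ψ - 2X(1-X) ψ') = 0`; take `ψ = X^a (1-X)^b`.
`Im_grad`: `SM² = X^{m-1} (1-X)^{j-1} (m(1-X) - jX)²`, so the integral is
`m² Im (m-1) (j+1) - 2mj Im m j + j² Im (m+1) (j-1) = (m(j + d/2) - 2mj + j²(m+1)/(j + d/2 - 1)) Im m j`.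
`Im_var`: with `n = m + j + d/2`: `Im m j = (m/n) Im (m-1) j`, `Im (m+1) j = ((m+1)/(n+1)) Im m j`.
-/

set_option autoImplicit false
open scoped ContDiff RealInnerProductSpace Topology
open MeasureTheory Set Filter Module
open Crest.GeometryTopology.CoordMetric
open Crest.Agent.R230 (E MP sph ev Harm)

noncomputable section
namespace Crest.Agent.R202

variable {d : ℕ} [NeZero d]

namespace MomAux

omit [NeZero d] in
theorem mS_int {f : ℝ → ℝ} (hf : Continuous f) :
    Integrable (fun p : E (d + 2) => f (XX (zOf p))) (sph (d + 2)) :=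
  Crest.Agent.R230.integrable_of_continuous (hf.comp (continuous_XX.comp (continuous_zOf d)))

theorem mS_add {f g : ℝ → ℝ} (hf : Continuous f) (hg : Continuous g) :
    mS d (fun X => f X + g X) = mS d f + mS d g :=
  integral_add (mS_int hf) (mS_int hg)

theorem mS_lin2 (α β : ℝ) {f g : ℝ → ℝ} (hf : Continuous f) (hg : Continuous g) :
    mS d (fun X => α * f X + β * g X) = α * mS d f + β * mS d g := by
  unfold mS
  rw [integral_add ((mS_int hf).const_mul α) ((mS_int hg).const_mul β), integral_const_mul,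
    integral_const_mul]

theorem mS_lin3 (α β γ : ℝ) {f g h : ℝ → ℝ} (hf : Continuous f) (hg : Continuous g)
    (hh : Continuous h) :
    mS d (fun X => α * f X + β * g X + γ * h X) = α * mS d f + β * mS d g + γ * mS d h := by
  unfold mS
  rw [integral_add (((mS_int hf).const_mul α).fun_add ((mS_int hg).const_mul β))
    ((mS_int hh).const_mul γ), integral_add ((mS_int hf).const_mul α) ((mS_int hg).const_mul β),
    integral_const_mul, integral_const_mul, integral_const_mul]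

theorem cont_mono (a b : ℕ) : Continuous fun X : ℝ => X ^ a * (1 - X) ^ b := by fun_prop

/-- `|z|²` as a polynomial -/
def rz : MP 2 := MvPolynomial.X 0 ^ 2 + MvPolynomial.X 1 ^ 2

theorem ev_aeval (q : Polynomial ℝ) (z : E 2) : ev (Polynomial.aeval rz q) z = q.eval (XX z) := by
  induction q using Polynomial.induction_on' with
  | add p q hp hq => simp only [map_add, Crest.Agent.R230.ev_add, hp, hq, Polynomial.eval_add]
  | monomial k c =>
    simp only [Polynomial.aeval_monomial, Polynomial.eval_monomial, Crest.Agent.R230.ev_mul,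
      Crest.Agent.R230.ev_pow, MvPolynomial.algebraMap_eq, Crest.Agent.R230.ev_C, rz,
      Crest.Agent.R230.ev_add, Crest.Agent.R230.ev_X, XX]

theorem pderiv_rz (i : Fin 2) : MvPolynomial.pderiv i rz = 2 * MvPolynomial.X i := by
  fin_cases i <;> simp [rz, MvPolynomial.pderiv_X]

theorem ev_pderiv (i : Fin 2) (q : Polynomial ℝ) (z : E 2) :
    ev (MvPolynomial.pderiv i (MvPolynomial.X i * Polynomial.aeval rz q)) z =
      q.eval (XX z) + 2 * z i ^ 2 * q.derivative.eval (XX z) := by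
  have e2 : ev (2 : MP 2) z = 2 := by
    rw [show (2 : MP 2) = MvPolynomial.C 2 from rfl, Crest.Agent.R230.ev_C]
  rw [MvPolynomial.pderiv_mul, MvPolynomial.pderiv_X_self, Derivation.map_aeval, pderiv_rz,
    smul_eq_mul]
  simp only [Crest.Agent.R230.ev_add, Crest.Agent.R230.ev_mul, Crest.Agent.R230.ev_one,
    Crest.Agent.R230.ev_X, ev_aeval, e2]
  ring

theorem int_rot (i : Fin 2) (a : Fin d) (q : Polynomial ℝ) :
    ∫ p, (zOf p i ^ 2 * q.eval (XX (zOf p)) - yOf p a ^ 2 *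
      (q.eval (XX (zOf p)) + 2 * zOf p i ^ 2 * q.derivative.eval (XX (zOf p)))) ∂sph (d + 2) = 0 := by
  have h := integral_Lf (zI d i) (yI d a)
    (f := ev (iota (MvPolynomial.X a) (MvPolynomial.X i * Polynomial.aeval rz q)))
    (Crest.Agent.R230.contDiff_ev _).contDiffOn
  rw [Lf_ev] at h
  rw [← h]
  refine integral_congr_ae (Eventually.of_forall fun p => ?_)
  simp only [BLink.ev_Lp, BLink.pderiv_y, BLink.pderiv_z, ev_iota, ev_pderiv,
    MvPolynomial.pderiv_X_self, Crest.Agent.R230.ev_one, Crest.Agent.R230.ev_mul,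
    Crest.Agent.R230.ev_X, ev_aeval]
  have e1 : zOf p i = p (zI d i) := rfl
  have e2 : yOf p a = p (yI d a) := rfl
  rw [e1, e2]
  ring

theorem mS_div (q : Polynomial ℝ) :
    mS d (fun X => d * X * q.eval X - 2 * (1 - X) * q.eval X -
      2 * (X * (1 - X) * q.derivative.eval X)) = 0 := by
  have hc : ∀ (i : Fin 2) (a : Fin d), Continuous fun p : E (d + 2) =>
      zOf p i ^ 2 * q.eval (XX (zOf p)) - yOf p a ^ 2 *
      (q.eval (XX (zOf p)) + 2 * zOf p i ^ 2 * q.derivative.eval (XX (zOf p))) := by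
    intro i a
    have h1 : Continuous fun p : E (d + 2) => zOf p i := by
      show Continuous fun p : E (d + 2) => p (zI d i)
      fun_prop
    have h2 : Continuous fun p : E (d + 2) => yOf p a := by
      show Continuous fun p : E (d + 2) => p (yI d a)
      fun_prop
    have h3 : Continuous fun p : E (d + 2) => XX (zOf p) := continuous_XX.comp (continuous_zOf d)
    have h4 := q.continuous.comp h3
    have h5 := q.derivative.continuous.comp h3
    exact ((h1.pow 2).mul h4).sub ((h2.pow 2).mul (h4.add ((continuous_const.mul (h1.pow 2)).mul h5)))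
  have h : ∑ i : Fin 2, ∑ a : Fin d, ∫ p, (zOf p i ^ 2 * q.eval (XX (zOf p)) - yOf p a ^ 2 *
      (q.eval (XX (zOf p)) + 2 * zOf p i ^ 2 * q.derivative.eval (XX (zOf p)))) ∂sph (d + 2) = 0 := by
    simp only [int_rot, Finset.sum_const_zero]
  simp only [← integral_finsetSum _ fun a _ =>
    Crest.Agent.R230.integrable_of_continuous (hc _ a)] at h
  rw [← integral_finsetSum _ fun i _ => integrable_finsetSum _ fun a _ =>
    Crest.Agent.R230.integrable_of_continuous (hc i a)] at h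
  rw [← h]
  refine integral_congr_ae ?_
  filter_upwards [Crest.Agent.R230.ae_norm (n := d + 2)] with p hp
  have h1 := norm_sq_split p
  rw [hp, EuclideanSpace.real_norm_sq_eq] at h1
  have h2 : ∑ a, yOf p a ^ 2 = 1 - XX (zOf p) := by linarith
  simp only [Finset.sum_sub_distrib, Finset.sum_const, Finset.card_univ, Fintype.card_fin,
    nsmul_eq_mul, ← Finset.sum_mul, h2, Fin.sum_univ_two]
  have h3 : XX (zOf p) = zOf p 0 ^ 2 + zOf p 1 ^ 2 := rfl
  generalize q.eval (XX (zOf p)) = u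
  generalize q.derivative.eval (XX (zOf p)) = v
  rw [h3]
  ring

theorem deriv_mono (a b : ℕ) (X : ℝ) :
    X * (1 - X) * (Polynomial.X ^ a * (1 - Polynomial.X) ^ b : Polynomial ℝ).derivative.eval X =
      a * (X ^ a * (1 - X) ^ (b + 1)) - b * (X ^ (a + 1) * (1 - X) ^ b) := by
  simp only [Polynomial.derivative_mul, Polynomial.derivative_pow, Polynomial.derivative_X,
    Polynomial.derivative_sub, Polynomial.derivative_one, Polynomial.eval_add, Polynomial.eval_mul,
    Polynomial.eval_pow, Polynomial.eval_X, Polynomial.eval_C, Polynomial.eval_sub,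
    Polynomial.eval_one, Polynomial.eval_zero]
  rcases a with _ | a <;> rcases b with _ | b <;> simp <;> ring

end MomAux

open MomAux

/-- `∫ X^a (1-X)^b` -/
def Im (d a b : ℕ) : ℝ := mS d fun X => X ^ a * (1 - X) ^ b

theorem Im_pos (a b : ℕ) : 0 < Im d a b := by
  refine mS_pos (cont_mono a b).continuousOn (C := 1) (fun X hX => ?_) (cont_mono a b).measurable
    (fun X hX => ?_) (X₀ := 1 / 2) ⟨by norm_num, by norm_num⟩ (by positivity)
  · have h1 := hX.1
    have h2 : 0 < 1 - X := sub_pos.2 hX.2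
    rw [abs_of_nonneg (by positivity)]
    exact mul_le_one₀ (pow_le_one₀ h1.le hX.2.le) (by positivity)
      (pow_le_one₀ h2.le (by linarith))
  · have h1 := hX.1
    have h2 : 0 < 1 - X := sub_pos.2 hX.2
    positivity

theorem Im_split (a b : ℕ) : Im d a b = Im d (a + 1) b + Im d a (b + 1) := by
  unfold Im
  rw [← mS_add (cont_mono _ _) (cont_mono _ _)]
  congr 1
  funext X
  ring

theorem Im_rec (a b : ℕ) :
    ((a : ℝ) + 1) * Im d a (b + 1) = ((b : ℝ) + d / 2) * Im d (a + 1) b := by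
  have h := mS_div (d := d) (Polynomial.X ^ a * (1 - Polynomial.X) ^ b)
  have h2 := mS_lin2 (d := d) (2 * (b : ℝ) + d) (-2 * ((a : ℝ) + 1)) (cont_mono (a + 1) b)
    (cont_mono a (b + 1))
  have e : (fun X : ℝ => (d : ℝ) * X * (Polynomial.X ^ a * (1 - Polynomial.X) ^ b :
      Polynomial ℝ).eval X - 2 * (1 - X) * (Polynomial.X ^ a * (1 - Polynomial.X) ^ b :
      Polynomial ℝ).eval X - 2 * (X * (1 - X) * (Polynomial.X ^ a * (1 - Polynomial.X) ^ b :
      Polynomial ℝ).derivative.eval X)) = fun X => (2 * (b : ℝ) + d) * (X ^ (a + 1) * (1 - X) ^ b) +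
        -2 * ((a : ℝ) + 1) * (X ^ a * (1 - X) ^ (b + 1)) := by
    funext X
    rw [deriv_mono]
    simp only [Polynomial.eval_mul, Polynomial.eval_pow, Polynomial.eval_X, Polynomial.eval_sub,
      Polynomial.eval_one]
    ring
  rw [e, h2] at h
  unfold Im
  linarith

theorem RM_one_sq (j m : ℕ) {X : ℝ} (hX : X ∈ Ioo (0 : ℝ) 1) :
    RM j m 1 X * RM j m 1 X = X ^ m * (1 - X) ^ j := by
  have h1 := Real.mul_self_sqrt hX.1.le
  have h2 := Real.mul_self_sqrt (sub_pos.2 hX.2).le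
  simp only [RM, Polynomial.eval_one, mul_one]
  calc _ = (Real.sqrt X * Real.sqrt X) ^ m * (Real.sqrt (1 - X) * Real.sqrt (1 - X)) ^ j := by ring
    _ = _ := by rw [h1, h2]

theorem SM_one_sq (j m : ℕ) {X : ℝ} (hX : X ∈ Ioo (0 : ℝ) 1) :
    SM j m 1 X * SM j m 1 X = X ^ m * (1 - X) ^ j * ((1 - X) * m - j * X) ^ 2 / (X * (1 - X)) := by
  have h1 := Real.mul_self_sqrt hX.1.le
  have h2 := Real.mul_self_sqrt (sub_pos.2 hX.2).le
  have h3 := Real.mul_self_sqrt (mul_pos hX.1 (sub_pos.2 hX.2)).le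
  simp only [SM, Polynomial.eval_one, mul_one, Polynomial.derivative_one, Polynomial.eval_zero,
    mul_zero, add_zero]
  rw [div_mul_div_comm, h3]
  congr 1
  calc _ = (Real.sqrt X * Real.sqrt X) ^ m * (Real.sqrt (1 - X) * Real.sqrt (1 - X)) ^ j *
        ((1 - X) * m - j * X) ^ 2 := by ring
    _ = _ := by rw [h1, h2]

theorem Im_grad {j m : ℕ} (hj : okJ d j) (hm : 1 ≤ m) :
    mS d (fun X => SM j m 1 X * SM j m 1 X) ≤ 4 * d * ((m : ℝ) + j) * Im d m j := by
  obtain ⟨m, rfl⟩ : ∃ k, m = k + 1 := ⟨m - 1, by omega⟩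
  have hd : (1 : ℝ) ≤ d := by exact_mod_cast Nat.pos_of_ne_zero (NeZero.ne d)
  have hm0 : (0 : ℝ) ≤ m := Nat.cast_nonneg m
  have hB := Im_pos (d := d) (m + 1) j
  have hA := Im_rec (d := d) m j
  rcases j with _ | j
  · have e : mS d (fun X => SM 0 (m + 1) 1 X * SM 0 (m + 1) 1 X) =
        mS d (fun X => ((m : ℝ) + 1) ^ 2 * (X ^ m * (1 - X) ^ (0 + 1)) +
          0 * (X ^ m * (1 - X) ^ (0 + 1))) := by
      refine mS_congr fun X hX => ?_
      have h1 := hX.1.ne'
      have h2 := (sub_pos.2 hX.2).ne'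
      rw [SM_one_sq 0 (m + 1) hX]
      push_cast
      field_simp
      ring
    rw [e, mS_lin2 _ _ (cont_mono _ _) (cont_mono _ _)]
    change ((m : ℝ) + 1) ^ 2 * Im d m (0 + 1) + 0 * Im d m (0 + 1) ≤ _
    push_cast at hA ⊢
    have h3 : ((m : ℝ) + 1) ^ 2 * Im d m (0 + 1) = (m + 1) * (d / 2) * Im d (m + 1) 0 := by
      rw [sq, mul_assoc, hA]
      ring
    rw [h3]
    have h4 : 0 ≤ ((m : ℝ) + 1) * d * Im d (m + 1) 0 := by positivity
    nlinarith
  · have e : mS d (fun X => SM (j + 1) (m + 1) 1 X * SM (j + 1) (m + 1) 1 X) =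
        mS d (fun X => ((m : ℝ) + 1) ^ 2 * (X ^ m * (1 - X) ^ (j + 1 + 1)) +
          (-2 * ((m : ℝ) + 1) * (j + 1)) * (X ^ (m + 1) * (1 - X) ^ (j + 1)) +
          ((j : ℝ) + 1) ^ 2 * (X ^ (m + 1 + 1) * (1 - X) ^ j)) := by
      refine mS_congr fun X hX => ?_
      have h1 := hX.1.ne'
      have h2 := (sub_pos.2 hX.2).ne'
      rw [SM_one_sq (j + 1) (m + 1) hX]
      push_cast
      field_simp
      ring
    rw [e, mS_lin3 _ _ _ (cont_mono _ _) (cont_mono _ _) (cont_mono _ _)]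
    change ((m : ℝ) + 1) ^ 2 * Im d m (j + 1 + 1) + (-2 * ((m : ℝ) + 1) * (j + 1)) *
      Im d (m + 1) (j + 1) + ((j : ℝ) + 1) ^ 2 * Im d (m + 1 + 1) j ≤ _
    have hC := Im_rec (d := d) (m + 1) j
    have hC0 := Im_pos (d := d) (m + 1 + 1) j
    have hj0 : (0 : ℝ) ≤ j := Nat.cast_nonneg j
    push_cast at hA hC ⊢
    have h3 : ((m : ℝ) + 1) ^ 2 * Im d m (j + 1 + 1) =
        (m + 1) * (j + 1 + d / 2) * Im d (m + 1) (j + 1) := by
      rw [sq, mul_assoc, hA]
      ring
    have h4 : ((j : ℝ) + 1) ^ 2 * Im d (m + 1 + 1) j ≤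
        (j + 2) * ((m + 1 + 1) * Im d (m + 1) (j + 1)) := by
      rw [hC, ← mul_assoc]
      exact mul_le_mul_of_nonneg_right (by nlinarith) hC0.le
    have h5 : (m + 1) * (j + 1 + d / 2) + (-2 * ((m : ℝ) + 1) * (j + 1)) + (j + 2) * (m + 1 + 1) ≤
        4 * d * (m + 1 + (j + 1)) := by nlinarith
    have h6 := mul_le_mul_of_nonneg_right h5 hB.le
    rw [h3]
    nlinarith

theorem Im_var (j : ℕ) {m : ℕ} (hm : 1 ≤ m) :
    mS d (fun X => (X - m / ((m : ℝ) + j + d / 2)) ^ 2 * (X ^ (m - 1) * (1 - X) ^ j)) ≤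
      Im d (m - 1) j / ((m : ℝ) + j) := by
  obtain ⟨m, rfl⟩ : ∃ k, m = k + 1 := ⟨m - 1, by omega⟩
  have hd : (1 : ℝ) ≤ d := by exact_mod_cast Nat.pos_of_ne_zero (NeZero.ne d)
  have hm0 : (0 : ℝ) ≤ m := Nat.cast_nonneg m
  have hj0 : (0 : ℝ) ≤ j := Nat.cast_nonneg j
  simp only [Nat.add_sub_cancel]
  push_cast
  set n : ℝ := (m : ℝ) + 1 + j + d / 2 with hn
  have hn0 : 0 < n := by positivity
  set c : ℝ := ((m : ℝ) + 1) / n with hc
  have e : (fun X : ℝ => (X - c) ^ 2 * (X ^ m * (1 - X) ^ j)) = fun X =>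
      1 * (X ^ (m + 1 + 1) * (1 - X) ^ j) + (-2 * c) * (X ^ (m + 1) * (1 - X) ^ j) +
        c ^ 2 * (X ^ m * (1 - X) ^ j) := by
    funext X
    ring
  rw [e, mS_lin3 _ _ _ (cont_mono _ _) (cont_mono _ _) (cont_mono _ _)]
  change 1 * Im d (m + 1 + 1) j + (-2 * c) * Im d (m + 1) j + c ^ 2 * Im d m j ≤ _
  have h0 := Im_pos (d := d) m j
  have h1 : Im d (m + 1) j = c * Im d m j := by
    have a1 := Im_split (d := d) m j
    have a2 := Im_rec (d := d) m j
    rw [hc, div_mul_eq_mul_div, eq_div_iff hn0.ne', a1, hn]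
    linear_combination -a2
  have h2 : Im d (m + 1 + 1) j = ((m : ℝ) + 1 + 1) / (n + 1) * Im d (m + 1) j := by
    have a1 := Im_split (d := d) (m + 1) j
    have a2 := Im_rec (d := d) (m + 1) j
    push_cast at a2
    rw [div_mul_eq_mul_div, eq_div_iff (by positivity), a1, hn]
    linear_combination -a2
  rw [h2, h1, div_eq_mul_inv (Im d m j), mul_comm (Im d m j)]
  have h3 : ((m : ℝ) + 1 + 1) / (n + 1) * c + -2 * c * c + c ^ 2 ≤ ((m : ℝ) + 1 + j)⁻¹ := by
    have hc1 : c ≤ 1 := (div_le_one hn0).2 (by rw [hn]; linarith)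
    have hc0 : 0 ≤ c := by positivity
    have h4 : ((m : ℝ) + 1 + 1) / (n + 1) - c ≤ (n + 1)⁻¹ := by
      have h5 : ((m : ℝ) + 1) / (n + 1) ≤ c :=
        div_le_div_of_nonneg_left (by positivity) hn0 (by linarith)
      have h6 : ((m : ℝ) + 1 + 1) / (n + 1) = ((m : ℝ) + 1) / (n + 1) + (n + 1)⁻¹ := by
        rw [add_div, one_div]
      linarith
    have h7 : (n + 1)⁻¹ ≤ ((m : ℝ) + 1 + j)⁻¹ :=
      inv_anti₀ (by positivity) (by rw [hn]; linarith)
    have h8 : 0 ≤ (n + 1)⁻¹ := by positivity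
    calc _ = c * (((m : ℝ) + 1 + 1) / (n + 1) - c) := by ring
      _ ≤ c * (n + 1)⁻¹ := mul_le_mul_of_nonneg_left h4 hc0
      _ ≤ 1 * (n + 1)⁻¹ := mul_le_mul_of_nonneg_right hc1 h8
      _ ≤ _ := by rw [one_mul]; exact h7
  have h9 := mul_le_mul_of_nonneg_right h3 h0.le
  nlinarith

end Crest.Agent.R202
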