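import Crest.Agent.R202.BCoef

/-!
# Row 202, B8: the inverse cross-section field of a path of states

With `r = |x|`, `x̂ = x/r`, `X = XX (zOf x̂)`, `w = rotv 0 1 x`:
`N = 1 + (e^{2α} - 1)(1 - x̂x̂ᵀ) + ((e^{2β} - e^{2α})/X) w wᵀ/r² + ((e^{2γ} - e^{2α})/(1-X)) (|y|² P_y - y yᵀ)/r²`
(`½ Σ ℓℓᵀ = r² - x xᵀ`).  Where the state is non-zero, `z ≠ 0` and (`d ≥ 2`) `y ≠ 0`, and
`N = (1 + (e^{2α}-1) Π)(1 + (e^{2β-2α}-1) θθᵀ)(1 + (e^{2γ-2α}-1) Π_ω)` with the commuting projections
`Π = 1 - x̂x̂ᵀ` (rank `d+1`), `θθᵀ` (rank `1`), `Π_ω = P_y - ŷŷᵀ` (rank `d-1`; zero if `d = 1`);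
`det = exp(2α(d+1) + (2β-2α) + (d-1)(2γ-2α)) = 1`; use `det (1 + u vᵀ) = 1 + vᵀu`
(`Matrix.det_one_add_replicateCol_mul_replicateRow`), `1 + (μ-1)Π = μ (1 + (μ⁻¹-1) x̂x̂ᵀ)`,
`1 + (μ-1)Π_ω = (1 + (μ-1)P_y)(1 + (μ⁻¹-1)ŷŷᵀ)`.  Positivity: `vᵀNv` is a combination with the
coefficients `1, e^{2α}, e^{2β}, e^{2γ}` of non-negative terms with sum `|v|²`.
-/

set_option autoImplicit false
open scoped ContDiff RealInnerProductSpace Topology
open MeasureTheory Set Filter Module
open Crest.GeometryTopology.CoordMetric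
open Crest.Agent.R230 (E MP sph ev Harm)

noncomputable section
namespace Crest.Agent.R202

namespace BNc

section alg
variable {ι : Type} [Fintype ι] [DecidableEq ι]

/-- the model matrix: diagonal minus three rank-one terms -/
def MM (ζ η p : ι → ℝ) (A b c : ℝ) : Matrix ι ι ℝ := Matrix.of fun i k =>
  (if i = k then (A + b * ∑ l, ζ l * p l ^ 2) * ζ i + (A + c * ∑ l, η l * p l ^ 2) * η i else 0) -
    (A - 1) * (p i * p k) - b * (ζ i * p i * (ζ k * p k)) - c * (η i * p i * (η k * p k))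

theorem MM_apply (ζ η p : ι → ℝ) (A b c : ℝ) (i k : ι) : MM ζ η p A b c i k =
    (if i = k then (A + b * ∑ l, ζ l * p l ^ 2) * ζ i + (A + c * ∑ l, η l * p l ^ 2) * η i else 0) -
      (A - 1) * (p i * p k) - b * (ζ i * p i * (ζ k * p k)) - c * (η i * p i * (η k * p k)) := rfl

theorem MM_mulVec (ζ η p : ι → ℝ) (A b c : ℝ) (v : ι → ℝ) (i : ι) :
    (MM ζ η p A b c).mulVec v i =
      ((A + b * ∑ l, ζ l * p l ^ 2) * ζ i + (A + c * ∑ l, η l * p l ^ 2) * η i) * v i -
        (A - 1) * p i * (∑ k, p k * v k) - b * (ζ i * p i) * (∑ k, ζ k * p k * v k) -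
        c * (η i * p i) * (∑ k, η k * p k * v k) := by
  change ∑ k, MM ζ η p A b c i k * v k = _
  generalize hB : A + b * ∑ l, ζ l * p l ^ 2 = B
  generalize hC : A + c * ∑ l, η l * p l ^ 2 = C
  have e : ∀ k, MM ζ η p A b c i k * v k = (if i = k then (B * ζ i + C * η i) * v k else 0) -
      (A - 1) * p i * (p k * v k) - b * (ζ i * p i) * (ζ k * p k * v k) -
      c * (η i * p i) * (η k * p k * v k) := fun k => by
    rw [MM_apply, hB, hC]
    split_ifs <;> ring
  rw [Finset.sum_congr rfl fun k _ => e k, Finset.sum_sub_distrib, Finset.sum_sub_distrib,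
    Finset.sum_sub_distrib, Finset.sum_ite_eq, if_pos (Finset.mem_univ i), ← Finset.mul_sum,
    ← Finset.mul_sum, ← Finset.mul_sum]

theorem real_pos {X Y P Q s t A b c : ℝ} (hX : 0 ≤ X) (hY : 0 ≤ Y) (hXY : X + Y = 1) (hP : 0 ≤ P)
    (hQ : 0 ≤ Q) (hs : s ^ 2 ≤ X * P) (ht : t ^ 2 ≤ Y * Q) (hPQ : 0 < P + Q) (hA : 0 < A)
    (hB : 0 < A + b * X) (hC : 0 < A + c * Y) :
    0 < (A + b * X) * P + (A + c * Y) * Q - (A - 1) * (s + t) ^ 2 - b * s ^ 2 - c * t ^ 2 := by
  have key : ∀ {X P s : ℝ}, 0 ≤ X → 0 ≤ P → s ^ 2 ≤ X * P → ∃ u, 0 ≤ u ∧ u ≤ P ∧ s ^ 2 = X * u := by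
    intro X P s hX hP hs
    rcases hX.eq_or_lt with rfl | hX
    · exact ⟨0, le_rfl, hP, by nlinarith [sq_nonneg s]⟩
    · exact ⟨s ^ 2 / X, by positivity, by rw [div_le_iff₀ hX]; linarith, by field_simp⟩
  obtain ⟨u, hu0, hu1, hu⟩ := key hX hP hs
  obtain ⟨w, hw0, hw1, hw⟩ := key hY hQ ht
  have h1 : (s + t) ^ 2 ≤ u + w := by
    have h2 : 2 * (s * t) ≤ X * w + Y * u := by
      refine (abs_le_of_sq_le_sq' ?_ (by positivity)).2
      have : (2 * (s * t)) ^ 2 = 4 * (X * w) * (Y * u) := by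
        rw [show (2 * (s * t)) ^ 2 = 4 * s ^ 2 * t ^ 2 by ring, hu, hw]
        ring
      rw [this]
      nlinarith [sq_nonneg (X * w - Y * u)]
    have h3 : u + w = (X + Y) * (u + w) := by rw [hXY, one_mul]
    nlinarith
  set m := min (min 1 A) (min (A + b * X) (A + c * Y)) with hm
  have m0 : 0 < m := lt_min (lt_min one_pos hA) (lt_min hB hC)
  have m1 : m ≤ 1 := (min_le_left _ _).trans (min_le_left _ _)
  have m2 : m ≤ A := (min_le_left _ _).trans (min_le_right _ _)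
  have m3 : m ≤ A + b * X := (min_le_right _ _).trans (min_le_left _ _)
  have m4 : m ≤ A + c * Y := (min_le_right _ _).trans (min_le_right _ _)
  have e : (A + b * X) * P + (A + c * Y) * Q - (A - 1) * (s + t) ^ 2 - b * s ^ 2 - c * t ^ 2 =
      1 * (s + t) ^ 2 + A * (u + w - (s + t) ^ 2) + (A + b * X) * (P - u) +
        (A + c * Y) * (Q - w) := by
    rw [hu, hw]
    ring
  have a1 := mul_le_mul_of_nonneg_right m1 (sq_nonneg (s + t))
  have a2 := mul_le_mul_of_nonneg_right m2 (sub_nonneg.2 h1)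
  have a3 := mul_le_mul_of_nonneg_right m3 (sub_nonneg.2 hu1)
  have a4 := mul_le_mul_of_nonneg_right m4 (sub_nonneg.2 hw1)
  have a5 := mul_pos m0 hPQ
  rw [e]
  linarith

omit [DecidableEq ι] in
theorem cs {ζ : ι → ℝ} (hζ : ∀ i, ζ i = 1 ∨ ζ i = 0) (p v : ι → ℝ) :
    (∑ k, ζ k * p k * v k) ^ 2 ≤ (∑ k, ζ k * p k ^ 2) * ∑ k, ζ k * v k ^ 2 := by
  have h := Finset.sum_mul_sq_le_sq_mul_sq Finset.univ (fun k => ζ k * p k) (fun k => ζ k * v k)
  have e1 : ∀ k, ζ k * p k * (ζ k * v k) = ζ k * p k * v k := fun k => by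
    rcases hζ k with h | h <;> rw [h] <;> ring
  have e2 : ∀ (q : ι → ℝ) k, (ζ k * q k) ^ 2 = ζ k * q k ^ 2 := fun q k => by
    rcases hζ k with h | h <;> rw [h] <;> ring
  simpa only [e1, e2] using h

theorem MM_posDef {ζ η p : ι → ℝ} {A b c : ℝ} (h : ∀ i, (ζ i = 1 ∧ η i = 0) ∨ (ζ i = 0 ∧ η i = 1))
    (hp : ∑ l, ζ l * p l ^ 2 + ∑ l, η l * p l ^ 2 = 1) (hA : 0 < A)
    (hB : 0 < A + b * ∑ l, ζ l * p l ^ 2) (hC : 0 < A + c * ∑ l, η l * p l ^ 2) :
    (MM ζ η p A b c).PosDef := by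
  have hζ : ∀ i, ζ i = 1 ∨ ζ i = 0 := fun i => (h i).imp And.left And.left
  have hη : ∀ i, η i = 1 ∨ η i = 0 := fun i => ((h i).imp And.right And.right).symm
  have hn : ∀ {ζ : ι → ℝ}, (∀ i, ζ i = 1 ∨ ζ i = 0) → ∀ v : ι → ℝ, 0 ≤ ∑ k, ζ k * v k ^ 2 :=
    fun hζ v => Finset.sum_nonneg fun k _ => by
      rcases hζ k with h | h <;> rw [h] <;> positivity
  refine Matrix.PosDef.of_dotProduct_mulVec_pos ?_ fun v hv => ?_
  · refine Matrix.IsHermitian.ext fun i k => ?_
    rw [star_trivial, MM_apply, MM_apply]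
    by_cases hik : i = k
    · subst hik
      rfl
    · rw [if_neg hik, if_neg (Ne.symm hik)]
      ring
  · have hPQ : 0 < ∑ k, ζ k * v k ^ 2 + ∑ k, η k * v k ^ 2 := by
      rw [← Finset.sum_add_distrib]
      have e : ∀ k, ζ k * v k ^ 2 + η k * v k ^ 2 = v k ^ 2 := fun k => by
        rcases h k with h | h <;> rw [h.1, h.2] <;> ring
      rw [Finset.sum_congr rfl fun k _ => e k]
      obtain ⟨i, hi⟩ := Function.ne_iff.1 hv
      exact Finset.sum_pos' (fun k _ => sq_nonneg _) ⟨i, Finset.mem_univ i, sq_pos_of_ne_zero hi⟩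
    have key := real_pos (hn hζ p) (hn hη p) hp (hn hζ v) (hn hη v) (cs hζ p v) (cs hη p v) hPQ hA
      hB hC
    have hst : ∑ k, p k * v k = ∑ k, ζ k * p k * v k + ∑ k, η k * p k * v k := by
      rw [← Finset.sum_add_distrib]
      refine Finset.sum_congr rfl fun k _ => ?_
      rcases h k with h | h <;> rw [h.1, h.2] <;> ring
    refine key.trans_eq ?_
    rw [star_trivial, ← hst]
    change _ = ∑ i, v i * (MM ζ η p A b c).mulVec v i
    simp only [MM_mulVec]
    generalize A + b * ∑ l, ζ l * p l ^ 2 = B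
    generalize A + c * ∑ l, η l * p l ^ 2 = C
    rw [sq (∑ k, p k * v k), sq (∑ k, ζ k * p k * v k), sq (∑ k, η k * p k * v k)]
    generalize hs : ∑ k, ζ k * p k * v k = s
    generalize ht : ∑ k, η k * p k * v k = t
    generalize hr : ∑ k, p k * v k = r
    have e : ∀ i, v i * ((B * ζ i + C * η i) * v i - (A - 1) * p i * r - b * (ζ i * p i) * s -
        c * (η i * p i) * t) = B * (ζ i * v i ^ 2) + C * (η i * v i ^ 2) -
        (A - 1) * r * (p i * v i) - b * s * (ζ i * p i * v i) - c * t * (η i * p i * v i) :=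
      fun i => by ring
    rw [Finset.sum_congr rfl fun i _ => e i, Finset.sum_sub_distrib, Finset.sum_sub_distrib,
      Finset.sum_sub_distrib, Finset.sum_add_distrib, ← Finset.mul_sum, ← Finset.mul_sum,
      ← Finset.mul_sum, ← Finset.mul_sum, ← Finset.mul_sum, hs, ht, hr]
    ring

theorem MM_det {ζ η p : ι → ℝ} {A b c : ℝ} (h : ∀ i, (ζ i = 1 ∧ η i = 0) ∨ (ζ i = 0 ∧ η i = 1))
    (hp : ∑ l, ζ l * p l ^ 2 + ∑ l, η l * p l ^ 2 = 1) {B C : ℝ}
    (hB : A + b * ∑ l, ζ l * p l ^ 2 = B) (hC : A + c * ∑ l, η l * p l ^ 2 = C) (hB0 : B ≠ 0)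
    (hC0 : C ≠ 0) : (MM ζ η p A b c).det = (∏ i, (B * ζ i + C * η i)) * (A / (B * C)) := by
  set U : Matrix ι (Fin 2) ℝ := Matrix.of fun i j => ![ζ i * p i / B, η i * p i / C] j with hU
  set W : Matrix (Fin 2) ι ℝ := Matrix.of fun j k =>
    ![-(A - 1) * p k - b * (ζ k * p k), -(A - 1) * p k - c * (η k * p k)] j with hW
  have e1 : MM ζ η p A b c = Matrix.diagonal (fun i => B * ζ i + C * η i) * (1 + U * W) := by
    ext i k
    rw [Matrix.diagonal_mul, Matrix.add_apply, Matrix.mul_apply, Fin.sum_univ_two, MM_apply, hB, hC,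
      Matrix.one_apply]
    change _ = (B * ζ i + C * η i) * ((if i = k then 1 else 0) +
      (ζ i * p i / B * (-(A - 1) * p k - b * (ζ k * p k)) +
        η i * p i / C * (-(A - 1) * p k - c * (η k * p k))))
    rcases h i with h | h <;> rw [h.1, h.2] <;> split_ifs <;> field_simp <;> ring
  generalize hX : ∑ l, ζ l * p l ^ 2 = X at hp hB
  generalize hY : ∑ l, η l * p l ^ 2 = Y at hp hC
  have w00 : (W * U) 0 0 = -(A - 1 + b) / B * X := by
    rw [Matrix.mul_apply, ← hX, Finset.mul_sum]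
    refine Finset.sum_congr rfl fun k _ => ?_
    change (-(A - 1) * p k - b * (ζ k * p k)) * (ζ k * p k / B) = _
    rcases h k with h | h <;> rw [h.1] <;> ring
  have w01 : (W * U) 0 1 = -(A - 1) / C * Y := by
    rw [Matrix.mul_apply, ← hY, Finset.mul_sum]
    refine Finset.sum_congr rfl fun k _ => ?_
    change (-(A - 1) * p k - b * (ζ k * p k)) * (η k * p k / C) = _
    rcases h k with h | h <;> rw [h.1, h.2] <;> ring
  have w10 : (W * U) 1 0 = -(A - 1) / B * X := by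
    rw [Matrix.mul_apply, ← hX, Finset.mul_sum]
    refine Finset.sum_congr rfl fun k _ => ?_
    change (-(A - 1) * p k - c * (η k * p k)) * (ζ k * p k / B) = _
    rcases h k with h | h <;> rw [h.1, h.2] <;> ring
  have w11 : (W * U) 1 1 = -(A - 1 + c) / C * Y := by
    rw [Matrix.mul_apply, ← hY, Finset.mul_sum]
    refine Finset.sum_congr rfl fun k _ => ?_
    change (-(A - 1) * p k - c * (η k * p k)) * (η k * p k / C) = _
    rcases h k with h | h <;> rw [h.2] <;> ring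
  rw [e1, Matrix.det_mul, Matrix.det_diagonal, Matrix.det_one_add_mul_comm, Matrix.det_fin_two]
  congr 1
  simp only [Matrix.add_apply, Matrix.one_apply_eq, Matrix.one_apply_ne (show (0 : Fin 2) ≠ 1 by decide),
    Matrix.one_apply_ne (show (1 : Fin 2) ≠ 0 by decide), w00, w01, w10, w11]
  have hY' : Y = 1 - X := by linarith
  have hb : b * X = B - A := by linarith
  have hc : c * Y = C - A := by linarith
  have e2 : 1 + -(A - 1 + b) / B * X = (A - (A - 1) * X) / B := by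
    field_simp
    linarith
  have e3 : 1 + -(A - 1 + c) / C * Y = (A - (A - 1) * Y) / C := by
    field_simp
    linarith
  rw [e2, e3, hY']
  field_simp
  ring

end alg

variable {n : ℕ}

theorem rotv_self (i : Fin n) (x : E n) (a : Fin n) : rotv i i x a = 0 := sub_self _

theorem rotv_smul (i k : Fin n) (r : ℝ) (x : E n) (a : Fin n) :
    rotv i k (r • x) a = r * rotv i k x a := by
  unfold rotv
  simp only [PiLp.smul_apply, smul_eq_mul]
  split_ifs <;> ring

theorem rotv_dot (i k : Fin n) (x : E n) (v : Fin n → ℝ) :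
    ∑ a, rotv i k x a * v a = x i * v k - x k * v i := by
  unfold rotv
  simp only [sub_mul, ite_mul, zero_mul, Finset.sum_sub_distrib, Finset.sum_ite_eq',
    Finset.mem_univ, if_true]

theorem rot_sum (χ : Fin n → ℝ) (x : E n) (a b : Fin n) :
    ∑ i, ∑ k, χ i * χ k * rotv i k x a * rotv i k x b =
      2 * ((if a = b then (∑ l, χ l * x l ^ 2) * χ a else 0) - χ a * x a * (χ b * x b)) := by
  have e1 : ∀ i k, χ i * χ k * rotv i k x a * rotv i k x b =
      (if a = k then χ i * χ k * x i * rotv i k x b else 0) -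
        (if a = i then χ i * χ k * x k * rotv i k x b else 0) := fun i k => by
    generalize rotv i k x b = r
    unfold rotv
    split_ifs <;> ring
  simp only [e1, Finset.sum_sub_distrib, Finset.sum_ite_eq, Finset.mem_univ, if_true]
  rw [Finset.sum_comm (f := fun i k => if a = i then χ i * χ k * x k * rotv i k x b else 0)]
  simp only [Finset.sum_ite_eq, Finset.mem_univ, if_true]
  have e2 : ∀ i, χ i * χ a * x i * rotv i a x b =
      (if a = b then χ i * x i ^ 2 * χ a else 0) -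
        (if b = i then χ a * x a * (χ i * x i) else 0) := fun i => by
    unfold rotv
    simp only [eq_comm (a := b) (b := a)]
    split_ifs <;> ring
  have e3 : ∀ k, χ a * χ k * x k * rotv a k x b =
      (if b = k then χ a * x a * (χ k * x k) else 0) -
        (if a = b then χ k * x k ^ 2 * χ a else 0) := fun k => by
    unfold rotv
    simp only [eq_comm (a := b) (b := a)]
    split_ifs <;> ring
  simp only [e2, e3, Finset.sum_sub_distrib, Finset.sum_ite_eq, Finset.mem_univ, if_true]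
  by_cases hab : a = b
  · simp only [if_pos hab, ← Finset.sum_mul]
    ring
  · simp only [if_neg hab, Finset.sum_const_zero]
    ring

theorem Nc_apply (c : Fin n → Fin n → E n → ℝ) (x : E n) (a b : Fin n) : Nc c x a b =
    (1 : Matrix (Fin n) (Fin n) ℝ) a b +
      (1 / 2) * ∑ i, ∑ k, (c i k x - 1) * rotv i k x a * rotv i k x b / ‖x‖ ^ 2 := rfl

theorem Nc_rad (c : Fin n → Fin n → E n → ℝ) (x : E n) :
    (Nc c x).mulVec (fun i => x i) = fun i => x i := by
  funext a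
  change ∑ b, Nc c x a b * x b = x a
  simp only [Nc_apply, add_mul, Finset.sum_add_distrib, Matrix.one_apply, ite_mul, one_mul, zero_mul,
    Finset.sum_ite_eq, Finset.mem_univ, if_true, mul_assoc (1 / 2 : ℝ), ← Finset.mul_sum,
    Finset.sum_mul]
  rw [add_eq_left, Finset.sum_comm]
  refine mul_eq_zero_of_right _ (Finset.sum_eq_zero fun i _ => ?_)
  rw [Finset.sum_comm]
  refine Finset.sum_eq_zero fun k _ => ?_
  have e : ∀ b, (c i k x - 1) * rotv i k x a * rotv i k x b / ‖x‖ ^ 2 * x b =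
      (c i k x - 1) * rotv i k x a / ‖x‖ ^ 2 * (rotv i k x b * x b) := fun b => by ring
  rw [Finset.sum_congr rfl fun b _ => e b, ← Finset.mul_sum, rotv_dot]
  ring

theorem Nc_smooth {c : Fin n → Fin n → E n → ℝ} (hc : ∀ i k, ContDiffOn ℝ ∞ (c i k) {0}ᶜ)
    (a b : Fin n) : ContDiffOn ℝ ∞ (fun x => Nc c x a b) {0}ᶜ := by
  have hr : ∀ i k a : Fin n, ContDiff ℝ ∞ fun x : E n => rotv i k x a := fun i k a => by
    unfold rotv
    split_ifs <;> fun_prop
  simp only [Nc_apply]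
  refine contDiffOn_const.add (contDiffOn_const.mul (ContDiffOn.sum fun i _ =>
    ContDiffOn.sum fun k _ => ContDiffOn.div
      ((((hc i k).sub contDiffOn_const).mul (hr i k a).contDiffOn).mul (hr i k b).contDiffOn)
      (contDiff_norm_sq ℝ).contDiffOn fun x hx => ?_))
  exact pow_ne_zero _ (norm_ne_zero_iff.2 hx)

/-- indicator of the `z`-coordinates -/
def zt (d : ℕ) (i : Fin (d + 2)) : ℝ := if (i : ℕ) < 2 then 1 else 0

/-- indicator of the `y`-coordinates -/
def et (d : ℕ) (i : Fin (d + 2)) : ℝ := if (i : ℕ) < 2 then 0 else 1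

variable {d : ℕ}

theorem zt_et (i : Fin (d + 2)) : (zt d i = 1 ∧ et d i = 0) ∨ (zt d i = 0 ∧ et d i = 1) := by
  unfold zt et
  split_ifs
  · exact Or.inl ⟨rfl, rfl⟩
  · exact Or.inr ⟨rfl, rfl⟩

theorem zt_succ (i : Fin d) : zt d i.succ.succ = 0 := if_neg (by simp only [Fin.val_succ]; omega)

theorem et_succ (i : Fin d) : et d i.succ.succ = 1 := if_neg (by simp only [Fin.val_succ]; omega)

theorem sum_split (f : Fin (d + 2) → ℝ) :
    ∑ i, f i = f (zI d 0) + f (zI d 1) + ∑ i : Fin d, f i.succ.succ := by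
  rw [Fin.sum_univ_succ, Fin.sum_univ_succ]
  exact (add_assoc _ _ _).symm

theorem zt_zI (j : Fin 2) : zt d (zI d j) = 1 := if_pos j.2

theorem et_zI (j : Fin 2) : et d (zI d j) = 0 := if_pos j.2

theorem sum_zt (p : E (d + 2)) : ∑ l, zt d l * p l ^ 2 = XX (zOf p) := by
  rw [sum_split, zt_zI, zt_zI, Finset.sum_eq_zero fun i _ => by rw [zt_succ, zero_mul], one_mul,
    one_mul, add_zero]
  rfl

theorem sum_zt_et {p : E (d + 2)} (hp : ‖p‖ = 1) :
    ∑ l, zt d l * p l ^ 2 + ∑ l, et d l * p l ^ 2 = 1 := by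
  have h := EuclideanSpace.real_norm_sq_eq p
  rw [hp, one_pow] at h
  rw [h, ← Finset.sum_add_distrib]
  refine Finset.sum_congr rfl fun k _ => ?_
  rcases zt_et k with h | h <;> rw [h.1, h.2] <;> ring

theorem sum_et {p : E (d + 2)} (hp : ‖p‖ = 1) : ∑ l, et d l * p l ^ 2 = 1 - XX (zOf p) := by
  rw [← sum_zt, ← sum_zt_et hp]
  ring

theorem prod_diag (B C : ℝ) : ∏ i : Fin (d + 2), (B * zt d i + C * et d i) = B ^ 2 * C ^ d := by
  rw [Fin.prod_univ_succ, Fin.prod_univ_succ,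
    Finset.prod_congr rfl fun i _ => show B * zt d (Fin.succ i).succ + C * et d (Fin.succ i).succ = C by
      rw [zt_succ, et_succ]; ring, Finset.prod_const, Finset.card_univ, Fintype.card_fin]
  change (B * zt d (zI d 0) + C * et d (zI d 0)) * ((B * zt d (zI d 1) + C * et d (zI d 1)) * _) = _
  rw [zt_zI, zt_zI, et_zI, et_zI]
  ring

theorem norm_unit {x : E n} (hx : x ≠ 0) : ‖‖x‖⁻¹ • x‖ = 1 := by
  rw [norm_smul, norm_inv, norm_norm, inv_mul_cancel₀ (norm_ne_zero_iff.2 hx)]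

/-- the explicit form of the field -/
theorem Nc_eq (G : ℝ → St) {x p : E (d + 2)} (hx : x ≠ 0) (hp : ‖x‖⁻¹ • x = p) {H : St}
    (hH : G (Real.log ‖x‖) = H) :
    Nc (cT d G) x = MM (zt d) (et d) (fun i => p i) (Real.exp (2 * H.1 (zOf p)))
      ((Real.exp (2 * bet d (H.1 (zOf p)) (H.2 (zOf p))) - Real.exp (2 * H.1 (zOf p))) / XX (zOf p))
      ((Real.exp (2 * H.2 (zOf p)) - Real.exp (2 * H.1 (zOf p))) / (1 - XX (zOf p))) := by
  have hn : ‖x‖ ≠ 0 := norm_ne_zero_iff.2 hx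
  have hp1 : ‖p‖ = 1 := hp ▸ norm_unit hx
  have hc : ∀ i k, cT d G i k x = cf d H i k p := fun i k => by
    unfold cT
    rw [hp, hH]
  ext a a'
  rw [Nc_apply, MM_apply]
  generalize hA : Real.exp (2 * H.1 (zOf p)) = A
  generalize hb : (Real.exp (2 * bet d (H.1 (zOf p)) (H.2 (zOf p))) - A) / XX (zOf p) = b
  generalize hc' : (Real.exp (2 * H.2 (zOf p)) - A) / (1 - XX (zOf p)) = c
  have e : ∀ i k, (cT d G i k x - 1) * rotv i k x a * rotv i k x a' / ‖x‖ ^ 2 =
      (A - 1) * ((fun _ => (1 : ℝ)) i * (fun _ => (1 : ℝ)) k * rotv i k p a * rotv i k p a') +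
        b * (zt d i * zt d k * rotv i k p a * rotv i k p a') +
        c * (et d i * et d k * rotv i k p a * rotv i k p a') := by
    intro i k
    by_cases hik : i = k
    · subst hik
      simp only [rotv_self]
      ring
    · have e1 : cf d H i k p = A + b * (zt d i * zt d k) + c * (et d i * et d k) := by
        have hik' : (i : ℕ) ≠ k := fun h => hik (Fin.ext h)
        unfold cf zt et
        rw [hA, hb, hc']
        by_cases h1 : (i : ℕ) < 2 <;> by_cases h2 : (k : ℕ) < 2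
        · rw [if_pos (by omega), if_pos h1, if_pos h2, if_pos h1, if_pos h2]
          ring
        · rw [if_neg (by omega), if_neg (by omega), if_pos h1, if_neg h2, if_pos h1, if_neg h2]
          ring
        · rw [if_neg (by omega), if_neg (by omega), if_neg h1, if_pos h2, if_neg h1, if_pos h2]
          ring
        · rw [if_neg (by omega), if_pos ⟨by omega, by omega, hik⟩, if_neg h1, if_neg h2, if_neg h1,
            if_neg h2]
          ring
      rw [hc, e1, ← hp, rotv_smul, rotv_smul]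
      field_simp
      ring
  simp only [e, Finset.sum_add_distrib, ← Finset.mul_sum]
  rw [rot_sum, rot_sum, rot_sum, Matrix.one_apply]
  have h1 : ∑ l, (1 : ℝ) * p l ^ 2 = 1 := by
    have h := EuclideanSpace.real_norm_sq_eq p
    rw [hp1, one_pow] at h
    simp only [one_mul]
    exact h.symm
  rw [h1]
  split_ifs
  · rcases zt_et a with h | h <;> rw [h.1, h.2] <;> ring
  · ring

end BNc

open BNc

variable {d : ℕ} [NeZero d] {V : Type} [Fintype V] {F : V → St}

theorem Nc_one {G : ℝ → St} {x : E (d + 2)} (h : G (Real.log ‖x‖) = 0) : Nc (cT d G) x = 1 := by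
  ext a b
  rw [Nc_apply]
  simp only [cT_one h, sub_self, zero_mul, zero_div, Finset.sum_const_zero, mul_zero, add_zero]

theorem nfield_cT (hF : ∀ v, Adm d (F v)) {a : ℝ → V → ℝ} (ha : ContDiff ℝ ∞ a)
    (h0 : ∀ t, t ≤ 0 → comb F (a t) = 0) : NField (Nc (cT d fun t => comb F (a t))) := by
  have key : ∀ x : E (d + 2), x ≠ 0 → (Nc (cT d fun t => comb F (a t)) x).PosDef ∧
      (Nc (cT d fun t => comb F (a t)) x).det = 1 := by
    intro x hx
    obtain ⟨p, hp⟩ : ∃ p, ‖x‖⁻¹ • x = p := ⟨_, rfl⟩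
    obtain ⟨H, hH⟩ : ∃ H, comb F (a (Real.log ‖x‖)) = H := ⟨_, rfl⟩
    have hp1 : ‖p‖ = 1 := hp ▸ norm_unit hx
    have hadm : Adm d H := hH ▸ adm_comb hF _
    rw [Nc_eq (fun t => comb F (a t)) hx hp hH]
    have hB : Real.exp (2 * H.1 (zOf p)) +
        (Real.exp (2 * bet d (H.1 (zOf p)) (H.2 (zOf p))) - Real.exp (2 * H.1 (zOf p))) /
          XX (zOf p) * ∑ l, zt d l * p l ^ 2 =
        Real.exp (2 * bet d (H.1 (zOf p)) (H.2 (zOf p))) := by
      rw [sum_zt]
      by_cases hX : XX (zOf p) = 0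
      · obtain ⟨h1, h2⟩ := hadm.supp (zOf p) fun h => by
          have := h.1
          rw [hX] at this
          norm_num at this
        unfold bet
        rw [hX, h1, h2]
        norm_num
      · field_simp
        ring
    obtain ⟨C, hC, hC0, hCd⟩ : ∃ C, Real.exp (2 * H.1 (zOf p)) +
        (Real.exp (2 * H.2 (zOf p)) - Real.exp (2 * H.1 (zOf p))) / (1 - XX (zOf p)) *
          ∑ l, et d l * p l ^ 2 = C ∧ 0 < C ∧
        C ^ (d - 1) = Real.exp (2 * H.2 (zOf p)) ^ (d - 1) := by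
      rw [sum_et hp1]
      by_cases hX : 1 - XX (zOf p) = 0
      · refine ⟨Real.exp (2 * H.1 (zOf p)), by rw [hX, mul_zero, add_zero], Real.exp_pos _, ?_⟩
        by_cases hd : d = 1
        · rw [show d - 1 = 0 by omega, pow_zero, pow_zero]
        · obtain ⟨h1, h2⟩ := hadm.supp (zOf p) fun h => by
            have := h.2
            unfold xhi at this
            rw [if_neg hd] at this
            linarith
          rw [h1, h2]
      · refine ⟨Real.exp (2 * H.2 (zOf p)), ?_, Real.exp_pos _, rfl⟩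
        field_simp
        ring
    refine ⟨MM_posDef zt_et (sum_zt_et hp1) (Real.exp_pos _) (hB.symm ▸ Real.exp_pos _)
      (hC.symm ▸ hC0), ?_⟩
    rw [MM_det zt_et (sum_zt_et hp1) hB hC (Real.exp_pos _).ne' hC0.ne', prod_diag]
    have hd : 1 ≤ d := Nat.one_le_iff_ne_zero.2 (NeZero.ne d)
    have h1 : C ^ d = C ^ (d - 1) * C := by rw [← pow_succ, Nat.sub_add_cancel hd]
    have h2 : Real.exp (2 * H.1 (zOf p)) * Real.exp (2 * bet d (H.1 (zOf p)) (H.2 (zOf p))) *
        Real.exp (2 * H.2 (zOf p)) ^ (d - 1) = 1 := by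
      rw [← Real.exp_nat_mul, ← Real.exp_add, ← Real.exp_add, Nat.cast_sub hd, Real.exp_eq_one_iff]
      unfold bet
      push_cast
      ring
    have h3 := Real.exp_pos (2 * bet d (H.1 (zOf p)) (H.2 (zOf p)))
    rw [h1, hCd, ← h2]
    field_simp
  exact ⟨Nc_smooth (cT_smooth hF ha), fun x hx => (key x hx).1, fun x _ => Nc_rad _ x,
    fun x hx => (key x hx).2, fun x _ h1 => Nc_one (h0 _ (Real.log_nonpos (norm_nonneg _) h1))⟩

/-- the angular direction is an eigenvector along the whole ray -/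
theorem Nc_eig (G : ℝ → St) {x : E (d + 2)} (hx : XX (zOf x) ≠ 0) (τ : ℝ) :
    (Nc (cT d G) (Real.exp τ • x)).mulVec (rotv (zI d 0) (zI d 1) x) = fun i =>
      Real.exp (2 * bet d ((G (Real.log ‖x‖ + τ)).1 (zOf (‖x‖⁻¹ • x)))
        ((G (Real.log ‖x‖ + τ)).2 (zOf (‖x‖⁻¹ • x)))) * rotv (zI d 0) (zI d 1) x i := by
  have hx0 : x ≠ 0 := by
    rintro rfl
    apply hx
    change (0 : ℝ) ^ 2 + 0 ^ 2 = 0
    norm_num
  have hn : 0 < ‖x‖ := norm_pos_iff.2 hx0
  have he := Real.exp_pos τ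
  have h1 : ‖Real.exp τ • x‖ = Real.exp τ * ‖x‖ := by
    rw [norm_smul, Real.norm_of_nonneg he.le]
  obtain ⟨p, hp⟩ : ∃ p, ‖x‖⁻¹ • x = p := ⟨_, rfl⟩
  have h2 : ‖Real.exp τ • x‖⁻¹ • Real.exp τ • x = p := by
    rw [h1, smul_smul, ← hp]
    congr 1
    field_simp
  have h3 : G (Real.log ‖Real.exp τ • x‖) = G (Real.log ‖x‖ + τ) := by
    rw [h1, Real.log_mul he.ne' hn.ne', Real.log_exp, add_comm]
  have hpi : ∀ i, p i = ‖x‖⁻¹ * x i := fun i => by rw [← hp]; rfl
  have hX : XX (zOf p) ≠ 0 := by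
    have : XX (zOf p) = ‖x‖⁻¹ ^ 2 * XX (zOf x) := by
      change p (zI d 0) ^ 2 + p (zI d 1) ^ 2 = ‖x‖⁻¹ ^ 2 * (x (zI d 0) ^ 2 + x (zI d 1) ^ 2)
      rw [hpi, hpi]
      ring
    rw [this]
    exact mul_ne_zero (pow_ne_zero _ (inv_ne_zero hn.ne')) hx
  rw [Nc_eq G (smul_ne_zero he.ne' hx0) h2 h3, hp]
  funext i
  have s0 : ∀ χ : Fin (d + 2) → ℝ, χ (zI d 0) = χ (zI d 1) →
      ∑ k, χ k * p k * rotv (zI d 0) (zI d 1) x k = 0 := fun χ hχ => by
    rw [Finset.sum_congr rfl fun k _ => mul_comm _ _, rotv_dot, hχ, hpi, hpi]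
    ring
  have s1 : ∑ k, p k * rotv (zI d 0) (zI d 1) x k = 0 := by
    simpa only [one_mul] using s0 (fun _ => 1) rfl
  rw [MM_mulVec, s1, s0 (zt d) (by rw [zt_zI, zt_zI]), s0 (et d) (by rw [et_zI, et_zI]), sum_zt,
    div_mul_cancel₀ _ hX]
  rcases zt_et i with h | h
  · rw [h.1, h.2]
    ring
  · have : rotv (zI d 0) (zI d 1) x i = 0 := by
      have hi : ∀ j, i ≠ zI d j := fun j hj => by
        have := h.1
        rw [hj, zt_zI] at this
        exact one_ne_zero this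
      unfold rotv
      rw [if_neg (hi 1), if_neg (hi 0), sub_self]
    rw [this]
    ring

end Crest.Agent.R202
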