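import Crest.Agent.R202.BSec
import Crest.Agent.R202.BLink

/-!
# Row 202, B4: dimensions, the round spectrum, elementary bounds for the eigenvalues

`e_k = secMap s m (X^k)`, `m + 2k ≤ M`, is a basis of `range (secMap) ⊓ {degree ≤ M}`.
For `Y ∈ Harm d j` normalised (`exists_harm_ne`), `iota Y e_k` is homogeneous of degree
`l = j + m + 2k` with Laplacian `4k(k+m) iota Y e_{k-1}`, so by `QS_iota`, `ipw_Lp`, `sum_Lp_Lp`:
`QG 0 e_k w = l(l+d) ⟪e_k, w⟫ - 4k(k+m) ⟪e_{k-1}, w⟫`.  (For `d = 1`, `j ≥ 2` there is no such `Y`;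
these blocks are excluded by `okJ`.)  The bidiagonal recursion gives eigenvectors
`φ_k ∈ e_k + span (e_0..e_{k-1})` with the strictly increasing eigenvalues `l(l+d)`; they are
orthogonal; for `j = m = 0` the vector `φ_0 = 1` is removed by the mean-zero condition.
-/

set_option autoImplicit false
open scoped ContDiff RealInnerProductSpace Topology
open MeasureTheory Set Filter Module
open Crest.Agent.R230 (E MP sph ev Harm)

noncomputable section
namespace Crest.Agent.R202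

namespace RoundAux

open InnerProductSpace Submodule
open Crest.Agent.R230 (lap r2)

section GS
variable {X : Type} [NormedAddCommGroup X] [InnerProductSpace ℝ X]

theorem span_gsn (e : ℕ → X) (N : ℕ) :
    span ℝ (gramSchmidtNormed ℝ e '' Iio N) = span ℝ (e '' Iio N) := by
  rw [span_gramSchmidtNormed, span_gramSchmidt_Iio]

theorem gs_orth (e : ℕ → X) (k : ℕ) {v : X} (hv : v ∈ span ℝ (e '' Iio k)) :
    ⟪gramSchmidt ℝ e k, v⟫ = 0 := by
  induction hv using span_induction with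
  | mem x hx =>
    obtain ⟨i, hi, rfl⟩ := hx
    exact gramSchmidt_inv_triangular ℝ e hi
  | zero => simp
  | add x y _ _ hx hy => rw [inner_add_right, hx, hy, add_zero]
  | smul a x _ hx => rw [real_inner_smul_right, hx, mul_zero]

theorem gs_eig {Q : X →ₗ[ℝ] X →ₗ[ℝ] ℝ} (hQ : SymF Q) (e : ℕ → X) (μ : ℕ → ℝ)
    (h : ∀ k, ∃ v ∈ span ℝ (e '' Iio k), ∀ w, Q (e k) w = μ k * ⟪e k, w⟫ + ⟪v, w⟫) (k : ℕ) (w : X) :
    Q (gramSchmidtNormed ℝ e k) w = μ k * ⟪gramSchmidtNormed ℝ e k, w⟫ := by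
  have hA : ∀ u ∈ span ℝ (e '' Iio k), ∃ v ∈ span ℝ (e '' Iio k), ∀ w, Q u w = ⟪v, w⟫ := by
    intro u hu
    induction hu using span_induction with
    | mem x hx =>
      obtain ⟨i, hi, rfl⟩ := hx
      obtain ⟨v, hv, h1⟩ := h i
      refine ⟨μ i • e i + v, add_mem (smul_mem _ _ (subset_span ⟨i, hi, rfl⟩))
        (span_mono (image_mono (Iio_subset_Iio (le_of_lt hi))) hv), fun w => ?_⟩
      rw [h1, inner_add_left, real_inner_smul_left]
    | zero => exact ⟨0, zero_mem _, fun w => by simp⟩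
    | add x y _ _ hx hy =>
      obtain ⟨v, hv, h1⟩ := hx
      obtain ⟨v', hv', h2⟩ := hy
      exact ⟨v + v', add_mem hv hv', fun w => by
        rw [map_add, LinearMap.add_apply, h1, h2, inner_add_left]⟩
    | smul a x _ hx =>
      obtain ⟨v, hv, h1⟩ := hx
      exact ⟨a • v, smul_mem _ _ hv, fun w => by
        rw [map_smul, LinearMap.smul_apply, h1, real_inner_smul_left, smul_eq_mul]⟩
  have hp : e k - gramSchmidt ℝ e k ∈ span ℝ (e '' Iio k) := by
    rw [← span_gramSchmidt_Iio ℝ e k, gramSchmidt_def ℝ e k, sub_sub_cancel]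
    refine sum_mem fun i hi => ?_
    rw [starProjection_singleton]
    exact smul_mem _ _ (subset_span ⟨i, Finset.mem_Iio.1 hi, rfl⟩)
  obtain ⟨v, hv, h1⟩ := h k
  obtain ⟨v', hv', h2⟩ := hA _ hp
  set u := μ k • (e k - gramSchmidt ℝ e k) + v - v' with hu
  have huS : u ∈ span ℝ (e '' Iio k) := sub_mem (add_mem (smul_mem _ _ hp) hv) hv'
  have h3 : ∀ w, Q (gramSchmidt ℝ e k) w = μ k * ⟪gramSchmidt ℝ e k, w⟫ + ⟪u, w⟫ := fun w => by
    have := h2 w
    rw [map_sub, LinearMap.sub_apply, h1] at this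
    rw [hu, inner_sub_left, inner_add_left, real_inner_smul_left, inner_sub_left]
    linarith
  obtain ⟨v'', hv'', h4⟩ := hA u huS
  have h5 : u = 0 := by
    have h6 := h3 u
    rw [hQ, h4, real_inner_comm, gs_orth e k hv'', gs_orth e k huS] at h6
    exact inner_self_eq_zero.1 (by linarith : ⟪u, u⟫ = 0)
  rw [gramSchmidtNormed, map_smul, LinearMap.smul_apply, h3, h5, real_inner_smul_left]
  simp only [inner_zero_left, add_zero, smul_eq_mul]
  ring

theorem mem_span_shift {g : ℕ → X} (hg : Orthonormal ℝ g) {N δ : ℕ} {u : X}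
    (hu : u ∈ span ℝ (g '' Iio N)) (h0 : ∀ i < δ, ⟪g i, u⟫ = 0) :
    u ∈ span ℝ (range fun k : Fin (N - δ) => g (k + δ)) := by
  have e : g '' Iio N = range fun k : Fin N => g k := by
    ext x
    exact ⟨fun ⟨i, hi, h⟩ => ⟨⟨i, hi⟩, h⟩, fun ⟨i, h⟩ => ⟨i, i.2, h⟩⟩
  rw [e] at hu
  obtain ⟨c, rfl⟩ := (mem_span_range_iff_exists_fun ℝ).1 hu
  refine sum_mem fun i _ => ?_
  by_cases hi : (i : ℕ) < δ
  · have h1 : c i = 0 := ((hg.comp (fun k : Fin N => (k : ℕ))
      Fin.val_injective).inner_right_fintype c i).symm.trans (h0 i hi)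
    rw [h1, zero_smul]
    exact zero_mem _
  · refine smul_mem _ _ (subset_span ⟨⟨i - δ, by omega⟩, ?_⟩)
    simp only
    congr 1
    omega

end GS

open MvPolynomial in
theorem hpair_hom (m : ℕ) : (Hpair m).1.IsHomogeneous m ∧ (Hpair m).2.IsHomogeneous m := by
  induction m with
  | zero => exact ⟨isHomogeneous_one _ _, isHomogeneous_zero _ _ _⟩
  | succ m ih =>
    have h : ∀ (i : Fin 2) {P : MP 2}, P.IsHomogeneous m → (X i * P).IsHomogeneous (m + 1) :=
      fun i P hP => by rw [add_comm]; exact (isHomogeneous_X ℝ i).mul hP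
    exact ⟨(h 0 ih.1).sub (h 1 ih.2), (h 0 ih.2).add (h 1 ih.1)⟩

open MvPolynomial in
theorem hpair_cr (m : ℕ) : pderiv 0 (Hpair m).1 = pderiv 1 (Hpair m).2 ∧
    pderiv 1 (Hpair m).1 = -pderiv 0 (Hpair m).2 := by
  induction m with
  | zero => simp [Hpair]
  | succ m ih =>
    have e1 : pderiv (0 : Fin 2) (X 1 : MP 2) = 0 := pderiv_X_of_ne (by decide)
    have e2 : pderiv (1 : Fin 2) (X 0 : MP 2) = 0 := pderiv_X_of_ne (by decide)
    simp only [Hpair, map_sub, map_add, pderiv_mul, pderiv_X_self, e1, e2, ih.1, ih.2]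
    constructor <;> ring

theorem Hp_hom (s : Bool) (m : ℕ) : (Hp s m).IsHomogeneous m := by
  cases s
  · exact (hpair_hom m).2
  · exact (hpair_hom m).1

open MvPolynomial in
theorem lap_Hp (s : Bool) (m : ℕ) : lap (Hp s m) = 0 := by
  obtain ⟨h1, h2⟩ := hpair_cr m
  have c := Crest.Agent.R230.PolyAux.pderiv_comm (n := 2) 0 1
  cases s
  · change lap (Hpair m).2 = 0
    rw [lap, Fin.sum_univ_two, ← h1, ← neg_eq_iff_eq_neg.2 h2, map_neg, c]
    ring
  · change lap (Hpair m).1 = 0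
    rw [lap, Fin.sum_univ_two, h1, h2, map_neg, c]
    ring

open MvPolynomial in
theorem hpair_ev (m : ℕ) : eval ![(1 : ℝ), 0] (Hpair m).1 = 1 := by
  induction m with
  | zero => simp [Hpair]
  | succ m ih => simp [Hpair, ih]

open MvPolynomial in
theorem Hp_ne {s : Bool} {m : ℕ} (hs : okS s m) : Hp s m ≠ 0 := by
  have h1 : (Hpair m).1 ≠ 0 := fun h => by
    have := hpair_ev m
    rw [h] at this
    simp at this
  cases s
  · intro h
    have hm : 1 ≤ m := hs.resolve_left (by simp)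
    change (Hpair m).2 = 0 at h
    obtain ⟨h2, h3⟩ := hpair_cr m
    have h4 := (hpair_hom m).1.sum_X_mul_pderiv
    rw [Fin.sum_univ_two, h2, h3, h] at h4
    simp only [map_zero, mul_zero, neg_zero, add_zero] at h4
    exact h1 ((smul_eq_zero.1 h4.symm).resolve_left (by omega))
  · exact h1

theorem hpair_rf (m : ℕ) (z : E 2) : ev (Hpair m).1 (rf2 z) = ev (Hpair m).1 z ∧
    ev (Hpair m).2 (rf2 z) = -ev (Hpair m).2 z := by
  induction m with
  | zero => simp [Hpair]
  | succ m ih =>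
    have e0 : rf2 z 0 = z 0 := rfl
    have e1 : rf2 z 1 = -z 1 := rfl
    simp only [Hpair, Crest.Agent.R230.ev_sub, Crest.Agent.R230.ev_add, Crest.Agent.R230.ev_mul,
      Crest.Agent.R230.ev_X, ih.1, ih.2, e0, e1]
    constructor <;> ring

theorem Hp_rf (s : Bool) (m : ℕ) (z : E 2) : ev (Hp s m) (rf2 z) = sgn s * ev (Hp s m) z := by
  cases s
  · simpa [Hp, sgn] using (hpair_rf m z).2
  · simpa [Hp, sgn] using (hpair_rf m z).1

theorem r2_two : (r2 2) = MvPolynomial.X 0 ^ 2 + MvPolynomial.X 1 ^ 2 := by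
  rw [r2, Fin.sum_univ_two]

variable {d j : ℕ}

/-- the monomial basis of a sector -/
def eb (d j : ℕ) (s : Bool) (m k : ℕ) : RP d j := secMap d j s m (Polynomial.X ^ k)

theorem toP_eb (s : Bool) (m k : ℕ) : toP d j (eb d j s m k) = r2 2 ^ k * Hp s m := by
  rw [r2_two, mul_comm]
  simp [eb, secMap]

theorem eb_hom (s : Bool) (m k : ℕ) : (toP d j (eb d j s m k)).IsHomogeneous (m + 2 * k) := by
  rw [toP_eb, add_comm]
  exact (Crest.Agent.R230.PolyAux.hom_r2.pow k).mul (Hp_hom s m)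

theorem eb_ne {s : Bool} {m : ℕ} (hs : okS s m) (k : ℕ) : toP d j (eb d j s m k) ≠ 0 := by
  rw [toP_eb]
  refine mul_ne_zero (pow_ne_zero _ fun h => ?_) (Hp_ne hs)
  have := congrArg (MvPolynomial.eval ![(1 : ℝ), 0]) h
  rw [r2_two] at this
  simp at this

theorem lap_r2_mul' {n l : ℕ} {Z : MP n} (hZ : Z.IsHomogeneous l) :
    lap (r2 n * Z) = 2 * (n + 2 * l) * Z + r2 n * lap Z := by
  have h := hZ.sum_X_mul_pderiv
  rw [nsmul_eq_mul] at h
  simp only [Crest.Agent.R230.PolyAux.lap_mul, Crest.Agent.R230.PolyAux.lap_r2,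
    Crest.Agent.R230.PolyAux.pderiv_r2, mul_assoc, ← Finset.mul_sum, h]
  ring

theorem lap_eb (s : Bool) (m k : ℕ) :
    ∃ c : ℕ, lap (r2 2 ^ (k + 1) * Hp s m) = c * (r2 2 ^ k * Hp s m) := by
  induction k with
  | zero =>
    refine ⟨2 * (2 + 2 * m), ?_⟩
    rw [zero_add, pow_one, lap_r2_mul' (Hp_hom s m), lap_Hp]
    push_cast
    ring
  | succ k ih =>
    obtain ⟨c, hc⟩ := ih
    have h := eb_hom (d := 0) (j := 0) s m (k + 1)
    rw [toP_eb] at h
    refine ⟨2 * (2 + 2 * (m + 2 * (k + 1))) + c, ?_⟩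
    rw [pow_succ' _ (k + 1), mul_assoc, lap_r2_mul' h, hc]
    push_cast
    ring

theorem lap_eb_mem (s : Bool) (m k : ℕ) :
    (toP d j).symm (lap (toP d j (eb d j s m k))) ∈ span ℝ (eb d j s m '' Iio k) := by
  cases k with
  | zero =>
    rw [toP_eb, pow_zero, one_mul, lap_Hp, map_zero]
    exact zero_mem _
  | succ k =>
    obtain ⟨c, hc⟩ := lap_eb s m k
    rw [toP_eb, hc, ← toP_eb (d := d) (j := j), ← nsmul_eq_mul, map_nsmul,
      LinearEquiv.symm_apply_apply]
    have h : eb d j s m k ∈ span ℝ (eb d j s m '' Iio (k + 1)) :=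
      subset_span ⟨k, Nat.lt_succ_self k, rfl⟩
    exact nsmul_mem h c

theorem coef_zero {s : Bool} {m : ℕ} (hs : okS s m) (T : Finset ℕ) (c : ℕ → ℝ) {i : ℕ} (hi : i ∈ T)
    (h : MvPolynomial.homogeneousComponent (m + 2 * i)
      (toP d j (∑ k ∈ T, c k • eb d j s m k)) = 0) : c i = 0 := by
  rw [map_sum, map_sum, Finset.sum_eq_single i (fun k _ hk => ?_) (fun h => (h hi).elim), map_smul,
    map_smul, MvPolynomial.homogeneousComponent_of_mem (eb_hom s m i), if_pos rfl] at h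
  · exact (smul_eq_zero.1 h).resolve_right (eb_ne hs i)
  · rw [map_smul, map_smul, MvPolynomial.homogeneousComponent_of_mem (eb_hom s m k),
      if_neg (by omega), smul_zero]

theorem eb_li {s : Bool} {m : ℕ} (hs : okS s m) : LinearIndependent ℝ (eb d j s m) := by
  rw [linearIndependent_iff']
  intro T c h i hi
  exact coef_zero (d := d) (j := j) hs T c hi (by rw [h, map_zero, map_zero])

theorem mem_span_eb {s : Bool} {m M : ℕ} (hs : okS s m) (p : Polynomial ℝ)
    (h : (toP d j (secMap d j s m p)).totalDegree ≤ M) :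
    secMap d j s m p ∈ span ℝ (eb d j s m '' Iio ((M + 2 - m) / 2)) := by
  have e : secMap d j s m p = ∑ k ∈ p.support, p.coeff k • eb d j s m k := by
    conv_lhs => rw [p.as_sum_support_C_mul_X_pow]
    rw [map_sum]
    exact Finset.sum_congr rfl fun k _ => by rw [← Polynomial.smul_eq_C_mul, map_smul, eb]
  rw [e] at h ⊢
  refine sum_mem fun i hi => smul_mem _ _ (subset_span ⟨i, ?_, rfl⟩)
  by_contra hc
  have : M < m + 2 * i := by
    simp only [mem_Iio] at hc
    omega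
  exact Polynomial.mem_support_iff.1 hi (coef_zero (d := d) (j := j) hs _ _ hi
    (MvPolynomial.homogeneousComponent_eq_zero _ _ (h.trans_lt this)))

theorem yI_inj : Function.Injective (yI d) := fun _ _ h =>
  Fin.succ_injective _ (Fin.succ_injective _ h)

theorem zI_inj : Function.Injective (zI d) := Fin.castLE_injective (by omega)

open MvPolynomial in
theorem pderiv_rename_zero {σ τ : Type} (f : σ → τ) {i : τ} (hi : ∀ a, f a ≠ i)
    (P : MvPolynomial σ ℝ) : pderiv i (rename f P) = 0 := by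
  classical
  refine pderiv_eq_zero_of_notMem_vars fun h => ?_
  obtain ⟨a, -, ha⟩ := mem_vars_rename f P h
  exact hi a ha

theorem sum_split {A : Type} [AddCommMonoid A] (f : Fin (d + 2) → A) :
    ∑ i, f i = ∑ i : Fin 2, f (zI d i) + ∑ a : Fin d, f (yI d a) := by
  rw [Fin.sum_univ_two, add_assoc, Fin.sum_univ_succ, Fin.sum_univ_succ]
  rfl

theorem yI_ne (a : Fin d) (i : Fin 2) : yI d a ≠ zI d i := fun h => by
  have := congrArg Fin.val h
  simp only [yI, zI, Fin.val_succ, Fin.val_castLE] at this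
  omega

open MvPolynomial in
theorem lap_iota {Y : MP d} (hY : lap Y = 0) (π : MP 2) : lap (iota Y π) = iota Y (lap π) := by
  have e : ∀ ρ : MP 2, iota Y ρ = rename (yI d) Y * rename (zI d) ρ := fun _ => rfl
  have h1 : ∀ (i : Fin 2) (P : MP d), pderiv (zI d i) (rename (yI d) P) = 0 := fun i P =>
    pderiv_rename_zero _ (fun a => yI_ne a i) P
  have h2 : ∀ (a : Fin d) (P : MP 2), pderiv (yI d a) (rename (zI d) P) = 0 := fun a P =>
    pderiv_rename_zero _ (fun i => (yI_ne a i).symm) P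
  have h3 : lap (rename (yI d) Y) = 0 := by
    rw [lap, sum_split]
    simp only [h1, map_zero, Finset.sum_const_zero, zero_add, pderiv_rename yI_inj, ← map_sum]
    rw [show ∑ a, pderiv a (pderiv a Y) = 0 from hY, map_zero]
  have h4 : lap (rename (zI d) π) = rename (zI d) (lap π) := by
    rw [lap, sum_split]
    simp only [h2, map_zero, Finset.sum_const_zero, add_zero, pderiv_rename zI_inj, ← map_sum]
    rfl
  rw [e, e, Crest.Agent.R230.PolyAux.lap_mul, h3, h4, sum_split]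
  simp only [h1, h2, zero_mul, mul_zero, Finset.sum_const_zero, add_zero, zero_add]

theorem cf_zero (i k : Fin (d + 2)) : cf d 0 i k = fun _ => 1 := by
  funext p
  simp [cf, bet]

theorem QS_one {n l : ℕ} {P : MP n} (hP : P.IsHomogeneous l) (R : MP n) :
    QS (fun _ _ _ => 1) P R = (l : ℝ) * ((l : ℝ) + n - 2) * ipw (fun _ => 1) P R -
      ipw (fun _ => 1) (lap P) R := by
  have hi : ∀ A B : MP n, Integrable (fun p => (1 : ℝ) * (ev A p * ev B p)) (sph n) := fun A B =>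
    Crest.Agent.R230.integrable_of_continuous (continuous_const.mul
      ((Crest.Agent.R230.continuous_ev A).mul (Crest.Agent.R230.continuous_ev B)))
  have h1 : ∀ i k : Fin n, ipw (fun _ => 1) (Lp i k P) (Lp i k R) =
      -ipw (fun _ => 1) (Lp i k (Lp i k P)) R := fun i k => by
    have h := ipw_Lp i k (c := fun _ => 1) contDiffOn_const (Lp i k P) R
    have h0 : ipw (Lf i k fun _ => (1 : ℝ)) (Lp i k P) R = 0 := by
      simp [ipw, Lf, Crest.GeometryTopology.CoordMetric.pderiv]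
    linarith
  have h2 : ∑ i, ∑ k, ipw (fun _ => 1) (Lp i k (Lp i k P)) R =
      ipw (fun _ => 1) (∑ i, ∑ k, Lp i k (Lp i k P)) R := by
    unfold ipw
    simp only [Crest.Agent.R230.ev_sum, Finset.sum_mul, Finset.mul_sum]
    rw [integral_finsetSum _ fun i _ => integrable_finsetSum _ fun k _ => hi _ _]
    exact Finset.sum_congr rfl fun i _ => (integral_finsetSum _ fun k _ => hi _ _).symm
  unfold QS
  simp only [h1, Finset.sum_neg_distrib]
  rw [h2, sum_Lp_Lp hP]
  unfold ipw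
  rw [← integral_const_mul, ← integral_sub ((hi _ _).const_mul _) (hi _ _), ← integral_neg,
    ← integral_const_mul]
  refine integral_congr_ae ?_
  filter_upwards [Crest.Agent.R230.ae_norm] with p hp
  have e2 : ev (2 : MP n) p = 2 := by
    rw [show (2 : MP n) = MvPolynomial.C 2 from rfl, Crest.Agent.R230.ev_C]
  simp only [Crest.Agent.R230.ev_mul, Crest.Agent.R230.ev_sub, Crest.Agent.R230.ev_r2,
    Crest.Agent.R230.ev_C, hp, e2]
  ring

variable [NeZero d]

theorem QG_zero_hom (hj : okJ d j) {a : ℕ} {u : RP d j} (hu : (toP d j u).IsHomogeneous a)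
    (w : RP d j) : QG d j 0 u w = ((j + a : ℕ) : ℝ) * (((j + a : ℕ) : ℝ) + d) * ⟪u, w⟫ +
      ⟪-(toP d j).symm (lap (toP d j u)), w⟫ := by
  obtain ⟨Y, hY, hY1⟩ := exists_harm_ne hj
  have h1 := QS_iota (adm_zero d) hY hY (toP d j u) (toP d j w)
  have h2 := fun π π' => ipw_iota hY hY π π'
  simp only [if_true, hY1, one_mul, LinearEquiv.symm_apply_apply] at h1 h2
  have h3 : (iota Y (toP d j u)).IsHomogeneous (j + a) :=
    hY.1.rename_isHomogeneous.mul hu.rename_isHomogeneous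
  have h4 : cf d 0 = fun _ _ _ => 1 := by
    funext i k
    exact cf_zero i k
  rw [← h1, h4, QS_one h3, lap_iota hY.2, h2, h2, inner_neg_left, inner_RP, inner_RP,
    LinearEquiv.apply_symm_apply]
  push_cast
  ring

/-- orthonormalised basis of a sector -/
def gb (d j : ℕ) [NeZero d] (s : Bool) (m k : ℕ) : RP d j := gramSchmidtNormed ℝ (eb d j s m) k

theorem gb_on {s : Bool} {m : ℕ} (hs : okS s m) : Orthonormal ℝ (gb d j s m) :=
  gramSchmidtNormed_orthonormal (eb_li hs)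

theorem gb_eig (hj : okJ d j) (s : Bool) (m k : ℕ) (w : RP d j) :
    QG d j 0 (gb d j s m k) w =
      ((j + (m + 2 * k) : ℕ) : ℝ) * (((j + (m + 2 * k) : ℕ) : ℝ) + d) * ⟪gb d j s m k, w⟫ :=
  gs_eig (QG_sym 0) (eb d j s m)
    (fun k => ((j + (m + 2 * k) : ℕ) : ℝ) * (((j + (m + 2 * k) : ℕ) : ℝ) + d))
    (fun k => ⟨_, neg_mem (lap_eb_mem s m k), QG_zero_hom hj (eb_hom s m k)⟩) k w

/-- the shift caused by the mean-zero condition -/
def dl (j m : ℕ) : ℕ := if j = 0 ∧ m = 0 then 1 else 0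

theorem ldeg_eq (j m k : ℕ) : ldeg j (m, k) = j + (m + 2 * (k + dl j m)) := by
  unfold ldeg dl
  split_ifs <;> omega

omit [NeZero d] in
theorem eb_zero : eb d j true 0 0 = (toP d j).symm 1 := by
  apply (toP d j).injective
  rw [toP_eb, LinearEquiv.apply_symm_apply, pow_zero, one_mul]
  rfl

theorem gb_zero : ∃ c : ℝ, c ≠ 0 ∧ gb d j true 0 0 = c • (toP d j).symm 1 := by
  have h0 : gramSchmidt ℝ (eb d j true 0) 0 = eb d j true 0 0 := gramSchmidt_bot ℝ _
  refine ⟨(‖gramSchmidt ℝ (eb d j true 0) 0‖)⁻¹, inv_ne_zero (norm_ne_zero_iff.2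
    (gramSchmidt_ne_zero 0 (eb_li (Or.inl rfl)))), ?_⟩
  rw [gb, gramSchmidtNormed, ← eb_zero, ← h0]
  rfl

theorem span_le {s : Bool} {m M N : ℕ} (h : N ≤ (M + 2 - m) / 2) :
    span ℝ (eb d j s m '' Iio N) ≤ ((MvPolynomial.restrictTotalDegree (Fin 2) ℝ M ⊓
      Module.End.eigenspace rfP (sgn s)).comap (toP d j).toLinearMap) ⊓
        LinearMap.range (secMap d j s m) := by
  rw [Submodule.span_le]
  rintro _ ⟨i, hi, rfl⟩
  refine ⟨⟨?_, ?_⟩, ⟨_, rfl⟩⟩
  · refine (MvPolynomial.mem_restrictTotalDegree _ _ _).2 ((eb_hom s m i).totalDegree_le.trans ?_)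
    simp only [mem_Iio] at hi
    omega
  · refine Module.End.mem_eigenspace_iff.2 (MvPolynomial.funext fun z => ?_)
    have h1 : ∀ P : MP 2, MvPolynomial.eval z (rfP P) = ev P (rf2 (WithLp.toLp 2 z)) := fun P => by
      change MvPolynomial.eval z (MvPolynomial.aeval _ P) = MvPolynomial.eval _ P
      rw [MvPolynomial.aeval_def, MvPolynomial.eval_eval₂]
      congr 1
      · ext; simp
      · funext i; fin_cases i <;> simp [rf2]
    rw [h1]
    change ev (toP d j (secMap d j s m _)) _ = ev (sgn s • toP d j (secMap d j s m _)) (WithLp.toLp 2 z)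
    rw [Crest.Agent.R230.ev_smul, ev_secMap, ev_secMap, Hp_rf, XX_rf2, mul_assoc]

theorem one_orth {s : Bool} {m : ℕ} (hm : m ≠ 0) (p : Polynomial ℝ) :
    ⟪(toP d j).symm 1, secMap d j s m p⟫ = 0 := by
  cases s
  · refine (QG_parity (adm_zero d) (fun z => ?_) fun z => ?_).1
    · simp
    · rw [ev_secMap, ev_secMap, Hp_rf, XX_rf2]
      simp [sgn]
  · rw [← eb_zero, eb, inner_sec]
    simp [eav, Nat.dist_zero_left, hm.symm]

theorem Sec_eq_span {s : Bool} {m : ℕ} (hs : okS s m) (M : ℕ) : Sec d j s m M =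
    span ℝ (range fun k : Fin ((M + 2 - m) / 2 - dl j m) => gb d j s m (k + dl j m)) := by
  refine le_antisymm (fun u hu => ?_) ?_
  · obtain ⟨⟨⟨h1, -⟩, h2⟩, p, rfl⟩ := hu
    refine mem_span_shift (gb_on hs) ?_ fun i hi => ?_
    · rw [show gb d j s m = gramSchmidtNormed ℝ (eb d j s m) from rfl, span_gsn]
      exact mem_span_eb hs p ((MvPolynomial.mem_restrictTotalDegree _ _ _).1 h1)
    · unfold dl at hi
      split_ifs at hi with h
      · obtain ⟨rfl, rfl⟩ := h
        obtain rfl : i = 0 := by omega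
        obtain rfl : s = true := hs.resolve_right (by omega)
        obtain ⟨c, -, hc⟩ := gb_zero (d := d) (j := 0)
        rw [if_pos rfl] at h2
        rw [hc, real_inner_smul_left, mem_orthogonal_singleton_iff_inner_right.1 h2, mul_zero]
      · omega
  · rw [Submodule.span_le]
    rintro _ ⟨k, rfl⟩
    have h1 : gb d j s m (k + dl j m) ∈ span ℝ (eb d j s m '' Iio (k + dl j m + 1)) := by
      rw [← span_gsn]
      exact subset_span ⟨_, Nat.lt_succ_self _, rfl⟩
    have h2 := span_le (M := M) (by have := k.2; omega) h1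
    refine ⟨⟨h2.1, ?_⟩, h2.2⟩
    split_ifs with hj
    · subst hj
      refine mem_orthogonal_singleton_iff_inner_right.2 ?_
      by_cases hm : m = 0
      · subst hm
        obtain rfl : s = true := hs.resolve_right (by omega)
        obtain ⟨c, hc0, hc⟩ := gb_zero (d := d) (j := 0)
        have h3 := (gb_on (d := d) (j := 0) hs).2 (i := 0) (j := k + dl 0 0) (by simp [dl])
        simp only [hc, real_inner_smul_left] at h3
        exact (mul_eq_zero.1 h3).resolve_left hc0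
      · obtain ⟨p, hp⟩ := h2.2
        simp only
        rw [← hp]
        exact one_orth hm p
    · trivial

theorem gb_on' {s : Bool} {m : ℕ} (hs : okS s m) (N : ℕ) :
    Orthonormal ℝ fun k : Fin N => gb d j s m (k + dl j m) :=
  (gb_on hs).comp (fun k : Fin N => (k : ℕ) + dl j m) fun _ _ h => Fin.ext (by simpa using h)

theorem finrank_Sec {s : Bool} {m : ℕ} (hs : okS s m) (M : ℕ) :
    finrank ℝ (Sec d j s m M) = (M + 2 - m) / 2 - dl j m := by
  rw [Sec_eq_span hs, finrank_span_eq_card (gb_on' hs _).linearIndependent, Fintype.card_fin]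

theorem dl_le (j m : ℕ) : dl j m ≤ 1 := by
  unfold dl
  split_ifs <;> omega

theorem gb_mem {s : Bool} {m k M : ℕ} (hs : okS s m) (hM : m + 2 * k + 2 ≤ M) :
    gb d j s m (k + dl j m) ∈ Sec d j s m M := by
  rw [Sec_eq_span hs]
  exact subset_span ⟨⟨k, by have := dl_le j m; omega⟩, rfl⟩

end RoundAux

open RoundAux

variable {d j : ℕ} [NeZero d]

theorem lt_finrank_Sec {s : Bool} {m k M : ℕ} (hs : okS s m) (hM : m + 2 * k + 2 ≤ M) :
    k < finrank ℝ (Sec d j s m M) := by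
  rw [finrank_Sec hs]
  have := dl_le j m
  omega

theorem finrank_Sec_eq {s : Bool} {m : ℕ} (hs : okS s m) (M : ℕ) :
    finrank ℝ (Sec d j s m M) = finrank ℝ (Sec d j true m M) := by
  rw [finrank_Sec hs, finrank_Sec (Or.inl rfl)]

/-- the round eigenvectors, independent of `M` -/
theorem exists_round (hj : okJ d j) (s : Bool) : ∃ φ : ℕ × ℕ → RP d j, ∀ x : ℕ × ℕ, okS s x.1 →
    ‖φ x‖ = 1 ∧ (∀ x' : ℕ × ℕ, okS s x'.1 → x' ≠ x → ⟪φ x, φ x'⟫ = 0) ∧
    ∀ M, x.1 + 2 * x.2 + 2 ≤ M → φ x ∈ Sec d j s x.1 M ∧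
      EigF (QG d j 0) (WS d j s M) (φ x) ((ldeg j x : ℝ) * (ldeg j x + d)) := by
  refine ⟨fun x => gb d j s x.1 (x.2 + dl j x.1), ?_⟩
  rintro ⟨m, k⟩ hs
  refine ⟨(gb_on hs).1 _, ?_, fun M hM => ⟨gb_mem hs hM, (gb_mem hs hM).1, fun w _ => ?_⟩⟩
  · rintro ⟨m', k'⟩ hs' hne
    by_cases hm : m = m'
    · subst hm
      exact (gb_on hs).2 fun h => hne (Prod.ext rfl (by simpa using h.symm))
    · exact (Sec_orth s (m + 2 * k + 2 + (m' + 2 * k' + 2)) hm).inner_eq
        (gb_mem hs (Nat.le_add_right _ _)) (gb_mem hs' (Nat.le_add_left _ _))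
  · rw [ldeg_eq]
    exact gb_eig hj s m _ w

theorem lamk_round (hj : okJ d j) {s : Bool} {m k M : ℕ} (hk : k < finrank ℝ (Sec d j s m M)) :
    lamk (QG d j 0) (Sec d j s m M) k = (ldeg j (m, k) : ℝ) * (ldeg j (m, k) + d) := by
  by_cases hs : okS s m
  · rw [finrank_Sec hs] at hk
    refine lamk_eq_of_basis (fun k : Fin ((M + 2 - m) / 2 - dl j m) => gb d j s m (k + dl j m))
      (fun k => (ldeg j (m, k) : ℝ) * (ldeg j (m, k) + d)) (gb_on' hs _).ne_zero
      (fun a b h => (gb_on' hs _).2 h) (Sec_eq_span hs M).symm (fun a => ⟨?_, fun w _ => ?_⟩)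
      (fun a b h => ?_) ⟨k, hk⟩
    · rw [Sec_eq_span hs]
      exact Submodule.subset_span ⟨a, rfl⟩
    · rw [ldeg_eq]
      exact gb_eig hj s m _ w
    · have h1 : (ldeg j (m, a) : ℝ) ≤ ldeg j (m, b) := by
        have : (a : ℕ) ≤ b := h
        rw [ldeg_eq, ldeg_eq]
        exact Nat.cast_le.2 (by omega)
      exact mul_le_mul h1 (by linarith) (by positivity) (by positivity)
  · rw [Sec_eq_bot (Or.inl hs), finrank_bot] at hk
    omega

theorem lamM_nonneg {G : St} (hG : Adm d G) {x : ℕ × ℕ} {M : ℕ}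
    (hk : x.2 < finrank ℝ (Sec d j true x.1 M)) : 0 ≤ lamM d G j x M :=
  le_lamk_of_all (fun u _ => by simpa using QG_nonneg hG u) hk

theorem lamM_bdd {G : St} (hG : Adm d G) (x : ℕ × ℕ) :
    BddBelow (range fun M : ℕ => lamM d G j x (M + x.1 + 2 * x.2 + 2)) := by
  refine ⟨0, ?_⟩
  rintro _ ⟨M, rfl⟩
  exact lamM_nonneg hG (lt_finrank_Sec (Or.inl rfl) (by omega))

theorem lamM_tendsto {G : St} (hG : Adm d G) (x : ℕ × ℕ) :
    Tendsto (lamM d G j x) atTop (𝓝 (lamI d G j x)) := by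
  have h := tendsto_atTop_ciInf (f := fun M : ℕ => lamM d G j x (M + x.1 + 2 * x.2 + 2))
    (fun M M' h => lamk_anti (Sec_mono true x.1 (by omega))
      (lt_finrank_Sec (Or.inl rfl) (by omega))) (lamM_bdd hG x)
  rw [← tendsto_add_atTop_iff_nat (x.1 + 2 * x.2 + 2)]
  simp only [← add_assoc]
  exact h

theorem lamI_le_lamM {G : St} (hG : Adm d G) {x : ℕ × ℕ} {M : ℕ}
    (hk : x.2 < finrank ℝ (Sec d j true x.1 M)) : lamI d G j x ≤ lamM d G j x M :=
  (ciInf_le (lamM_bdd hG x) M).trans (lamk_anti (Sec_mono true x.1 (by omega)) hk)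

theorem lamI_round (hj : okJ d j) (x : ℕ × ℕ) :
    lamI d 0 j x = (ldeg j x : ℝ) * (ldeg j x + d) := by
  have : ∀ M : ℕ, lamM d 0 j x (M + x.1 + 2 * x.2 + 2) = (ldeg j x : ℝ) * (ldeg j x + d) :=
    fun M => lamk_round hj (lt_finrank_Sec (Or.inl rfl) (by omega))
  simp only [lamI, this, ciInf_const]

theorem ev_rank (x : ℕ × ℕ) : ∀ᶠ M in atTop, x.2 < finrank ℝ (Sec d j true x.1 M) :=
  (eventually_ge_atTop (x.1 + 2 * x.2 + 2)).mono fun _ h => lt_finrank_Sec (Or.inl rfl) h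

theorem lamI_nonneg {G : St} (hG : Adm d G) (x : ℕ × ℕ) : 0 ≤ lamI d G j x :=
  ge_of_tendsto (lamM_tendsto hG x) ((ev_rank x).mono fun _ h => lamM_nonneg hG h)

theorem lamI_mono {G : St} (hG : Adm d G) (m : ℕ) {k k' : ℕ} (h : k ≤ k') :
    lamI d G j (m, k) ≤ lamI d G j (m, k') :=
  le_of_tendsto_of_tendsto (lamM_tendsto hG _) (lamM_tendsto hG _)
    ((ev_rank (m, k')).mono fun _ h' => lamk_mono h h')

theorem lamI_le_exp {G G' : St} (hG : Adm d G) (hG' : Adm d G') {r : ℝ}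
    (h : ∀ z, |G'.1 z - G.1 z| ≤ r ∧ |G'.2 z - G.2 z| ≤ r) (x : ℕ × ℕ) :
    lamI d G' j x ≤ Real.exp (2 * d * r) * lamI d G j x := by
  refine le_of_tendsto_of_tendsto (lamM_tendsto hG' _) ((lamM_tendsto hG _).const_mul _)
    ((ev_rank (d := d) (j := j) x).mono fun M h' => ?_)
  have := lamk_le_of_le (Q := QG d j G') (Q' := QG d j G) (b := 0) (Real.exp_pos (2 * d * r)).le
    (fun u _ => by simpa using QG_le_exp hG hG' h u) h'
  rw [add_zero] at this
  exact this

omit [NeZero d] in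
theorem exp_le_two {ε : ℝ} (hε : ε ≤ epsU d) : Real.exp (2 * d * (2 * ε)) ≤ 2 := by
  have h0 : (0 : ℝ) ≤ d := Nat.cast_nonneg d
  have h1 : (d : ℝ) * ε ≤ 1 / 1000 := by
    refine (mul_le_mul_of_nonneg_left hε h0).trans ?_
    unfold epsU
    rw [mul_one_div, div_le_div_iff₀ (by positivity) (by norm_num)]
    linarith
  have h2 := Real.log_two_gt_d9
  calc Real.exp (2 * d * (2 * ε)) ≤ Real.exp (Real.log 2) := Real.exp_le_exp.2 (by linarith)
    _ = 2 := Real.exp_log two_pos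

omit [NeZero d] in
theorem small_sub {ε γ₀ : ℝ} (hγ : γ₀ ≤ ε) {G G' : St} (hG : Small d ε γ₀ G)
    (hG' : Small d ε γ₀ G') (z : E 2) : |G'.1 z - G.1 z| ≤ 2 * ε ∧ |G'.2 z - G.2 z| ≤ 2 * ε := by
  have h1 := hG.abs_le z
  have h2 := hG'.abs_le z
  exact ⟨(abs_sub _ _).trans (by linarith [h1.1, h2.1]), (abs_sub _ _).trans (by linarith [h1.2, h2.2])⟩

/-- any two small states have comparable forms -/
theorem QG_le_two {ε γ₀ : ℝ} (hε : ε ≤ epsU d) (hγ : γ₀ ≤ ε) {G G' : St} (hG : Small d ε γ₀ G)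
    (hG' : Small d ε γ₀ G') (u : RP d j) : QG d j G' u u ≤ 2 * QG d j G u u :=
  (QG_le_exp hG.adm hG'.adm (small_sub hγ hG hG') u).trans
    (mul_le_mul_of_nonneg_right (exp_le_two hε) (QG_nonneg hG.adm u))

theorem lamI_bounds (hj : okJ d j) {ε γ₀ : ℝ} (hε : ε ≤ epsU d) (hγ : γ₀ ≤ ε) {G : St}
    (hG : Small d ε γ₀ G) (x : ℕ × ℕ) :
    (ldeg j x : ℝ) * (ldeg j x + d) / 2 ≤ lamI d G j x ∧
      lamI d G j x ≤ 2 * ((ldeg j x : ℝ) * (ldeg j x + d)) := by
  have h0 : Small d ε γ₀ 0 := by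
    obtain ⟨ε', γ', h1, h2, h3, h4⟩ := hG.sz
    exact small_zero (((abs_nonneg _).trans (h3.abs_le 0)).trans_lt h1)
      (((abs_nonneg _).trans (h4.abs_le 0)).trans_lt h2)
  have h1 := (lamI_le_exp (j := j) hG.adm h0.adm (small_sub hγ hG h0) x).trans
    (mul_le_mul_of_nonneg_right (exp_le_two hε) (lamI_nonneg hG.adm x))
  have h2 := (lamI_le_exp (j := j) h0.adm hG.adm (small_sub hγ h0 hG) x).trans
    (mul_le_mul_of_nonneg_right (exp_le_two hε) (lamI_nonneg h0.adm x))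
  rw [lamI_round hj] at h1 h2
  exact ⟨by linarith, h2⟩

/-- continuity along finitely many directions -/
theorem continuous_lamI {V : Type} [Fintype V] {G : St} (hG : Adm d G) {F : V → St}
    (hF : ∀ v, Adm d (F v)) (x : ℕ × ℕ) :
    Continuous fun a : V → ℝ => lamI d (G + comb F a) j x := by
  obtain ⟨C, -, hC⟩ := sz_comb hF
  have key : ∀ a b : V → ℝ, lamI d (G + comb F a) j x ≤
      Real.exp (2 * d * (C * ‖a - b‖)) * lamI d (G + comb F b) j x := fun a b => by
    refine lamI_le_exp (hG.add (adm_comb hF b)) (hG.add (adm_comb hF a)) (fun z => ?_) x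
    have e : comb F a = comb F b + comb F (a - b) := by rw [← comb_add, add_sub_cancel]
    rw [e]
    simpa using ⟨(hC (a - b)).1.abs_le z, (hC (a - b)).2.abs_le z⟩
  refine continuous_iff_continuousAt.2 fun b => ?_
  have h1 : Tendsto (fun a : V → ℝ => Real.exp (2 * d * (C * ‖a - b‖)) * lamI d (G + comb F b) j x)
      (𝓝 b) (𝓝 (lamI d (G + comb F b) j x)) := by
    have : Continuous fun a : V → ℝ =>
        Real.exp (2 * d * (C * ‖a - b‖)) * lamI d (G + comb F b) j x := by fun_prop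
    simpa using this.tendsto b
  have h2 : Tendsto (fun a : V → ℝ => Real.exp (-(2 * d * (C * ‖b - a‖))) *
      lamI d (G + comb F b) j x) (𝓝 b) (𝓝 (lamI d (G + comb F b) j x)) := by
    have : Continuous fun a : V → ℝ =>
        Real.exp (-(2 * d * (C * ‖b - a‖))) * lamI d (G + comb F b) j x := by fun_prop
    simpa using this.tendsto b
  refine tendsto_of_tendsto_of_tendsto_of_le_of_le h2 h1 (fun a => ?_) fun a => key a b
  have := mul_le_mul_of_nonneg_left (key b a) (Real.exp_pos (-(2 * d * (C * ‖b - a‖)))).le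
  rwa [← mul_assoc (Real.exp _), ← Real.exp_add, neg_add_cancel, Real.exp_zero, one_mul] at this

/-- the exponent `ν` with `ν (ν + d) = λ` -/
def nuOf (d : ℕ) (lam : ℝ) : ℝ := -(d : ℝ) / 2 + Real.sqrt ((d : ℝ) ^ 2 / 4 + lam)

theorem nuOf_strictMono (d : ℕ) {a b : ℝ} (ha : 0 ≤ a) (hab : a < b) : nuOf d a < nuOf d b := by
  unfold nuOf
  have := Real.sqrt_lt_sqrt (x := (d : ℝ) ^ 2 / 4 + a) (y := (d : ℝ) ^ 2 / 4 + b) (by positivity)
    (by linarith)
  linarith

theorem nuOf_eq (d : ℕ) {a : ℝ} (ha : 0 ≤ a) : nuOf d (a * (a + d)) = a := by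
  unfold nuOf
  rw [show (d : ℝ) ^ 2 / 4 + a * (a + d) = (a + d / 2) ^ 2 by ring, Real.sqrt_sq (by positivity)]
  ring

/-- `λ > 0` and `λ ≥ e^{-2γ₀} J > (j-2)(j-2+d)` (`QG_ge_J`) -/
theorem nuOK (hj : okJ d j) {ε γ₀ : ℝ} (hε : ε ≤ epsU d) (hγ : γ₀ ≤ ε)
    (hγj : γ₀ * (2 * ((j : ℝ) + 1)) ≤ 1) {G : St} (hG : Small d ε γ₀ G) (x : ℕ × ℕ) :
    NuOK d j x.1 (lamI d G j x) (nuOf d (lamI d G j x)) := by
  have hl : (0 : ℝ) < ldeg j x := by
    refine Nat.cast_pos.2 ?_
    unfold ldeg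
    split_ifs with h <;> omega
  have h0 : 0 < lamI d G j x :=
    lt_of_lt_of_le (by positivity) (lamI_bounds hj hε hγ hG x).1
  have h1 : 0 < nuOf d (lamI d G j x) := by
    have := nuOf_strictMono d le_rfl h0
    rwa [show (0 : ℝ) = 0 * (0 + d) by ring, nuOf_eq d le_rfl] at this
  refine ⟨?_, h1, ?_⟩
  · have := Real.sq_sqrt (x := (d : ℝ) ^ 2 / 4 + lamI d G j x) (by positivity)
    unfold nuOf
    linear_combination -this
  · have hx : (0 : ℝ) ≤ x.1 := Nat.cast_nonneg _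
    rcases le_or_gt (j : ℝ) 2 with h2 | h2
    · linarith
    have hd : (0 : ℝ) ≤ d := Nat.cast_nonneg _
    have h3 : Real.exp (-2 * γ₀) * Jd d j ≤ lamI d G j x :=
      ge_of_tendsto (lamM_tendsto hG.adm x) ((ev_rank x).mono fun _ h =>
        le_lamk_of_all (fun u _ => QG_ge_J hG.adm (fun z => (hG.abs_le z).2) u) h)
    have h4 : ((j : ℝ) - 2) * ((j : ℝ) - 2 + d) < Real.exp (-2 * γ₀) * Jd d j := by
      have h5 := Real.add_one_le_exp (-2 * γ₀)
      have h6 : (j : ℝ) - 2 < Real.exp (-2 * γ₀) * j := by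
        have h7 : 2 * γ₀ * j < 2 := by
          rcases le_or_gt γ₀ 0 with h | h <;> nlinarith
        nlinarith
      unfold Jd
      rw [← mul_assoc, show (j : ℝ) - 2 + d = j + d - 2 by ring]
      exact mul_lt_mul_of_pos_right h6 (by linarith)
    have h5 := nuOf_strictMono d (mul_nonneg (by linarith) (by linarith)) (h4.trans_le h3)
    rw [nuOf_eq d (by linarith)] at h5
    linarith

theorem psi_eq (G : St) {s : Bool} {m M : ℕ} (i : Fin (finrank ℝ (Sec d j s m M))) :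
    psi d G j s (m, i) M =
      (exists_eigen (S := Sec d j s m M) (Q := QG d j G) (QF_sym d j _ _ _)).choose i :=
  dif_pos i.2

/-- the chosen eigenvectors -/
theorem psi_spec {g : RSt} (hg : RAdm d g) {s : Bool} {x : ℕ × ℕ} (hs : okS s x.1) {M : ℕ}
    (hM : x.1 + 2 * x.2 + 2 ≤ M) :
    ‖psi d (toSt g) j s x M‖ = 1 ∧
      EigF (QG d j (toSt g)) (WS d j s M) (psi d (toSt g) j s x M) (lamM d (toSt g) j x M) ∧
      ∀ x' : ℕ × ℕ, x' ≠ x → ⟪psi d (toSt g) j s x M, psi d (toSt g) j s x' M⟫ = 0 := by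
  obtain ⟨m, k⟩ := x
  have hk : k < finrank ℝ (Sec d j s m M) := lt_finrank_Sec hs hM
  obtain ⟨h1, -, h3⟩ := (exists_eigen (S := Sec d j s m M) (Q := QG d j (toSt g))
    (QF_sym d j _ _ _)).choose_spec
  have e := psi_eq (toSt g) ⟨k, hk⟩
  refine ⟨by rw [e]; exact h1.1 _, ?_, ?_⟩
  · rw [← lamk_Sec_eq hg hs, e]
    exact eigF_WS hg (h3 ⟨k, hk⟩)
  · rintro ⟨m', k'⟩ hne
    by_cases hm : m = m'
    · subst hm
      by_cases hk' : k' < finrank ℝ (Sec d j s m M)
      · rw [e, psi_eq (toSt g) ⟨k', hk'⟩]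
        exact h1.2 fun h => hne (Prod.ext rfl (congrArg Fin.val h).symm)
      · rw [show psi d (toSt g) j s (m, k') M = 0 from dif_neg hk', inner_zero_right]
    · exact (Sec_orth s M hm).inner_eq (psi_mem_Sec d _ j s (m, k) M)
        (psi_mem_Sec d _ j s (m', k') M)

/-- below the first `k` chosen eigenvectors of a sector -/
theorem psi_compl {g : RSt} (hg : RAdm d g) {s : Bool} {m k M : ℕ} (hs : okS s m)
    (hk : k < finrank ℝ (Sec d j s m M)) {u : RP d j} (hu : u ∈ Sec d j s m M)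
    (ho : ∀ k', k' < k → ⟪psi d (toSt g) j s (m, k') M, u⟫ = 0) :
    lamM d (toSt g) j (m, k) M * ‖u‖ ^ 2 ≤ QG d j (toSt g) u u := by
  obtain ⟨h1, h2, h3⟩ := (exists_eigen (S := Sec d j s m M) (Q := QG d j (toSt g))
    (QF_sym d j _ _ _)).choose_spec
  rw [← lamk_Sec_eq hg hs]
  exact lamk_le_of_orth (QG_sym _) h1 h2 h3 hk hu fun i hi => by
    rw [← psi_eq]
    exact ho i hi

/-- a vector of a sector orthogonal to all chosen eigenvectors vanishes -/
theorem psi_span (G : St) {s : Bool} {m M : ℕ} {u : RP d j} (hu : u ∈ Sec d j s m M)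
    (ho : ∀ k, k < finrank ℝ (Sec d j s m M) → ⟪psi d G j s (m, k) M, u⟫ = 0) : u = 0 := by
  obtain ⟨h1, h2, -⟩ := (exists_eigen (S := Sec d j s m M) (Q := QG d j G)
    (QF_sym d j _ _ _)).choose_spec
  obtain ⟨c, hc⟩ := (Submodule.mem_span_range_iff_exists_fun ℝ).1 (h2.ge hu)
  have : ∀ i, c i = 0 := fun i => by
    have h := ho i i.2
    rw [psi_eq, ← hc] at h
    exact (h1.inner_right_fintype c i).symm.trans h
  rw [← hc]
  simp [this]

end Crest.Agent.R202
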