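import Crest.Agent.R202.BInv

/-!
# Row 202, B3 (auxiliary): the polynomials `Hp`, angular means
-/

set_option autoImplicit false
open scoped ContDiff RealInnerProductSpace Topology
open MeasureTheory Set Filter Module
open Crest.Agent.R230 (E MP sph ev Harm)
open MvPolynomial (X pderiv)

noncomputable section
namespace Crest.Agent.R202.BSecAux

open Crest.Agent.R230

/-! ### algebra -/

theorem Hp_true_zero : Hp true 0 = 1 := rfl
theorem Hp_false_zero : Hp false 0 = 0 := rfl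
theorem Hp_true_succ (m : ℕ) : Hp true (m + 1) = X 0 * Hp true m - X 1 * Hp false m := rfl
theorem Hp_false_succ (m : ℕ) : Hp false (m + 1) = X 0 * Hp false m + X 1 * Hp true m := rfl

theorem ev_Hp_c (m : ℕ) (z : E 2) : ev (Hp true m) z = ((⟨z 0, z 1⟩ : ℂ) ^ m).re ∧
    ev (Hp false m) z = ((⟨z 0, z 1⟩ : ℂ) ^ m).im := by
  induction m with
  | zero => simp [Hp_true_zero, Hp_false_zero]
  | succ m ih =>
    rw [Hp_true_succ, Hp_false_succ, pow_succ', Complex.mul_re, Complex.mul_im]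
    simp only [ev_sub, ev_add, ev_mul, ev_X, ih.1, ih.2, and_self]

theorem hom_Hp (m : ℕ) : (Hp true m).IsHomogeneous m ∧ (Hp false m).IsHomogeneous m := by
  induction m with
  | zero => exact ⟨MvPolynomial.isHomogeneous_one _ _, MvPolynomial.isHomogeneous_zero _ _ _⟩
  | succ m ih =>
    rw [Hp_true_succ, Hp_false_succ, add_comm m 1]
    exact ⟨((MvPolynomial.isHomogeneous_X ℝ 0).mul ih.1).sub
      ((MvPolynomial.isHomogeneous_X ℝ 1).mul ih.2),
      ((MvPolynomial.isHomogeneous_X ℝ 0).mul ih.2).add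
      ((MvPolynomial.isHomogeneous_X ℝ 1).mul ih.1)⟩

theorem hom_Hp' (s : Bool) (m : ℕ) : (Hp s m).IsHomogeneous m := by
  cases s
  exacts [(hom_Hp m).2, (hom_Hp m).1]

theorem Ez_mul (a b : MP 2) : Ez (a * b) = a * Ez b + b * Ez a := by
  simp only [Ez, Derivation.leibniz, smul_eq_mul]
  ring

theorem Lp_mul (a b : MP 2) : Lp 0 1 (a * b) = a * Lp 0 1 b + b * Lp 0 1 a := by
  simp only [Lp, Derivation.leibniz, smul_eq_mul]
  ring

theorem Ez_add (a b : MP 2) : Ez (a + b) = Ez a + Ez b := by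
  simp only [Ez, map_add]
  ring

theorem Ez_sub (a b : MP 2) : Ez (a - b) = Ez a - Ez b := by
  simp only [Ez, map_sub]
  ring

theorem Lp_add (a b : MP 2) : Lp 0 1 (a + b) = Lp 0 1 a + Lp 0 1 b := by
  simp only [Lp, map_add]
  ring

theorem Lp_sub (a b : MP 2) : Lp 0 1 (a - b) = Lp 0 1 a - Lp 0 1 b := by
  simp only [Lp, map_sub]
  ring

theorem Ez_X0 : Ez (X 0) = X 0 := by simp [Ez]
theorem Ez_X1 : Ez (X 1) = X 1 := by simp [Ez]
theorem Lp_X0 : Lp 0 1 (X 0 : MP 2) = -X 1 := by simp [Lp]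
theorem Lp_X1 : Lp 0 1 (X 1 : MP 2) = X 0 := by simp [Lp]

theorem der_Hp (m : ℕ) : (Ez (Hp true m) = m * Hp true m ∧ Ez (Hp false m) = m * Hp false m) ∧
    Lp 0 1 (Hp true m) = -(m * Hp false m) ∧ Lp 0 1 (Hp false m) = m * Hp true m := by
  induction m with
  | zero => simp [Hp_true_zero, Hp_false_zero, Ez, Lp]
  | succ m ih =>
    rw [Hp_true_succ, Hp_false_succ]
    simp only [Ez_mul, Lp_mul, Ez_add, Ez_sub, Lp_add, Lp_sub, Ez_X0, Ez_X1, Lp_X0, Lp_X1, ih.1.1,
      ih.1.2, ih.2.1, ih.2.2]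
    push_cast
    refine ⟨⟨?_, ?_⟩, ?_, ?_⟩ <;> ring

theorem Ez_Hp (s : Bool) (m : ℕ) : Ez (Hp s m) = m * Hp s m := by
  cases s
  exacts [(der_Hp m).1.2, (der_Hp m).1.1]

theorem Lp_Hp (s : Bool) (m : ℕ) : Lp 0 1 (Hp s m) = (-sgn s * m) • Hp (!s) m := by
  cases s
  · rw [(der_Hp m).2.2]
    simp [sgn, MvPolynomial.smul_eq_C_mul]
  · rw [(der_Hp m).2.1]
    simp [sgn, MvPolynomial.smul_eq_C_mul]

theorem Ez_aeval (p : Polynomial ℝ) : Ez (Polynomial.aeval (X 0 ^ 2 + X 1 ^ 2 : MP 2) p) =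
    2 * (X 0 ^ 2 + X 1 ^ 2) * Polynomial.aeval (X 0 ^ 2 + X 1 ^ 2 : MP 2) p.derivative := by
  simp only [Ez, Derivation.map_aeval, smul_eq_mul]
  simp
  ring

theorem Lp_aeval (p : Polynomial ℝ) :
    Lp 0 1 (Polynomial.aeval (X 0 ^ 2 + X 1 ^ 2 : MP 2) p) = 0 := by
  simp only [Lp, Derivation.map_aeval, smul_eq_mul]
  simp
  ring

theorem ev_aeval (p : Polynomial ℝ) (z : E 2) :
    ev (Polynomial.aeval (X 0 ^ 2 + X 1 ^ 2 : MP 2) p) z = p.eval (XX z) := by
  induction p using Polynomial.induction_on' with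
  | add p q hp hq => rw [map_add, ev_add, hp, hq, Polynomial.eval_add]
  | monomial n a =>
    rw [Polynomial.aeval_monomial, Polynomial.eval_monomial]
    simp [ev, XX]

theorem toP_secMap (d j : ℕ) (s : Bool) (m : ℕ) (p : Polynomial ℝ) :
    toP d j (secMap d j s m p) = Hp s m * Polynomial.aeval (X 0 ^ 2 + X 1 ^ 2 : MP 2) p := rfl

theorem ev_sec (d j : ℕ) (s : Bool) (m : ℕ) (p : Polynomial ℝ) (z : E 2) :
    ev (toP d j (secMap d j s m p)) z = ev (Hp s m) z * p.eval (XX z) := by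
  rw [toP_secMap, ev_mul, ev_aeval]

theorem ev_Ez_sec (d j : ℕ) (s : Bool) (m : ℕ) (p : Polynomial ℝ) (z : E 2) :
    ev (Ez (toP d j (secMap d j s m p))) z =
      ev (Hp s m) z * (m * p.eval (XX z) + 2 * XX z * p.derivative.eval (XX z)) := by
  have h1 : ev (m : MP 2) z = m := by simp [ev]
  have h2 : ev (2 * (X 0 ^ 2 + X 1 ^ 2) : MP 2) z = 2 * XX z := by simp [ev, XX]
  rw [toP_secMap, Ez_mul, Ez_aeval, Ez_Hp, ev_add, ev_mul, ev_mul, h2, ev_mul, ev_mul, ev_aeval,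
    ev_aeval, h1]
  ring

theorem Lp_sec (d j : ℕ) (s : Bool) (m : ℕ) (p : Polynomial ℝ) :
    Lp 0 1 (toP d j (secMap d j s m p)) = (-sgn s * m) • toP d j (secMap d j (!s) m p) := by
  rw [toP_secMap, toP_secMap, Lp_mul, Lp_aeval, Lp_Hp, mul_zero, zero_add, mul_smul_comm,
    mul_comm (Hp _ _)]

theorem Hp_true_ne (m : ℕ) : Hp true m ≠ 0 := fun h => by
  have h1 := (ev_Hp_c m (WithLp.toLp 2 ![1, 0])).1
  rw [h, ev_zero] at h1
  have h2 : (⟨(WithLp.toLp 2 ![1, 0] : E 2) 0, (WithLp.toLp 2 ![1, 0] : E 2) 1⟩ : ℂ) = 1 := rfl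
  rw [h2, one_pow, Complex.one_re] at h1
  exact zero_ne_one h1

theorem Hp_ne {s : Bool} {m : ℕ} (h : okS s m) : Hp s m ≠ 0 := by
  cases s
  · intro h0
    have hm : 1 ≤ m := h.resolve_left (by simp)
    have h1 := (der_Hp m).2.2
    rw [h0] at h1
    have h2 : Lp 0 1 (0 : MP 2) = 0 := by simp [Lp]
    rw [h2] at h1
    exact mul_ne_zero (Nat.cast_ne_zero.2 (by omega)) (Hp_true_ne m) h1.symm
  · exact Hp_true_ne m

theorem ev_rfP (π : MP 2) (z : E 2) : ev (rfP π) z = ev π (rf2 z) := by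
  induction π using MvPolynomial.induction_on with
  | C a => simp [rfP]
  | add p q hp hq => rw [map_add, ev_add, ev_add, hp, hq]
  | mul_X p i hp =>
    have : rfP (p * X i) = rfP p * (![X 0, -X 1] : Fin 2 → MP 2) i := by simp [rfP]
    rw [this, ev_mul, ev_mul, hp, ev_X]
    fin_cases i <;> simp [rf2]

theorem ev_Hp_rf2 (s : Bool) (m : ℕ) (z : E 2) :
    ev (Hp s m) (rf2 z) = sgn s * ev (Hp s m) z := by
  have h : (⟨rf2 z 0, rf2 z 1⟩ : ℂ) = (starRingEnd ℂ) ⟨z 0, z 1⟩ := rfl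
  cases s
  · rw [(ev_Hp_c m _).2, (ev_Hp_c m _).2, h, ← map_pow, Complex.conj_im]
    simp [sgn]
  · rw [(ev_Hp_c m _).1, (ev_Hp_c m _).1, h, ← map_pow, Complex.conj_re]
    simp [sgn]

theorem X0_mul (s : Bool) (m : ℕ) : (2 : ℝ) • (X 0 * Hp s (m + 1)) =
    Hp s (m + 2) + (X 0 ^ 2 + X 1 ^ 2) * Hp s m := by
  cases s <;> simp only [Hp_true_succ, Hp_false_succ, two_smul] <;> ring

theorem X1_mul_true (m : ℕ) : (2 : ℝ) • (X 1 * Hp true (m + 1)) =
    Hp false (m + 2) - (X 0 ^ 2 + X 1 ^ 2) * Hp false m := by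
  simp only [Hp_true_succ, Hp_false_succ, two_smul]
  ring

theorem X1_mul_false (m : ℕ) : (2 : ℝ) • (X 1 * Hp false (m + 1)) =
    (X 0 ^ 2 + X 1 ^ 2) * Hp true m - Hp true (m + 2) := by
  simp only [Hp_true_succ, Hp_false_succ, two_smul]
  ring

/-- the span of the generators of degree at most `N` -/
def DD (N : ℕ) : Submodule ℝ (MP 2) :=
  Submodule.span ℝ {π | ∃ s m k, m + 2 * k ≤ N ∧ π = Hp s m * (X 0 ^ 2 + X 1 ^ 2) ^ k}

theorem gen_mem {N : ℕ} (s : Bool) {m k : ℕ} (h : m + 2 * k ≤ N) :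
    Hp s m * (X 0 ^ 2 + X 1 ^ 2) ^ k ∈ DD N := Submodule.subset_span ⟨s, m, k, h, rfl⟩

theorem DD_mono {N N' : ℕ} (h : N ≤ N') : DD N ≤ DD N' :=
  Submodule.span_mono fun _ ⟨s, m, k, h1, h2⟩ => ⟨s, m, k, h1.trans h, h2⟩

theorem X_mul_mem {N : ℕ} (i : Fin 2) {π : MP 2} (h : π ∈ DD N) : X i * π ∈ DD (N + 1) := by
  induction h using Submodule.span_induction with
  | zero => simp
  | add a b _ _ ha hb => rw [mul_add]; exact add_mem ha hb
  | smul c a _ ha => rw [mul_smul_comm]; exact Submodule.smul_mem _ c ha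
  | mem π h =>
    obtain ⟨s, m, k, h, rfl⟩ := h
    rw [← mul_assoc]
    have e : ∀ a : MP 2, (X 0 ^ 2 + X 1 ^ 2) * a * (X 0 ^ 2 + X 1 ^ 2) ^ k =
        a * (X 0 ^ 2 + X 1 ^ 2) ^ (k + 1) := fun a => by ring
    cases m with
    | zero =>
      cases s
      · simp [Hp_false_zero]
      · have h0 := gen_mem (N := N + 1) true (m := 1) (k := k) (by omega)
        have h1 := gen_mem (N := N + 1) false (m := 1) (k := k) (by omega)
        fin_cases i
        · simpa [Hp_true_succ, Hp_true_zero, Hp_false_zero] using h0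
        · simpa [Hp_false_succ, Hp_true_zero, Hp_false_zero] using h1
    | succ m =>
      rw [← Submodule.smul_mem_iff _ (two_ne_zero (α := ℝ)), ← smul_mul_assoc]
      fin_cases i
      · rw [Fin.zero_eta, X0_mul, add_mul, e]
        exact add_mem (gen_mem _ (by omega)) (gen_mem _ (by omega))
      · cases s
        · rw [Fin.mk_one, X1_mul_false, sub_mul, e]
          exact sub_mem (gen_mem _ (by omega)) (gen_mem _ (by omega))
        · rw [Fin.mk_one, X1_mul_true, sub_mul, e]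
          exact sub_mem (gen_mem _ (by omega)) (gen_mem _ (by omega))

theorem pow_mul_mem {N : ℕ} (i : Fin 2) (a : ℕ) {π : MP 2} (h : π ∈ DD N) :
    X i ^ a * π ∈ DD (N + a) := by
  induction a with
  | zero => simpa using h
  | succ a ih => rw [pow_succ', mul_assoc]; exact X_mul_mem i ih

theorem mem_DD {N : ℕ} {π : MP 2} (h : π.totalDegree ≤ N) : π ∈ DD N := by
  rw [π.as_sum]
  refine Submodule.sum_mem _ fun a ha => ?_
  have h1 : a 0 + a 1 ≤ N := by
    have := (MvPolynomial.le_totalDegree ha).trans h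
    rwa [Finsupp.sum_fintype _ _ (fun _ => rfl), Fin.sum_univ_two] at this
  have h2 : (1 : MP 2) ∈ DD 0 := by
    simpa [Hp_true_zero] using gen_mem (N := 0) true (m := 0) (k := 0) le_rfl
  rw [MvPolynomial.monomial_eq, Finsupp.prod_fintype _ _ (fun _ => pow_zero _), Fin.prod_univ_two,
    ← MvPolynomial.smul_eq_C_mul]
  refine Submodule.smul_mem _ _ (DD_mono (N := 0 + a 1 + a 0) (by omega) ?_)
  simpa using pow_mul_mem 0 (a 0) (pow_mul_mem 1 (a 1) h2)

theorem deg_gen (s : Bool) (m k : ℕ) :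
    (Hp s m * (X 0 ^ 2 + X 1 ^ 2) ^ k).totalDegree ≤ m + 2 * k :=
  ((hom_Hp' s m).mul ((((MvPolynomial.isHomogeneous_X ℝ (0 : Fin 2)).pow 2).add
    ((MvPolynomial.isHomogeneous_X ℝ (1 : Fin 2)).pow 2)).pow k)).totalDegree_le

/-! ### angular means -/

/-- the angle -/
def th (z : E 2) : ℝ := Complex.arg ⟨z 0, z 1⟩

/-- the angular factor -/
def TT (s : Bool) (m : ℕ) (θ : ℝ) : ℝ := if s then Real.cos (m * θ) else Real.sin (m * θ)

theorem measurable_th : Measurable th := by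
  refine Complex.measurable_arg.comp (f := fun z : E 2 => (⟨z 0, z 1⟩ : ℂ)) ?_
  have : (fun z : E 2 => (⟨z 0, z 1⟩ : ℂ)) = fun z => (z 0 : ℂ) + (z 1 : ℂ) * Complex.I :=
    funext fun z => Complex.mk_eq_add_mul_I _ _
  rw [this]
  fun_prop

theorem ev_Hp (s : Bool) (m : ℕ) (z : E 2) :
    ev (Hp s m) z = Real.sqrt (XX z) ^ m * TT s m (th z) := by
  have h1 : ‖(⟨z 0, z 1⟩ : ℂ)‖ = Real.sqrt (XX z) := by
    rw [Complex.norm_eq_sqrt_sq_add_sq]
    rfl
  have h2 : (⟨z 0, z 1⟩ : ℂ) ^ m = ((Real.sqrt (XX z) ^ m : ℝ) : ℂ) *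
      Complex.exp (((m * th z : ℝ) : ℂ) * Complex.I) := by
    conv_lhs => rw [← Complex.norm_mul_exp_arg_mul_I (⟨z 0, z 1⟩ : ℂ)]
    rw [mul_pow, ← Complex.exp_nat_mul, h1, th]
    push_cast
    rw [mul_assoc]
  cases s
  · rw [(ev_Hp_c m z).2, h2, Complex.im_ofReal_mul, Complex.exp_ofReal_mul_I_im]
    rfl
  · rw [(ev_Hp_c m z).1, h2, Complex.re_ofReal_mul, Complex.exp_ofReal_mul_I_re]
    rfl

theorem cos_dist (m m' : ℕ) (θ : ℝ) :
    Real.cos ((Nat.dist m m' : ℕ) * θ) = Real.cos (m * θ - m' * θ) := by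
  rcases le_total m m' with h | h
  · rw [Nat.dist_eq_sub_of_le h, Nat.cast_sub h, sub_mul, ← Real.cos_neg, neg_sub]
  · rw [Nat.dist_eq_sub_of_le_right h, Nat.cast_sub h, sub_mul]

theorem TT_mul (s : Bool) (m m' : ℕ) (θ : ℝ) : TT s m θ * TT s m' θ =
    (Real.cos ((Nat.dist m m' : ℕ) * θ) + sgn s * Real.cos ((m + m' : ℕ) * θ)) / 2 := by
  rw [cos_dist, Nat.cast_add, add_mul, Real.cos_sub, Real.cos_add]
  cases s <;> simp only [TT, sgn, if_true, if_false, Bool.false_eq_true] <;> ring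

variable {d : ℕ}

theorem int_Hp (F : ℝ → ℝ) (s : Bool) {a : ℕ} (ha : a ≠ 0) :
    ∫ p, F (XX (zOf p)) * ev (Hp s a) (zOf p) ∂sph (d + 2) = 0 := by
  have hne : zI d 0 ≠ zI d 1 := fun h => by simpa [zI] using congrArg Fin.val h
  obtain ⟨R, hR⟩ := exists_rot (n := d + 2) (u := EuclideanSpace.single (zI d 0) 1)
    (v := EuclideanSpace.single (zI d 1) 1) (by simp) (by simp)
    (by simp [EuclideanSpace.inner_single_left, hne])
  set θ : ℝ := Real.pi / a with hθ
  have h0 : ∀ p, zOf (R θ p) 0 = Real.cos θ * zOf p 0 - Real.sin θ * zOf p 1 := fun p => by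
    rw [hR]
    simp [zOf, EuclideanSpace.inner_single_left, hne]
    ring
  have h1 : ∀ p, zOf (R θ p) 1 = Real.cos θ * zOf p 1 + Real.sin θ * zOf p 0 := fun p => by
    rw [hR]
    simp [zOf, EuclideanSpace.inner_single_left, hne.symm]
    ring
  have h2 : ∀ p, XX (zOf (R θ p)) = XX (zOf p) := fun p => by
    rw [XX, XX, h0, h1]
    linear_combination (zOf p 0 ^ 2 + zOf p 1 ^ 2) * Real.cos_sq_add_sin_sq θ
  have h3 : ∀ p, (⟨zOf (R θ p) 0, zOf (R θ p) 1⟩ : ℂ) ^ a = -(⟨zOf p 0, zOf p 1⟩ : ℂ) ^ a := by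
    intro p
    have e : (⟨zOf (R θ p) 0, zOf (R θ p) 1⟩ : ℂ) =
        Complex.exp (θ * Complex.I) * ⟨zOf p 0, zOf p 1⟩ := by
      rw [h0, h1]
      apply Complex.ext
      · rw [Complex.mul_re, Complex.exp_ofReal_mul_I_re, Complex.exp_ofReal_mul_I_im]
      · rw [Complex.mul_im, Complex.exp_ofReal_mul_I_re, Complex.exp_ofReal_mul_I_im]
    have e2 : (a : ℂ) * (θ * Complex.I) = Real.pi * Complex.I := by
      have : (a : ℂ) ≠ 0 := Nat.cast_ne_zero.2 ha
      rw [hθ]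
      push_cast
      field_simp
    rw [e, mul_pow, ← Complex.exp_nat_mul, e2, Complex.exp_pi_mul_I, neg_one_mul]
  have h4 : ∀ p, ev (Hp s a) (zOf (R θ p)) = -ev (Hp s a) (zOf p) := fun p => by
    cases s
    · rw [(ev_Hp_c a _).2, (ev_Hp_c a _).2, h3, Complex.neg_im]
    · rw [(ev_Hp_c a _).1, (ev_Hp_c a _).1, h3, Complex.neg_re]
  have h5 := integral_comp_iso (R θ) fun p => F (XX (zOf p)) * ev (Hp s a) (zOf p)
  simp only [h2, h4, mul_neg, integral_neg] at h5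
  linarith

variable [NeZero d]

theorem int_cos (F : ℝ → ℝ) (a : ℕ) :
    ∫ p, F (XX (zOf p)) * Real.cos (a * th (zOf p)) ∂sph (d + 2) =
      if a = 0 then mS d F else 0 := by
  split_ifs with ha
  · simp [ha, mS]
  · rw [← int_Hp (d := d) (fun X => F X / Real.sqrt X ^ a) true ha]
    refine integral_congr_ae ?_
    filter_upwards [ae_XX (d := d)] with p hp
    have := (Real.sqrt_pos.2 hp.1).ne'
    rw [ev_Hp, TT, if_pos rfl]
    field_simp

omit [NeZero d] in
theorem integrable_mul {F : ℝ → ℝ} (hF : Integrable (fun p => F (XX (zOf p))) (sph (d + 2)))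
    {g : ℝ → ℝ} (hg : Continuous g) (hb : ∀ θ, |g θ| ≤ 1) :
    Integrable (fun p => F (XX (zOf p)) * g (th (zOf p))) (sph (d + 2)) :=
  hF.mul_bdd (c := 1) (hg.measurable.comp
    (measurable_th.comp (continuous_zOf d).measurable)).aestronglyMeasurable
    (Eventually.of_forall fun _ => hb _)

omit [NeZero d] in
theorem integrable_cos2 {F : ℝ → ℝ} (hF : Integrable (fun p => F (XX (zOf p))) (sph (d + 2)))
    (r a : ℕ) : Integrable (fun p => F (XX (zOf p)) *
      (Real.cos (r * th (zOf p)) * Real.cos (a * th (zOf p)))) (sph (d + 2)) :=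
  integrable_mul hF (g := fun θ => Real.cos (r * θ) * Real.cos (a * θ)) (by fun_prop) fun θ => by
    rw [abs_mul]
    exact mul_le_one₀ (Real.abs_cos_le_one _) (abs_nonneg _) (Real.abs_cos_le_one _)

theorem int_cos2 {F : ℝ → ℝ} (hF : Integrable (fun p => F (XX (zOf p))) (sph (d + 2))) (r a : ℕ) :
    ∫ p, F (XX (zOf p)) * (Real.cos (r * th (zOf p)) * Real.cos (a * th (zOf p))) ∂sph (d + 2) =
      eav r a * mS d F := by
  have hi : ∀ k : ℕ, Integrable (fun p => F (XX (zOf p)) * Real.cos (k * th (zOf p)))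
      (sph (d + 2)) := fun k =>
    integrable_mul hF (g := fun θ => Real.cos (k * θ)) (by fun_prop) fun θ => Real.abs_cos_le_one _
  have e : ∀ p : E (d + 2),
      F (XX (zOf p)) * (Real.cos (r * th (zOf p)) * Real.cos (a * th (zOf p))) =
      1 / 2 * (F (XX (zOf p)) * Real.cos ((Nat.dist r a : ℕ) * th (zOf p)) +
        F (XX (zOf p)) * Real.cos ((r + a : ℕ) * th (zOf p))) := fun p => by
    have := TT_mul true r a (th (zOf p))
    simp only [TT, sgn, if_true] at this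
    rw [this]
    ring
  simp only [e]
  rw [integral_const_mul, integral_add (hi _) (hi _), int_cos, int_cos, eav]
  by_cases h : r = a
  · subst h
    by_cases h0 : r = 0
    · simp [h0]
      ring
    · simp [h0]
  · rw [if_neg fun h' => h (Nat.eq_of_dist_eq_zero h'), if_neg (by omega), if_neg h]
    simp

theorem int_ang {F : ℝ → ℝ} (hF : Integrable (fun p => F (XX (zOf p))) (sph (d + 2))) (r : ℕ)
    (s : Bool) (m m' : ℕ) :
    Integrable (fun p => F (XX (zOf p)) * (Real.cos (r * th (zOf p)) *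
      (TT s m (th (zOf p)) * TT s m' (th (zOf p))))) (sph (d + 2)) ∧
    ∫ p, F (XX (zOf p)) * (Real.cos (r * th (zOf p)) *
      (TT s m (th (zOf p)) * TT s m' (th (zOf p)))) ∂sph (d + 2) =
      (eav r (Nat.dist m m') + sgn s * eav r (m + m')) / 2 * mS d F := by
  have e : ∀ p : E (d + 2), F (XX (zOf p)) * (Real.cos (r * th (zOf p)) *
      (TT s m (th (zOf p)) * TT s m' (th (zOf p)))) =
      1 / 2 * (F (XX (zOf p)) * (Real.cos (r * th (zOf p)) *
        Real.cos ((Nat.dist m m' : ℕ) * th (zOf p))) + sgn s * (F (XX (zOf p)) *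
        (Real.cos (r * th (zOf p)) * Real.cos ((m + m' : ℕ) * th (zOf p))))) := fun p => by
    rw [TT_mul]
    ring
  simp only [e]
  refine ⟨((integrable_cos2 hF _ _).add ((integrable_cos2 hF _ _).const_mul _)).const_mul _, ?_⟩
  rw [integral_const_mul, integral_add (integrable_cos2 hF _ _)
    ((integrable_cos2 hF _ _).const_mul _), integral_const_mul, int_cos2 hF, int_cos2 hF]
  ring

theorem integrable_of_eqOn {F g : ℝ → ℝ} (hg : Continuous g) (h : ∀ X ∈ Ioo (0 : ℝ) 1, F X = g X) :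
    Integrable (fun p => F (XX (zOf p))) (sph (d + 2)) := by
  refine (integrable_of_continuous
    (hg.comp (continuous_XX.comp (continuous_zOf d)))).congr ?_
  filter_upwards [ae_XX (d := d)] with p hp
  exact (h _ hp).symm

theorem continuous_RM (j m : ℕ) (p : Polynomial ℝ) : Continuous (RM j m p) := by
  have := p.continuous
  unfold RM
  fun_prop

theorem mul_pow_pred (m : ℕ) (a : ℝ) : (m : ℝ) * a ^ m = m * a ^ (m - 1) * a := by
  cases m with
  | zero => simp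
  | succ m => rw [Nat.add_sub_cancel, pow_succ, mul_assoc]

theorem SM_eq (j m : ℕ) (p : Polynomial ℝ) {X : ℝ} (h : X ∈ Ioo (0 : ℝ) 1) :
    SM j m p X = m * Real.sqrt X ^ (m - 1) * Real.sqrt (1 - X) ^ (j + 1) * p.eval X +
      2 * Real.sqrt X ^ (m + 1) * Real.sqrt (1 - X) ^ (j + 1) * p.derivative.eval X -
      Real.sqrt X ^ (m + 1) * (j * Real.sqrt (1 - X) ^ (j - 1)) * p.eval X := by
  have ha := Real.sqrt_pos.2 h.1
  have hb := Real.sqrt_pos.2 (sub_pos.2 h.2)
  have ha2 := Real.sq_sqrt h.1.le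
  have hb2 := Real.sq_sqrt (sub_pos.2 h.2).le
  have h1 := mul_pow_pred m (Real.sqrt X)
  have h2 := mul_pow_pred j (Real.sqrt (1 - X))
  rw [SM, Real.sqrt_mul h.1.le, div_eq_iff (by positivity), pow_succ, pow_succ]
  generalize Real.sqrt X = a at *
  generalize Real.sqrt (1 - X) = b at *
  generalize a ^ m = am at *
  generalize b ^ j = bj at *
  generalize a ^ (m - 1) = am' at *
  generalize b ^ (j - 1) = bj' at *
  rw [← hb2]
  linear_combination (bj * b ^ 2 * p.eval X) * h1 - (am * a ^ 2 * p.eval X) * h2 -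
    (2 * am * bj * b ^ 2 * p.derivative.eval X - am * bj * j * p.eval X) * ha2

theorem exists_SM (j m : ℕ) (p : Polynomial ℝ) :
    ∃ g : ℝ → ℝ, Continuous g ∧ ∀ X ∈ Ioo (0 : ℝ) 1, SM j m p X = g X := by
  have h1 := p.continuous
  have h2 := p.derivative.continuous
  exact ⟨_, by fun_prop, fun X hX => SM_eq j m p hX⟩

theorem exists_RM_left (j m : ℕ) (p : Polynomial ℝ) : ∃ g : ℝ → ℝ, Continuous g ∧
    ∀ X ∈ Ioo (0 : ℝ) 1, m * RM j m p X = g X * Real.sqrt X := by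
  have h1 := p.continuous
  refine ⟨fun X => m * Real.sqrt X ^ (m - 1) * Real.sqrt (1 - X) ^ j * p.eval X, by fun_prop,
    fun X _ => ?_⟩
  rw [RM]
  linear_combination (Real.sqrt (1 - X) ^ j * p.eval X) * mul_pow_pred m (Real.sqrt X)

theorem exists_RM_right (d j m m' : ℕ) (p p' : Polynomial ℝ) : ∃ g : ℝ → ℝ, Continuous g ∧
    ∀ X ∈ Ioo (0 : ℝ) 1, Jd d j * (RM j m p X * RM j m' p' X) / (1 - X) = g X := by
  have h1 := p.continuous
  have h2 := p'.continuous
  refine ⟨fun X => ((j : ℝ) + d - 2) * (j * (1 - X) ^ (j - 1)) *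
    (Real.sqrt X ^ m * p.eval X * (Real.sqrt X ^ m' * p'.eval X)), by fun_prop, fun X hX => ?_⟩
  have h3 : Real.sqrt (1 - X) ^ j * Real.sqrt (1 - X) ^ j = (1 - X) ^ j := by
    rw [← mul_pow, Real.mul_self_sqrt (sub_pos.2 hX.2).le]
  rw [RM, RM, Jd, div_eq_iff (sub_pos.2 hX.2).ne']
  linear_combination (((j : ℝ) + d - 2) * (Real.sqrt X ^ m * p.eval X *
    (Real.sqrt X ^ m' * p'.eval X))) * (mul_pow_pred j (1 - X) + j * h3)

end Crest.Agent.R202.BSecAux
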