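import Crest.Agent.R202.BForm
import Crest.Agent.R202.BState
import Crest.Agent.R202.BSecAux

/-!
# Row 202, B3: sectors and one-dimensional formulas

`ev (Hp true m) (ρ cos θ, ρ sin θ) = ρ^m cos mθ`, `ev (Hp false m) = ρ^m sin mθ`;
`Ez H = m H`, `Lp 0 1 (Hp true m) = -m Hp false m`, `Lp 0 1 (Hp false m) = m Hp true m`,
`Ez` and `Lp 0 1` are derivations, `Lp 0 1 (|z|²) = 0`, `Ez (|z|²) = 2|z|²`.  Product formulas
`H_a H_b = ½(H_{a+b} ± |z|^{2 min} H_{|a-b|})`.  Angular mean (`int_ang`): for `a ≥ 1`,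
`∫ F(X) ev (Hp s a) = 0` for every `F` making the integrand integrable (rotation of the `z`-plane by
`π/a` is an isometry of `E (d+2)` that changes the sign; `R230.integral_comp_iso`).
Decomposition: induction on monomials with `x₁ H_m^± = ½(H^±_{m+1} + |z|² H^±_{m-1})`,
`x₂ H^+_m = ½(H^-_{m+1} - |z|² H^-_{m-1})`, `x₂ H^-_m = ½(|z|² H^+_{m-1} - H^+_{m+1})`, keeping track of
the degree; the parity kills the other family; elements with `m ≥ 1` have mean zero.
-/

set_option autoImplicit false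
set_option linter.unusedSectionVars false
open scoped ContDiff RealInnerProductSpace Topology
open MeasureTheory Set Filter Module
open Crest.Agent.R230 (E MP sph ev Harm)

noncomputable section
namespace Crest.Agent.R202

variable {d j : ℕ} [NeZero d]

theorem ev_secMap (s : Bool) (m : ℕ) (p : Polynomial ℝ) (z : E 2) :
    ev (toP d j (secMap d j s m p)) z = ev (Hp s m) z * p.eval (XX z) :=
  BSecAux.ev_sec d j s m p z

theorem BSecAux.mem_eig {c : ℝ} {π : MP 2} :
    π ∈ Module.End.eigenspace rfP c ↔ ∀ z, ev π (rf2 z) = c * ev π z := by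
  rw [Module.End.mem_eigenspace_iff]
  refine ⟨fun h z => by rw [← BSecAux.ev_rfP, h, R230.ev_smul], fun h => ?_⟩
  refine MvPolynomial.funext fun z => ?_
  have := h (WithLp.toLp 2 z)
  rwa [← BSecAux.ev_rfP, ← R230.ev_smul] at this

theorem mem_WS {s : Bool} {M : ℕ} {u : RP d j} : u ∈ WS d j s M ↔
    (toP d j u).totalDegree ≤ M ∧ (∀ z, ev (toP d j u) (rf2 z) = sgn s * ev (toP d j u) z) ∧
      (j = 0 → ∫ p, ev (toP d j u) (zOf p) ∂sph (d + 2) = 0) := by
  rw [WS, Submodule.mem_inf, Submodule.mem_comap, Submodule.mem_inf,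
    MvPolynomial.mem_restrictTotalDegree, BSecAux.mem_eig, and_assoc]
  refine and_congr_right fun _ => and_congr_right fun _ => ?_
  split_ifs with h
  · subst h
    rw [Submodule.mem_orthogonal_singleton_iff_inner_right, inner_RP]
    simp [ipR]
  · simp [h]

theorem WS_mono (s : Bool) {M M' : ℕ} (h : M ≤ M') : WS d j s M ≤ WS d j s M' := fun _ hu =>
  mem_WS.2 ⟨(mem_WS.1 hu).1.trans h, (mem_WS.1 hu).2⟩

theorem Sec_mono (s : Bool) (m : ℕ) {M M' : ℕ} (h : M ≤ M') : Sec d j s m M ≤ Sec d j s m M' :=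
  inf_le_inf_right _ (WS_mono s h)

theorem cm_pos {s : Bool} {m : ℕ} (h : okS s m) : 0 < cm s m := by
  rcases Nat.eq_zero_or_pos m with rfl | hm
  · obtain rfl : s = true := h.resolve_right (by simp)
    simp [cm, sgn, eav]
  · rw [cm, eav, if_neg (by omega)]
    simp

theorem inner_sec (s : Bool) (m m' : ℕ) (p p' : Polynomial ℝ) :
    ⟪secMap d j s m p, secMap d j s m' p'⟫ =
      (eav 0 (Nat.dist m m') + sgn s * eav 0 (m + m')) / 2 *
        mS d fun X => RM j m p X * RM j m' p' X := by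
  rw [← (BSecAux.int_ang (F := fun X => RM j m p X * RM j m' p' X) (BSecAux.integrable_of_eqOn
    ((BSecAux.continuous_RM j m p).mul (BSecAux.continuous_RM j m' p')) fun _ _ => rfl)
    0 s m m').2, inner_RP, ipR]
  refine integral_congr_ae ?_
  filter_upwards [ae_XX (d := d)] with q hq
  have h3 : Real.sqrt (1 - XX (zOf q)) ^ j * Real.sqrt (1 - XX (zOf q)) ^ j =
      (1 - XX (zOf q)) ^ j := by
    rw [← mul_pow, Real.mul_self_sqrt (sub_pos.2 hq.2).le]
  rw [ev_secMap, ev_secMap, BSecAux.ev_Hp, BSecAux.ev_Hp, RM, RM, ← h3, Nat.cast_zero, zero_mul,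
    Real.cos_zero]
  ring

/-- the one-dimensional formula for weights `(radial) · Re z^r` -/
theorem QF_sec {A B C : ℝ → ℝ} (hA : Continuous A) (hB : Continuous B) (hC : Continuous C)
    (r : ℕ) (s : Bool) (m m' : ℕ) (p p' : Polynomial ℝ) :
    QF d j (fun z => A (XX z) * ev (Hp true r) z) (fun z => B (XX z) * ev (Hp true r) z)
        (fun z => C (XX z) * ev (Hp true r) z) (secMap d j s m p) (secMap d j s m' p') =
      mS d fun X => Real.sqrt X ^ r *
        ((eav r (Nat.dist m m') + sgn s * eav r (m + m')) / 2 *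
            (A X * (SM j m p X * SM j m' p' X) +
              C X * (Jd d j * (RM j m p X * RM j m' p' X) / (1 - X))) +
          (eav r (Nat.dist m m') - sgn s * eav r (m + m')) / 2 *
            (B X * ((m : ℝ) * m' * (RM j m p X * RM j m' p' X) / X))) := by
  obtain ⟨g₁, hg₁, e₁⟩ := BSecAux.exists_SM j m p
  obtain ⟨g₂, hg₂, e₂⟩ := BSecAux.exists_SM j m' p'
  obtain ⟨g₃, hg₃, e₃⟩ := BSecAux.exists_RM_right d j m m' p p'
  obtain ⟨g₄, hg₄, e₄⟩ := BSecAux.exists_RM_left j m p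
  obtain ⟨g₅, hg₅, e₅⟩ := BSecAux.exists_RM_left j m' p'
  have i₁ := BSecAux.integrable_of_eqOn (d := d)
    (F := fun X => Real.sqrt X ^ r * (A X * (SM j m p X * SM j m' p' X) +
      C X * (Jd d j * (RM j m p X * RM j m' p' X) / (1 - X))))
    (g := fun X => Real.sqrt X ^ r * (A X * (g₁ X * g₂ X) + C X * g₃ X)) (by fun_prop)
    fun X hX => by rw [e₁ X hX, e₂ X hX, e₃ X hX]
  have i₂ := BSecAux.integrable_of_eqOn (d := d)
    (F := fun X => Real.sqrt X ^ r * (B X * ((m : ℝ) * m' * (RM j m p X * RM j m' p' X) / X)))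
    (g := fun X => Real.sqrt X ^ r * (B X * (g₄ X * g₅ X))) (by fun_prop) fun X hX => by
      congr 2
      rw [div_eq_iff hX.1.ne', mul_mul_mul_comm, e₄ X hX, e₅ X hX, mul_mul_mul_comm,
        Real.mul_self_sqrt hX.1.le]
  obtain ⟨j₁, k₁⟩ := BSecAux.int_ang
    (F := fun X => Real.sqrt X ^ r * (A X * (SM j m p X * SM j m' p' X) +
      C X * (Jd d j * (RM j m p X * RM j m' p' X) / (1 - X)))) i₁ r s m m'
  obtain ⟨j₂, k₂⟩ := BSecAux.int_ang
    (F := fun X => Real.sqrt X ^ r * (B X * ((m : ℝ) * m' * (RM j m p X * RM j m' p' X) / X)))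
    i₂ r (!s) m m'
  have hs : sgn (!s) = -sgn s := by cases s <;> simp [sgn]
  have hs2 : sgn s * sgn s = 1 := by cases s <;> simp [sgn]
  have hH := R230.continuous_ev (Hp true r)
  have hX := continuous_XX
  rw [QF_apply (by fun_prop) (by fun_prop) (by fun_prop), qf]
  refine (integral_congr_ae ?_).trans ((integral_add j₁ j₂).trans ?_)
  · filter_upwards [ae_XX (d := d)] with q hq
    have ha := Real.sqrt_pos.2 (mul_pos hq.1 (sub_pos.2 hq.2))
    have ha2 := Real.mul_self_sqrt (mul_pos hq.1 (sub_pos.2 hq.2)).le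
    have h3 : Real.sqrt (1 - XX (zOf q)) ^ j * Real.sqrt (1 - XX (zOf q)) ^ j =
        (1 - XX (zOf q)) ^ j := by
      rw [← mul_pow, Real.mul_self_sqrt (sub_pos.2 hq.2).le]
    have h4 : BSecAux.TT true r (BSecAux.th (zOf q)) = Real.cos (r * BSecAux.th (zOf q)) := rfl
    simp only [Ds, Dt, Dw, Nz, SM, RM, BSecAux.Lp_sec, R230.ev_smul, ev_secMap, BSecAux.ev_Ez_sec,
      BSecAux.ev_Hp, h4, div_mul_div_comm, ha2]
    rw [← h3]
    linear_combination (B (XX (zOf q)) * Real.sqrt (XX (zOf q)) ^ r *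
      Real.cos (r * BSecAux.th (zOf q)) * (Real.sqrt (1 - XX (zOf q)) ^ j *
      Real.sqrt (1 - XX (zOf q)) ^ j) * m * m' * Real.sqrt (XX (zOf q)) ^ m *
      Real.sqrt (XX (zOf q)) ^ m' * BSecAux.TT (!s) m (BSecAux.th (zOf q)) *
      BSecAux.TT (!s) m' (BSecAux.th (zOf q)) * p.eval (XX (zOf q)) * p'.eval (XX (zOf q)) /
      XX (zOf q)) * hs2
  · rw [k₁, k₂, hs, mS, mS, mS, ← integral_const_mul, ← integral_const_mul,
      ← integral_add (i₁.const_mul _) (i₂.const_mul _)]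
    refine integral_congr_ae (Eventually.of_forall fun q => ?_)
    ring

theorem BSecAux.eav_ne {m m' : ℕ} (h : m ≠ m') : eav 0 (Nat.dist m m') = 0 ∧ eav 0 (m + m') = 0 :=
  ⟨if_neg fun h' => h (Nat.eq_of_dist_eq_zero h'.symm), if_neg (by omega)⟩

theorem BSecAux.QG_sec {g : RSt} (hg : RAdm d g) (s : Bool) (m m' : ℕ) (p p' : Polynomial ℝ) :
    QG d j (toSt g) (secMap d j s m p) (secMap d j s m' p') =
      mS d fun X => Real.sqrt X ^ 0 *
        ((eav 0 (Nat.dist m m') + sgn s * eav 0 (m + m')) / 2 *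
            (Real.exp (2 * g.1 X) * (SM j m p X * SM j m' p' X) +
              Real.exp (2 * g.2 X) * (Jd d j * (RM j m p X * RM j m' p' X) / (1 - X))) +
          (eav 0 (Nat.dist m m') - sgn s * eav 0 (m + m')) / 2 *
            (Real.exp (2 * bet d (g.1 X) (g.2 X)) *
              ((m : ℝ) * m' * (RM j m p X * RM j m' p' X) / X))) := by
  have h1 := hg.s1.continuous
  have h2 := hg.s2.continuous
  rw [← QF_sec (A := fun X => Real.exp (2 * g.1 X))
    (B := fun X => Real.exp (2 * bet d (g.1 X) (g.2 X))) (C := fun X => Real.exp (2 * g.2 X))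
    (by fun_prop) (by unfold bet; fun_prop) (by fun_prop)]
  simp only [BSecAux.Hp_true_zero, R230.ev_one, mul_one]
  rfl

theorem Sec_orth (s : Bool) (M : ℕ) {m m' : ℕ} (h : m ≠ m') : Sec d j s m M ⟂ Sec d j s m' M := by
  rw [Submodule.isOrtho_iff_inner_eq]
  rintro _ ⟨-, p, rfl⟩ _ ⟨-, p', rfl⟩
  rw [inner_sec, (BSecAux.eav_ne h).1, (BSecAux.eav_ne h).2]
  simp

theorem QG_sec_orth {g : RSt} (hg : RAdm d g) (s : Bool) (M : ℕ) {m m' : ℕ} (h : m ≠ m')
    {u w : RP d j} (hu : u ∈ Sec d j s m M) (hw : w ∈ Sec d j s m' M) :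
    QG d j (toSt g) u w = 0 := by
  obtain ⟨-, p, rfl⟩ := hu
  obtain ⟨-, p', rfl⟩ := hw
  rw [BSecAux.QG_sec hg, (BSecAux.eav_ne h).1, (BSecAux.eav_ne h).2]
  simp [mS]

theorem BSecAux.par_sec (s : Bool) (m : ℕ) (p : Polynomial ℝ) (z : E 2) :
    ev (toP d j (secMap d j s m p)) (rf2 z) = sgn s * ev (toP d j (secMap d j s m p)) z := by
  rw [ev_secMap, ev_secMap, BSecAux.ev_Hp_rf2, XX_rf2, mul_assoc]

theorem BSecAux.sec_mem {s : Bool} {m M : ℕ} (hm : m ≠ 0) {p : Polynomial ℝ}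
    (h : (toP d j (secMap d j s m p)).totalDegree ≤ M) : secMap d j s m p ∈ Sec d j s m M := by
  refine ⟨mem_WS.2 ⟨h, BSecAux.par_sec s m p, fun _ => ?_⟩, p, rfl⟩
  simp only [ev_secMap, mul_comm (ev _ _)]
  exact BSecAux.int_Hp (fun X => p.eval X) s hm

theorem iSup_Sec (s : Bool) (M : ℕ) : ⨆ m : Fin (M + 1), Sec d j s m M = WS d j s M := by
  have hle : ∀ s, ⨆ m : Fin (M + 1), Sec d j s m M ≤ WS d j s M := fun s =>
    iSup_le fun _ => inf_le_left
  refine le_antisymm (hle s) fun u hu => ?_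
  let W : Bool → Submodule ℝ (RP d j) := fun s =>
    (MvPolynomial.restrictTotalDegree (Fin 2) ℝ M ⊓ Module.End.eigenspace rfP (sgn s)).comap
      (toP d j).toLinearMap
  let G : Bool → Submodule ℝ (RP d j) := fun s =>
    (W s ⊓ LinearMap.range (secMap d j s 0)) ⊔ ⨆ m : Fin (M + 1), Sec d j s m M
  have hGW : ∀ s, G s ≤ W s := fun s => sup_le inf_le_left ((hle s).trans inf_le_left)
  have h1 : BSecAux.DD M ≤ (G true ⊔ G false).comap (toP d j).symm.toLinearMap := by
    refine Submodule.span_le.2 ?_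
    rintro _ ⟨s', m, k, hmk, rfl⟩
    have e : Hp s' m * (MvPolynomial.X 0 ^ 2 + MvPolynomial.X 1 ^ 2) ^ k =
        toP d j (secMap d j s' m (Polynomial.X ^ k)) := by
      rw [BSecAux.toP_secMap, map_pow, Polynomial.aeval_X]
    have hdeg := (BSecAux.deg_gen s' m k).trans hmk
    rw [e] at hdeg ⊢
    have h2 : secMap d j s' m (Polynomial.X ^ k) ∈ G s' := by
      rcases Nat.eq_zero_or_pos m with rfl | hm
      · exact Submodule.mem_sup_left ⟨⟨(MvPolynomial.mem_restrictTotalDegree _ _ _).2 hdeg,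
          BSecAux.mem_eig.2 (BSecAux.par_sec s' 0 _)⟩, _, rfl⟩
      · exact Submodule.mem_sup_right (Submodule.mem_iSup_of_mem (⟨m, by omega⟩ : Fin (M + 1))
          (BSecAux.sec_mem hm.ne' hdeg))
    cases s'
    · exact Submodule.mem_sup_right h2
    · exact Submodule.mem_sup_left h2
  have h2 : u ∈ G true ⊔ G false := h1 (BSecAux.mem_DD (mem_WS.1 hu).1)
  have h3 : ∀ v, v ∈ W true → v ∈ W false → v = 0 := fun v hv hv' => by
    have a1 := Module.End.mem_eigenspace_iff.1 hv.2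
    have a2 := Module.End.mem_eigenspace_iff.1 hv'.2
    rw [a1] at a2
    simp only [sgn, if_true, Bool.false_eq_true, if_false, one_smul, neg_smul] at a2
    exact (toP d j).map_eq_zero_iff.1 (self_eq_neg.1 a2)
  have h4 : u ∈ G s := by
    obtain ⟨a, ha, b, hb, rfl⟩ := Submodule.mem_sup.1 h2
    cases s
    · rwa [h3 a (hGW _ ha) (((W false).add_mem_iff_left (hGW _ hb)).1 hu.1), zero_add]
    · rwa [h3 b (((W true).add_mem_iff_right (hGW _ ha)).1 hu.1) (hGW _ hb), add_zero]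
  obtain ⟨a, ha, b, hb, rfl⟩ := Submodule.mem_sup.1 h4
  exact add_mem (Submodule.mem_iSup_of_mem (0 : Fin (M + 1))
    ⟨((WS d j s M).add_mem_iff_left (hle s hb)).1 hu, ha.2⟩) hb

theorem Sec_eq_bot {s : Bool} {m M : ℕ} (h : ¬ okS s m ∨ M < m) : Sec d j s m M = ⊥ := by
  rw [eq_bot_iff]
  rintro _ ⟨hu, p, rfl⟩
  by_contra h0
  have h1 : toP d j (secMap d j s m p) ≠ 0 := fun h' => h0 ((toP d j).map_eq_zero_iff.1 h')
  have h2 := (mem_WS.1 hu).1
  rw [BSecAux.toP_secMap] at h1 h2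
  rcases h with h | h
  · obtain ⟨rfl, rfl⟩ : s = false ∧ m = 0 := by
      rw [okS, not_or] at h
      exact ⟨by simpa using h.1, by omega⟩
    exact left_ne_zero_of_mul h1 rfl
  · rw [MvPolynomial.totalDegree_mul_of_isDomain (left_ne_zero_of_mul h1) (right_ne_zero_of_mul h1),
      (BSecAux.hom_Hp' s m).totalDegree (left_ne_zero_of_mul h1)] at h2
    omega

/-- an eigenvector in a sector of a symmetric state is an eigenvector in the super-sector -/
theorem eigF_WS {g : RSt} (hg : RAdm d g) {s : Bool} {m M : ℕ} {e : RP d j} {r : ℝ}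
    (h : EigF (QG d j (toSt g)) (Sec d j s m M) e r) : EigF (QG d j (toSt g)) (WS d j s M) e r := by
  refine ⟨h.1.1, fun w hw => ?_⟩
  rw [← iSup_Sec] at hw
  induction hw using Submodule.iSup_induction' with
  | mem m' w hw =>
    by_cases hm : m = m'
    · exact h.2 w (hm ▸ hw)
    · rw [QG_sec_orth hg s M hm h.1 hw, (Sec_orth s M hm).inner_eq h.1 hw, mul_zero]
  | zero => simp
  | add a b _ _ ha hb => rw [map_add, inner_add_right, ha, hb, mul_add]

theorem BSecAux.deg_sec {s s' : Bool} {m : ℕ} (h : okS s m) (h' : okS s' m) (p : Polynomial ℝ) :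
    (toP d j (secMap d j s m p)).totalDegree = (toP d j (secMap d j s' m p)).totalDegree := by
  rw [BSecAux.toP_secMap, BSecAux.toP_secMap]
  by_cases h0 : Polynomial.aeval (MvPolynomial.X 0 ^ 2 + MvPolynomial.X 1 ^ 2 : MP 2) p = 0
  · rw [h0, mul_zero, mul_zero]
  · rw [MvPolynomial.totalDegree_mul_of_isDomain (BSecAux.Hp_ne h) h0,
      MvPolynomial.totalDegree_mul_of_isDomain (BSecAux.Hp_ne h') h0,
      (BSecAux.hom_Hp' s m).totalDegree (BSecAux.Hp_ne h),
      (BSecAux.hom_Hp' s' m).totalDegree (BSecAux.Hp_ne h')]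

/-- the two parities have the same eigenvalues (`secMap true m p ↦ secMap false m p` is an isometry
for the inner product and for the form, by `inner_sec`, `QF_sec`; `lamk_map`) -/
theorem lamk_Sec_eq {g : RSt} (hg : RAdm d g) {s : Bool} {m : ℕ} (h : okS s m) (M k : ℕ) :
    lamk (QG d j (toSt g)) (Sec d j s m M) k = lamM d (toSt g) j (m, k) M := by
  cases s
  swap
  · rfl
  have hm : m ≠ 0 := by have := h.resolve_left (by simp); omega
  have hm' : (m : ℝ) ≠ 0 := Nat.cast_ne_zero.2 hm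
  let L : MP 2 →ₗ[ℝ] MP 2 :=
    (LinearMap.mulLeft ℝ (MvPolynomial.X 0)).comp (MvPolynomial.pderiv 1).toLinearMap -
      (LinearMap.mulLeft ℝ (MvPolynomial.X 1)).comp (MvPolynomial.pderiv 0).toLinearMap
  let T : RP d j →ₗ[ℝ] RP d j :=
    (-(m : ℝ))⁻¹ • (toP d j).symm.toLinearMap.comp (L.comp (toP d j).toLinearMap)
  have hT : ∀ p, T (secMap d j true m p) = secMap d j false m p := fun p => by
    have h1 : T (secMap d j true m p) =
        (-(m : ℝ))⁻¹ • (toP d j).symm (Lp 0 1 (toP d j (secMap d j true m p))) := rfl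
    rw [h1, BSecAux.Lp_sec, map_smul, LinearEquiv.symm_apply_apply, smul_smul, sgn, if_pos rfl,
      neg_one_mul, inv_mul_cancel₀ (neg_ne_zero.2 hm'), one_smul, Bool.not_true]
  have hS : (Sec d j true m M).map T = Sec d j false m M := by
    ext u
    constructor
    · rintro ⟨_, ⟨hu, p, rfl⟩, rfl⟩
      rw [hT]
      exact BSecAux.sec_mem hm ((BSecAux.deg_sec h (Or.inl rfl) p).trans_le (mem_WS.1 hu).1)
    · rintro ⟨hu, p, rfl⟩
      exact ⟨_, BSecAux.sec_mem hm ((BSecAux.deg_sec (Or.inl rfl) h p).trans_le (mem_WS.1 hu).1),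
        hT p⟩
  have he : eav 0 (m + m) = 0 := if_neg (by omega)
  rw [← hS]
  refine lamk_map T _ ?_ ?_ k
  · rintro _ ⟨-, p, rfl⟩
    rw [hT, norm_eq_sqrt_real_inner, norm_eq_sqrt_real_inner, inner_sec, inner_sec, he, mul_zero,
      mul_zero]
  · rintro _ ⟨-, p, rfl⟩
    rw [hT, BSecAux.QG_sec hg, BSecAux.QG_sec hg, he, mul_zero, mul_zero]

end Crest.Agent.R202
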