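import Crest.Agent.R202.GDefs
import Crest.Agent.R230.Proj

/-!
# Row 202: definitions for the regularity theory of Galerkin solutions

A Galerkin solution is a family of polynomials `P r t` (`P r` the `r`-th `t`-derivative) of degree
`≤ N`, seen on the unit sphere; `lift (P 0) x = P 0 (log |x|) (x/|x|)`.
-/

set_option autoImplicit false
open scoped ContDiff
open MeasureTheory
open Crest.GeometryTopology.CoordMetric
open Crest.Agent.R230 (E MP sph ev Harm)

noncomputable section
namespace Crest.Agent.R202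

variable {n : ℕ}

/-- the rotation field acting on polynomials -/
def Lp (i k : Fin n) (P : MP n) : MP n :=
  MvPolynomial.X i * MvPolynomial.pderiv k P - MvPolynomial.X k * MvPolynomial.pderiv i P

/-- words in the rotation fields -/
def pw : List (Fin n × Fin n) → MP n → MP n
  | [], P => P
  | a :: w, P => Lp a.1 a.2 (pw w P)

/-- words in `D0` (letter `none`) and the rotation fields -/
def wd : List (Option (Fin n × Fin n)) → (E n → ℝ) → E n → ℝ
  | [], f => f
  | none :: w, f => D0 (wd w f)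
  | some a :: w, f => Lf a.1 a.2 (wd w f)

/-- the function on `ℝⁿ \ 0` given by a family of polynomials on the sphere -/
def lift (P : ℝ → MP n) (x : E n) : ℝ := ev (P (Real.log ‖x‖)) (‖x‖⁻¹ • x)

/-- `L²(sph n)` pairing of two polynomials with a weight -/
def ipw (c : E n → ℝ) (P R : MP n) : ℝ := ∫ p, c p * (ev P p * ev R p) ∂sph n

/-- the Dirichlet form on the sphere with coefficients `c i k` -/
def QS (c : Fin n → Fin n → E n → ℝ) (P R : MP n) : ℝ :=
  (1 / 2) * ∑ i, ∑ k, ipw (c i k) (Lp i k P) (Lp i k R)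

/-- the coefficients on the sphere of radius `e^t` -/
def atT (c : Fin n → Fin n → E n → ℝ) (t : ℝ) : Fin n → Fin n → E n → ℝ :=
  fun i k p => c i k (Real.exp t • p)

/-- a tower of `t`-derivatives of polynomials of degree `≤ N` -/
structure Tower (N : ℕ) (P : ℕ → ℝ → MP n) : Prop where
  deg : ∀ r t, (P r t).totalDegree ≤ N
  der : ∀ r t m, HasDerivAt (fun s => MvPolynomial.coeff m (P r s))
    (MvPolynomial.coeff m (P (r + 1) t)) t

/-- Galerkin solution of `v'' = Λ_t v + q v` -/
structure Gal (N : ℕ) (c : Fin n → Fin n → E n → ℝ) (q : ℝ → ℝ) (P : ℕ → ℝ → MP n) : Prop where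
  tower : Tower N P
  eq : ∀ (t : ℝ) (w : MP n), w.totalDegree ≤ N →
    ipw (fun _ => 1) (P 2 t) w = QS (atT c t) (P 0 t) w + q t * ipw (fun _ => 1) (P 0 t) w

/-- uniform bounds for the coefficients -/
structure CoefBd (c : Fin n → Fin n → E n → ℝ) (q : ℝ → ℝ) (c₀ : ℝ) (Bd : ℕ → ℝ) : Prop where
  smooth : ∀ i k, ContDiffOn ℝ ∞ (c i k) {0}ᶜ
  qs : ContDiff ℝ ∞ q
  lo : ∀ i k x, x ≠ 0 → c₀ ≤ c i k x
  bd : ∀ i k (w : List (Option (Fin n × Fin n))) x, x ≠ 0 → |wd w (c i k) x| ≤ Bd w.length
  qbd : ∀ r t, |iteratedDeriv r q t| ≤ Bd r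

end Crest.Agent.R202
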