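import Crest.Agent.R202.CEnergyAux

/-!
# Row 202, C2: energy estimates for all words (Caccioppoli induction)

For a word `(r, δ)` let `P_{r,δ} t = pw δ (P r t)`.  Claim (induction on `r + |δ|`, apply `∂_t` with
`hasDerivAt_ipw` or test with `Lp a b w` and use `ipw_Lp`, `Lp_comm`): for all `w` of degree `≤ N`
`⟨P_{r+2,δ}, w⟩ = QS c_t (P_{r,δ}, w) + Σ_finite ± ipw (e_t) (P_{r',δ'}) (pw ε w)`
with `r' + |δ'| ≤ r + |δ|`, `|ε| ≤ 1`, `e` a word derivative of some `c i k` or an iterated derivative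
of `q` (the number of terms depends only on `n, r, δ`).  A convenient formulation: the defect
`w ↦ ⟨P_{r+2,δ}, w⟩ - QS c_t (P_{r,δ}, w)` lies in an inductively defined class of functionals
(closed under `∂_t` and under `w ↦ Lp a b w`), each bounded by
`C (Σ_{|·| ≤ r+|δ|} ‖P_·‖)(‖w‖ + Σ ‖Lp i k w‖)`.
Caccioppoli: test with `w = P_{r,δ}`, multiply by `η(t)²` and integrate by parts in `t`:
`∫ η² (‖P_{r+1,δ}‖² + c₀/2 Σ ‖Lp i k P_{r,δ}‖²) ≤ C ∫_{supp η} Σ_{|·| ≤ r+|δ|} ‖P_·‖²`.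
Shrink the window at every step; finish with the 1-D Sobolev inequality.
-/

set_option autoImplicit false
open scoped ContDiff Topology
open MeasureTheory Set Filter
open Crest.GeometryTopology.CoordMetric
open Crest.Agent.R230 (E MP sph ev Harm)

noncomputable section
namespace Crest.Agent.R202

namespace CE

/-! ### One-dimensional lemmas -/

theorem cacc1 {f f₁ f₂ h g : ℝ → ℝ} (hf : ∀ t, HasDerivAt f (f₁ t) t)
    (hf₁ : ∀ t, HasDerivAt f₁ (f₂ t) t) (c₂ : Continuous f₂) (ch : Continuous h)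
    (cg : Continuous g) (f0 : ∀ t, 0 ≤ f t) (h0 : ∀ t, 0 ≤ h t) (g0 : ∀ t, 0 ≤ g t)
    (hle : ∀ t, h t ≤ f₂ t + g t) {ρ' ρ : ℝ} (h1 : 0 < ρ') (h2 : ρ' < ρ) (h3 : ρ ≤ 1) (t₀ : ℝ) :
    (ρ ^ 2 - ρ' ^ 2) ^ 2 * ∫ t in (t₀ - ρ')..(t₀ + ρ'), h t ≤
      ∫ t in (t₀ - ρ)..(t₀ + ρ), (8 * f t + g t) := by
  have cf : Continuous f := continuous_iff_continuousAt.2 fun t => (hf t).continuousAt
  have hab : t₀ - ρ ≤ t₀ + ρ := by linarith
  have hd : ∀ t, HasDerivAt (fun t => (ρ ^ 2 - (t - t₀) ^ 2) ^ 2 * f₁ t +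
      4 * (t - t₀) * (ρ ^ 2 - (t - t₀) ^ 2) * f t)
      ((ρ ^ 2 - (t - t₀) ^ 2) ^ 2 * f₂ t - (12 * (t - t₀) ^ 2 - 4 * ρ ^ 2) * f t) t := by
    intro t
    have a1 : HasDerivAt (fun t => t - t₀) 1 t := (hasDerivAt_id t).sub_const t₀
    have a2 : HasDerivAt (fun t => ρ ^ 2 - (t - t₀) ^ 2) (-(2 * (t - t₀))) t :=
      ((a1.fun_pow 2).const_sub (ρ ^ 2)).congr_deriv (by simp)
    have a3 := ((a2.fun_pow 2).fun_mul (hf₁ t)).fun_add (((a1.const_mul 4).fun_mul a2).fun_mul (hf t))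
    refine a3.congr_deriv ?_
    simp only [Nat.cast_ofNat, Nat.add_one_sub_one, pow_one]
    ring
  have i1 : Continuous fun t => (ρ ^ 2 - (t - t₀) ^ 2) ^ 2 * f₂ t -
      (12 * (t - t₀) ^ 2 - 4 * ρ ^ 2) * f t := by fun_prop
  have e0 := intervalIntegral.integral_eq_sub_of_hasDerivAt (fun t _ => hd t)
    (i1.intervalIntegrable (t₀ - ρ) (t₀ + ρ))
  have e1 : ∫ t in (t₀ - ρ)..(t₀ + ρ), ((ρ ^ 2 - (t - t₀) ^ 2) ^ 2 * f₂ t -
      (12 * (t - t₀) ^ 2 - 4 * ρ ^ 2) * f t) = 0 := by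
    rw [e0]
    ring
  have i2 : Continuous fun t => (ρ ^ 2 - (t - t₀) ^ 2) ^ 2 * h t := by fun_prop
  have i3 : Continuous fun t => 8 * f t + g t := by fun_prop
  calc _ = ∫ t in (t₀ - ρ')..(t₀ + ρ'), (ρ ^ 2 - ρ' ^ 2) ^ 2 * h t :=
        (intervalIntegral.integral_const_mul _ _).symm
    _ ≤ ∫ t in (t₀ - ρ')..(t₀ + ρ'), (ρ ^ 2 - (t - t₀) ^ 2) ^ 2 * h t := by
        refine intervalIntegral.integral_mono_on (by linarith)
          ((ch.const_mul _).intervalIntegrable _ _) (i2.intervalIntegrable _ _) fun t ht => ?_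
        refine mul_le_mul_of_nonneg_right ?_ (h0 t)
        have : (t - t₀) ^ 2 ≤ ρ' ^ 2 := sq_le_sq' (by linarith [ht.1]) (by linarith [ht.2])
        exact pow_le_pow_left₀ (by nlinarith) (by linarith) 2
    _ ≤ ∫ t in (t₀ - ρ)..(t₀ + ρ), (ρ ^ 2 - (t - t₀) ^ 2) ^ 2 * h t :=
        intervalIntegral.integral_mono_interval (by linarith) (by linarith) (by linarith)
          (Eventually.of_forall fun t => mul_nonneg (sq_nonneg _) (h0 t))
          (i2.intervalIntegrable _ _)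
    _ ≤ ∫ t in (t₀ - ρ)..(t₀ + ρ), (((ρ ^ 2 - (t - t₀) ^ 2) ^ 2 * f₂ t -
          (12 * (t - t₀) ^ 2 - 4 * ρ ^ 2) * f t) + (8 * f t + g t)) := by
        refine intervalIntegral.integral_mono_on hab (i2.intervalIntegrable _ _)
          ((i1.add i3).intervalIntegrable _ _) fun t ht => ?_
        have b1 : (t - t₀) ^ 2 ≤ ρ ^ 2 := sq_le_sq' (by linarith [ht.1]) (by linarith [ht.2])
        have b2 : ρ ^ 2 ≤ 1 := by nlinarith
        have b0 := sq_nonneg (t - t₀)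
        have b3 : (ρ ^ 2 - (t - t₀) ^ 2) ^ 2 ≤ 1 := by nlinarith
        have b4 := mul_le_mul_of_nonneg_left (hle t) (sq_nonneg (ρ ^ 2 - (t - t₀) ^ 2))
        have b5 := mul_le_mul_of_nonneg_right b3 (g0 t)
        have b6 : (12 * (t - t₀) ^ 2 - 4 * ρ ^ 2) * f t ≤ 8 * f t :=
          mul_le_mul_of_nonneg_right (by linarith) (f0 t)
        linarith
    _ = _ := by
        rw [intervalIntegral.integral_add (i1.intervalIntegrable _ _) (i3.intervalIntegrable _ _),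
          e1, zero_add]

theorem sob1 {f f₁ g : ℝ → ℝ} (hf : ∀ t, HasDerivAt f (f₁ t) t) (c₁ : Continuous f₁)
    (cg : Continuous g) (f0 : ∀ t, 0 ≤ f t) (g0 : ∀ t, 0 ≤ g t) (hle : ∀ t, f₁ t ≤ g t) (t₀ : ℝ) :
    f t₀ ≤ ∫ t in (t₀ - 1 / 2)..(t₀ + 1 / 2), (2 * f t + g t) := by
  have cf : Continuous f := continuous_iff_continuousAt.2 fun t => (hf t).continuousAt
  have hd : ∀ t, HasDerivAt (fun t => (2 * (t - t₀) + 1) * f t)
      (2 * f t + (2 * (t - t₀) + 1) * f₁ t) t := by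
    intro t
    have a1 : HasDerivAt (fun t => 2 * (t - t₀) + 1) 2 t :=
      ((((hasDerivAt_id t).sub_const t₀).const_mul 2).add_const 1).congr_deriv (by simp)
    exact a1.fun_mul (hf t)
  have i1 : Continuous fun t => 2 * f t + (2 * (t - t₀) + 1) * f₁ t := by fun_prop
  have i2 : Continuous fun t => 2 * f t + g t := by fun_prop
  have e0 := intervalIntegral.integral_eq_sub_of_hasDerivAt (fun t _ => hd t)
    (i1.intervalIntegrable (t₀ - 1 / 2) t₀)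
  calc f t₀ = ∫ t in (t₀ - 1 / 2)..t₀, (2 * f t + (2 * (t - t₀) + 1) * f₁ t) := by
        rw [e0]
        ring
    _ ≤ ∫ t in (t₀ - 1 / 2)..t₀, (2 * f t + g t) := by
        refine intervalIntegral.integral_mono_on (by linarith) (i1.intervalIntegrable _ _)
          (i2.intervalIntegrable _ _) fun t ht => ?_
        have b1 : 0 ≤ 2 * (t - t₀) + 1 := by linarith [ht.1]
        have b2 : 2 * (t - t₀) + 1 ≤ 1 := by linarith [ht.2]
        have b3 := mul_le_mul_of_nonneg_left (hle t) b1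
        have b4 := mul_le_mul_of_nonneg_right b2 (g0 t)
        linarith
    _ ≤ _ := intervalIntegral.integral_mono_interval le_rfl (by linarith) (by linarith)
        (Eventually.of_forall fun t => add_nonneg (mul_nonneg zero_le_two (f0 t)) (g0 t))
        (i2.intervalIntegrable _ _)

/-! ### Controlled quantities -/

variable {n : ℕ} {c₀ : ℝ} {Bd : ℕ → ℝ}

/-- `G` is controlled on the windows of radius `ρ` -/
structure Ctrl (ρ : ℝ) (G : Dat n c₀ Bd → ℝ → ℝ) : Prop where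
  cont : ∀ d, Continuous (G d)
  nonneg : ∀ d t, 0 ≤ G d t
  bd : ∃ C : ℝ, 0 ≤ C ∧ ∀ (d : Dat n c₀ Bd) (t₀ B : ℝ),
    (∀ t ∈ Icc (t₀ - 1) (t₀ + 1), nsq (d.P 0 t) ≤ B ^ 2) →
    ∫ t in (t₀ - ρ)..(t₀ + ρ), G d t ≤ C * B ^ 2

theorem Ctrl.zero (ρ : ℝ) : Ctrl ρ fun (_ : Dat n c₀ Bd) _ => 0 :=
  ⟨fun _ => continuous_const, fun _ _ => le_rfl, 0, le_rfl, fun _ _ _ _ => by simp⟩

theorem Ctrl.add {ρ : ℝ} {G H : Dat n c₀ Bd → ℝ → ℝ} (hG : Ctrl ρ G) (hH : Ctrl ρ H) :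
    Ctrl ρ fun d t => G d t + H d t := by
  obtain ⟨C₁, p₁, h₁⟩ := hG.bd
  obtain ⟨C₂, p₂, h₂⟩ := hH.bd
  refine ⟨fun d => (hG.cont d).add (hH.cont d), fun d t => add_nonneg (hG.nonneg d t)
    (hH.nonneg d t), C₁ + C₂, add_nonneg p₁ p₂, fun d t₀ B hB => ?_⟩
  rw [intervalIntegral.integral_add ((hG.cont d).intervalIntegrable _ _)
    ((hH.cont d).intervalIntegrable _ _), add_mul]
  exact add_le_add (h₁ d t₀ B hB) (h₂ d t₀ B hB)

theorem Ctrl.mul {ρ : ℝ} {G : Dat n c₀ Bd → ℝ → ℝ} (hG : Ctrl ρ G) {a : ℝ} (ha : 0 ≤ a) :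
    Ctrl ρ fun d t => a * G d t := by
  obtain ⟨C, p, h⟩ := hG.bd
  refine ⟨fun d => (hG.cont d).const_mul a, fun d t => mul_nonneg ha (hG.nonneg d t), a * C,
    mul_nonneg ha p, fun d t₀ B hB => ?_⟩
  rw [intervalIntegral.integral_const_mul, mul_assoc]
  exact mul_le_mul_of_nonneg_left (h d t₀ B hB) ha

theorem Ctrl.mono {ρ : ℝ} (hρ : 0 ≤ ρ) {G H : Dat n c₀ Bd → ℝ → ℝ} (hG : Ctrl ρ G)
    (hc : ∀ d, Continuous (H d)) (h0 : ∀ d t, 0 ≤ H d t) (hle : ∀ d t, H d t ≤ G d t) :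
    Ctrl ρ H := by
  obtain ⟨C, p, h⟩ := hG.bd
  exact ⟨hc, h0, C, p, fun d t₀ B hB => (intervalIntegral.integral_mono_on (by linarith)
    ((hc d).intervalIntegrable _ _) ((hG.cont d).intervalIntegrable _ _)
    fun t _ => hle d t).trans (h d t₀ B hB)⟩

/-- the energy of a word -/
def En (r : ℕ) (δ : List (Fin n × Fin n)) (d : Dat n c₀ Bd) (t : ℝ) : ℝ := nsq (pw δ (d.P r t))

/-- the squared `H¹` norm -/
def N2 (w : MP n) : ℝ := nsq w + ∑ i, ∑ k, nsq (Lp i k w)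

theorem sum_nsq_nonneg (w : MP n) : 0 ≤ ∑ i, ∑ k, nsq (Lp i k w) :=
  Finset.sum_nonneg fun _ _ => Finset.sum_nonneg fun _ _ => nsq_nonneg _

theorem nsq_Lp_le (a b : Fin n) (w : MP n) : nsq (Lp a b w) ≤ ∑ i, ∑ k, nsq (Lp i k w) :=
  (Finset.single_le_sum (f := fun k => nsq (Lp a k w)) (fun _ _ => nsq_nonneg _)
    (Finset.mem_univ b)).trans
    (Finset.single_le_sum (f := fun i => ∑ k, nsq (Lp i k w))
      (fun _ _ => Finset.sum_nonneg fun _ _ => nsq_nonneg _) (Finset.mem_univ a))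

theorem N2_nonneg (w : MP n) : 0 ≤ N2 w := add_nonneg (nsq_nonneg w) (sum_nsq_nonneg w)

theorem nsq_pw_le {ε : List (Fin n × Fin n)} (h : ε.length ≤ 1) (w : MP n) :
    nsq (pw ε w) ≤ N2 w := by
  match ε, h with
  | [], _ => exact le_add_of_nonneg_right (sum_nsq_nonneg w)
  | [z], _ => exact (nsq_Lp_le z.1 z.2 w).trans (le_add_of_nonneg_left (nsq_nonneg w))

theorem hasDerivAt_pair (d : Dat n c₀ Bd) (r s : ℕ) (δ : List (Fin n × Fin n)) (t : ℝ) :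
    HasDerivAt (fun t => ipw (fun _ => 1) (pw δ (d.P r t)) (pw δ (d.P s t)))
      (ipw (fun _ => 1) (pw δ (d.P (r + 1) t)) (pw δ (d.P s t)) +
        ipw (fun _ => 1) (pw δ (d.P r t)) (pw δ (d.P (s + 1) t))) t :=
  hasDerivAt_ip1 (tower_pw d.gal.tower r δ) (tower_pw d.gal.tower s δ) t

theorem continuous_pair (d : Dat n c₀ Bd) (r s : ℕ) (δ : List (Fin n × Fin n)) :
    Continuous fun t => ipw (fun _ => 1) (pw δ (d.P r t)) (pw δ (d.P s t)) :=
  continuous_iff_continuousAt.2 fun t => (hasDerivAt_pair d r s δ t).continuousAt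

theorem continuous_En (r : ℕ) (δ : List (Fin n × Fin n)) (d : Dat n c₀ Bd) :
    Continuous (En r δ d) := continuous_pair d r r δ

theorem hasDerivAt_En (r : ℕ) (δ : List (Fin n × Fin n)) (d : Dat n c₀ Bd) (t : ℝ) :
    HasDerivAt (En r δ d)
      (2 * ipw (fun _ => 1) (pw δ (d.P (r + 1) t)) (pw δ (d.P r t))) t := by
  refine (hasDerivAt_pair d r r δ t).congr_deriv ?_
  rw [ipw_comm _ (pw δ (d.P r t)), two_mul]

theorem V_bound {l : ℕ} {ρ : ℝ}
    (hI : ∀ (r : ℕ) (δ : List (Fin n × Fin n)), r + δ.length ≤ l →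
      Ctrl ρ (En (c₀ := c₀) (Bd := Bd) r δ))
    {F : Sch n c₀ Bd} (hF : F ∈ V n c₀ Bd l) :
    ∀ θ : ℝ, 0 < θ → ∃ G, Ctrl ρ G ∧ ∀ d t w, |F d t w| ≤ θ * N2 w + G d t := by
  induction hF using Submodule.span_induction with
  | mem F hF =>
    obtain ⟨e, r, δ, ε, he, h1, h2, rfl⟩ := hF
    intro θ hθ
    obtain ⟨K, hK⟩ := he.2 []
    refine ⟨_, (hI r δ h1).mul (a := K ^ 2 / (4 * θ)) (by positivity), fun d t w => ?_⟩
    refine (abs_ipt_le hθ (hK d) t _ _).trans (add_le_add ?_ le_rfl)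
    exact mul_le_mul_of_nonneg_left (nsq_pw_le h2 w) hθ.le
  | zero =>
    intro θ hθ
    refine ⟨_, Ctrl.zero ρ, fun d t w => ?_⟩
    simpa using mul_nonneg hθ.le (N2_nonneg w)
  | add F₁ F₂ _ _ ih₁ ih₂ =>
    intro θ hθ
    obtain ⟨G₁, m₁, h₁⟩ := ih₁ (θ / 2) (half_pos hθ)
    obtain ⟨G₂, m₂, h₂⟩ := ih₂ (θ / 2) (half_pos hθ)
    refine ⟨_, m₁.add m₂, fun d t w => ?_⟩
    have := abs_add_le (F₁ d t w) (F₂ d t w)
    simp only [Pi.add_apply]
    linarith [h₁ d t w, h₂ d t w]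
  | smul a F _ ih =>
    intro θ hθ
    have ha : 0 < |a| + 1 := by positivity
    obtain ⟨G, m, h⟩ := ih (θ / (|a| + 1)) (by positivity)
    refine ⟨_, m.mul ha.le, fun d t w => ?_⟩
    simp only [Pi.smul_apply, smul_eq_mul, abs_mul]
    calc |a| * |F d t w| ≤ (|a| + 1) * |F d t w| :=
          mul_le_mul_of_nonneg_right (by linarith) (abs_nonneg _)
      _ ≤ (|a| + 1) * (θ / (|a| + 1) * N2 w + G d t) := mul_le_mul_of_nonneg_left (h d t w) ha.le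
      _ = _ := by field_simp

theorem le_QS (d : Dat n c₀ Bd) (t : ℝ) (Q : MP n) :
    c₀ / 2 * ∑ i, ∑ k, nsq (Lp i k Q) ≤ QS (atT d.c t) Q Q := by
  have : c₀ * ∑ i, ∑ k, nsq (Lp i k Q) ≤ ∑ i, ∑ k, ipt (d.c i k) t (Lp i k Q) (Lp i k Q) := by
    simp only [Finset.mul_sum]
    exact Finset.sum_le_sum fun i _ => Finset.sum_le_sum fun k _ =>
      le_ipt (d.cb.smooth i k) (d.cb.lo i k) t _
  rw [QS_eq]
  linarith

/-- the Caccioppoli inequality -/
theorem cacc (hc₀ : 0 < c₀) {ρ' ρ : ℝ} (h1 : 0 < ρ') (h2 : ρ' < ρ) (h3 : ρ ≤ 1) (r : ℕ)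
    (δ : List (Fin n × Fin n))
    (hI : ∀ (r' : ℕ) (δ' : List (Fin n × Fin n)), r' + δ'.length ≤ r + δ.length →
      Ctrl ρ (En (c₀ := c₀) (Bd := Bd) r' δ')) :
    Ctrl ρ' fun (d : Dat n c₀ Bd) t =>
      2 * En (r + 1) δ d t + c₀ / 2 * ∑ i, ∑ k, En r ((i, k) :: δ) d t := by
  obtain ⟨F, hF, hdef⟩ := defect (c₀ := c₀) (Bd := Bd) r δ
  obtain ⟨G, hG, hb⟩ := V_bound hI hF (c₀ / 4) (by positivity)
  have hE := hI r δ le_rfl
  have hg := (hE.mul (a := c₀ / 2) (by positivity)).add (hG.mul zero_le_two)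
  obtain ⟨C, hC, hC'⟩ := ((hE.mul (a := 8) (by norm_num)).add hg).bd
  have hch : ∀ d : Dat n c₀ Bd, Continuous fun t =>
      2 * En (r + 1) δ d t + c₀ / 2 * ∑ i, ∑ k, En r ((i, k) :: δ) d t := fun d =>
    ((continuous_En _ _ d).const_mul 2).add ((continuous_finsetSum _ fun i _ =>
      continuous_finsetSum _ fun k _ => continuous_En _ _ d).const_mul _)
  have hh0 : ∀ (d : Dat n c₀ Bd) t,
      0 ≤ 2 * En (r + 1) δ d t + c₀ / 2 * ∑ i, ∑ k, En r ((i, k) :: δ) d t := fun d t =>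
    add_nonneg (mul_nonneg zero_le_two (nsq_nonneg _))
      (mul_nonneg (by positivity) (sum_nsq_nonneg (pw δ (d.P r t))))
  have hp : 0 < (ρ ^ 2 - ρ' ^ 2) ^ 2 := pow_pos (by nlinarith) 2
  refine ⟨hch, hh0, C / (ρ ^ 2 - ρ' ^ 2) ^ 2, by positivity, fun d t₀ B hB => ?_⟩
  have key := cacc1 (hasDerivAt_En r δ d)
    (fun t => (hasDerivAt_pair d (r + 1) r δ t).const_mul 2)
    (((continuous_pair d _ _ δ).add (continuous_pair d _ _ δ)).const_mul 2) (hch d) (hg.cont d)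
    (hE.nonneg d) (hh0 d) (hg.nonneg d) (fun t => by
      have a1 := hdef d t (pw δ (d.P r t))
        ((totalDegree_pw _ _).trans (d.gal.tower.deg r t))
      have a2 := (abs_le.1 (hb d t (pw δ (d.P r t)))).1
      have a3 := le_QS d t (pw δ (d.P r t))
      simp only [En, pw, N2, nsq] at a2 a3 ⊢
      linarith) h1 h2 h3 t₀
  rw [div_mul_eq_mul_div, le_div_iff₀ hp, mul_comm]
  exact key.trans (hC' d t₀ B hB)

theorem ctrl_En (hc₀ : 0 < c₀) (l : ℕ) : ∀ ρ : ℝ, 0 < ρ → ρ < 1 →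
    ∀ (r : ℕ) (δ : List (Fin n × Fin n)), r + δ.length ≤ l →
      Ctrl ρ (En (c₀ := c₀) (Bd := Bd) r δ) := by
  have base : ∀ ρ : ℝ, 0 < ρ → ρ < 1 → Ctrl ρ (En (n := n) (c₀ := c₀) (Bd := Bd) 0 []) := by
    intro ρ h0 h1
    refine ⟨continuous_En _ _, fun _ _ => nsq_nonneg _, 2, zero_le_two, fun d t₀ B hB => ?_⟩
    calc _ ≤ ∫ _ in (t₀ - ρ)..(t₀ + ρ), B ^ 2 :=
          intervalIntegral.integral_mono_on (by linarith)
            ((continuous_En _ _ d).intervalIntegrable _ _) (continuous_const.intervalIntegrable _ _)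
            fun t ht => hB t ⟨by linarith [ht.1], by linarith [ht.2]⟩
      _ ≤ _ := by
          rw [intervalIntegral.integral_const, smul_eq_mul]
          exact mul_le_mul_of_nonneg_right (by linarith) (sq_nonneg B)
  induction l with
  | zero =>
    intro ρ h0 h1 r δ h
    obtain rfl : r = 0 := by omega
    obtain rfl : δ = [] := List.length_eq_zero_iff.1 (by omega)
    exact base ρ h0 h1
  | succ l ih =>
    intro ρ h0 h1 r δ h
    have hI := ih ((1 + ρ) / 2) (by linarith) (by linarith)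
    match r, δ, h with
    | 0, [], _ => exact base ρ h0 h1
    | r + 1, [], h =>
      have := cacc hc₀ h0 (ρ := (1 + ρ) / 2) (by linarith) (by linarith) r []
        fun r' δ' h' => hI r' δ' (by simp at h h'; omega)
      refine this.mono h0.le (continuous_En _ _) (fun _ _ => nsq_nonneg _) fun d t => ?_
      have a1 : 0 ≤ En (r + 1) [] d t := nsq_nonneg _
      have a2 : 0 ≤ c₀ / 2 * ∑ i, ∑ k, En r ((i, k) :: []) d t :=
        mul_nonneg (by positivity) (sum_nsq_nonneg (pw [] (d.P r t)))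
      linarith
    | r, z :: δ, h =>
      have := (cacc hc₀ h0 (ρ := (1 + ρ) / 2) (by linarith) (by linarith) r δ
        fun r' δ' h' => hI r' δ' (by simp at h; omega)).mul (a := 2 / c₀) (by positivity)
      refine this.mono h0.le (continuous_En _ _) (fun _ _ => nsq_nonneg _) fun d t => ?_
      have a1 : 0 ≤ 2 / c₀ * (2 * En (r + 1) δ d t) :=
        mul_nonneg (by positivity) (mul_nonneg zero_le_two (nsq_nonneg _))
      have a2 : En r (z :: δ) d t ≤ ∑ i, ∑ k, En r ((i, k) :: δ) d t :=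
        nsq_Lp_le z.1 z.2 (pw δ (d.P r t))
      have a3 : 2 / c₀ * (c₀ / 2 * ∑ i, ∑ k, En r ((i, k) :: δ) d t) =
          ∑ i, ∑ k, En r ((i, k) :: δ) d t := by field_simp
      rw [mul_add, a3]
      linarith

theorem two_ip_le (P R : MP n) : 2 * ipw (fun _ => 1) P R ≤ nsq P + nsq R := by
  have h := abs_ipt_le (e := fun _ : E n => (1 : ℝ)) (K := 1) (θ := 1 / 2) (by norm_num)
    (fun _ _ => by simp) 0 P R
  have h' := le_abs_self (ipt (fun _ : E n => (1 : ℝ)) 0 P R)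
  simp only [ipt] at h h'
  linarith

end CE

theorem gal_energy (n : ℕ) {c₀ : ℝ} (hc₀ : 0 < c₀) (Bd : ℕ → ℝ) (r : ℕ) (δ : List (Fin n × Fin n)) :
    ∃ C : ℝ, 0 ≤ C ∧ ∀ (N : ℕ) (c : Fin n → Fin n → E n → ℝ) (q : ℝ → ℝ) (P : ℕ → ℝ → MP n)
      (t₀ B : ℝ), CoefBd c q c₀ Bd → Gal N c q P →
      (∀ t ∈ Icc (t₀ - 1) (t₀ + 1), ipw (fun _ => 1) (P 0 t) (P 0 t) ≤ B ^ 2) →
      ipw (fun _ => 1) (pw δ (P r t₀)) (pw δ (P r t₀)) ≤ C * B ^ 2 := by
  have h0 := CE.ctrl_En (Bd := Bd) hc₀ _ (1 / 2) (by norm_num) (by norm_num) r δ le_rfl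
  have h1 := CE.ctrl_En (Bd := Bd) hc₀ _ (1 / 2) (by norm_num) (by norm_num) (r + 1) δ le_rfl
  have h2 := h1.add h0
  obtain ⟨C, hC, h⟩ := ((h0.mul zero_le_two).add h2).bd
  refine ⟨C, hC, fun N c q P t₀ B hcb hgal hB => ?_⟩
  let d : CE.Dat n c₀ Bd := ⟨N, c, q, P, hcb, hgal⟩
  exact (CE.sob1 (CE.hasDerivAt_En r δ d) ((CE.continuous_pair d _ _ δ).const_mul 2) (h2.cont d)
    (h0.nonneg d) (h2.nonneg d) (fun t => CE.two_ip_le _ _) t₀).trans (h d t₀ B hB)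

end Crest.Agent.R202
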