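import Crest.Agent.R202.CBasic

/-!
# Row 202, C2 (auxiliary): the differentiated Galerkin equation

The defect `w ↦ ⟨P_{r+2,δ}, w⟩ - QS c_t (P_{r,δ}, w)` lies in the span `V (r + |δ|)` of the schemes
`ipw e_t (P_{r',δ'}) (pw ε w)`; the schemes are functions of the whole data, so all constants are uniform.
-/

set_option autoImplicit false
open scoped ContDiff Topology
open MeasureTheory Set Filter
open Crest.GeometryTopology.CoordMetric
open Crest.Agent.R230 (E MP sph ev Harm)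

noncomputable section
namespace Crest.Agent.R202.CE

variable {n : ℕ}

/-! ### The pairing -/

theorem integrable_ipw {c : E n → ℝ} (hc : ContinuousOn c {0}ᶜ) (P R : MP n) :
    Integrable (fun p => c p * (ev P p * ev R p)) (sph n) :=
  R230.integrable_of_continuousOn
    (hc.mul ((R230.continuous_ev P).mul (R230.continuous_ev R)).continuousOn)

theorem ipw_comm (c : E n → ℝ) (P R : MP n) : ipw c P R = ipw c R P := by
  simp only [ipw, mul_comm (ev P _)]

theorem ipw_zero_right (c : E n → ℝ) (P : MP n) : ipw c P 0 = 0 := by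
  simp [ipw]

theorem ipw_add_right {c : E n → ℝ} (hc : ContinuousOn c {0}ᶜ) (P R S : MP n) :
    ipw c P (R + S) = ipw c P R + ipw c P S := by
  rw [ipw, ipw, ipw, ← integral_add (integrable_ipw hc P R) (integrable_ipw hc P S)]
  simp only [R230.ev_add, mul_add]

theorem ipw_sub_right {c : E n → ℝ} (hc : ContinuousOn c {0}ᶜ) (P R S : MP n) :
    ipw c P (R - S) = ipw c P R - ipw c P S := by
  rw [ipw, ipw, ipw, ← integral_sub (integrable_ipw hc P R) (integrable_ipw hc P S)]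
  simp only [R230.ev_sub, mul_sub]

theorem ipw_ite_right (c : E n → ℝ) (P R : MP n) (p : Prop) [Decidable p] :
    ipw c P (if p then R else 0) = if p then ipw c P R else 0 := by
  split_ifs
  · rfl
  · exact ipw_zero_right c P

theorem ipw_congr {c c' : E n → ℝ} (h : ∀ p : E n, ‖p‖ = 1 → c p = c' p) (P R : MP n) :
    ipw c P R = ipw c' P R := by
  refine integral_congr_ae ?_
  filter_upwards [R230.ae_norm] with p hp
  rw [h p hp]

theorem ne_zero_of_norm {p : E n} (hp : ‖p‖ = 1) : p ≠ 0 := by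
  rintro rfl
  simp at hp

theorem smul_ne {p : E n} (hp : p ≠ 0) (t : ℝ) : Real.exp t • p ≠ 0 :=
  smul_ne_zero (Real.exp_pos t).ne' hp

theorem contDiffOn_scale {e : E n → ℝ} (he : ContDiffOn ℝ ∞ e {0}ᶜ) (t : ℝ) :
    ContDiffOn ℝ ∞ (fun p => e (Real.exp t • p)) {0}ᶜ :=
  he.comp (contDiff_const_smul (Real.exp t)).contDiffOn fun _ hp => smul_ne hp t

/-- the pairing with the weight taken on the sphere of radius `e^t` -/
def ipt (e : E n → ℝ) (t : ℝ) (P R : MP n) : ℝ := ipw (fun p => e (Real.exp t • p)) P R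

/-- the squared norm -/
def nsq (P : MP n) : ℝ := ipw (fun _ => 1) P P

theorem nsq_nonneg (P : MP n) : 0 ≤ nsq P :=
  integral_nonneg fun p => mul_nonneg zero_le_one (mul_self_nonneg (ev P p))

theorem ipt_comm (e : E n → ℝ) (t : ℝ) (P R : MP n) : ipt e t P R = ipt e t R P :=
  ipw_comm _ _ _

theorem ipt_Lp (i k : Fin n) {e : E n → ℝ} (he : ContDiffOn ℝ ∞ e {0}ᶜ) (t : ℝ) (P R : MP n) :
    ipt e t (Lp i k P) R + ipt e t P (Lp i k R) + ipt (Lf i k e) t P R = 0 := by
  have h := ipw_Lp i k (contDiffOn_scale he t) P R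
  rwa [ipw_congr (c := Lf i k fun p => e (Real.exp t • p))
    (c' := fun p => Lf i k e (Real.exp t • p))
    (fun p hp => Lf_scale i k he (Real.exp_pos t) (ne_zero_of_norm hp))] at h

theorem ip1_Lp (i k : Fin n) (P R : MP n) :
    ipw (fun _ => 1) (Lp i k P) R + ipw (fun _ => 1) P (Lp i k R) = 0 := by
  have h := ipw_Lp i k (c := fun _ => 1) contDiffOn_const P R
  have e : ipw (Lf i k fun _ : E n => (1 : ℝ)) P R = 0 := by
    simp [ipw, Lf, pderiv]
  rwa [e, add_zero] at h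

theorem ipt_commut (i k a b : Fin n) {e : E n → ℝ} (he : ContDiffOn ℝ ∞ e {0}ᶜ) (t : ℝ)
    (Q w : MP n) : ipt e t Q (Lp i k (Lp a b w)) = ipt e t Q (Lp a b (Lp i k w)) +
      ((if k = a then ipt e t Q (Lp i b w) else 0) - (if i = a then ipt e t Q (Lp k b w) else 0)
        - (if k = b then ipt e t Q (Lp i a w) else 0) +
        (if i = b then ipt e t Q (Lp k a w) else 0)) := by
  have hc := (contDiffOn_scale he t).continuousOn
  have h := congrArg (ipt e t Q) (Lp_comm i k a b w)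
  simp only [ipt] at h ⊢
  rw [ipw_sub_right hc, ipw_add_right hc, ipw_sub_right hc, ipw_sub_right hc, ipw_ite_right,
    ipw_ite_right, ipw_ite_right, ipw_ite_right] at h
  linarith

theorem abs_ipt_le {e : E n → ℝ} {K θ : ℝ} (hθ : 0 < θ)
    (hK : ∀ x, x ≠ 0 → |e x| ≤ K) (t : ℝ) (P R : MP n) :
    |ipt e t P R| ≤ θ * nsq R + K ^ 2 / (4 * θ) * nsq P := by
  have i1 := integrable_ipw (c := fun _ : E n => (1 : ℝ)) continuousOn_const R R
  have i2 := integrable_ipw (c := fun _ : E n => (1 : ℝ)) continuousOn_const P P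
  rw [nsq, nsq, ipw, ipw, ← integral_const_mul, ← integral_const_mul,
    ← integral_add (i1.const_mul _) (i2.const_mul _), ← Real.norm_eq_abs]
  refine norm_integral_le_of_norm_le ((i1.const_mul _).add (i2.const_mul _)) ?_
  filter_upwards [R230.ae_norm] with p hp
  have h1 := hK _ (smul_ne (ne_zero_of_norm hp) t)
  have h0 := abs_nonneg (e (Real.exp t • p))
  rw [Real.norm_eq_abs, abs_mul, abs_mul, one_mul, one_mul, ← abs_mul_abs_self (ev R p),
    ← abs_mul_abs_self (ev P p)]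
  have ha := abs_nonneg (ev P p)
  have hb := abs_nonneg (ev R p)
  generalize |ev P p| = x at *
  generalize |ev R p| = y at *
  have h2 : |e (Real.exp t • p)| * (x * y) ≤ K * (x * y) :=
    mul_le_mul_of_nonneg_right h1 (mul_nonneg ha hb)
  have h3 : θ * (y * y) + K ^ 2 / (4 * θ) * (x * x) - K * (x * y) =
      (2 * θ * y - K * x) ^ 2 / (4 * θ) := by
    field_simp
    ring
  have h4 : 0 ≤ (2 * θ * y - K * x) ^ 2 / (4 * θ) := by positivity
  linarith

theorem le_ipt {e : E n → ℝ} (he : ContDiffOn ℝ ∞ e {0}ᶜ) {c₀ : ℝ}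
    (hK : ∀ x, x ≠ 0 → c₀ ≤ e x) (t : ℝ) (P : MP n) : c₀ * nsq P ≤ ipt e t P P := by
  have i2 := integrable_ipw (c := fun _ : E n => (1 : ℝ)) continuousOn_const P P
  rw [nsq, ipw, ← integral_const_mul]
  refine integral_mono_ae (i2.const_mul _)
    (integrable_ipw (contDiffOn_scale he t).continuousOn P P) ?_
  filter_upwards [R230.ae_norm] with p hp
  rw [one_mul]
  exact mul_le_mul_of_nonneg_right (hK _ (smul_ne (ne_zero_of_norm hp) t)) (mul_self_nonneg _)

/-! ### Towers -/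

theorem tower_pw {N : ℕ} {P : ℕ → ℝ → MP n} (h : Tower N P) (r : ℕ) (δ : List (Fin n × Fin n)) :
    Tower N fun j t => pw δ (P (r + j) t) := by
  induction δ with
  | nil => exact ⟨fun j t => h.deg _ _, fun j t m => h.der (r + j) t m⟩
  | cons a δ ih => exact ih.Lp a.1 a.2

/-- the constant tower -/
def cst (w : MP n) : ℕ → ℝ → MP n
  | 0, _ => w
  | _ + 1, _ => 0

theorem tower_cst {N : ℕ} {w : MP n} (hw : w.totalDegree ≤ N) : Tower N (cst w) := by
  refine ⟨fun r t => ?_, fun r t m => ?_⟩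
  · cases r with
    | zero => exact hw
    | succ r => simp [cst]
  · cases r with
    | zero => simpa [cst] using hasDerivAt_const t (MvPolynomial.coeff m w)
    | succ r => simpa [cst] using hasDerivAt_const t (0 : ℝ)

theorem hasDerivAt_ip1 {N : ℕ} {P R : ℕ → ℝ → MP n} (hP : Tower N P) (hR : Tower N R) (t : ℝ) :
    HasDerivAt (fun s => ipw (fun _ => 1) (P 0 s) (R 0 s))
      (ipw (fun _ => 1) (P 1 t) (R 0 t) + ipw (fun _ => 1) (P 0 t) (R 1 t)) t := by
  have h := hasDerivAt_ipw hP hR (c := fun _ => 1) contDiffOn_const t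
  have e : ipw (fun p => D0 (fun _ : E n => (1 : ℝ)) (Real.exp t • p)) (P 0 t) (R 0 t) = 0 := by
    simp [ipw, D0]
  rwa [e, zero_add] at h

theorem hasDerivAt_ipt {N : ℕ} {P : ℕ → ℝ → MP n} (hP : Tower N P) {w : MP n}
    (hw : w.totalDegree ≤ N) {e : E n → ℝ} (he : ContDiffOn ℝ ∞ e {0}ᶜ) (t : ℝ) :
    HasDerivAt (fun s => ipt e s (P 0 s) w) (ipt (D0 e) t (P 0 t) w + ipt e t (P 1 t) w) t := by
  have h := hasDerivAt_ipw hP (tower_cst hw) he t
  simp only [cst, ipw_zero_right, add_zero] at h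
  exact h

/-! ### Data and schemes -/

/-- the data over which all constants are uniform -/
structure Dat (n : ℕ) (c₀ : ℝ) (Bd : ℕ → ℝ) where
  N : ℕ
  c : Fin n → Fin n → E n → ℝ
  q : ℝ → ℝ
  P : ℕ → ℝ → MP n
  cb : CoefBd c q c₀ Bd
  gal : Gal N c q P

variable {c₀ : ℝ} {Bd : ℕ → ℝ}

/-- admissible weights -/
def Adm (e : Dat n c₀ Bd → E n → ℝ) : Prop :=
  (∀ d, ContDiffOn ℝ ∞ (e d) {0}ᶜ) ∧
    ∀ u : List (Option (Fin n × Fin n)), ∃ K : ℝ, ∀ d x, x ≠ 0 → |wd u (e d) x| ≤ K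

theorem wd_append (u v : List (Option (Fin n × Fin n))) (f : E n → ℝ) :
    wd (u ++ v) f = wd u (wd v f) := by
  induction u with
  | nil => rfl
  | cons a u ih =>
    cases a with
    | none => simp only [List.cons_append, wd, ih]
    | some a => simp only [List.cons_append, wd, ih]

theorem Adm.D0 {e : Dat n c₀ Bd → E n → ℝ} (h : Adm e) : Adm fun d => D0 (e d) := by
  refine ⟨fun d => contDiffOn_D0 (h.1 d), fun u => ?_⟩
  obtain ⟨K, hK⟩ := h.2 (u ++ [none])
  exact ⟨K, fun d x hx => by simpa only [wd_append, wd] using hK d x hx⟩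

theorem Adm.Lf {e : Dat n c₀ Bd → E n → ℝ} (h : Adm e) (i k : Fin n) :
    Adm fun d => Lf i k (e d) := by
  refine ⟨fun d => contDiffOn_Lf i k (h.1 d), fun u => ?_⟩
  obtain ⟨K, hK⟩ := h.2 (u ++ [some (i, k)])
  exact ⟨K, fun d x hx => by simpa only [wd_append, wd] using hK d x hx⟩

theorem adm_c (i k : Fin n) : Adm fun d : Dat n c₀ Bd => d.c i k :=
  ⟨fun d => d.cb.smooth i k, fun u => ⟨Bd u.length, fun d x hx => d.cb.bd i k u x hx⟩⟩

/-- the potential as a function on `ℝⁿ \ 0` -/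
def qt (q : ℝ → ℝ) : E n → ℝ := lift fun t => MvPolynomial.C (q t)

theorem tower_q {q : ℝ → ℝ} (hq : ContDiff ℝ ∞ q) :
    Tower (n := n) 0 fun r t => MvPolynomial.C (iteratedDeriv r q t) :=
  tower_of_smooth (Algebra.linearMap ℝ (MP n)) (N := 0)
    (fun u => (MvPolynomial.totalDegree_C u).le) hq

theorem Lp_zero (i k : Fin n) : Lp i k (0 : MP n) = 0 := by simp [Lp]

theorem pw_C (δ : List (Fin n × Fin n)) (a : ℝ) :
    pw δ (MvPolynomial.C a) = MvPolynomial.C a ∨ pw δ (MvPolynomial.C a) = 0 := by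
  induction δ with
  | nil => exact Or.inl rfl
  | cons b δ ih =>
    right
    rcases ih with h | h
    · simp [pw, h, Lp]
    · simp [pw, h, Lp]

theorem adm_q : Adm fun d : Dat n c₀ Bd => qt d.q := by
  refine ⟨fun d => ?_, fun u => ⟨Bd (u.filter Option.isNone).length, fun d x hx => ?_⟩⟩
  · simpa only [iteratedDeriv_zero, qt] using (tower_q (n := n) d.cb.qs).contDiffOn_lift 0
  · have h := (tower_q (n := n) d.cb.qs).wd_lift u hx
    simp only [iteratedDeriv_zero] at h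
    have hb := d.cb.qbd (u.filter Option.isNone).length (Real.log ‖x‖)
    simp only [qt]
    rw [h, lift]
    rcases pw_C (u.filterMap id) (iteratedDeriv (u.filter Option.isNone).length d.q
      (Real.log ‖x‖)) with e | e
    · rw [e, R230.ev_C]
      exact hb
    · rw [e, R230.ev_zero, abs_zero]
      exact (abs_nonneg _).trans hb

theorem ipt_qt (q : ℝ → ℝ) (t : ℝ) (P R : MP n) :
    ipt (qt q) t P R = q t * ipw (fun _ => 1) P R := by
  rw [ipt, ipw_congr (c' := fun _ => q t) (fun p hp => by rw [qt, lift_exp _ t hp, R230.ev_C]),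
    ipw, ipw, ← integral_const_mul]
  simp only [one_mul]

/-- schemes of functionals -/
abbrev Sch (n : ℕ) (c₀ : ℝ) (Bd : ℕ → ℝ) := Dat n c₀ Bd → ℝ → MP n → ℝ

/-- the basic terms -/
def Tm (e : Dat n c₀ Bd → E n → ℝ) (r : ℕ) (δ ε : List (Fin n × Fin n)) : Sch n c₀ Bd :=
  fun d t w => ipt (e d) t (pw δ (d.P r t)) (pw ε w)

/-- the span of the terms of level `≤ l` -/
def V (n : ℕ) (c₀ : ℝ) (Bd : ℕ → ℝ) (l : ℕ) : Submodule ℝ (Sch n c₀ Bd) :=
  Submodule.span ℝ {F | ∃ e r δ ε, Adm e ∧ r + δ.length ≤ l ∧ ε.length ≤ 1 ∧ F = Tm e r δ ε}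

theorem Tm_mem {l : ℕ} {e : Dat n c₀ Bd → E n → ℝ} (he : Adm e) {r : ℕ}
    {δ ε : List (Fin n × Fin n)} (h1 : r + δ.length ≤ l) (h2 : ε.length ≤ 1) :
    Tm e r δ ε ∈ V n c₀ Bd l :=
  Submodule.subset_span ⟨e, r, δ, ε, he, h1, h2, rfl⟩

theorem ite_mem {l : ℕ} (p : Prop) [Decidable p] {F : Sch n c₀ Bd} (h : F ∈ V n c₀ Bd l) :
    (if p then F else 0) ∈ V n c₀ Bd l := by
  split_ifs
  · exact h
  · exact zero_mem _

theorem hasDerivAt_Tm {e : Dat n c₀ Bd → E n → ℝ} (he : Adm e) (r : ℕ)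
    (δ ε : List (Fin n × Fin n)) (d : Dat n c₀ Bd) (t : ℝ) {w : MP n} (hw : w.totalDegree ≤ d.N) :
    HasDerivAt (fun s => Tm e r δ ε d s w)
      (Tm (fun d => D0 (e d)) r δ ε d t w + Tm e (r + 1) δ ε d t w) t :=
  hasDerivAt_ipt (tower_pw d.gal.tower r δ) ((totalDegree_pw ε w).trans hw) (he.1 d) t

theorem V_deriv {l : ℕ} {F : Sch n c₀ Bd} (hF : F ∈ V n c₀ Bd l) :
    ∃ G ∈ V n c₀ Bd (l + 1), ∀ (d : Dat n c₀ Bd) (t : ℝ) (w : MP n), w.totalDegree ≤ d.N →
      HasDerivAt (fun s => F d s w) (G d t w) t := by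
  induction hF using Submodule.span_induction with
  | mem F hF =>
    obtain ⟨e, r, δ, ε, he, h1, h2, rfl⟩ := hF
    exact ⟨Tm (fun d => D0 (e d)) r δ ε + Tm e (r + 1) δ ε,
      add_mem (Tm_mem he.D0 (by omega) h2) (Tm_mem he (by omega) h2),
      fun d t w hw => hasDerivAt_Tm he r δ ε d t hw⟩
  | zero => exact ⟨0, zero_mem _, fun d t w _ => hasDerivAt_const t 0⟩
  | add F₁ F₂ _ _ ih₁ ih₂ =>
    obtain ⟨G₁, m₁, h₁⟩ := ih₁
    obtain ⟨G₂, m₂, h₂⟩ := ih₂
    exact ⟨G₁ + G₂, add_mem m₁ m₂, fun d t w hw => (h₁ d t w hw).add (h₂ d t w hw)⟩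
  | smul a F _ ih =>
    obtain ⟨G, m, h⟩ := ih
    exact ⟨a • G, Submodule.smul_mem _ a m, fun d t w hw => (h d t w hw).const_mul a⟩

theorem V_Lp {l : ℕ} (a b : Fin n) {F : Sch n c₀ Bd} (hF : F ∈ V n c₀ Bd l) :
    (fun d t w => F d t (Lp a b w)) ∈ V n c₀ Bd (l + 1) := by
  induction hF using Submodule.span_induction with
  | mem F hF =>
    obtain ⟨e, r, δ, ε, he, h1, h2, rfl⟩ := hF
    match ε, h2 with
    | [], _ => exact Tm_mem (ε := [(a, b)]) he (by omega) le_rfl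
    | [z], _ =>
      have e1 : (fun d t w => Tm e r δ [z] d t (Lp a b w)) =
          -Tm e r (z :: δ) [(a, b)] - Tm (fun d => Lf z.1 z.2 (e d)) r δ [(a, b)] := by
        funext d t w
        have := ipt_Lp z.1 z.2 (he.1 d) t (pw δ (d.P r t)) (Lp a b w)
        simp only [Tm, pw, Pi.sub_apply, Pi.neg_apply]
        linarith
      rw [e1]
      exact sub_mem (neg_mem (Tm_mem he (by simp; omega) le_rfl))
        (Tm_mem (he.Lf _ _) (by omega) le_rfl)
  | zero => exact zero_mem _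
  | add F₁ F₂ _ _ ih₁ ih₂ => exact add_mem ih₁ ih₂
  | smul a F _ ih => exact Submodule.smul_mem _ a ih

/-- the commutator of the Dirichlet form with a rotation field -/
theorem comm_mem {e : Dat n c₀ Bd → E n → ℝ} (he : Adm e) (r : ℕ) (δ : List (Fin n × Fin n))
    (i k a b : Fin n) :
    (fun d t w => ipt (e d) t (Lp i k (pw δ (d.P r t))) (Lp i k (Lp a b w)) +
      ipt (e d) t (Lp i k (Lp a b (pw δ (d.P r t)))) (Lp i k w)) ∈
      V n c₀ Bd (r + δ.length + 1) := by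
  have e1 : (fun (d : Dat n c₀ Bd) t w =>
      ipt (e d) t (Lp i k (pw δ (d.P r t))) (Lp i k (Lp a b w)) +
      ipt (e d) t (Lp i k (Lp a b (pw δ (d.P r t)))) (Lp i k w)) =
      ((if k = a then Tm e r ((i, k) :: δ) [(i, b)] else 0) -
        (if i = a then Tm e r ((i, k) :: δ) [(k, b)] else 0) -
        (if k = b then Tm e r ((i, k) :: δ) [(i, a)] else 0) +
        (if i = b then Tm e r ((i, k) :: δ) [(k, a)] else 0)) +
      ((if k = a then Tm e r ((i, b) :: δ) [(i, k)] else 0) -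
        (if i = a then Tm e r ((k, b) :: δ) [(i, k)] else 0) -
        (if k = b then Tm e r ((i, a) :: δ) [(i, k)] else 0) +
        (if i = b then Tm e r ((k, a) :: δ) [(i, k)] else 0)) -
      Tm (fun d => Lf a b (e d)) r ((i, k) :: δ) [(i, k)] := by
    funext d t w
    have h1 := ipt_commut i k a b (he.1 d) t (Lp i k (pw δ (d.P r t))) w
    have h2 := ipt_commut i k a b (he.1 d) t (Lp i k w) (pw δ (d.P r t))
    have h3 := ipt_Lp a b (he.1 d) t (Lp i k (pw δ (d.P r t))) (Lp i k w)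
    simp only [ipt_comm (e d) t (Lp i k w)] at h2
    simp only [Tm, pw, Pi.sub_apply, Pi.add_apply, ite_apply, Pi.zero_apply]
    linarith
  have m : ∀ z y : Fin n × Fin n, Tm e r (z :: δ) [y] ∈ V n c₀ Bd (r + δ.length + 1) :=
    fun z y => Tm_mem he (by simp; omega) le_rfl
  rw [e1]
  exact sub_mem (add_mem
    (add_mem (sub_mem (sub_mem (ite_mem _ (m _ _)) (ite_mem _ (m _ _))) (ite_mem _ (m _ _)))
      (ite_mem _ (m _ _)))
    (add_mem (sub_mem (sub_mem (ite_mem _ (m _ _)) (ite_mem _ (m _ _))) (ite_mem _ (m _ _)))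
      (ite_mem _ (m _ _))))
    (Tm_mem (he.Lf a b) (by simp; omega) le_rfl)

theorem QS_eq (c : Fin n → Fin n → E n → ℝ) (t : ℝ) (P R : MP n) :
    QS (atT c t) P R = (1 / 2) * ∑ i, ∑ k, ipt (c i k) t (Lp i k P) (Lp i k R) := rfl

theorem defect_nil (r : ℕ) : ∃ F ∈ V n c₀ Bd r, ∀ (d : Dat n c₀ Bd) (t : ℝ) (w : MP n),
    w.totalDegree ≤ d.N →
      ipw (fun _ => 1) (d.P (r + 2) t) w = QS (atT d.c t) (d.P r t) w + F d t w := by
  induction r with
  | zero =>
    refine ⟨Tm (fun d => qt d.q) 0 [] [], Tm_mem adm_q le_rfl (by simp), fun d t w hw => ?_⟩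
    simp only [Tm, pw, ipt_qt]
    exact d.gal.eq t w hw
  | succ r ih =>
    obtain ⟨F, hF, h⟩ := ih
    obtain ⟨G, hG, h'⟩ := V_deriv hF
    refine ⟨(1 / 2 : ℝ) • (∑ i, ∑ k, Tm (fun d => D0 (d.c i k)) r [(i, k)] [(i, k)]) + G,
      add_mem (Submodule.smul_mem _ _ (sum_mem fun i _ => sum_mem fun k _ =>
        Tm_mem (adm_c i k).D0 le_rfl le_rfl)) hG, fun d t w hw => ?_⟩
    have h1 := hasDerivAt_ip1 (tower_pw d.gal.tower (r + 2) []) (tower_cst hw) t
    simp only [cst, pw, ipw_zero_right, add_zero] at h1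
    have h2 := ((HasDerivAt.fun_sum fun i (_ : i ∈ Finset.univ) =>
      HasDerivAt.fun_sum fun k (_ : k ∈ Finset.univ) =>
        hasDerivAt_Tm (adm_c i k) r [(i, k)] [(i, k)] d t hw).const_mul (1 / 2)).add (h' d t w hw)
    have h3 : (fun s => ipw (fun _ => 1) (d.P (r + 2) s) w) = fun s =>
        (1 / 2) * ∑ i, ∑ k, Tm (fun d => d.c i k) r [(i, k)] [(i, k)] d s w + F d s w :=
      funext fun s => h d s w hw
    rw [h3] at h1
    have h4 := h1.unique h2
    simp only [Finset.sum_add_distrib] at h4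
    rw [QS_eq]
    simp only [Pi.add_apply, Pi.smul_apply, Finset.sum_apply, smul_eq_mul]
    simp only [Tm, pw] at h4 ⊢
    linarith

/-- the differentiated Galerkin equation -/
theorem defect (r : ℕ) (δ : List (Fin n × Fin n)) : ∃ F ∈ V n c₀ Bd (r + δ.length),
    ∀ (d : Dat n c₀ Bd) (t : ℝ) (w : MP n), w.totalDegree ≤ d.N →
      ipw (fun _ => 1) (pw δ (d.P (r + 2) t)) w =
        QS (atT d.c t) (pw δ (d.P r t)) w + F d t w := by
  induction δ with
  | nil => exact defect_nil r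
  | cons z δ ih =>
    obtain ⟨F, hF, h⟩ := ih
    refine ⟨_, sub_mem (neg_mem (Submodule.smul_mem _ (1 / 2 : ℝ)
      (sum_mem fun i (_ : i ∈ Finset.univ) => sum_mem fun k (_ : k ∈ Finset.univ) =>
        comm_mem (adm_c i k) r δ i k z.1 z.2))) (V_Lp z.1 z.2 hF), fun d t w hw => ?_⟩
    have h1 := h d t (Lp z.1 z.2 w) ((totalDegree_Lp _ _ _).trans hw)
    have h2 := ip1_Lp z.1 z.2 (pw δ (d.P (r + 2) t)) w
    rw [QS_eq] at h1 ⊢
    simp only [pw, Pi.sub_apply, Pi.neg_apply, Pi.smul_apply, Finset.sum_apply, smul_eq_mul,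
      Finset.sum_add_distrib]
    linarith

end Crest.Agent.R202.CE
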