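import Crest.Agent.R202.CDefs
import Crest.Agent.R230.Dense

/-!
# Row 202, C1: calculus with `D0`, `Lf`, `Lp`, `lift` and integration by parts on the sphere
-/

set_option autoImplicit false
open scoped ContDiff Topology
open MeasureTheory Set Filter
open Crest.GeometryTopology.CoordMetric
open Crest.Agent.R230 (E MP sph ev Harm)

noncomputable section
namespace Crest.Agent.R202

variable {n : ℕ}

namespace CFieldAux

theorem pderiv_ev (k : Fin n) (P : MP n) (x : E n) :
    pderiv k (ev P) x = ev (MvPolynomial.pderiv k P) x := by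
  rw [pderiv, Crest.Agent.R230.PolyAux.fderiv_ev, Finset.sum_eq_single k]
  · simp
  · intro j _ hj
    simp [hj]
  · simp

theorem totalDegree_X_mul_pderiv (i k : Fin n) (P : MP n) :
    (MvPolynomial.X i * MvPolynomial.pderiv k P).totalDegree ≤ P.totalDegree := by
  classical
  conv_lhs => rw [← MvPolynomial.sum_homogeneousComponent P, map_sum, Finset.mul_sum]
  refine (MvPolynomial.totalDegree_finsetSum _ _).trans ?_
  refine Finset.sup_le fun j hj => ?_
  have hj' : j ≤ P.totalDegree := Nat.lt_succ_iff.1 (Finset.mem_range.1 hj)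
  rcases j with _ | j
  · rw [MvPolynomial.homogeneousComponent_zero, MvPolynomial.pderiv_C]
    simp
  · have h1 := (MvPolynomial.homogeneousComponent_isHomogeneous (j + 1) P).pderiv (i := k)
    have h2 := (MvPolynomial.isHomogeneous_X ℝ i).mul h1
    refine h2.totalDegree_le.trans ?_
    omega

theorem isOpen_ne : IsOpen ({0}ᶜ : Set (E n)) := isOpen_compl_singleton

theorem diffAt {f : E n → ℝ} (hf : ContDiffOn ℝ ∞ f {0}ᶜ) {x : E n} (hx : x ≠ 0) :
    DifferentiableAt ℝ f x :=
  (hf.contDiffAt (isOpen_ne.mem_nhds hx)).differentiableAt (by simp)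

theorem contDiffOn_fderiv {f : E n → ℝ} (hf : ContDiffOn ℝ ∞ f {0}ᶜ) :
    ContDiffOn ℝ ∞ (fderiv ℝ f) {0}ᶜ :=
  hf.fderiv_of_isOpen isOpen_ne (by simp)

theorem contDiffOn_pderiv (i : Fin n) {f : E n → ℝ} (hf : ContDiffOn ℝ ∞ f {0}ᶜ) :
    ContDiffOn ℝ ∞ (pderiv i f) {0}ᶜ :=
  (contDiffOn_fderiv hf).clm_apply contDiffOn_const

theorem fderiv_congr {f g : E n → ℝ} (h : ∀ x, x ≠ 0 → f x = g x) {x : E n} (hx : x ≠ 0) :
    fderiv ℝ f x = fderiv ℝ g x := by
  refine Filter.EventuallyEq.fderiv_eq ?_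
  filter_upwards [isOpen_ne.mem_nhds hx] with y hy using h y hy

theorem fderiv_apply_eq_sum (f : E n → ℝ) (x v : E n) :
    fderiv ℝ f x v = ∑ k, v k * pderiv k f x := by
  have h : v = ∑ k, v k • EuclideanSpace.single k (1 : ℝ) := by
    ext j
    simp [Finset.sum_apply, Pi.single_apply]
  conv_lhs => rw [h, map_sum]
  simp [pderiv]

/-- `Lf` is the derivative along the rotation vector -/
theorem Lf_eq (i k : Fin n) (f : E n → ℝ) (p : E n) :
    Lf i k f p = fderiv ℝ f p
      (inner ℝ (EuclideanSpace.single i (1 : ℝ)) p • EuclideanSpace.single k (1 : ℝ) -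
        inner ℝ (EuclideanSpace.single k (1 : ℝ)) p • EuclideanSpace.single i (1 : ℝ)) := by
  simp [Lf, pderiv, EuclideanSpace.inner_single_left]

end CFieldAux

theorem Lf_ev (i k : Fin n) (P : MP n) : Lf i k (ev P) = ev (Lp i k P) := by
  funext x
  simp only [Lf, Lp, CFieldAux.pderiv_ev, Crest.Agent.R230.ev_sub, Crest.Agent.R230.ev_mul,
    Crest.Agent.R230.ev_X]

theorem totalDegree_Lp (i k : Fin n) (P : MP n) : (Lp i k P).totalDegree ≤ P.totalDegree := by
  refine (MvPolynomial.totalDegree_sub _ _).trans (max_le ?_ ?_)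
  · exact CFieldAux.totalDegree_X_mul_pderiv i k P
  · exact CFieldAux.totalDegree_X_mul_pderiv k i P

theorem totalDegree_pw (w : List (Fin n × Fin n)) (P : MP n) :
    (pw w P).totalDegree ≤ P.totalDegree := by
  induction w with
  | nil => exact le_rfl
  | cons a w ih => exact (totalDegree_Lp a.1 a.2 _).trans ih

theorem contDiffOn_D0 {f : E n → ℝ} (hf : ContDiffOn ℝ ∞ f {0}ᶜ) : ContDiffOn ℝ ∞ (D0 f) {0}ᶜ := by
  exact (CFieldAux.contDiffOn_fderiv hf).clm_apply contDiffOn_id

theorem contDiffOn_Lf (i k : Fin n) {f : E n → ℝ} (hf : ContDiffOn ℝ ∞ f {0}ᶜ) :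
    ContDiffOn ℝ ∞ (Lf i k f) {0}ᶜ := by
  have h : ∀ j : Fin n, ContDiffOn ℝ ∞ (fun x : E n => x j) {0}ᶜ := fun j =>
    (EuclideanSpace.proj (𝕜 := ℝ) j).contDiff.contDiffOn
  exact ((h i).mul (CFieldAux.contDiffOn_pderiv k hf)).sub
    ((h k).mul (CFieldAux.contDiffOn_pderiv i hf))

theorem contDiffOn_wd (w : List (Option (Fin n × Fin n))) {f : E n → ℝ}
    (hf : ContDiffOn ℝ ∞ f {0}ᶜ) : ContDiffOn ℝ ∞ (wd w f) {0}ᶜ := by
  induction w with
  | nil => exact hf
  | cons a w ih =>
    cases a with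
    | none => exact contDiffOn_D0 ih
    | some a => exact contDiffOn_Lf a.1 a.2 ih

theorem wd_congr (w : List (Option (Fin n × Fin n))) {f g : E n → ℝ} (h : ∀ x, x ≠ 0 → f x = g x) :
    ∀ x, x ≠ 0 → wd w f x = wd w g x := by
  induction w with
  | nil => exact h
  | cons a w ih =>
    intro x hx
    cases a with
    | none =>
      show D0 (wd w f) x = D0 (wd w g) x
      simp only [D0, CFieldAux.fderiv_congr ih hx]
    | some a =>
      show Lf a.1 a.2 (wd w f) x = Lf a.1 a.2 (wd w g) x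
      simp only [Lf, pderiv, CFieldAux.fderiv_congr ih hx]

/-- the gradient in terms of the fields: `|x|² ∂_i = x_i D0 + Σ_k x_k L_{k i}` -/
theorem pderiv_eq_fields (f : E n → ℝ) (x : E n) (i : Fin n) :
    ‖x‖ ^ 2 * pderiv i f x = x i * D0 f x + ∑ k, x k * Lf k i f x := by
  rw [D0, CFieldAux.fderiv_apply_eq_sum, EuclideanSpace.real_norm_sq_eq, Finset.sum_mul,
    Finset.mul_sum, ← Finset.sum_add_distrib]
  refine Finset.sum_congr rfl fun k _ => ?_
  simp only [Lf]
  ring

/-- `d/dt f(e^t p) = (D0 f)(e^t p)` -/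
theorem hasDerivAt_ray {f : E n → ℝ} (hf : ContDiffOn ℝ ∞ f {0}ᶜ) {p : E n} (hp : p ≠ 0) (t : ℝ) :
    HasDerivAt (fun s => f (Real.exp s • p)) (D0 f (Real.exp t • p)) t := by
  have hx : Real.exp t • p ≠ 0 := smul_ne_zero (Real.exp_pos t).ne' hp
  have h1 : HasDerivAt (fun s => Real.exp s • p) (Real.exp t • p) t :=
    (Real.hasDerivAt_exp t).smul_const p
  exact HasFDerivAt.comp_hasDerivAt (f := fun s => Real.exp s • p) t
    (CFieldAux.diffAt hf hx).hasFDerivAt h1

/-- the rotation fields commute with dilations -/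
theorem Lf_scale (i k : Fin n) {f : E n → ℝ} (hf : ContDiffOn ℝ ∞ f {0}ᶜ) {r : ℝ} (hr : 0 < r)
    {p : E n} (hp : p ≠ 0) : Lf i k (fun x => f (r • x)) p = Lf i k f (r • p) := by
  have hx : r • p ≠ 0 := smul_ne_zero hr.ne' hp
  have h1 : HasFDerivAt (fun x : E n => r • x) (r • ContinuousLinearMap.id ℝ (E n)) p :=
    (hasFDerivAt_id p).const_smul r
  have h2 : HasFDerivAt (fun x : E n => f (r • x))
      ((fderiv ℝ f (r • p)).comp (r • ContinuousLinearMap.id ℝ (E n))) p :=
    HasFDerivAt.comp (f := fun x : E n => r • x) p (CFieldAux.diffAt hf hx).hasFDerivAt h1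
  simp only [Lf, pderiv, h2.fderiv]
  simp
  ring

/-- the rotation fields are tangent to the spheres -/
theorem Lf_congr_sphere (i k : Fin n) {f g : E n → ℝ} {p : E n} (hf : DifferentiableAt ℝ f p)
    (hg : DifferentiableAt ℝ g p) (h : ∀ x : E n, ‖x‖ = ‖p‖ → f x = g x) :
    Lf i k f p = Lf i k g p := by
  by_cases hik : i = k
  · subst hik
    simp [Lf]
  obtain ⟨R, hR⟩ := Crest.Agent.R230.exists_rot (u := EuclideanSpace.single i (1 : ℝ))
    (v := EuclideanSpace.single k (1 : ℝ)) (by simp) (by simp)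
    (by simp [EuclideanSpace.inner_single_left, hik])
  rw [CFieldAux.Lf_eq, CFieldAux.Lf_eq]
  set u : E n := EuclideanSpace.single i (1 : ℝ)
  set v : E n := EuclideanSpace.single k (1 : ℝ)
  have h1 : HasDerivAt (fun θ => R θ p) (inner ℝ u p • v - inner ℝ v p • u) 0 := by
    simp only [hR]
    have := ((((Real.hasDerivAt_cos 0).sub_const 1).smul_const
      (inner ℝ u p • u + inner ℝ v p • v)).const_add p).fun_add
      ((Real.hasDerivAt_sin 0).smul_const (inner ℝ u p • v - inner ℝ v p • u))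
    refine this.congr_deriv ?_
    simp
  have h2 : R 0 p = p := by simp [hR]
  have h3 : HasFDerivAt f (fderiv ℝ f p) (R 0 p) := by
    rw [h2]
    exact hf.hasFDerivAt
  have h4 : HasFDerivAt g (fderiv ℝ g p) (R 0 p) := by
    rw [h2]
    exact hg.hasFDerivAt
  have h5 := HasFDerivAt.comp_hasDerivAt (f := fun θ => R θ p) 0 h3 h1
  have h6 := HasFDerivAt.comp_hasDerivAt (f := fun θ => R θ p) 0 h4 h1
  have h7 : (f ∘ fun θ => R θ p) = g ∘ fun θ => R θ p :=
    funext fun θ => h _ ((R θ).norm_map p)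
  rw [h7] at h5
  exact h5.unique h6

theorem Lf_mul (i k : Fin n) {f g : E n → ℝ} {p : E n} (hf : DifferentiableAt ℝ f p)
    (hg : DifferentiableAt ℝ g p) :
    Lf i k (fun x => f x * g x) p = Lf i k f p * g p + f p * Lf i k g p := by
  simp only [Lf, pderiv, fderiv_fun_mul hf hg]
  simp
  ring

/-- `∫ L f = 0` (cut `f` off near the origin and use `R230.integral_rot_deriv`) -/
theorem integral_Lf (i k : Fin n) {f : E n → ℝ} (hf : ContDiffOn ℝ 1 f {0}ᶜ) :
    ∫ p, Lf i k f p ∂sph n = 0 := by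
  set g : E n → ℝ := fun x => Real.smoothTransition (4 * ‖x‖ ^ 2 - 1) * f x with hg
  have hψ : ContDiff ℝ 1 fun x : E n => Real.smoothTransition (4 * ‖x‖ ^ 2 - 1) :=
    (Real.smoothTransition.contDiff (n := 1)).comp
      ((contDiff_const.mul (contDiff_norm_sq ℝ)).sub contDiff_const)
  have hc : Continuous fun x : E n => 4 * ‖x‖ ^ 2 - 1 := by fun_prop
  have hgc : ContDiff ℝ 1 g := by
    refine contDiff_iff_contDiffAt.2 fun x => ?_
    by_cases hx : x = 0
    · have h0 : g =ᶠ[𝓝 x] fun _ => 0 := by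
        have : ∀ᶠ y : E n in 𝓝 x, 4 * ‖y‖ ^ 2 - 1 < 0 :=
          hc.continuousAt.eventually_lt continuousAt_const (by simp [hx])
        filter_upwards [this] with y hy
        simp [hg, Real.smoothTransition.zero_of_nonpos hy.le]
      exact contDiffAt_const.congr_of_eventuallyEq h0
    · exact hψ.contDiffAt.mul (hf.contDiffAt (CFieldAux.isOpen_ne.mem_nhds hx))
  have key := Crest.Agent.R230.SteinAux.rot_gen (Crest.Agent.R230.good_of_contDiff hgc)
    (u := EuclideanSpace.single i (1 : ℝ)) (by simp) (EuclideanSpace.single k (1 : ℝ))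
  rw [← key]
  refine integral_congr_ae (Crest.Agent.R230.ae_norm.mono fun p hp => ?_)
  have h1 : f =ᶠ[𝓝 p] g := by
    have : ∀ᶠ y : E n in 𝓝 p, 1 < 4 * ‖y‖ ^ 2 - 1 :=
      continuousAt_const.eventually_lt hc.continuousAt (by rw [hp]; norm_num)
    filter_upwards [this] with y hy
    simp [hg, Real.smoothTransition.one_of_one_le hy.le]
  beta_reduce
  rw [CFieldAux.Lf_eq, inner_gradient_left, h1.fderiv_eq]

end Crest.Agent.R202
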