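import Crest.Agent.R202.CBasic

/-!
# Row 202, C3: sup bounds for polynomials on the sphere

`harm_sup`: for an orthonormal basis `Y_1..Y_D` of `Harm n l` the function `Σ Y_i²` is rotation
invariant (`R230.exists_iso_map`, `integral_comp_iso`; or: the evaluation functional at `p` has a norm
independent of `p`), hence equal to `D` on the sphere; `D ≤ (l+1)^n`.
`poly_sup`: write `P = Σ_l Y_l` on the sphere (`R230.exists_harm_decomp`), apply
`T = 1 - ½ Σ L L` (`sum_Lp_Lp`: `T Y_l = (1 + l(l+n-2)) Y_l`) `n + 1` times, Cauchy-Schwarz and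
`R230.harm_orth`.  `harm_grad`: `∫ |∇Y|² = (l(l+n-2) + l²) ∫ Y²` (Green / `ipw_Lp`, `pderiv_eq_fields`).
-/

set_option autoImplicit false
open scoped ContDiff Topology
open MeasureTheory Set Filter
open Crest.GeometryTopology.CoordMetric
open Crest.Agent.R230 (E MP sph ev Harm)

noncomputable section
namespace Crest.Agent.R202

variable {n : ℕ}

namespace CSupAux

open scoped RealInnerProductSpace
open Crest.Agent.R230 (memLp_of_continuous continuous_ev integrable_of_continuous ae_norm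
  eq_on_sphere ev_add ev_smul ev_sum ev_sub ev_mul ev_C ev_X lam)

/-- polynomials as elements of `L²` -/
def toL (n : ℕ) : MP n →ₗ[ℝ] MeasureTheory.Lp ℝ 2 (sph n) where
  toFun Z := (memLp_of_continuous (continuous_ev Z) 2).toLp _
  map_add' Y Z := by
    rw [← MemLp.toLp_add]
    congr 1
    funext p
    exact ev_add _ _ _
  map_smul' c Y := by
    rw [RingHom.id_apply, ← MemLp.toLp_const_smul]
    congr 1
    funext p
    exact ev_smul _ _ _

theorem inner_toL (P Q : MP n) : ⟪toL n P, toL n Q⟫ = ∫ p, ev P p * ev Q p ∂sph n :=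
  Crest.Agent.R230.ProjAux.inner_toLp (memLp_of_continuous (continuous_ev P) 2)
    (memLp_of_continuous (continuous_ev Q) 2)

theorem ipw_one (P Q : MP n) : ipw (fun _ => 1) P Q = ⟪toL n P, toL n Q⟫ := by
  rw [inner_toL]
  simp only [ipw, one_mul]

theorem ipw_self (P : MP n) : ipw (fun _ => 1) P P = ‖toL n P‖ ^ 2 := by
  rw [ipw_one, real_inner_self_eq_norm_sq]

theorem ev_eq_of_toL {P Q : MP n} (h : toL n P = toL n Q) {p : E n} (hp : ‖p‖ = 1) :
    ev P p = ev Q p := by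
  have h1 : ev P =ᵐ[sph n] ev Q := (MemLp.toLp_eq_toLp_iff
    (memLp_of_continuous (continuous_ev P) 2) (memLp_of_continuous (continuous_ev Q) 2)).1 h
  have h2 : ∀ᵐ x ∂sph n, ev (P - Q) x = 0 := by
    filter_upwards [h1] with x hx
    rw [ev_sub, hx, sub_self]
  have h3 := eq_on_sphere (continuous_ev (P - Q)).continuousOn h2 hp
  rwa [ev_sub, sub_eq_zero] at h3

theorem toL_congr {P Q : MP n} (h : ∀ p : E n, ‖p‖ = 1 → ev P p = ev Q p) :
    toL n P = toL n Q :=
  (MemLp.toLp_eq_toLp_iff (memLp_of_continuous (continuous_ev P) 2)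
    (memLp_of_continuous (continuous_ev Q) 2)).2 (ae_norm.mono h)

/-- the reproducing kernel bound for a rotation invariant space of polynomials -/
theorem kernel_bound (hn : 1 ≤ n) (V : Submodule ℝ (MP n)) [FiniteDimensional ℝ V]
    (hV : ∀ R : E n ≃ₗᵢ[ℝ] E n, ∀ P ∈ V, ∃ Q ∈ V, ∀ x, ev Q x = ev P (R x))
    {P : MP n} (hP : P ∈ V) {p : E n} (hp : ‖p‖ = 1) :
    ev P p ^ 2 ≤ (Module.finrank ℝ V : ℝ) * ‖toL n P‖ ^ 2 := by
  have := Crest.Agent.R230.sph_prob hn
  let K : Submodule ℝ (MeasureTheory.Lp ℝ 2 (sph n)) := V.map (toL n)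
  have : FiniteDimensional ℝ K := Module.Finite.map V (toL n)
  let b := stdOrthonormalBasis ℝ K
  have hb : ∀ j, ∃ f ∈ V, toL n f = (b j : MeasureTheory.Lp ℝ 2 (sph n)) := fun j => (b j).2
  choose f hfV hf using hb
  have hsum : ∀ c : Fin (Module.finrank ℝ K) → ℝ,
      toL n (∑ j, c j • f j) = ((∑ j, c j • b j : K) : MeasureTheory.Lp ℝ 2 (sph n)) := by
    intro c
    rw [map_sum, Submodule.coe_sum]
    refine Finset.sum_congr rfl fun j _ => ?_
    rw [map_smul, hf, Submodule.coe_smul]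
  have hnorm : ∀ c : Fin (Module.finrank ℝ K) → ℝ,
      ‖toL n (∑ j, c j • f j)‖ ^ 2 = ∑ j, c j ^ 2 := by
    intro c
    rw [hsum, ← Submodule.coe_norm, ← real_inner_self_eq_norm_sq,
      b.orthonormal.inner_sum c c Finset.univ]
    simp [sq]
  let k : E n → ℝ := fun x => ∑ j, ev (f j) x ^ 2
  have hk0 : ∀ x, 0 ≤ k x := fun x => Finset.sum_nonneg fun j _ => sq_nonneg _
  have hbd : ∀ Q ∈ V, ∀ x : E n, ‖x‖ = 1 → ev Q x ^ 2 ≤ ‖toL n Q‖ ^ 2 * k x := by
    intro Q hQ x hx
    let u : K := ⟨toL n Q, Submodule.mem_map_of_mem hQ⟩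
    have h1 : toL n (∑ j, b.repr u j • f j) = toL n Q := by
      rw [hsum, b.sum_repr u]
    rw [← h1, hnorm, ← ev_eq_of_toL h1 hx, ev_sum]
    simp only [ev_smul]
    exact Finset.sum_mul_sq_le_sq_mul_sq _ _ _
  have hle : ∀ q : E n, ‖q‖ = 1 → k p ≤ k q := by
    intro q hq
    obtain ⟨R, hR⟩ := Crest.Agent.R230.exists_iso_map (u := q) (v := p) (hq.trans hp.symm)
    have hg : (∑ j, ev (f j) p • f j) ∈ V :=
      V.sum_mem fun j _ => V.smul_mem _ (hfV j)
    obtain ⟨Q, hQ, hQe⟩ := hV R _ hg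
    have h1 : ev Q q = k p := by
      rw [hQe, hR, ev_sum]
      simp only [ev_smul, k, sq]
    have h2 : ‖toL n Q‖ ^ 2 = k p := by
      rw [show k p = _ from (hnorm fun j => ev (f j) p).symm, ← real_inner_self_eq_norm_sq,
        ← real_inner_self_eq_norm_sq, inner_toL, inner_toL]
      simp only [hQe]
      exact Crest.Agent.R230.integral_comp_iso R
        fun x => ev (∑ j, ev (f j) p • f j) x * ev (∑ j, ev (f j) p • f j) x
    have h3 := hbd Q hQ q hq
    rw [h1, h2] at h3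
    rcases (hk0 p).eq_or_lt with h | h
    · rw [← h]; exact hk0 q
    · nlinarith
  have hint : ∫ x, k x ∂sph n = (Module.finrank ℝ K : ℝ) := by
    have hi : ∀ j ∈ (Finset.univ : Finset (Fin (Module.finrank ℝ K))),
        Integrable (fun x => ev (f j) x ^ 2) (sph n) :=
      fun j _ => integrable_of_continuous ((continuous_ev (f j)).pow 2)
    simp only [k]
    rw [integral_finsetSum _ hi]
    have : ∀ j, ∫ x, ev (f j) x ^ 2 ∂sph n = 1 := by
      intro j
      simp only [sq]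
      rw [← inner_toL, hf, ← Submodule.coe_inner, real_inner_self_eq_norm_sq, b.orthonormal.1 j,
        one_pow]
    simp [this]
  have hkp : k p ≤ (Module.finrank ℝ K : ℝ) := by
    rw [← hint]
    have h1 : ∫ _x, k p ∂sph n ≤ ∫ x, k x ∂sph n :=
      integral_mono_ae (integrable_const _)
        (integrable_of_continuous (continuous_finsetSum _ fun j _ => (continuous_ev (f j)).pow 2))
        (ae_norm.mono hle)
    simpa using h1
  have hKV : (Module.finrank ℝ K : ℝ) ≤ Module.finrank ℝ V := by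
    exact_mod_cast Submodule.finrank_map_le (toL n) V
  calc ev P p ^ 2 ≤ ‖toL n P‖ ^ 2 * k p := hbd P hP p hp
    _ ≤ ‖toL n P‖ ^ 2 * (Module.finrank ℝ V : ℝ) :=
        mul_le_mul_of_nonneg_left (hkp.trans hKV) (sq_nonneg _)
    _ = _ := mul_comm _ _

/-- all monomials with exponents `≤ l` -/
def box (n l : ℕ) : ((Fin n → Fin (l + 1)) → ℝ) →ₗ[ℝ] MP n :=
  Fintype.linearCombination ℝ fun s : Fin n → Fin (l + 1) =>
    MvPolynomial.monomial (Finsupp.equivFunOnFinite.symm fun i => (s i : ℕ)) (1 : ℝ)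

theorem hom_le_box (l : ℕ) :
    MvPolynomial.homogeneousSubmodule (Fin n) ℝ l ≤ LinearMap.range (box n l) := by
  intro P hP
  rw [MvPolynomial.mem_homogeneousSubmodule] at hP
  rw [P.as_sum]
  refine Submodule.sum_mem _ fun m hm => ?_
  have h1 : ∀ i, m i < l + 1 := by
    intro i
    have h2 : m.degree = l := by
      have := hP (MvPolynomial.mem_support_iff.1 hm)
      rw [Finsupp.degree_eq_weight_one]
      exact this
    have h3 := Finsupp.le_degree i m
    omega
  refine ⟨Pi.single (fun i => ⟨m i, h1 i⟩) (MvPolynomial.coeff m P), ?_⟩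
  rw [box, Fintype.linearCombination_apply_single, MvPolynomial.smul_monomial, smul_eq_mul, mul_one]
  have h2 : (Finsupp.equivFunOnFinite.symm fun i => ((⟨m i, h1 i⟩ : Fin (l + 1)) : ℕ)) = m := by
    ext i
    rfl
  rw [h2]

theorem ev_aeval (g : Fin n → MP n) (P : MP n) (x y : E n) (h : ∀ i, ev (g i) x = y i) :
    ev (MvPolynomial.aeval g P) x = ev P y := by
  induction P using MvPolynomial.induction_on with
  | C c => simp
  | add p q hp hq => rw [map_add, ev_add, ev_add, hp, hq]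
  | mul_X p i hp => rw [map_mul, ev_mul, ev_mul, hp, MvPolynomial.aeval_X, h, ev_X]

theorem hom_rot (l : ℕ) (R : E n ≃ₗᵢ[ℝ] E n) (P : MP n)
    (hP : P ∈ MvPolynomial.homogeneousSubmodule (Fin n) ℝ l) :
    ∃ Q ∈ MvPolynomial.homogeneousSubmodule (Fin n) ℝ l, ∀ x, ev Q x = ev P (R x) := by
  let g : Fin n → MP n := fun i =>
    ∑ j, MvPolynomial.C (R (EuclideanSpace.single j 1) i) * MvPolynomial.X j
  have hg : ∀ i, (g i).IsHomogeneous 1 := fun i =>
    MvPolynomial.IsHomogeneous.sum _ _ _ fun j _ => MvPolynomial.isHomogeneous_C_mul_X _ _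
  refine ⟨MvPolynomial.aeval g P, ?_, fun x => ?_⟩
  · have := MvPolynomial.IsHomogeneous.aeval hP g hg
    rwa [one_mul] at this
  · have hx : ∀ i, ev (g i) x = R x i := by
      intro i
      have h1 : x = ∑ j, x j • EuclideanSpace.single j (1 : ℝ) := by
        ext j
        simp [Pi.single_apply]
      conv_rhs => rw [h1]
      simp [g, ev_sum, mul_comm]
    exact ev_aeval g P x (R x) hx

theorem hom_sup (hn : 1 ≤ n) {l : ℕ} {Y : MP n} (hY : Y.IsHomogeneous l) {p : E n}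
    (hp : ‖p‖ = 1) : ev Y p ^ 2 ≤ ((l : ℝ) + 1) ^ n * ‖toL n Y‖ ^ 2 := by
  have hfin : FiniteDimensional ℝ (MvPolynomial.homogeneousSubmodule (Fin n) ℝ l) :=
    Submodule.finiteDimensional_of_le (hom_le_box l)
  have h1 := kernel_bound hn _ (hom_rot l) (P := Y) hY hp
  have h2 : Module.finrank ℝ (MvPolynomial.homogeneousSubmodule (Fin n) ℝ l) ≤ (l + 1) ^ n := by
    refine (Submodule.finrank_mono (hom_le_box l)).trans
      ((LinearMap.finrank_range_le (box n l)).trans ?_)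
    simp
  have h3 : (Module.finrank ℝ (MvPolynomial.homogeneousSubmodule (Fin n) ℝ l) : ℝ) ≤
      ((l : ℝ) + 1) ^ n := by exact_mod_cast h2
  exact h1.trans (mul_le_mul_of_nonneg_right h3 (sq_nonneg _))

/-- `Lp` as a linear map -/
def LpL (i k : Fin n) : MP n →ₗ[ℝ] MP n where
  toFun := Lp i k
  map_add' P Q := by
    simp only [Lp, map_add]
    ring
  map_smul' c P := by
    simp only [Lp, Derivation.map_smul, RingHom.id_apply, smul_sub, mul_smul_comm]

/-- `pw` as a linear map -/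
def pwL : List (Fin n × Fin n) → MP n →ₗ[ℝ] MP n
  | [] => LinearMap.id
  | a :: w => LpL a.1 a.2 ∘ₗ pwL w

theorem pwL_apply (w : List (Fin n × Fin n)) (P : MP n) : pwL w P = pw w P := by
  induction w with
  | nil => rfl
  | cons a w ih =>
    show Lp a.1 a.2 (pwL w P) = Lp a.1 a.2 (pw w P)
    rw [ih]

theorem pw_append (w v : List (Fin n × Fin n)) (P : MP n) : pw (w ++ v) P = pw w (pw v P) := by
  induction w with
  | nil => rfl
  | cons a w ih =>
    show Lp a.1 a.2 (pw (w ++ v) P) = Lp a.1 a.2 (pw w (pw v P))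
    rw [ih]

/-- the operator `1 - Δ_S` -/
def T (n : ℕ) : MP n →ₗ[ℝ] MP n :=
  LinearMap.id - (1 / 2 : ℝ) • ∑ i : Fin n, ∑ k : Fin n, LpL i k ∘ₗ LpL i k

theorem T_apply (P : MP n) :
    T n P = P - (1 / 2 : ℝ) • ∑ i : Fin n, ∑ k : Fin n, Lp i k (Lp i k P) := by
  simp only [T, LinearMap.sub_apply, LinearMap.id_apply, LinearMap.smul_apply,
    LinearMap.sum_apply, LinearMap.comp_apply]
  rfl

theorem T_harm {l : ℕ} {Y : MP n} (hY : Y ∈ Harm n l) : T n Y = (1 + lam n l) • Y := by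
  rw [T_apply, sum_Lp_Lp hY.1, hY.2, mul_zero, zero_sub, ← MvPolynomial.smul_eq_C_mul,
    two_mul, add_smul, one_smul, lam]
  module

theorem Lp_congr (i k : Fin n) {P Q : MP n} (h : ∀ p : E n, ‖p‖ = 1 → ev P p = ev Q p)
    (p : E n) (hp : ‖p‖ = 1) : ev (Lp i k P) p = ev (Lp i k Q) p := by
  rw [← Lf_ev, ← Lf_ev]
  exact Lf_congr_sphere i k (Crest.Agent.R230.differentiableAt_ev P p)
    (Crest.Agent.R230.differentiableAt_ev Q p) fun x hx => h x (hx.trans hp)

theorem T_congr {P Q : MP n} (h : ∀ p : E n, ‖p‖ = 1 → ev P p = ev Q p)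
    (p : E n) (hp : ‖p‖ = 1) : ev (T n P) p = ev (T n Q) p := by
  have h1 : ∑ i : Fin n, ∑ k : Fin n, ev (Lp i k (Lp i k P)) p =
      ∑ i : Fin n, ∑ k : Fin n, ev (Lp i k (Lp i k Q)) p :=
    Finset.sum_congr rfl fun i _ => Finset.sum_congr rfl fun k _ =>
      Lp_congr i k (Lp_congr i k h) p hp
  simp only [T_apply, ev_sub, ev_smul, ev_sum]
  rw [h p hp, h1]

theorem T_pow_congr (m : ℕ) {P Q : MP n} (h : ∀ p : E n, ‖p‖ = 1 → ev P p = ev Q p)
    (p : E n) (hp : ‖p‖ = 1) : ev ((T n ^ m) P) p = ev ((T n ^ m) Q) p := by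
  induction m generalizing p with
  | zero => simpa using h p hp
  | succ m ih =>
    rw [pow_succ', Module.End.mul_apply, Module.End.mul_apply]
    exact T_congr ih p hp

theorem T_pow_harm (m : ℕ) {l : ℕ} {Y : MP n} (hY : Y ∈ Harm n l) :
    (T n ^ m) Y = (1 + lam n l) ^ m • Y := by
  induction m with
  | zero => simp
  | succ m ih =>
    rw [pow_succ', Module.End.mul_apply, ih, map_smul, T_harm hY, smul_smul, pow_succ]

theorem norm_T_pow (m : ℕ) : ∀ (P : MP n) (B : ℝ),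
    (∀ δ : List (Fin n × Fin n), δ.length ≤ 2 * m → ‖toL n (pw δ P)‖ ≤ B) →
    ‖toL n ((T n ^ m) P)‖ ≤ (1 + (n : ℝ) ^ 2) ^ m * B := by
  induction m with
  | zero =>
    intro P B h
    have h0 : ‖toL n P‖ ≤ B := h [] (by simp)
    simpa using h0
  | succ m ih =>
    intro P B h
    have hB : 0 ≤ B := (norm_nonneg _).trans (h [] (by simp))
    rw [pow_succ, Module.End.mul_apply, pow_succ, mul_assoc]
    refine ih _ _ fun δ hδ => ?_
    have h1 : toL n (pw δ (T n P)) = toL n (pw δ P) -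
        (1 / 2 : ℝ) • ∑ i : Fin n, ∑ k : Fin n, toL n (pw (δ ++ [(i, k), (i, k)]) P) := by
      rw [← pwL_apply, T_apply]
      simp only [map_sub, map_smul, map_sum, pwL_apply, pw_append]
      rfl
    have h2 : ‖∑ i : Fin n, ∑ k : Fin n, toL n (pw (δ ++ [(i, k), (i, k)]) P)‖ ≤
        ∑ _i : Fin n, ∑ _k : Fin n, B :=
      norm_sum_le_of_le _ fun i _ => norm_sum_le_of_le _ fun k _ =>
        h _ (by simp only [List.length_append, List.length_cons, List.length_nil]; omega)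
    simp only [Finset.sum_const, Finset.card_univ, Fintype.card_fin, nsmul_eq_mul] at h2
    have h3 := h δ (by omega)
    rw [h1]
    refine (norm_sub_le _ _).trans ?_
    rw [norm_smul, Real.norm_eq_abs, abs_of_pos (by norm_num : (0 : ℝ) < 1 / 2)]
    have h4 : 0 ≤ (n : ℝ) * (n * B) := by positivity
    nlinarith

theorem sum_inv_sq (J : ℕ) : ∑ l ∈ Finset.range J, 1 / ((l : ℝ) + 1) ^ 2 ≤ 2 - 2 / ((J : ℝ) + 1) := by
  induction J with
  | zero => simp
  | succ J ih =>
    rw [Finset.sum_range_succ]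
    have h0 : (0 : ℝ) ≤ J := Nat.cast_nonneg J
    have h1 : 1 / ((J : ℝ) + 1) ^ 2 ≤ 2 / ((J : ℝ) + 1) - 2 / ((J : ℝ) + 1 + 1) := by
      rw [div_sub_div _ _ (by positivity) (by positivity), div_le_div_iff₀ (by positivity)
        (by positivity)]
      nlinarith
    push_cast
    linarith

end CSupAux

open CSupAux
open scoped RealInnerProductSpace

theorem harm_sup (hn : 2 ≤ n) {l : ℕ} {Y : MP n} (hY : Y ∈ Harm n l) {p : E n} (hp : ‖p‖ = 1) :
    ev Y p ^ 2 ≤ ((l : ℝ) + 1) ^ n * ipw (fun _ => 1) Y Y := by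
  rw [ipw_self]
  exact hom_sup (by omega) hY.1 hp

theorem harm_grad (hn : 2 ≤ n) {l : ℕ} {Y : MP n} (hY : Y ∈ Harm n l) (i : Fin n) :
    ipw (fun _ => 1) (MvPolynomial.pderiv i Y) (MvPolynomial.pderiv i Y) ≤
      ((l : ℝ) * (2 * l + n)) * ipw (fun _ => 1) Y Y := by
  have hg := Crest.Agent.R230.green (Crest.Agent.R230.good_ev Y) hY
  have hc := Crest.Agent.R230.continuous_tg_ev Y
  have hY2 : Integrable (fun p => ev Y p * ev Y p) (sph n) :=
    Crest.Agent.R230.integrable_of_continuous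
      ((Crest.Agent.R230.continuous_ev Y).mul (Crest.Agent.R230.continuous_ev Y))
  have ht2 : Integrable (fun p => ⟪Crest.Agent.R230.tg (ev Y) p, Crest.Agent.R230.tg (ev Y) p⟫)
      (sph n) := Crest.Agent.R230.integrable_of_continuous (hc.inner (𝕜 := ℝ) hc)
  have h0 : 0 ≤ ∫ p, ev Y p * ev Y p ∂sph n := integral_nonneg fun p => mul_self_nonneg _
  have h1 : ∫ p, ev (MvPolynomial.pderiv i Y) p * ev (MvPolynomial.pderiv i Y) p ∂sph n ≤
      ∫ p, (⟪Crest.Agent.R230.tg (ev Y) p, Crest.Agent.R230.tg (ev Y) p⟫ +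
        (l : ℝ) ^ 2 * (ev Y p * ev Y p)) ∂sph n := by
    refine integral_mono_ae (Crest.Agent.R230.integrable_of_continuous
      ((Crest.Agent.R230.continuous_ev _).mul (Crest.Agent.R230.continuous_ev _)))
      (ht2.add (hY2.const_mul _)) ?_
    filter_upwards [Crest.Agent.R230.ae_norm (n := n)] with p hp
    have e1 := Crest.Agent.R230.inner_gradient_ev_self hY.1 p
    have e2 : ⟪p, p⟫ = (1 : ℝ) := by rw [real_inner_self_eq_norm_sq, hp, one_pow]
    have e3 : ⟪Crest.Agent.R230.tg (ev Y) p, Crest.Agent.R230.tg (ev Y) p⟫ =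
        ‖gradient (ev Y) p‖ ^ 2 - (l : ℝ) ^ 2 * (ev Y p * ev Y p) := by
      rw [← real_inner_self_eq_norm_sq]
      simp only [Crest.Agent.R230.tg, inner_sub_left, inner_sub_right, real_inner_smul_left,
        real_inner_smul_right, e2, real_inner_comm (gradient (ev Y) p) p, e1]
      ring
    rw [e3, sub_add_cancel, ← Crest.Agent.R230.gradient_ev_apply, ← sq, ← sq_abs,
      ← Real.norm_eq_abs]
    exact pow_le_pow_left₀ (norm_nonneg _) (PiLp.norm_apply_le _ i) 2
  rw [integral_add ht2 (hY2.const_mul _), integral_const_mul, hg] at h1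
  simp only [ipw, one_mul]
  refine h1.trans ?_
  rw [← add_mul]
  refine mul_le_mul_of_nonneg_right ?_ h0
  have : (0 : ℝ) ≤ l := Nat.cast_nonneg l
  unfold Crest.Agent.R230.lam
  nlinarith

theorem poly_sup (hn : 2 ≤ n) : ∃ (s : ℕ) (C : ℝ), 0 ≤ C ∧ ∀ (P : MP n) (B : ℝ),
    (∀ δ : List (Fin n × Fin n), δ.length ≤ s → ipw (fun _ => 1) (pw δ P) (pw δ P) ≤ B ^ 2) →
    ∀ p : E n, ‖p‖ = 1 → |ev P p| ≤ C * |B| := by
  refine ⟨2 * (n + 2), 2 * (1 + (n : ℝ) ^ 2) ^ (n + 2), by positivity, fun P B h p hp => ?_⟩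
  have h1 : ‖toL n ((T n ^ (n + 2)) P)‖ ≤ (1 + (n : ℝ) ^ 2) ^ (n + 2) * |B| := by
    refine norm_T_pow _ P _ fun δ hδ => ?_
    have := h δ hδ
    rw [ipw_self, ← sq_abs B] at this
    exact (pow_le_pow_iff_left₀ (norm_nonneg _) (abs_nonneg _) two_ne_zero).1 this
  set A := ‖toL n ((T n ^ (n + 2)) P)‖ with hA
  have hA0 : 0 ≤ A := norm_nonneg _
  obtain ⟨J, Y, hY, hP⟩ := Crest.Agent.R230.exists_harm_decomp (by omega : 1 ≤ n) P
  have h2 : toL n ((T n ^ (n + 2)) P) =
      ∑ l ∈ Finset.range J, (1 + Crest.Agent.R230.lam n l) ^ (n + 2) • toL n (Y l) := by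
    have : toL n ((T n ^ (n + 2)) P) = toL n ((T n ^ (n + 2)) (∑ l ∈ Finset.range J, Y l)) :=
      toL_congr (T_pow_congr _ fun x hx => by rw [hP x hx, Crest.Agent.R230.ev_sum])
    rw [this, map_sum, map_sum]
    exact Finset.sum_congr rfl fun l _ => by rw [T_pow_harm _ (hY l), map_smul]
  have h3 : ∀ l ∈ Finset.range J, |ev (Y l) p| ≤ 1 / ((l : ℝ) + 1) ^ 2 * A := by
    intro l hl
    have hl0 : (0 : ℝ) ≤ l := Nat.cast_nonneg l
    have e1 : ⟪toL n ((T n ^ (n + 2)) P), toL n (Y l)⟫ =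
        (1 + Crest.Agent.R230.lam n l) ^ (n + 2) * ‖toL n (Y l)‖ ^ 2 := by
      rw [h2, sum_inner, Finset.sum_eq_single l]
      · rw [real_inner_smul_left, real_inner_self_eq_norm_sq]
      · intro k _ hk
        rw [real_inner_smul_left, inner_toL, Crest.Agent.R230.harm_orth hn hk (hY k) (hY l),
          mul_zero]
      · intro h'
        exact absurd hl h'
    have e2 := real_inner_le_norm (toL n ((T n ^ (n + 2)) P)) (toL n (Y l))
    rw [e1, ← hA] at e2
    have e3 : (l : ℝ) + 1 ≤ 1 + Crest.Agent.R230.lam n l := by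
      have hn' : (2 : ℝ) ≤ n := by exact_mod_cast hn
      have hll : (l : ℝ) ≤ l * l := by exact_mod_cast Nat.le_mul_self l
      unfold Crest.Agent.R230.lam
      nlinarith
    have e4 : ((l : ℝ) + 1) ^ (n + 2) ≤ (1 + Crest.Agent.R230.lam n l) ^ (n + 2) :=
      pow_le_pow_left₀ (by positivity) e3 _
    have e5 : ((l : ℝ) + 1) ^ (n + 2) * ‖toL n (Y l)‖ ≤ A := by
      rcases (norm_nonneg (toL n (Y l))).eq_or_lt with h0 | h0
      · rw [← h0, mul_zero]; exact hA0
      · refine le_of_mul_le_mul_right ?_ h0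
        refine le_trans ?_ e2
        rw [mul_assoc, ← sq]
        exact mul_le_mul_of_nonneg_right e4 (sq_nonneg _)
    have e6 : |ev (Y l) p| ≤ ((l : ℝ) + 1) ^ n * ‖toL n (Y l)‖ := by
      refine abs_le_of_sq_le_sq' ?_ (by positivity) |> abs_le.2
      refine (hom_sup (by omega) (hY l).1 hp).trans ?_
      rw [mul_pow]
      refine mul_le_mul_of_nonneg_right ?_ (sq_nonneg _)
      have : (1 : ℝ) ≤ ((l : ℝ) + 1) ^ n := one_le_pow₀ (by linarith)
      nlinarith
    refine e6.trans ?_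
    rw [one_div, inv_mul_eq_div, le_div_iff₀ (by positivity)]
    refine le_trans (le_of_eq ?_) e5
    ring
  rw [hP p hp]
  refine (Finset.abs_sum_le_sum_abs _ _).trans ((Finset.sum_le_sum h3).trans ?_)
  rw [← Finset.sum_mul]
  have h4 := sum_inv_sq J
  have h5 : 0 ≤ 2 / ((J : ℝ) + 1) := by positivity
  calc (∑ l ∈ Finset.range J, 1 / ((l : ℝ) + 1) ^ 2) * A ≤ 2 * A :=
        mul_le_mul_of_nonneg_right (by linarith) hA0
    _ ≤ 2 * ((1 + (n : ℝ) ^ 2) ^ (n + 2) * |B|) := by linarith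
    _ = _ := by ring

end Crest.Agent.R202
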