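import Crest.Agent.R202.CEnergy
import Crest.Agent.R202.CSup

/-!
# Row 202, C4: limits of Galerkin solutions

`ultra_smooth`: define `G δ x = lim_𝒰 F M δ x`.  On a small closed ball in `Ω` the derivative fields
`Σ_e F M (nx e δ) x • ℓ e x` are uniformly Lipschitz (their derivatives involve longer words), so
`|F y - F x - DF x (y - x)| ≤ C |y-x|²` uniformly; pass to the limit; smoothness by induction on the
order (`contDiffOn_succ_iff_fderiv_of_isOpen`); uniform convergence on compact sets from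
equi-Lipschitz + pointwise convergence.
`reg_lim`: words in `D0`, `Lf` (`pderiv_eq_fields`), bounds from `gal_energy`, `poly_sup`,
`Tower.wd_lift`.  The Galerkin identity passes to the limit for each polynomial `w`; integrate by
parts (`integral_Lf`) and use `eq_zero_of_orth_poly`.
-/

set_option autoImplicit false
open scoped ContDiff Topology
open MeasureTheory Set Filter
open Crest.GeometryTopology.CoordMetric
open Crest.Agent.R230 (E MP sph ev Harm)

noncomputable section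
namespace Crest.Agent.R202

variable {n : ℕ}

namespace CLimAux

theorem tlu_const {ι X Y : Type*} [TopologicalSpace X] [UniformSpace Y] (g : X → Y) (l : Filter ι)
    (s : Set X) : TendstoLocallyUniformlyOn (fun _ : ι => g) g l s :=
  fun _ hu _ _ => ⟨univ, univ_mem, Eventually.of_forall fun _ _ _ => refl_mem_uniformity hu⟩

theorem tlu_sum {ι X Y A : Type*} [TopologicalSpace X] [NormedAddCommGroup Y] (T : Finset A)
    {F : A → ι → X → Y} {g : A → X → Y} {l : Filter ι} {s : Set X}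
    (h : ∀ e ∈ T, TendstoLocallyUniformlyOn (F e) (g e) l s) :
    TendstoLocallyUniformlyOn (fun M x => ∑ e ∈ T, F e M x) (fun x => ∑ e ∈ T, g e x) l s := by
  classical
  induction T using Finset.induction_on with
  | empty => simpa using tlu_const (fun _ : X => (0 : Y)) l s
  | insert a T ha ih =>
    simp only [Finset.sum_insert ha]
    exact (h a (Finset.mem_insert_self _ _)).fun_add
      (ih fun e he => h e (Finset.mem_insert_of_mem he))

end CLimAux

open CLimAux in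
theorem ultra_smooth {ι Δ A : Type} [Fintype A] (𝒰 : Ultrafilter ι) {Ω : Set (E n)}
    (hΩ : IsOpen Ω) (F : ι → Δ → E n → ℝ) (nx : A → Δ → Δ) (ℓ : A → E n → E n →L[ℝ] ℝ)
    (hℓ : ∀ e, ContDiffOn ℝ ∞ (ℓ e) Ω)
    (hF : ∀ᶠ M in (𝒰 : Filter ι), ∀ δ, ∀ x ∈ Ω,
      HasFDerivAt (F M δ) (∑ e, F M (nx e δ) x • ℓ e x) x)
    (hb : ∀ δ (K : Set (E n)), IsCompact K → K ⊆ Ω →
      ∃ B, ∀ᶠ M in (𝒰 : Filter ι), ∀ x ∈ K, |F M δ x| ≤ B) :
    ∃ G : Δ → E n → ℝ, (∀ δ, ContDiffOn ℝ ∞ (G δ) Ω) ∧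
      (∀ δ, ∀ x ∈ Ω, HasFDerivAt (G δ) (∑ e, G (nx e δ) x • ℓ e x) x) ∧
      ∀ δ (K : Set (E n)), IsCompact K → K ⊆ Ω →
        TendstoUniformlyOn (fun M => F M δ) (G δ) (𝒰 : Filter ι) K := by
  have hex : ∀ δ x, ∃ a : ℝ, x ∈ Ω → Tendsto (fun M => F M δ x) (𝒰 : Filter ι) (𝓝 a) := by
    intro δ x
    by_cases hx : x ∈ Ω
    · obtain ⟨B, hB⟩ := hb δ {x} isCompact_singleton (singleton_subset_iff.2 hx)
      obtain ⟨a, -, ha⟩ := (isCompact_Icc (a := -B) (b := B)).ultrafilter_le_nhds'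
        (𝒰.map fun M => F M δ x) (by
          rw [Ultrafilter.mem_map]
          filter_upwards [hB] with M hM using abs_le.1 (hM x rfl))
      exact ⟨a, fun _ => ha⟩
    · exact ⟨0, fun h => absurd h hx⟩
  choose G hG using hex
  have hlip : ∀ δ, ∀ x ∈ Ω, ∃ r L : ℝ, 0 < r ∧ 0 < L ∧ Metric.closedBall x r ⊆ Ω ∧
      ∀ᶠ M in (𝒰 : Filter ι), ∀ y ∈ Metric.closedBall x r,
        |F M δ y - F M δ x| ≤ L * ‖y - x‖ := by
    intro δ x hx
    obtain ⟨r, hr, hsub⟩ := Metric.nhds_basis_closedBall.mem_iff.1 (hΩ.mem_nhds hx)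
    have hK := isCompact_closedBall x r
    choose B hB using fun e => hb (nx e δ) _ hK hsub
    choose L hL using fun e => hK.exists_bound_of_continuousOn ((hℓ e).continuousOn.mono hsub)
    refine ⟨r, ∑ e, |B e| * |L e| + 1, hr, by positivity, hsub, ?_⟩
    filter_upwards [hF, eventually_all.2 hB] with M h1 h2 y hy
    refine (convex_closedBall x r).norm_image_sub_le_of_norm_hasFDerivWithin_le
      (fun z hz => (h1 δ z (hsub hz)).hasFDerivWithinAt) (fun z hz => ?_)
      (Metric.mem_closedBall_self hr.le) hy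
    refine (norm_sum_le _ _).trans (le_trans (Finset.sum_le_sum fun e _ => ?_) (le_add_of_nonneg_right
      zero_le_one))
    rw [norm_smul]
    exact mul_le_mul ((h2 e z hz).trans (le_abs_self _)) ((hL e z hz).trans (le_abs_self _))
      (norm_nonneg _) (abs_nonneg _)
  have hloc : ∀ δ, TendstoLocallyUniformlyOn (fun M => F M δ) (G δ) (𝒰 : Filter ι) Ω := by
    intro δ
    rw [Metric.tendstoLocallyUniformlyOn_iff]
    intro ε hε x hx
    obtain ⟨r, L, hr, hL, hsub, hev⟩ := hlip δ x hx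
    have hG' : ∀ y ∈ Metric.closedBall x r, |G δ y - G δ x| ≤ L * ‖y - x‖ := fun y hy =>
      le_of_tendsto ((hG δ y (hsub hy)).sub (hG δ x hx)).abs (hev.mono fun M hM => hM y hy)
    refine ⟨Metric.closedBall x (min r (ε / 4 / L)), mem_nhdsWithin_of_mem_nhds
      (Metric.closedBall_mem_nhds x (lt_min hr (by positivity))), ?_⟩
    filter_upwards [hev, Metric.tendsto_nhds.1 (hG δ x hx) (ε / 4) (by positivity)] with M h1 h2 y hy
    have hy1 : y ∈ Metric.closedBall x r := Metric.closedBall_subset_closedBall (min_le_left _ _) hy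
    have hy2 : L * ‖y - x‖ ≤ ε / 4 := by
      rw [mul_comm, ← le_div_iff₀ hL, ← dist_eq_norm]
      exact le_trans hy (min_le_right _ _)
    have a1 := abs_le.1 (h1 y hy1)
    have a2 := abs_le.1 (hG' y hy1)
    rw [Real.dist_eq, abs_lt] at h2 ⊢
    constructor <;> linarith [a1.1, a1.2, a2.1, a2.2, h2.1, h2.2]
  have hcont : ∀ δ, ContinuousOn (G δ) Ω := fun δ =>
    (hloc δ).continuousOn (hF.mono fun M hM x hx =>
      (hM δ x hx).continuousAt.continuousWithinAt).frequently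
  have hder : ∀ δ, ∀ x ∈ Ω, HasFDerivAt (G δ) (∑ e, G (nx e δ) x • ℓ e x) x := by
    intro δ x hx
    have h1 : Ω ∈ 𝓝 x := hΩ.mem_nhds hx
    have h2 : TendstoLocallyUniformlyOn (fun M y => ∑ e, F M (nx e δ) y • ℓ e y)
        (fun y => ∑ e, G (nx e δ) y • ℓ e y) (𝒰 : Filter ι) Ω :=
      tlu_sum Finset.univ fun e _ => (hloc (nx e δ)).fun_smul₀ (tlu_const (ℓ e) _ _) (hcont _)
        (hℓ e).continuousOn
    refine hasFDerivAt_of_tendstoUniformlyOnFilter (l := (𝒰 : Filter ι)) (f := fun M => F M δ)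
      (f' := fun M y => ∑ e, F M (nx e δ) y • ℓ e y) (g' := fun y => ∑ e, G (nx e δ) y • ℓ e y)
      ?_ ?_ (eventually_of_mem h1 fun y hy => hG δ y hy)
    · simpa only [hΩ.nhdsWithin_eq hx] using tendstoLocallyUniformlyOn_iff_filter.1 h2 x hx
    · filter_upwards [prod_mem_prod hF h1] with p hp using hp.1 δ p.2 hp.2
  refine ⟨G, fun δ => ?_, hder, fun δ K hK hKΩ =>
    (tendstoLocallyUniformlyOn_iff_forall_isCompact hΩ).1 (hloc δ) K hKΩ hK⟩
  rw [contDiffOn_infty]
  intro m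
  induction m generalizing δ with
  | zero => simpa using hcont δ
  | succ m ih =>
    rw [Nat.cast_succ, contDiffOn_succ_iff_fderiv_of_isOpen hΩ]
    refine ⟨fun x hx => (hder δ x hx).differentiableAt.differentiableWithinAt, by simp, ?_⟩
    refine ContDiffOn.congr (f := fun x => ∑ e, G (nx e δ) x • ℓ e x) ?_
      fun x hx => (hder δ x hx).fderiv
    exact ContDiffOn.sum fun e _ => (ih _).smul ((hℓ e).of_le (by exact_mod_cast le_top))

namespace CLimAux

theorem wd_cons (e : Option (Fin n × Fin n)) (w : List (Option (Fin n × Fin n))) (f : E n → ℝ) :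
    wd (e :: w) f = wd [e] (wd w f) := by
  cases e <;> rfl

theorem pw_append (u v : List (Fin n × Fin n)) (P : MP n) : pw (u ++ v) P = pw u (pw v P) := by
  induction u with
  | nil => rfl
  | cons a u ih => simp only [List.cons_append, pw, ih]

theorem exists_frame : ∃ ℓ : Option (Fin n × Fin n) → E n → E n →L[ℝ] ℝ,
    (∀ e, ContDiffOn ℝ ∞ (ℓ e) {0}ᶜ) ∧
      ∀ (f : E n → ℝ) (x : E n), x ≠ 0 → fderiv ℝ f x = ∑ e, wd [e] f x • ℓ e x := by
  have h0 : ∀ k : Fin n, ContDiffOn ℝ ∞ (fun x : E n => (‖x‖ ^ 2)⁻¹ * x k) {0}ᶜ := fun k =>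
    ((contDiff_norm_sq ℝ).contDiffOn.inv fun x hx => pow_ne_zero 2 (norm_ne_zero_iff.2 hx)).mul
      (EuclideanSpace.proj (𝕜 := ℝ) k).contDiff.contDiffOn
  refine ⟨fun e x => match e with
    | none => ∑ i, ((‖x‖ ^ 2)⁻¹ * x i) • EuclideanSpace.proj (𝕜 := ℝ) i
    | some a => ((‖x‖ ^ 2)⁻¹ * x a.1) • EuclideanSpace.proj (𝕜 := ℝ) a.2, ?_, ?_⟩
  · rintro (_ | a)
    · exact ContDiffOn.sum fun i _ => (h0 i).smul contDiffOn_const
    · exact (h0 a.1).smul contDiffOn_const
  intro f x hx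
  have hx2 : ‖x‖ ^ 2 ≠ 0 := pow_ne_zero 2 (norm_ne_zero_iff.2 hx)
  ext v
  have hv : v = ∑ i, v i • EuclideanSpace.single i (1 : ℝ) := by
    ext j
    simp [Pi.single_apply]
  have h1 : fderiv ℝ f x v = ∑ i, v i * pderiv i f x := by
    conv_lhs => rw [hv]
    simp only [map_sum, map_smul, smul_eq_mul, pderiv]
  have h2 : ∀ i, pderiv i f x = (‖x‖ ^ 2)⁻¹ * (x i * D0 f x + ∑ k, x k * Lf k i f x) := fun i => by
    rw [← pderiv_eq_fields, inv_mul_cancel_left₀ hx2]
  rw [h1, Fintype.sum_option, Fintype.sum_prod_type, Finset.sum_comm]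
  simp only [h2, wd, add_apply, sum_apply, smul_apply, smul_eq_mul,
    PiLp.proj_apply, mul_add, Finset.sum_add_distrib,
    Finset.mul_sum]
  congr 1
  · exact Finset.sum_congr rfl fun i _ => by ring
  · exact Finset.sum_congr rfl fun i _ => Finset.sum_congr rfl fun k _ => by ring

theorem tendsto_letter {ι : Type} {l : Filter ι} {f : ι → E n → ℝ} {g : E n → ℝ} {x : E n}
    (h : Tendsto (fun M => fderiv ℝ (f M) x) l (𝓝 (fderiv ℝ g x))) (e : Option (Fin n × Fin n)) :
    Tendsto (fun M => wd [e] (f M) x) l (𝓝 (wd [e] g x)) := by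
  have hv : ∀ v, Tendsto (fun M => fderiv ℝ (f M) x v) l (𝓝 (fderiv ℝ g x v)) := fun v =>
    ((ContinuousLinearMap.apply ℝ ℝ v).continuous.tendsto _).comp h
  rcases e with _ | a
  · exact hv x
  · exact ((hv _).const_mul _).sub ((hv _).const_mul _)

theorem sup_bd (hn : 2 ≤ n) {c₀ : ℝ} (hc₀ : 0 < c₀) (Bd : ℕ → ℝ) (r : ℕ)
    (δ : List (Fin n × Fin n)) :
    ∃ C : ℝ, 0 ≤ C ∧ ∀ (N : ℕ) (c : Fin n → Fin n → E n → ℝ) (q : ℝ → ℝ) (P : ℕ → ℝ → MP n)
      (t₀ B : ℝ), CoefBd c q c₀ Bd → Gal N c q P →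
      (∀ t ∈ Icc (t₀ - 1) (t₀ + 1), ipw (fun _ => 1) (P 0 t) (P 0 t) ≤ B ^ 2) →
      ∀ p : E n, ‖p‖ = 1 → |ev (pw δ (P r t₀)) p| ≤ C * |B| := by
  obtain ⟨s, C, hC, hs⟩ := poly_sup hn
  choose Cg hCg0 hCg using fun u : List (Fin n × Fin n) => gal_energy n hc₀ Bd r (u ++ δ)
  obtain ⟨C1, hC1⟩ := ((List.finite_length_le (Fin n × Fin n) s).image Cg).bddAbove
  have hle : ∀ u : List (Fin n × Fin n), u.length ≤ s → Cg u ≤ C1 := fun u hu =>
    hC1 (mem_image_of_mem Cg hu)
  have hC10 : 0 ≤ C1 := (hCg0 []).trans (hle [] (Nat.zero_le _))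
  refine ⟨C * √C1, by positivity, ?_⟩
  intro N c q P t₀ B h1 h2 h3 p hp
  have := hs (pw δ (P r t₀)) (√C1 * B) (fun u hu => by
    rw [← pw_append, mul_pow, Real.sq_sqrt hC10]
    exact (hCg u N c q P t₀ B h1 h2 h3).trans
      (mul_le_mul_of_nonneg_right (hle u hu) (sq_nonneg B))) p hp
  rwa [abs_mul, abs_of_nonneg (Real.sqrt_nonneg _), ← mul_assoc] at this

theorem sph_sub : Metric.sphere (0 : E n) 1 ⊆ {0}ᶜ := by
  rintro p hp rfl
  simp at hp

theorem tendsto_ipw {ι : Type} {l : Filter ι} {c : ι → E n → ℝ} {c0 b0 : E n → ℝ} {Q : ι → MP n}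
    (R : MP n) (hc : TendstoUniformlyOn c c0 l (Metric.sphere 0 1))
    (hb : TendstoUniformlyOn (fun M => ev (Q M)) b0 l (Metric.sphere 0 1))
    (hc0 : ContinuousOn c0 {0}ᶜ) (hb0 : ContinuousOn b0 {0}ᶜ)
    (hcM : ∀ᶠ M in l, ContinuousOn (c M) {0}ᶜ) :
    Tendsto (fun M => ipw (c M) (Q M) R) l (𝓝 (∫ p, c0 p * (b0 p * ev R p) ∂sph n)) := by
  have hR : ContinuousOn (ev R) ({0}ᶜ : Set (E n)) := (R230.continuous_ev R).continuousOn
  have hu : TendstoUniformlyOn (fun M p => c M p * (ev (Q M) p * ev R p))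
      (fun p => c0 p * (b0 p * ev R p)) l (Metric.sphere 0 1) := by
    rw [← tendstoLocallyUniformlyOn_iff_tendstoUniformlyOn_of_compact (isCompact_sphere 0 1)]
      at hc hb ⊢
    exact hc.fun_mul₀ (hb.fun_mul₀ (tlu_const (ev R) _ _) (hb0.mono sph_sub) (hR.mono sph_sub))
      (hc0.mono sph_sub) ((hb0.mul hR).mono sph_sub)
  have i0 : Integrable (fun p => c0 p * (b0 p * ev R p)) (sph n) :=
    R230.integrable_of_continuousOn (hc0.mul (hb0.mul hR))
  rw [Metric.tendsto_nhds]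
  intro ε hε
  filter_upwards [hcM, Metric.tendstoUniformlyOn_iff.1 hu (ε / 2) (by positivity)] with M h1 h2
  have i1 : Integrable (fun p => c M p * (ev (Q M) p * ev R p)) (sph n) :=
    R230.integrable_of_continuousOn (h1.mul ((R230.continuous_ev _).continuousOn.mul hR))
  rw [dist_eq_norm, ipw, ← integral_sub i1 i0]
  refine (norm_integral_le_of_norm_le_const (C := ε / 2) ?_).trans_lt ?_
  · filter_upwards [R230.ae_norm] with p hp
    have := h2 p (by simpa using hp)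
    rw [dist_comm, dist_eq_norm] at this
    exact this.le
  · have : (sph n).real univ ≤ 1 := by
      rcases Nat.eq_zero_or_pos n with rfl | hn
      · rw [R230.SphereAux.sph_zero]; simp
      · have := R230.sph_prob hn
        simp
    nlinarith

theorem contDiffOn_scale {g : E n → ℝ} (hg : ContDiffOn ℝ ∞ g {0}ᶜ) {r : ℝ} (hr : 0 < r) :
    ContDiffOn ℝ ∞ (fun p => g (r • p)) {0}ᶜ :=
  hg.comp (contDiff_const_smul r).contDiffOn fun _ hp => smul_ne_zero hr.ne' hp

theorem ibp (i k : Fin n) {g : E n → ℝ} (hg : ContDiffOn ℝ ∞ g {0}ᶜ) {r : ℝ} (hr : 0 < r)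
    (w : MP n) : ∫ p, Lf i k g (r • p) * ev w p ∂sph n =
      -∫ p, g (r • p) * ev (Lp i k w) p ∂sph n := by
  have h1 := contDiffOn_scale hg hr
  have h2 := contDiffOn_scale (contDiffOn_Lf i k hg) hr
  have h3 := integral_Lf i k (f := fun p => g (r • p) * ev w p)
    ((h1.of_le (by exact_mod_cast le_top)).mul (R230.contDiff_ev w).contDiffOn)
  have i1 : Integrable (fun p => Lf i k g (r • p) * ev w p) (sph n) :=
    R230.integrable_of_continuousOn (h2.continuousOn.mul (R230.continuous_ev _).continuousOn)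
  have i2 : Integrable (fun p => g (r • p) * ev (Lp i k w) p) (sph n) :=
    R230.integrable_of_continuousOn (h1.continuousOn.mul (R230.continuous_ev _).continuousOn)
  rw [eq_neg_iff_add_eq_zero, ← integral_add i1 i2, ← h3]
  refine integral_congr_ae ?_
  filter_upwards [R230.ae_norm] with p hp
  have hp0 : p ≠ 0 := by
    rintro rfl
    simp at hp
  rw [Lf_mul i k ((h1.contDiffAt (isOpen_compl_singleton.mem_nhds hp0)).differentiableAt (by simp))
    (R230.differentiableAt_ev w p), Lf_scale i k hg hr hp0, Lf_ev]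

theorem exp_log_smul {x : E n} (hx : x ≠ 0) : Real.exp (Real.log ‖x‖) • (‖x‖⁻¹ • x) = x := by
  rw [Real.exp_log (norm_pos_iff.2 hx), smul_smul, mul_inv_cancel₀ (norm_ne_zero_iff.2 hx), one_smul]

theorem norm_unit {x : E n} (hx : x ≠ 0) : ‖‖x‖⁻¹ • x‖ = 1 := by
  rw [norm_smul, norm_inv, norm_norm, inv_mul_cancel₀ (norm_ne_zero_iff.2 hx)]

end CLimAux

open CLimAux in
theorem reg_lim (hn : 2 ≤ n) {ι : Type} (𝒰 : Ultrafilter ι) {c₀ : ℝ} (hc₀ : 0 < c₀) (Bd : ℕ → ℝ)
    (N : ι → ℕ) (hN : Tendsto N (𝒰 : Filter ι) atTop)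
    (c : ι → Fin n → Fin n → E n → ℝ) (cl : Fin n → Fin n → E n → ℝ) (q : ℝ → ℝ)
    (P : ι → ℕ → ℝ → MP n) (hcl : ∀ i k, ContDiffOn ℝ ∞ (cl i k) {0}ᶜ)
    (hc : ∀ i k t, TendstoUniformlyOn (fun M => atT (c M) t i k) (atT cl t i k) (𝒰 : Filter ι)
      (Metric.sphere 0 1))
    (hG : ∀ᶠ M in (𝒰 : Filter ι), CoefBd (c M) q c₀ Bd ∧ Gal (N M) (c M) q (P M))
    (B : ℝ → ℝ) (hB0 : ∀ t, 0 ≤ B t) (hB : Monotone B)
    (hL2 : ∀ T : ℝ, ∀ᶠ M in (𝒰 : Filter ι), ∀ t ∈ Icc (-T) T,
      ipw (fun _ => 1) (P M 0 t) (P M 0 t) ≤ B t ^ 2) :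
    ∃ V : E n → ℝ, ContDiffOn ℝ ∞ V {0}ᶜ ∧
      (∀ (w : List (Option (Fin n × Fin n))) (t : ℝ), TendstoUniformlyOn
        (fun M p => wd w (lift (P M 0)) (Real.exp t • p)) (fun p => wd w V (Real.exp t • p))
        (𝒰 : Filter ι) (Metric.sphere 0 1)) ∧
      (∀ x, x ≠ 0 → D0 (D0 V) x + (1 / 2) * ∑ i, ∑ k, Lf i k (fun z => cl i k z * Lf i k V z) x =
        q (Real.log ‖x‖) * V x) ∧
      ∃ C : ℝ, ∀ x, x ≠ 0 → |V x| ≤ C * B (Real.log ‖x‖ + 1) := by
  obtain ⟨ℓ, hℓ, hfr⟩ := exists_frame (n := n)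
  have hO : IsOpen ({0}ᶜ : Set (E n)) := isOpen_compl_singleton
  have hsm : ∀ᶠ M in (𝒰 : Filter ι), ∀ w, ContDiffOn ℝ ∞ (wd w (lift (P M 0))) {0}ᶜ :=
    hG.mono fun M hM w => contDiffOn_wd w (hM.2.tower.contDiffOn_lift 0)
  have hbd : ∀ w, ∃ C : ℝ, 0 ≤ C ∧ ∀ T : ℝ, ∀ᶠ M in (𝒰 : Filter ι), ∀ x : E n, x ≠ 0 →
      |Real.log ‖x‖| ≤ T → |wd w (lift (P M 0)) x| ≤ C * B (Real.log ‖x‖ + 1) := by
    intro w
    obtain ⟨C, hC, h⟩ := sup_bd hn hc₀ Bd (w.filter Option.isNone).length (w.filterMap id)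
    refine ⟨C, hC, fun T => ?_⟩
    filter_upwards [hG, hL2 (T + 1)] with M h1 h2 x hx hT
    rw [h1.2.tower.wd_lift w hx, ← abs_of_nonneg (hB0 (Real.log ‖x‖ + 1))]
    refine h (N M) (c M) q (P M) _ _ h1.1 h1.2 (fun t ht => ?_) _ (norm_unit hx)
    have a := abs_le.1 hT
    exact (h2 t ⟨by linarith [a.1, ht.1], by linarith [a.2, ht.2]⟩).trans
      (pow_le_pow_left₀ (hB0 t) (hB ht.2) 2)
  have hF : ∀ᶠ M in (𝒰 : Filter ι), ∀ w, ∀ x ∈ ({0}ᶜ : Set (E n)),
      HasFDerivAt (wd w (lift (P M 0))) (∑ e, wd (e :: w) (lift (P M 0)) x • ℓ e x) x := by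
    filter_upwards [hsm] with M hM w x hx
    have := (((hM w).contDiffAt (hO.mem_nhds hx)).differentiableAt (by simp)).hasFDerivAt
    rw [hfr _ x hx] at this
    simpa only [← wd_cons] using this
  obtain ⟨G, hGs, hGd, hGu⟩ := ultra_smooth 𝒰 hO (fun M w => wd w (lift (P M 0)))
    (fun e w => e :: w) ℓ hℓ hF (by
      intro w K hK hK0
      obtain ⟨C, hC, h⟩ := hbd w
      obtain ⟨T, hT⟩ := hK.exists_bound_of_continuousOn (f := fun x : E n => Real.log ‖x‖)
        (continuous_norm.continuousOn.log fun x hx => norm_ne_zero_iff.2 (hK0 hx))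
      refine ⟨C * B (T + 1), (h T).mono fun M hM x hx => (hM x (hK0 hx) (hT x hx)).trans ?_⟩
      exact mul_le_mul_of_nonneg_left (hB (by linarith [(abs_le.1 (hT x hx)).2])) hC)
  have hpt : ∀ w (x : E n), x ≠ 0 →
      Tendsto (fun M => wd w (lift (P M 0)) x) (𝒰 : Filter ι) (𝓝 (G w x)) := fun w x hx =>
    (hGu w {x} isCompact_singleton (singleton_subset_iff.2 hx)).tendsto_at rfl
  have hGw : ∀ w (x : E n), x ≠ 0 → G w x = wd w (G []) x := by
    intro w
    induction w with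
    | nil => intro x _; rfl
    | cons e w ih =>
      intro x hx
      rw [wd_cons, ← wd_congr [e] ih x hx]
      refine tendsto_nhds_unique (hpt (e :: w) x hx) ?_
      simp only [wd_cons e w]
      refine tendsto_letter ?_ e
      rw [(hGd w x hx).fderiv]
      refine Tendsto.congr' (hF.mono fun M hM => (hM w x hx).fderiv.symm) ?_
      exact tendsto_finsetSum _ fun e' _ => (hpt (e' :: w) x hx).smul_const _
  have hunif : ∀ (w : List (Option (Fin n × Fin n))) (t : ℝ), TendstoUniformlyOn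
      (fun M p => wd w (lift (P M 0)) (Real.exp t • p)) (fun p => wd w (G []) (Real.exp t • p))
      (𝒰 : Filter ι) (Metric.sphere 0 1) := by
    intro w t
    have hs : Metric.sphere (0 : E n) (Real.exp t) ⊆ {0}ᶜ := by
      rintro p hp rfl
      simp only [mem_sphere_iff_norm, sub_self, norm_zero] at hp
      exact (Real.exp_pos t).ne hp
    refine (((hGu w _ (isCompact_sphere 0 (Real.exp t)) hs).congr_right
      fun x hx => hGw w x (hs hx)).comp fun p => Real.exp t • p).mono fun p hp => ?_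
    simp only [mem_sphere_iff_norm, sub_zero, mem_preimage] at hp ⊢
    rw [norm_smul, hp, mul_one, Real.norm_of_nonneg (Real.exp_pos t).le]
  refine ⟨G [], hGs [], hunif, ?_, ?_⟩
  swap
  · obtain ⟨C, -, h⟩ := hbd []
    exact ⟨C, fun x hx => le_of_tendsto (hpt [] x hx).abs
      ((h |Real.log ‖x‖|).mono fun M hM => hM x hx le_rfl)⟩
  have hV := hGs []
  generalize G [] = V at hunif hV ⊢
  intro x hx
  generalize ht : Real.log ‖x‖ = t
  have hr := Real.exp_pos t
  have hg : ∀ i k, ContDiffOn ℝ ∞ (fun z => cl i k z * Lf i k V z) {0}ᶜ := fun i k =>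
    (hcl i k).mul (contDiffOn_Lf i k hV)
  have c1 : ∀ {g : E n → ℝ}, ContDiffOn ℝ ∞ g {0}ᶜ →
      ContinuousOn (fun p => g (Real.exp t • p)) {0}ᶜ := fun h =>
    (contDiffOn_scale h hr).continuousOn
  have i1 : ∀ {g : E n → ℝ}, ContDiffOn ℝ ∞ g {0}ᶜ → ∀ w : MP n,
      Integrable (fun p => g (Real.exp t • p) * ev w p) (sph n) := fun h w =>
    R230.integrable_of_continuousOn ((c1 h).mul (R230.continuous_ev _).continuousOn)
  have hev : ∀ w : List (Option (Fin n × Fin n)), TendstoUniformlyOn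
      (fun M => ev (pw (w.filterMap id) (P M (w.filter Option.isNone).length t)))
      (fun p => wd w V (Real.exp t • p)) (𝒰 : Filter ι) (Metric.sphere 0 1) := by
    intro w
    refine (hunif w t).congr (hG.mono fun M hM p hp => ?_)
    have hp1 : ‖p‖ = 1 := by simpa using hp
    exact (hM.2.tower.wd_lift w (smul_ne_zero hr.ne' (sph_sub hp))).trans (lift_exp _ t hp1)
  have one : TendstoUniformlyOn (fun (_ : ι) (_ : E n) => (1 : ℝ)) (fun _ => 1) (𝒰 : Filter ι)
      (Metric.sphere 0 1) := tendsto_const_nhds.tendstoUniformlyOn_const _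
  have key := eq_zero_of_orth_poly (by omega : 1 ≤ n)
    (f := fun p => D0 (D0 V) (Real.exp t • p) +
      (1 / 2) * ∑ i, ∑ k, Lf i k (fun z => cl i k z * Lf i k V z) (Real.exp t • p) -
        q t * V (Real.exp t • p))
    (((c1 (contDiffOn_D0 (contDiffOn_D0 hV))).add (continuousOn_const.mul
      (continuousOn_finsetSum _ fun i _ => continuousOn_finsetSum _ fun k _ =>
        c1 (contDiffOn_Lf i k (hg i k))))).sub (continuousOn_const.mul (c1 hV)))
    (fun w => ?_) (norm_unit hx)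
  · rw [← ht, exp_log_smul hx, ht] at key
    linarith
  have l2 := tendsto_ipw w one (hev [none, none]) continuousOn_const
    (c1 (contDiffOn_wd _ hV)) (Eventually.of_forall fun _ => continuousOn_const)
  have l0 := tendsto_ipw w one (hev []) continuousOn_const
    (c1 (contDiffOn_wd _ hV)) (Eventually.of_forall fun _ => continuousOn_const)
  have l1 := fun i k => tendsto_ipw (Lp i k w) (hc i k t) (hev [some (i, k)]) (c1 (hcl i k))
    (c1 (contDiffOn_wd _ hV)) (hG.mono fun M hM => c1 (hM.1.smooth i k))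
  have l3 := ((tendsto_finsetSum Finset.univ fun i _ => tendsto_finsetSum Finset.univ fun k _ =>
    l1 i k).const_mul (1 / 2)).add (l0.const_mul (q t))
  have l4 := tendsto_nhds_unique l2 (l3.congr' (by
    filter_upwards [hG, hN.eventually_ge_atTop w.totalDegree] with M h1 h2
    exact (h1.2.eq t w h2).symm))
  simp only [one_mul, wd, atT] at l4
  have e1 : ∀ p : E n, (D0 (D0 V) (Real.exp t • p) +
      (1 / 2) * ∑ i, ∑ k, Lf i k (fun z => cl i k z * Lf i k V z) (Real.exp t • p) -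
        q t * V (Real.exp t • p)) * ev w p = D0 (D0 V) (Real.exp t • p) * ev w p +
      (1 / 2) * ∑ i, ∑ k, Lf i k (fun z => cl i k z * Lf i k V z) (Real.exp t • p) * ev w p -
        q t * (V (Real.exp t • p) * ev w p) := by
    intro p
    simp only [← Finset.sum_mul]
    ring
  have j1 := i1 (contDiffOn_D0 (contDiffOn_D0 hV)) w
  have j2 := fun i k => i1 (contDiffOn_Lf i k (hg i k)) w
  have j3 := fun i => integrable_finsetSum Finset.univ fun k _ => j2 i k
  have j4 := integrable_finsetSum Finset.univ fun i _ => j3 i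
  simp only [e1]
  rw [integral_sub (j1.fun_add (j4.const_mul _)) ((i1 hV w).const_mul _),
    integral_add j1 (j4.const_mul _), integral_const_mul, integral_const_mul,
    integral_finsetSum _ fun i _ => j3 i, l4]
  simp only [integral_finsetSum _ fun k _ => j2 _ k, ibp _ _ (hg _ _) hr, mul_assoc,
    Finset.sum_neg_distrib]
  ring

end Crest.Agent.R202
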