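import Crest.Agent.R202.CLim

/-!
# Row 202, C5: smoothness at the origin

For `t ≤ 0` the coefficients are `1` and `q = (d/2)²`.  For `Y ∈ Harm n l`, `l ≤ N`, the function
`f t = ⟨P 0 t, Y⟩` solves `f'' = (l + d/2)² f` on `t ≤ 0` (`ipw_Lp`, `sum_Lp_Lp`) and is bounded, so
`f t = e^{(l+d/2) t} f 0`.  With the harmonic decomposition `P 0 0 = Σ_{l ≤ N} Y_l` on the sphere
(components of degree `> N` of a polynomial of degree `≤ N` vanish: they are orthogonal to it) this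
gives `lift (P 0) x = |x|^{d/2} ev H x` for `|x| ≤ 1`, `H = Σ Y_l`, `Σ ‖Y_l‖² ≤ B₀²`.  All partial
derivatives of `H` are bounded on `|x| ≤ 1/2` uniformly (`harm_sup`, `harm_grad`,
`R230.pderiv_mem_Harm`, homogeneity); apply `ultra_smooth` with words in the `∂_a`.
-/

set_option autoImplicit false
open scoped ContDiff Topology
open MeasureTheory Set Filter
open Crest.GeometryTopology.CoordMetric
open Crest.Agent.R230 (E MP sph ev Harm)

noncomputable section
namespace Crest.Agent.R202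

namespace COrigin

open Crest.Agent.R230 (proj proj_mem proj_spec harm_orth continuous_ev ev_sum ev_r2 lap r2)

variable {n : ℕ}

theorem anti {u u' : ℝ → ℝ} (hu : ∀ t, HasDerivAt u (u' t) t) (h : ∀ t, t ≤ 0 → u' t ≤ 0) {t : ℝ}
    (ht : t ≤ 0) : u 0 ≤ u t := by
  have := antitoneOn_of_deriv_nonpos (convex_Iic (0 : ℝ))
    (fun x _ => (hu x).continuousAt.continuousWithinAt)
    (fun x _ => (hu x).differentiableAt.differentiableWithinAt)
    (fun x hx => by rw [(hu x).deriv]; exact h x (mem_Iic.1 (interior_subset hx)))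
  exact this ht (mem_Iic.2 le_rfl) ht

theorem const {u u' : ℝ → ℝ} (hu : ∀ t, HasDerivAt u (u' t) t) (h : ∀ t, t ≤ 0 → u' t = 0) {t : ℝ}
    (ht : t ≤ 0) : u t = u 0 := by
  have h1 := anti hu (fun t ht => (h t ht).le) ht
  have h2 := anti (u := fun t => -u t) (fun t => (hu t).neg) (fun t ht => by simp [h t ht]) ht
  linarith

theorem hasDerivAt_exp (κ t : ℝ) :
    HasDerivAt (fun s => Real.exp (κ * s)) (Real.exp (κ * t) * κ) t := by
  simpa using ((hasDerivAt_id t).const_mul κ).exp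

theorem ode_half {f f₁ f₂ : ℝ → ℝ} {κ B : ℝ} (hκ : 0 ≤ κ) (h1 : ∀ t, HasDerivAt f (f₁ t) t)
    (h2 : ∀ t, HasDerivAt f₁ (f₂ t) t) (he : ∀ t, t ≤ 0 → f₂ t = κ ^ 2 * f t)
    (hb : ∀ t, t ≤ 0 → |f t| ≤ B) : 0 ≤ f₁ 0 - κ * f 0 := by
  set g := f₁ 0 - κ * f 0 with hg
  have hc : ∀ t, t ≤ 0 → Real.exp (κ * t) * (f₁ t - κ * f t) = g := fun t ht => by
    have := const (u := fun t => Real.exp (κ * t) * (f₁ t - κ * f t))
      (fun t => (hasDerivAt_exp κ t).mul ((h2 t).sub ((h1 t).const_mul κ)))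
      (fun t ht => by rw [he t ht]; ring) ht
    simpa using this
  have hB : 0 ≤ B := (abs_nonneg _).trans (hb 0 le_rfl)
  have ha : ∀ t, t ≤ 0 → -(3 * B) ≤ -(g * t) := fun t ht => by
    have := anti (u := fun t => Real.exp (κ * t) * f t - g * t - 2 * B * Real.exp (κ * t))
      (fun t => (((hasDerivAt_exp κ t).mul (h1 t)).sub ((hasDerivAt_id t).const_mul g)).sub
        ((hasDerivAt_exp κ t).const_mul (2 * B)))
      (fun t ht => by
        have h3 := hc t ht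
        have h4 := (abs_le.1 (hb t ht)).2
        have h5 : 0 ≤ Real.exp (κ * t) * κ * (B - f t) :=
          mul_nonneg (mul_nonneg (Real.exp_pos _).le hκ) (by linarith)
        nlinarith) ht
    simp only [mul_zero, Real.exp_zero, one_mul, sub_zero, mul_one] at this
    have h4 := (abs_le.1 (hb t ht)).2
    have h5 := (abs_le.1 (hb 0 le_rfl)).1
    have h6 : 0 ≤ Real.exp (κ * t) * (2 * B - f t) := mul_nonneg (Real.exp_pos _).le (by linarith)
    nlinarith
  by_contra hneg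
  have hg0 : g < 0 := not_le.1 hneg
  have := ha ((3 * B + 1) / g) (div_nonpos_of_nonneg_of_nonpos (by linarith) hg0.le)
  rw [mul_div_cancel₀ _ hg0.ne] at this
  linarith

theorem ode {f f₁ f₂ : ℝ → ℝ} {κ B : ℝ} (hκ : 0 ≤ κ) (h1 : ∀ t, HasDerivAt f (f₁ t) t)
    (h2 : ∀ t, HasDerivAt f₁ (f₂ t) t) (he : ∀ t, t ≤ 0 → f₂ t = κ ^ 2 * f t)
    (hb : ∀ t, t ≤ 0 → |f t| ≤ B) {t : ℝ} (ht : t ≤ 0) : f t = Real.exp (κ * t) * f 0 := by
  have a := ode_half hκ h1 h2 he hb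
  have b := ode_half (f := fun t => -f t) (f₁ := fun t => -f₁ t) (f₂ := fun t => -f₂ t) hκ
    (fun t => (h1 t).neg) (fun t => (h2 t).neg) (fun t ht => by rw [he t ht]; ring)
    (fun t ht => by rw [abs_neg]; exact hb t ht)
  have hc : ∀ t, t ≤ 0 → f₁ t - κ * f t = 0 := fun t ht => by
    have := const (u := fun t => Real.exp (κ * t) * (f₁ t - κ * f t))
      (fun t => (hasDerivAt_exp κ t).mul ((h2 t).sub ((h1 t).const_mul κ)))
      (fun t ht => by rw [he t ht]; ring) ht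
    simp only [mul_zero, Real.exp_zero, one_mul] at this
    have h0 : f₁ 0 - κ * f 0 = 0 := by linarith
    rw [h0] at this
    exact (mul_eq_zero.1 this).resolve_left (Real.exp_pos _).ne'
  have := const (u := fun t => Real.exp (-κ * t) * f t)
    (fun t => (hasDerivAt_exp (-κ) t).mul (h1 t))
    (fun t ht => by
      have := hc t ht
      linear_combination Real.exp (-κ * t) * this) ht
  simp only [mul_zero, Real.exp_zero, one_mul] at this
  rw [← this, ← mul_assoc, ← Real.exp_add]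
  simp

/-- the `L²` pairing -/
def ip (P R : MP n) : ℝ := ∫ p, ev P p * ev R p ∂sph n

theorem ipw_one (P R : MP n) : ipw (fun _ => 1) P R = ip P R := by
  show ∫ p, 1 * (ev P p * ev R p) ∂sph n = ∫ p, ev P p * ev R p ∂sph n
  simp only [one_mul]

theorem int_ev (P R : MP n) : Integrable (fun p => ev P p * ev R p) (sph n) :=
  Crest.Agent.R230.integrable_of_continuous ((continuous_ev P).mul (continuous_ev R))

theorem ip_comm (P R : MP n) : ip P R = ip R P := by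
  show ∫ p, ev P p * ev R p ∂sph n = ∫ p, ev R p * ev P p ∂sph n
  simp only [mul_comm]

theorem ip_sum {α : Type} (s : Finset α) (P : MP n) (R : α → MP n) :
    ip P (∑ a ∈ s, R a) = ∑ a ∈ s, ip P (R a) := by
  show ∫ p, ev P p * ev (∑ a ∈ s, R a) p ∂sph n = ∑ a ∈ s, ∫ p, ev P p * ev (R a) p ∂sph n
  rw [← integral_finsetSum _ fun a _ => int_ev P (R a)]
  simp only [ev_sum, Finset.mul_sum]

theorem ip_C_mul (P R : MP n) (a : ℝ) : ip P (MvPolynomial.C a * R) = a * ip P R := by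
  show ∫ p, ev P p * ev (MvPolynomial.C a * R) p ∂sph n = a * ∫ p, ev P p * ev R p ∂sph n
  rw [← integral_const_mul]
  refine integral_congr_ae (Eventually.of_forall fun p => ?_)
  simp only [Crest.Agent.R230.ev_mul, Crest.Agent.R230.ev_C]
  ring

theorem ip_sub (P R S : MP n) : ip P (R - S) = ip P R - ip P S := by
  show ∫ p, ev P p * ev (R - S) p ∂sph n =
    (∫ p, ev P p * ev R p ∂sph n) - ∫ p, ev P p * ev S p ∂sph n
  rw [← integral_sub (int_ev P R) (int_ev P S)]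
  simp only [Crest.Agent.R230.ev_sub, mul_sub]

theorem ip_congr (P : MP n) {R S : MP n} (h : ∀ p : E n, ‖p‖ = 1 → ev R p = ev S p) :
    ip P R = ip P S := by
  refine integral_congr_ae ?_
  filter_upwards [Crest.Agent.R230.ae_norm] with p hp
  rw [h p hp]

theorem ip_sq_le (P R : MP n) : ip P R ^ 2 ≤ ip P P * ip R R := by
  have := Crest.Agent.R230.DenseAux.cauchy (continuous_ev P) (continuous_ev R)
  simp only [sq (ev _ _)] at this
  exact this

theorem ip_self_nonneg (P : MP n) : 0 ≤ ip P P := integral_nonneg fun _ => mul_self_nonneg _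

theorem ip_Lp (i k : Fin n) (P R : MP n) : ip (Lp i k P) R = -ip P (Lp i k R) := by
  have h := ipw_Lp i k (c := fun _ => (1 : ℝ)) contDiffOn_const P R
  have h0 : ipw (Lf i k fun _ => (1 : ℝ)) P R = 0 := by
    have : (Lf i k fun _ : E n => (1 : ℝ)) = fun _ => 0 := by
      funext x
      show x i * fderiv ℝ (fun _ => (1 : ℝ)) x _ - x k * fderiv ℝ (fun _ => (1 : ℝ)) x _ = 0
      simp
    rw [this]
    show ∫ p, 0 * (ev P p * ev R p) ∂sph n = 0
    simp
  rw [ipw_one, ipw_one, h0] at h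
  linarith

theorem sum_ip_Lp (P : MP n) {l : ℕ} {Y : MP n} (hY : Y.IsHomogeneous l) :
    ∑ i, ∑ k, ip (Lp i k P) (Lp i k Y) =
      2 * (((l : ℝ) * ((l : ℝ) + n - 2)) * ip P Y - ip P (lap Y)) := by
  simp only [ip_Lp, Finset.sum_neg_distrib, ← ip_sum]
  rw [sum_Lp_Lp hY, show (2 : MP n) = MvPolynomial.C 2 from rfl, ip_C_mul, ip_sub, ip_C_mul,
    ip_congr P (R := r2 n * lap Y) (S := lap Y) fun p hp => by
      rw [Crest.Agent.R230.ev_mul, ev_r2, hp, one_pow, one_mul]]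
  ring

theorem ip_zero (P : MP n) : ip P 0 = 0 := by
  show ∫ p, ev P p * ev 0 p ∂sph n = 0
  simp

theorem orth_hom (hn : 2 ≤ n) {l : ℕ} {Y : MP n} (hY : Y ∈ Harm n l) (m : ℕ) :
    ∀ W : MP n, W.IsHomogeneous m → m < l → ip Y W = 0 := by
  induction m using Nat.strong_induction_on with
  | _ m ih =>
    intro W hW hm
    rcases Nat.eq_zero_or_pos m with rfl | hm0
    · obtain ⟨c, rfl⟩ : ∃ c, W = MvPolynomial.C c := ⟨_, MvPolynomial.totalDegree_eq_zero_iff_eq_C.1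
        ((MvPolynomial.totalDegree_zero_iff_isHomogeneous _).2 hW)⟩
      exact harm_orth hn hm.ne' hY (Crest.Agent.R230.C_mem_Harm c)
    · have h1 := sum_ip_Lp Y hW
      have h2 := sum_ip_Lp W hY.1
      have h3 : (lap W).IsHomogeneous (m - 1 - 1) :=
        MvPolynomial.IsHomogeneous.sum _ _ _ fun i _ => hW.pderiv.pderiv
      rw [ih _ (by omega) _ h3 (by omega)] at h1
      rw [hY.2, ip_zero, ip_comm W Y] at h2
      simp only [ip_comm (Lp _ _ W)] at h2
      rw [h1] at h2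
      have h4 := Crest.Agent.R230.GreenAux.lam_lt hn hm
      have h5 : (m : ℝ) * ((m : ℝ) + n - 2) < (l : ℝ) * ((l : ℝ) + n - 2) := h4
      have h6 : ((l : ℝ) * ((l : ℝ) + n - 2) - (m : ℝ) * ((m : ℝ) + n - 2)) * ip Y W = 0 := by
        linarith
      exact (mul_eq_zero.1 h6).resolve_left (by linarith)

theorem orth_deg (hn : 2 ≤ n) {l : ℕ} {Y W : MP n} (hY : Y ∈ Harm n l) (hW : W.totalDegree < l) :
    ip W Y = 0 := by
  rw [ip_comm, ← MvPolynomial.sum_homogeneousComponent W, ip_sum]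
  refine Finset.sum_eq_zero fun m hm => orth_hom hn hY m _
    (MvPolynomial.homogeneousComponent_isHomogeneous m W) ?_
  have := Finset.mem_range.1 hm
  omega

theorem hasDerivAt_ip {N : ℕ} {P : ℕ → ℝ → MP n} (hP : Tower N P) {Y : MP n}
    (hY : Y.totalDegree ≤ N) (t : ℝ) : HasDerivAt (fun s => ip (P 0 s) Y) (ip (P 1 t) Y) t := by
  have hR : Tower N (fun r (_ : ℝ) => if r = 0 then Y else 0) :=
    ⟨fun r t => by split_ifs <;> simp [hY], fun r t m => by
      simpa using hasDerivAt_const t (MvPolynomial.coeff m (if r = 0 then Y else 0))⟩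
  have h := hasDerivAt_ipw hP hR (c := fun _ => (1 : ℝ)) contDiffOn_const t
  have h0 : ipw (fun p => D0 (fun _ : E n => (1 : ℝ)) (Real.exp t • p)) (P 0 t) Y = 0 := by
    show ∫ p, fderiv ℝ (fun _ : E n => (1 : ℝ)) _ _ * (ev (P 0 t) p * ev Y p) ∂sph n = 0
    simp
  simp only [if_true, one_ne_zero, if_false, ipw_one, ip_zero, h0, zero_add, add_zero] at h
  exact h

theorem ev_smul_arg {Y : MP n} {k : ℕ} (hY : Y.IsHomogeneous k) (r : ℝ) (x : E n) :
    ev Y (r • x) = r ^ k * ev Y x := by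
  show MvPolynomial.eval (fun i => (r • x) i) Y = r ^ k * MvPolynomial.eval (fun i => x i) Y
  simp only [MvPolynomial.eval_eq', Finset.mul_sum]
  refine Finset.sum_congr rfl fun d hd => ?_
  have h : ∑ i, d i = k := by
    rw [← Finsupp.degree_eq_sum]
    by_contra hne
    exact MvPolynomial.mem_support_iff.1 hd (hY.coeff_eq_zero hne)
  have e : ∀ i, (r • x).ofLp i ^ d i = r ^ d i * x.ofLp i ^ d i := fun i => by
    rw [PiLp.smul_apply, smul_eq_mul, mul_pow]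
  simp only [e, Finset.prod_mul_distrib, Finset.prod_pow_eq_pow_sum, h]
  ring

section Gal

variable {d N : ℕ} {c : Fin (d + 2) → Fin (d + 2) → E (d + 2) → ℝ} {q : ℝ → ℝ}
  {P : ℕ → ℝ → MP (d + 2)} {B₀ : ℝ}

theorem mode (hq : ∀ t, t ≤ 0 → q t = ((d : ℝ) / 2) ^ 2) (hG : Gal N c q P)
    (hc : ∀ i k x, x ≠ 0 → ‖x‖ ≤ 1 → c i k x = 1)
    (hB : ∀ t, t ≤ 0 → ipw (fun _ => 1) (P 0 t) (P 0 t) ≤ B₀ ^ 2) {l : ℕ} (hl : l ≤ N)
    {Y : MP (d + 2)} (hY : Y ∈ Harm (d + 2) l) {t : ℝ} (ht : t ≤ 0) :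
    ip (P 0 t) Y = Real.exp (((l : ℝ) + d / 2) * t) * ip (P 0 0) Y := by
  have hd : Y.totalDegree ≤ N := hY.1.totalDegree_le.trans hl
  refine ode (f := fun t => ip (P 0 t) Y) (f₁ := fun t => ip (P 1 t) Y)
    (f₂ := fun t => ip (P 2 t) Y) (B := √(B₀ ^ 2 * ip Y Y)) (by positivity)
    (hasDerivAt_ip hG.tower hd) (hasDerivAt_ip (hG.tower.shift 1) hd) (fun t ht => ?_)
    (fun t ht => ?_) ht
  · have h := hG.eq t Y hd
    have e : QS (atT c t) (P 0 t) Y = (1 / 2) * ∑ i, ∑ k, ip (Lp i k (P 0 t)) (Lp i k Y) := by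
      show (1 / 2 : ℝ) * ∑ i, ∑ k, ipw (atT c t i k) (Lp i k (P 0 t)) (Lp i k Y) = _
      congr 1
      refine Finset.sum_congr rfl fun i _ => Finset.sum_congr rfl fun k _ => ?_
      refine integral_congr_ae ?_
      filter_upwards [Crest.Agent.R230.ae_norm] with p hp
      have h1 : ‖Real.exp t • p‖ = Real.exp t := by
        rw [norm_smul, hp, mul_one, Real.norm_of_nonneg (Real.exp_pos t).le]
      have h2 : atT c t i k p = 1 := hc i k _
        (norm_pos_iff.1 (h1.symm ▸ Real.exp_pos t)) (h1.trans_le (Real.exp_le_one_iff.2 ht))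
      rw [h2, one_mul]
    rw [e, sum_ip_Lp _ hY.1, hY.2, ip_zero, ipw_one, ipw_one, hq t ht] at h
    rw [h]
    push_cast
    ring
  · refine Real.abs_le_sqrt ((ip_sq_le _ _).trans ?_)
    exact mul_le_mul_of_nonneg_right (ipw_one (P 0 t) (P 0 t) ▸ hB t ht) (ip_self_nonneg Y)

theorem lift_eq (hq : ∀ t, t ≤ 0 → q t = ((d : ℝ) / 2) ^ 2) (hG : Gal N c q P)
    (hc : ∀ i k x, x ≠ 0 → ‖x‖ ≤ 1 → c i k x = 1)
    (hB : ∀ t, t ≤ 0 → ipw (fun _ => 1) (P 0 t) (P 0 t) ≤ B₀ ^ 2) {x : E (d + 2)} (hx : x ≠ 0)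
    (hx1 : ‖x‖ ≤ 1) :
    lift (P 0) x = Real.exp ((d : ℝ) / 2 * Real.log ‖x‖) *
      ev (∑ l ∈ Finset.range (N + 1), proj l (ev (P 0 0))) x := by
  have hn : 2 ≤ d + 2 := by omega
  have hx0 : 0 < ‖x‖ := norm_pos_iff.2 hx
  set t := Real.log ‖x‖ with htd
  have ht : t ≤ 0 := Real.log_nonpos hx0.le hx1
  set D : MP (d + 2) := P 0 t - ∑ l ∈ Finset.range (N + 1),
    MvPolynomial.C (Real.exp (((l : ℝ) + d / 2) * t)) * proj l (ev (P 0 0)) with hD
  have hH : ∀ k, ∀ Z ∈ Harm (d + 2) k, ip D Z = 0 := fun k Z hZ => by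
    rw [ip_comm, hD, ip_sub, ip_sum]
    simp only [ip_C_mul]
    by_cases hk : k ≤ N
    · rw [Finset.sum_eq_single k, ip_comm Z, mode hq hG hc hB hk hZ ht, ip_comm Z]
      · have : ip (P 0 0) Z = ip (proj k (ev (P 0 0))) Z := proj_spec (continuous_ev _) hZ
        rw [this, sub_self]
      · intro l _ hl
        have : ip Z (proj l (ev (P 0 0))) = 0 := harm_orth hn hl.symm hZ (proj_mem l _)
        rw [this, mul_zero]
      · intro h
        exact absurd (Finset.mem_range.2 (by omega)) h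
    · rw [ip_comm Z, orth_deg hn hZ ((hG.tower.deg 0 t).trans_lt (not_le.1 hk)), Finset.sum_eq_zero,
        sub_zero]
      intro l hl
      have hl' := Finset.mem_range.1 hl
      have : ip Z (proj l (ev (P 0 0))) = 0 := harm_orth hn (by omega) hZ (proj_mem l _)
      rw [this, mul_zero]
  have hp : ‖(‖x‖⁻¹ : ℝ) • x‖ = 1 := by
    rw [norm_smul, norm_inv, norm_norm, inv_mul_cancel₀ hx0.ne']
  have h0 : ev D (‖x‖⁻¹ • x) = 0 := by
    refine eq_zero_of_orth_poly (by omega) (continuous_ev D).continuousOn (fun w => ?_) hp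
    obtain ⟨J, Y, hY, hw⟩ := Crest.Agent.R230.exists_harm_decomp (n := d + 2) (by omega) w
    have : ip D w = ip D (∑ k ∈ Finset.range J, Y k) :=
      ip_congr D fun p hp => by rw [hw p hp, ev_sum]
    show ip D w = 0
    rw [this, ip_sum]
    exact Finset.sum_eq_zero fun k _ => hH k _ (hY k)
  rw [hD, Crest.Agent.R230.ev_sub, sub_eq_zero] at h0
  show ev (P 0 t) (‖x‖⁻¹ • x) = _
  rw [h0, ev_sum, ev_sum, Finset.mul_sum]
  refine Finset.sum_congr rfl fun l _ => ?_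
  rw [Crest.Agent.R230.ev_mul, Crest.Agent.R230.ev_C, ev_smul_arg (proj_mem l _).1, add_mul,
    Real.exp_add, Real.exp_nat_mul, htd, Real.exp_log hx0, inv_pow]
  field_simp

end Gal

theorem proj_le (l : ℕ) (W : MP n) : ip (proj l (ev W)) (proj l (ev W)) ≤ ip W W := by
  have h1 : ip W (proj l (ev W)) = ip (proj l (ev W)) (proj l (ev W)) :=
    proj_spec (continuous_ev _) (proj_mem l _)
  have h2 := ip_sq_le W (proj l (ev W))
  have h3 := ip_self_nonneg (proj l (ev W))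
  have h4 := ip_self_nonneg W
  rw [h1] at h2
  by_contra h
  nlinarith

/-- words in the partial derivatives -/
def pdw : List (Fin n) → MP n → MP n
  | [], Y => Y
  | a :: w, Y => MvPolynomial.pderiv a (pdw w Y)

theorem pdw_cons (a : Fin n) (w : List (Fin n)) (Y : MP n) :
    pdw (a :: w) Y = MvPolynomial.pderiv a (pdw w Y) := rfl

theorem pdw_sum {α : Type} (s : Finset α) (w : List (Fin n)) (Y : α → MP n) :
    pdw w (∑ a ∈ s, Y a) = ∑ a ∈ s, pdw w (Y a) := by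
  induction w with
  | nil => rfl
  | cons a w ih => simp only [pdw_cons, ih, map_sum]

theorem pdw_bound (hn : 2 ≤ n) {l : ℕ} {Y : MP n} (hY : Y ∈ Harm n l) (w : List (Fin n)) :
    pdw w Y ∈ Harm n (l - w.length) ∧
      ip (pdw w Y) (pdw w Y) ≤ (((n : ℝ) + 2) * ((l : ℝ) + 1) ^ 2) ^ w.length * ip Y Y := by
  induction w with
  | nil => exact ⟨hY, by simp; exact le_rfl⟩
  | cons a w ih =>
    refine ⟨Crest.Agent.R230.pderiv_mem_Harm ih.1 a, ?_⟩
    have h := harm_grad hn ih.1 a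
    rw [ipw_one, ipw_one] at h
    rw [pdw_cons, List.length_cons, pow_succ', mul_assoc]
    refine h.trans (mul_le_mul ?_ ih.2 (ip_self_nonneg _) (by positivity))
    have h1 : ((l - w.length : ℕ) : ℝ) ≤ l := by exact_mod_cast Nat.sub_le _ _
    have h2 : (0 : ℝ) ≤ (l - w.length : ℕ) := by positivity
    have h3 : (0 : ℝ) ≤ n := by positivity
    generalize ((l - w.length : ℕ) : ℝ) = a at h1 h2
    nlinarith [mul_le_mul h1 h1 h2 (h2.trans h1), mul_le_mul_of_nonneg_left h1 h3,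
      mul_nonneg h3 (sq_nonneg (l : ℝ)), mul_nonneg h3 (h2.trans h1)]

theorem ev_pdw_le (hn : 2 ≤ n) {l : ℕ} {Y : MP n} (hY : Y ∈ Harm n l) {B : ℝ}
    (hB : ip Y Y ≤ B ^ 2) (w : List (Fin n)) {x : E n} (hx : ‖x‖ ≤ 1 / 2) :
    |ev (pdw w Y) x| ≤ |B| * ((n : ℝ) + 2) ^ w.length * 2 ^ (w.length + 1) *
      (((l + 1 : ℕ) : ℝ) ^ (n + 2 * w.length) * (1 / 2) ^ (l + 1)) := by
  obtain ⟨p, hp, hxp⟩ : ∃ p : E n, ‖p‖ = 1 ∧ x = ‖x‖ • p := by
    by_cases h : x = 0
    · exact ⟨EuclideanSpace.single ⟨0, by omega⟩ 1, by simp, by simp [h]⟩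
    · have h0 := (norm_pos_iff.2 h).ne'
      exact ⟨‖x‖⁻¹ • x, by rw [norm_smul, norm_inv, norm_norm, inv_mul_cancel₀ h0],
        by rw [smul_smul, mul_inv_cancel₀ h0, one_smul]⟩
  obtain ⟨h1, h2⟩ := pdw_bound hn hY w
  set j := w.length
  have h3 := harm_sup hn h1 hp
  rw [ipw_one] at h3
  set g : ℝ := ((n : ℝ) + 2) ^ j * ((l : ℝ) + 1) ^ (n + 2 * j) with hg
  have hl0 : (0 : ℝ) ≤ l := by positivity
  have hn0 : (0 : ℝ) ≤ n := by positivity
  have hg1 : 1 ≤ g := one_le_mul_of_one_le_of_one_le (one_le_pow₀ (by linarith))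
    (one_le_pow₀ (by linarith))
  have h4 : ev (pdw w Y) p ^ 2 ≤ (g * |B|) ^ 2 := by
    have h5 : ((l - j : ℕ) : ℝ) ≤ l := by exact_mod_cast Nat.sub_le _ _
    calc _ ≤ _ := h3
      _ ≤ ((l : ℝ) + 1) ^ n * ((((n : ℝ) + 2) * ((l : ℝ) + 1) ^ 2) ^ j * B ^ 2) := by
          refine mul_le_mul (by gcongr) (h2.trans (by gcongr)) (ip_self_nonneg _) (by positivity)
      _ = g * B ^ 2 := by rw [hg, mul_pow, ← pow_mul, pow_add]; ring
      _ ≤ g ^ 2 * B ^ 2 := mul_le_mul_of_nonneg_right (by nlinarith) (sq_nonneg _)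
      _ = _ := by rw [mul_pow g, sq_abs]
  have h6 : |ev (pdw w Y) p| ≤ g * |B| := abs_le_of_sq_le_sq' h4 (by positivity) |> abs_le.2
  have h7 : ‖x‖ ^ (l - j) ≤ 2 ^ j * (1 / 2) ^ l := by
    refine (pow_le_pow_left₀ (norm_nonneg _) hx _).trans ?_
    have : (1 / 2 : ℝ) ^ (l - j) * (1 / 2) ^ j ≤ (1 / 2) ^ l := by
      rw [← pow_add]
      exact pow_le_pow_of_le_one (by norm_num) (by norm_num) (by omega)
    calc (1 / 2 : ℝ) ^ (l - j) = 2 ^ j * ((1 / 2) ^ (l - j) * (1 / 2) ^ j) := by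
          rw [mul_comm, mul_assoc, ← mul_pow]; norm_num
      _ ≤ _ := by gcongr
  rw [hxp, ev_smul_arg h1.1, abs_mul, abs_of_nonneg (by positivity)]
  refine (mul_le_mul h7 h6 (abs_nonneg _) (by positivity)).trans (le_of_eq ?_)
  rw [hg]
  push_cast
  ring

theorem hasFDerivAt_ev (Q : MP n) (x : E n) :
    HasFDerivAt (ev Q) (∑ e, ev (MvPolynomial.pderiv e Q) x •
      (EuclideanSpace.proj e : E n →L[ℝ] ℝ)) x := by
  refine (Crest.Agent.R230.differentiableAt_ev Q x).hasFDerivAt.congr_fderiv ?_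
  ext v
  rw [Crest.Agent.R230.PolyAux.fderiv_ev]
  simp [mul_comm]

end COrigin

open COrigin in
theorem origin_lim {d : ℕ} {ι : Type} (𝒰 : Ultrafilter ι) (N : ι → ℕ)
    (c : ι → Fin (d + 2) → Fin (d + 2) → E (d + 2) → ℝ) (q : ℝ → ℝ)
    (P : ι → ℕ → ℝ → MP (d + 2)) (B₀ : ℝ) (hq : ∀ t, t ≤ 0 → q t = ((d : ℝ) / 2) ^ 2)
    (hG : ∀ᶠ M in (𝒰 : Filter ι), Gal (N M) (c M) q (P M) ∧
      (∀ i k x, x ≠ 0 → ‖x‖ ≤ 1 → c M i k x = 1) ∧
      ∀ t, t ≤ 0 → ipw (fun _ => 1) (P M 0 t) (P M 0 t) ≤ B₀ ^ 2)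
    {V : E (d + 2) → ℝ}
    (hV : ∀ x, x ≠ 0 → Tendsto (fun M => lift (P M 0) x) (𝒰 : Filter ι) (𝓝 (V x))) :
    ∃ u₀ : E (d + 2) → ℝ, ContDiffOn ℝ ∞ u₀ (Metric.ball 0 (1 / 2)) ∧
      ∀ x : E (d + 2), x ≠ 0 → ‖x‖ < 1 / 2 →
        V x = Real.exp ((d : ℝ) / 2 * Real.log ‖x‖) * u₀ x := by
  have hn : 2 ≤ d + 2 := by omega
  set H : ι → MP (d + 2) := fun M =>
    ∑ l ∈ Finset.range (N M + 1), Crest.Agent.R230.proj l (ev (P M 0 0)) with hH
  obtain ⟨G, hG1, -, hG3⟩ := ultra_smooth 𝒰 (Ω := Metric.ball (0 : E (d + 2)) (1 / 2))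
    Metric.isOpen_ball (fun M δ => ev (pdw δ (H M))) (fun e δ => e :: δ)
    (fun e _ => (EuclideanSpace.proj e : E (d + 2) →L[ℝ] ℝ)) (fun _ => contDiffOn_const)
    (Eventually.of_forall fun M δ x _ => hasFDerivAt_ev _ x) (fun δ K _ hK => by
      have hs : Summable fun l : ℕ =>
          ((l + 1 : ℕ) : ℝ) ^ (d + 2 + 2 * δ.length) * (1 / 2 : ℝ) ^ (l + 1) :=
        (summable_nat_add_iff 1).2 (summable_pow_mul_geometric_of_norm_lt_one
          (d + 2 + 2 * δ.length) (r := (1 / 2 : ℝ)) (by norm_num))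
      refine ⟨|B₀| * (((d + 2 : ℕ) : ℝ) + 2) ^ δ.length * 2 ^ (δ.length + 1) *
        ∑' l : ℕ, ((l + 1 : ℕ) : ℝ) ^ (d + 2 + 2 * δ.length) * (1 / 2 : ℝ) ^ (l + 1), ?_⟩
      filter_upwards [hG] with M hM x hx
      have hx' : ‖x‖ ≤ 1 / 2 := (mem_ball_zero_iff.1 (hK hx)).le
      rw [hH, pdw_sum, Crest.Agent.R230.ev_sum]
      refine (Finset.abs_sum_le_sum_abs _ _).trans ((Finset.sum_le_sum fun l _ =>
        ev_pdw_le hn (Crest.Agent.R230.proj_mem l _) (B := B₀) ((proj_le l _).trans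
          (ipw_one (P M 0 0) (P M 0 0) ▸ hM.2.2 0 le_rfl)) δ hx').trans ?_)
      rw [← Finset.mul_sum]
      exact mul_le_mul_of_nonneg_left (hs.sum_le_tsum _ fun l _ => by positivity) (by positivity))
  refine ⟨G [], hG1 [], fun x hx hx1 => ?_⟩
  have h1 := (hG3 [] {x} isCompact_singleton
    (singleton_subset_iff.2 (mem_ball_zero_iff.2 hx1))).tendsto_at (mem_singleton x)
  refine tendsto_nhds_unique (hV x hx) ((h1.const_mul _).congr' ?_)
  filter_upwards [hG] with M hM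
  exact (lift_eq hq hM.1 hM.2.1 hM.2.2 hx (by linarith)).symm

end Crest.Agent.R202
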