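import Crest.Agent.R202.CField

/-!
# Row 202, C1b: towers, weighted pairings, algebra of the rotation fields
-/

set_option autoImplicit false
open scoped ContDiff Topology
open MeasureTheory Set Filter
open Crest.GeometryTopology.CoordMetric
open Crest.Agent.R230 (E MP sph ev Harm)

noncomputable section
namespace Crest.Agent.R202

variable {n : ℕ}

namespace TowerAux

/-- the exponents of degree `≤ N` -/
def mons (n N : ℕ) : Finset (Fin n →₀ ℕ) := (Finsupp.finite_of_degree_le (σ := Fin n) N).toFinset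

theorem expand {N : ℕ} {P : MP n} (hP : P.totalDegree ≤ N) :
    P = ∑ m ∈ mons n N, MvPolynomial.coeff m P • MvPolynomial.monomial m (1 : ℝ) := by
  conv_lhs => rw [P.as_sum]
  have hs : P.support ⊆ mons n N := by
    intro m hm
    have := (MvPolynomial.le_totalDegree hm).trans hP
    simp only [mons, Set.Finite.mem_toFinset, Set.mem_ofPred_eq]
    exact this
  rw [← Finset.sum_subset hs]
  · exact Finset.sum_congr rfl fun m _ => by rw [MvPolynomial.smul_monomial, smul_eq_mul, mul_one]
  · intro m _ hm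
    rw [MvPolynomial.notMem_support_iff.1 hm, zero_smul]

theorem lin_expand (φ : MP n →ₗ[ℝ] ℝ) {N : ℕ} {P : MP n} (hP : P.totalDegree ≤ N) :
    φ P = ∑ m ∈ mons n N, MvPolynomial.coeff m P * φ (MvPolynomial.monomial m (1 : ℝ)) := by
  conv_lhs => rw [expand hP]
  rw [map_sum]
  exact Finset.sum_congr rfl fun m _ => by rw [map_smul, smul_eq_mul]

theorem hasDerivAt_lin {N : ℕ} {P : ℕ → ℝ → MP n} (h : Tower N P) (φ : MP n →ₗ[ℝ] ℝ) (r : ℕ)
    (t : ℝ) : HasDerivAt (fun s => φ (P r s)) (φ (P (r + 1) t)) t := by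
  have e : (fun s => φ (P r s)) = fun s => ∑ m ∈ mons n N,
      MvPolynomial.coeff m (P r s) * φ (MvPolynomial.monomial m (1 : ℝ)) :=
    funext fun s => lin_expand φ (h.deg r s)
  rw [e, lin_expand φ (h.deg (r + 1) t)]
  exact HasDerivAt.fun_sum fun m _ => (h.der r t m).mul_const _

/-- evaluation as a linear map -/
def evL (x : E n) : MP n →ₗ[ℝ] ℝ where
  toFun := fun P => ev P x
  map_add' := fun P Q => Crest.Agent.R230.ev_add P Q x
  map_smul' := fun c P => Crest.Agent.R230.ev_smul c P x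

/-- the rotation field as a linear map -/
def LpL (i k : Fin n) : MP n →ₗ[ℝ] MP n where
  toFun := Lp i k
  map_add' := fun P Q => by simp only [Lp, map_add]; ring
  map_smul' := fun c P => by
    simp only [Lp, Derivation.map_smul, RingHom.id_apply, smul_sub, mul_smul_comm]

theorem contDiff_coeff {N : ℕ} {P : ℕ → ℝ → MP n} (h : Tower N P) (r : ℕ) (m : Fin n →₀ ℕ) :
    ContDiff ℝ ∞ fun s => MvPolynomial.coeff m (P r s) := by
  rw [contDiff_infty]
  intro k
  induction k generalizing r with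
  | zero =>
    exact contDiff_zero.2 (continuous_iff_continuousAt.2 fun t => (h.der r t m).continuousAt)
  | succ k ih =>
    rw [Nat.cast_succ, contDiff_succ_iff_deriv]
    refine ⟨fun t => (h.der r t m).differentiableAt, by simp, ?_⟩
    rw [show deriv (fun s => MvPolynomial.coeff m (P r s)) =
      fun s => MvPolynomial.coeff m (P (r + 1) s) from funext fun t => (h.der r t m).deriv]
    exact ih (r + 1)

theorem polar_eq {x : E n} (hx : x ≠ 0) : Real.exp (Real.log ‖x‖) • (‖x‖⁻¹ • x) = x := by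
  have h := norm_pos_iff.2 hx
  rw [Real.exp_log h, smul_smul, mul_inv_cancel₀ h.ne', one_smul]

theorem norm_unit {x : E n} (hx : x ≠ 0) : ‖‖x‖⁻¹ • x‖ = 1 := by
  rw [norm_smul, norm_inv, norm_norm, inv_mul_cancel₀ (norm_ne_zero_iff.2 hx)]

theorem ne_zero_of_norm {p : E n} (hp : ‖p‖ = 1) : p ≠ 0 := by
  rintro rfl
  simp at hp

theorem lift_exp' (P : ℝ → MP n) (t : ℝ) {p : E n} (hp : ‖p‖ = 1) :
    lift P (Real.exp t • p) = ev (P t) p := by
  have h : ‖Real.exp t • p‖ = Real.exp t := by
    rw [norm_smul, hp, mul_one, Real.norm_eq_abs, abs_of_pos (Real.exp_pos t)]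
  rw [lift, h, Real.log_exp, smul_smul, inv_mul_cancel₀ (Real.exp_pos t).ne', one_smul]

theorem diffAt {f : E n → ℝ} (hf : ContDiffOn ℝ ∞ f {0}ᶜ) {x : E n} (hx : x ≠ 0) :
    DifferentiableAt ℝ f x :=
  (hf.contDiffAt (isOpen_compl_singleton.mem_nhds hx)).differentiableAt (by simp)

theorem D0_mul {f g : E n → ℝ} {p : E n} (hf : DifferentiableAt ℝ f p)
    (hg : DifferentiableAt ℝ g p) :
    D0 (fun x => f x * g x) p = D0 f p * g p + f p * D0 g p := by
  simp only [D0, fderiv_fun_mul hf hg, add_apply,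
    smul_apply, smul_eq_mul]
  ring

theorem contOn_scale {g : E n → ℝ} (hg : ContinuousOn g {0}ᶜ) (t : ℝ) :
    ContinuousOn (fun p : E n => g (Real.exp t • p)) {0}ᶜ :=
  hg.comp (continuous_const_smul _).continuousOn fun _ hp =>
    smul_ne_zero (Real.exp_pos t).ne' hp

/-- differentiation under the integral along dilations -/
theorem hasDerivAt_int {g : E n → ℝ} (hg : ContDiffOn ℝ ∞ g {0}ᶜ) (t : ℝ) :
    HasDerivAt (fun s => ∫ p, g (Real.exp s • p) ∂sph n) (∫ p, D0 g (Real.exp t • p) ∂sph n) t := by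
  have hD := (contDiffOn_D0 hg).continuousOn
  have hK : IsCompact ((fun z : ℝ × E n => Real.exp z.1 • z.2) ''
      (Metric.closedBall t 1 ×ˢ Metric.sphere (0 : E n) 1)) :=
    ((isCompact_closedBall t 1).prod (isCompact_sphere _ _)).image (by fun_prop)
  obtain ⟨C, hC⟩ := hK.exists_bound_of_continuousOn (hD.mono (by
    rintro _ ⟨z, hz, rfl⟩
    exact smul_ne_zero (Real.exp_pos _).ne' (ne_zero_of_norm (by simpa using hz.2))))
  refine (hasDerivAt_integral_of_dominated_loc_of_deriv_le (μ := sph n)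
    (F := fun s p => g (Real.exp s • p)) (F' := fun s p => D0 g (Real.exp s • p))
    (bound := fun _ => C) (Metric.ball_mem_nhds t one_pos) ?_ ?_ ?_ ?_ (integrable_const C) ?_).2
  · exact Eventually.of_forall fun s =>
      (Crest.Agent.R230.integrable_of_continuousOn (contOn_scale hg.continuousOn s)).1
  · exact Crest.Agent.R230.integrable_of_continuousOn (contOn_scale hg.continuousOn t)
  · exact (Crest.Agent.R230.integrable_of_continuousOn (contOn_scale hD t)).1
  · filter_upwards [Crest.Agent.R230.ae_norm] with p hp s hs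
    exact hC _ ⟨(s, p), ⟨Metric.ball_subset_closedBall hs, by simpa using hp⟩, rfl⟩
  · filter_upwards [Crest.Agent.R230.ae_norm] with p hp s _
    exact hasDerivAt_ray hg (ne_zero_of_norm hp) s

end TowerAux

open TowerAux

theorem Tower.contDiffOn_lift {N : ℕ} {P : ℕ → ℝ → MP n} (h : Tower N P) (r : ℕ) :
    ContDiffOn ℝ ∞ (lift (P r)) {0}ᶜ := by
  have e : lift (P r) = fun x : E n => ∑ m ∈ mons n N,
      MvPolynomial.coeff m (P r (Real.log ‖x‖)) *
        ev (MvPolynomial.monomial m (1 : ℝ)) (‖x‖⁻¹ • x) :=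
    funext fun x => lin_expand (evL (‖x‖⁻¹ • x)) (h.deg r _)
  rw [e]
  intro x hx
  have hx' : x ≠ 0 := hx
  have hn : ContDiffAt ℝ ∞ (fun y : E n => ‖y‖) x := contDiffAt_norm ℝ hx'
  have h0 : ‖x‖ ≠ 0 := norm_ne_zero_iff.2 hx'
  refine ContDiffAt.contDiffWithinAt (ContDiffAt.sum fun m _ => ContDiffAt.mul ?_ ?_)
  · exact (contDiff_coeff h r m).contDiffAt.comp x (hn.log h0)
  · exact (Crest.Agent.R230.contDiff_ev _).contDiffAt.comp x ((hn.inv h0).smul contDiffAt_id)

theorem Tower.D0_lift {N : ℕ} {P : ℕ → ℝ → MP n} (h : Tower N P) (r : ℕ) {x : E n} (hx : x ≠ 0) :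
    D0 (lift (P r)) x = lift (P (r + 1)) x := by
  have hp := norm_unit hx
  have h1 := hasDerivAt_ray (h.contDiffOn_lift r) (ne_zero_of_norm hp) (Real.log ‖x‖)
  rw [polar_eq hx] at h1
  simp only [lift_exp' _ _ hp] at h1
  exact h1.unique (hasDerivAt_lin h (evL (‖x‖⁻¹ • x)) r (Real.log ‖x‖))

theorem Tower.Lf_lift {N : ℕ} {P : ℕ → ℝ → MP n} (h : Tower N P) (r : ℕ) (i k : Fin n) {x : E n}
    (hx : x ≠ 0) : Lf i k (lift (P r)) x = lift (fun t => Lp i k (P r t)) x := by
  have hp := norm_unit hx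
  have hp0 := ne_zero_of_norm hp
  have h1 := Lf_scale i k (h.contDiffOn_lift r) (Real.exp_pos (Real.log ‖x‖)) hp0
  rw [polar_eq hx] at h1
  rw [← h1, lift, ← Lf_ev]
  refine Lf_congr_sphere i k ?_ (Crest.Agent.R230.differentiableAt_ev _ _) fun y hy => ?_
  · refine DifferentiableAt.comp (g := lift (P r)) _ ?_ (differentiableAt_fun_id.fun_const_smul _)
    rw [polar_eq hx]
    exact diffAt (h.contDiffOn_lift r) hx
  · exact lift_exp' _ _ (hy.trans hp)

theorem Tower.Lp {N : ℕ} {P : ℕ → ℝ → MP n} (h : Tower N P) (i k : Fin n) :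
    Tower N fun r t => Lp i k (P r t) := by
  exact ⟨fun r t => (totalDegree_Lp i k _).trans (h.deg r t), fun r t m =>
    hasDerivAt_lin h ((MvPolynomial.lcoeff ℝ m).comp (LpL i k)) r t⟩

theorem Tower.shift {N : ℕ} {P : ℕ → ℝ → MP n} (h : Tower N P) (s : ℕ) :
    Tower N fun r t => P (r + s) t := by
  refine ⟨fun r t => h.deg _ t, fun r t m => ?_⟩
  rw [Nat.add_right_comm]
  exact h.der _ t m

theorem Tower.pw_tower {N : ℕ} {P : ℕ → ℝ → MP n} (h : Tower N P) (w : List (Fin n × Fin n)) :
    Tower N fun r t => pw w (P r t) := by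
  induction w with
  | nil => exact h
  | cons a w ih => exact ih.Lp a.1 a.2

/-- every word applied to a lifted tower is the lift of `pw δ (P r)` -/
theorem Tower.wd_lift {N : ℕ} {P : ℕ → ℝ → MP n} (h : Tower N P)
    (w : List (Option (Fin n × Fin n))) {x : E n} (hx : x ≠ 0) :
    wd w (lift (P 0)) x =
      lift (fun t => pw (w.filterMap id) (P (w.filter Option.isNone).length t)) x := by
  induction w generalizing x with
  | nil => rfl
  | cons a w ih =>
    have hc := wd_congr [a] (fun y hy => ih (x := y) hy) x hx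
    cases a with
    | none => exact hc.trans ((h.pw_tower _).D0_lift _ hx)
    | some a => exact hc.trans ((h.pw_tower _).Lf_lift _ a.1 a.2 hx)

theorem lift_exp (P : ℝ → MP n) (t : ℝ) {p : E n} (hp : ‖p‖ = 1) :
    lift P (Real.exp t • p) = ev (P t) p := by
  exact lift_exp' P t hp

/-- derivative of a weighted pairing along two towers -/
theorem hasDerivAt_ipw {N : ℕ} {P R : ℕ → ℝ → MP n} (hP : Tower N P) (hR : Tower N R)
    {c : E n → ℝ} (hc : ContDiffOn ℝ ∞ c {0}ᶜ) (t : ℝ) :
    HasDerivAt (fun s => ipw (fun p => c (Real.exp s • p)) (P 0 s) (R 0 s))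
      (ipw (fun p => D0 c (Real.exp t • p)) (P 0 t) (R 0 t) +
        ipw (fun p => c (Real.exp t • p)) (P 1 t) (R 0 t) +
        ipw (fun p => c (Real.exp t • p)) (P 0 t) (R 1 t)) t := by
  have hg : ContDiffOn ℝ ∞ (fun x => c x * (lift (P 0) x * lift (R 0) x)) {0}ᶜ :=
    hc.mul ((hP.contDiffOn_lift 0).mul (hR.contDiffOn_lift 0))
  have h1 := hasDerivAt_int hg t
  have e1 : (fun s => ipw (fun p => c (Real.exp s • p)) (P 0 s) (R 0 s)) = fun s =>
      ∫ p, c (Real.exp s • p) * (lift (P 0) (Real.exp s • p) * lift (R 0) (Real.exp s • p))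
        ∂sph n := by
    funext s
    refine integral_congr_ae ?_
    filter_upwards [Crest.Agent.R230.ae_norm] with p hp
    rw [lift_exp _ _ hp, lift_exp _ _ hp]
  have hi : ∀ {d : E n → ℝ}, ContinuousOn d {0}ᶜ → ∀ A B : MP n,
      Integrable (fun p => d (Real.exp t • p) * (ev A p * ev B p)) (sph n) := fun hd A B =>
    Crest.Agent.R230.integrable_of_continuousOn ((contOn_scale hd t).mul
      ((Crest.Agent.R230.continuous_ev A).mul (Crest.Agent.R230.continuous_ev B)).continuousOn)
  have i1 := hi (contDiffOn_D0 hc).continuousOn (P 0 t) (R 0 t)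
  have i2 := hi hc.continuousOn (P 1 t) (R 0 t)
  have i3 := hi hc.continuousOn (P 0 t) (R 1 t)
  rw [e1]
  convert h1 using 1
  unfold ipw
  rw [← integral_add i1 i2, ← integral_add (i1.fun_add i2) i3]
  refine integral_congr_ae ?_
  filter_upwards [Crest.Agent.R230.ae_norm] with p hp
  have hx : Real.exp t • p ≠ 0 := smul_ne_zero (Real.exp_pos t).ne' (ne_zero_of_norm hp)
  have d1 := diffAt (hP.contDiffOn_lift 0) hx
  have d2 := diffAt (hR.contDiffOn_lift 0) hx
  rw [D0_mul (diffAt hc hx) (d1.fun_mul d2), D0_mul d1 d2, hP.D0_lift 0 hx, hR.D0_lift 0 hx]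
  simp only [lift_exp _ _ hp, zero_add]
  ring

/-- integration by parts -/
theorem ipw_Lp (i k : Fin n) {c : E n → ℝ} (hc : ContDiffOn ℝ ∞ c {0}ᶜ) (P R : MP n) :
    ipw c (Lp i k P) R + ipw c P (Lp i k R) + ipw (Lf i k c) P R = 0 := by
  have hg : ContDiffOn ℝ 1 (fun x => c x * (ev P x * ev R x)) {0}ᶜ :=
    (hc.of_le (by simp)).mul
      ((Crest.Agent.R230.contDiff_ev P).mul (Crest.Agent.R230.contDiff_ev R)).contDiffOn
  have hi : ∀ {d : E n → ℝ}, ContinuousOn d {0}ᶜ → ∀ A B : MP n,
      Integrable (fun p => d p * (ev A p * ev B p)) (sph n) := fun hd A B =>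
    Crest.Agent.R230.integrable_of_continuousOn (hd.mul
      ((Crest.Agent.R230.continuous_ev A).mul (Crest.Agent.R230.continuous_ev B)).continuousOn)
  have i1 := hi hc.continuousOn (Lp i k P) R
  have i2 := hi hc.continuousOn P (Lp i k R)
  have i3 := hi (contDiffOn_Lf i k hc).continuousOn P R
  rw [← integral_Lf i k hg]
  unfold ipw
  rw [← integral_add i1 i2, ← integral_add (i1.fun_add i2) i3]
  refine integral_congr_ae ?_
  filter_upwards [Crest.Agent.R230.ae_norm] with p hp
  have d1 := Crest.Agent.R230.differentiableAt_ev P p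
  have d2 := Crest.Agent.R230.differentiableAt_ev R p
  rw [Lf_mul i k (diffAt hc (ne_zero_of_norm hp)) (d1.fun_mul d2), Lf_mul i k d1 d2, Lf_ev, Lf_ev]
  ring

/-- commutators of rotation fields -/
theorem Lp_comm (i k a b : Fin n) (P : MP n) :
    Lp i k (Lp a b P) - Lp a b (Lp i k P) =
      (if k = a then Lp i b P else 0) - (if i = a then Lp k b P else 0)
        - (if k = b then Lp i a P else 0) + (if i = b then Lp k a P else 0) := by
  have e : ∀ u v : Fin n, MvPolynomial.pderiv u (MvPolynomial.X v : MP n) =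
      if u = v then 1 else 0 := by
    intro u v
    rw [MvPolynomial.pderiv_X, Pi.single_apply]
    simp only [eq_comm]
  have c : ∀ (q : Prop) [Decidable q] (A : MP n), (if q then A else 0) = (if q then 1 else 0) * A :=
    fun q _ A => by split_ifs <;> simp
  rw [c (k = a), c (i = a), c (k = b), c (i = b)]
  simp only [Lp, map_sub, MvPolynomial.pderiv_mul, e, @eq_comm _ a, @eq_comm _ b,
    Crest.Agent.R230.PolyAux.pderiv_comm a, Crest.Agent.R230.PolyAux.pderiv_comm b]
  ring

/-- the spherical Laplacian on homogeneous polynomials -/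
theorem sum_Lp_Lp {l : ℕ} {P : MP n} (hP : P.IsHomogeneous l) :
    ∑ i, ∑ k, Lp i k (Lp i k P) =
      2 * (Crest.Agent.R230.r2 n * Crest.Agent.R230.lap P -
        MvPolynomial.C ((l : ℝ) * ((l : ℝ) + n - 2)) * P) := by
  have e : ∀ u v : Fin n, MvPolynomial.pderiv u (MvPolynomial.X v : MP n) =
      if u = v then 1 else 0 := by
    intro u v
    rw [MvPolynomial.pderiv_X, Pi.single_apply]
    simp only [eq_comm]
  have h1 : ∑ i, MvPolynomial.X i * MvPolynomial.pderiv i P = MvPolynomial.C (l : ℝ) * P := by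
    rw [hP.sum_X_mul_pderiv, nsmul_eq_mul, map_natCast]
  have h2 : ∑ i, ∑ k, MvPolynomial.X i * (MvPolynomial.X k *
      MvPolynomial.pderiv i (MvPolynomial.pderiv k P)) =
      MvPolynomial.C (l : ℝ) * (MvPolynomial.C (l : ℝ) * P) - MvPolynomial.C (l : ℝ) * P := by
    have h3 : ∑ i, MvPolynomial.X i * MvPolynomial.pderiv i
        (∑ k, MvPolynomial.X k * MvPolynomial.pderiv k P) =
        MvPolynomial.C (l : ℝ) * (MvPolynomial.C (l : ℝ) * P) := by
      rw [h1]
      simp only [MvPolynomial.pderiv_C_mul]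
      rw [← h1, Finset.mul_sum]
      exact Finset.sum_congr rfl fun i _ => by ring
    rw [← h3, ← h1, ← Finset.sum_sub_distrib]
    refine Finset.sum_congr rfl fun i _ => ?_
    simp only [map_sum, MvPolynomial.pderiv_mul, e, Finset.sum_add_distrib, ite_mul, one_mul,
      zero_mul, Finset.sum_ite_eq, Finset.mem_univ, if_true, mul_add, Finset.mul_sum]
    ring
  have h4 : ∀ i k : Fin n, Lp i k (Lp i k P) =
      2 * (if i = k then MvPolynomial.X i * MvPolynomial.pderiv i P else 0)
        + MvPolynomial.X i ^ 2 * MvPolynomial.pderiv k (MvPolynomial.pderiv k P)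
        + MvPolynomial.X k ^ 2 * MvPolynomial.pderiv i (MvPolynomial.pderiv i P)
        - MvPolynomial.X i * MvPolynomial.pderiv i P - MvPolynomial.X k * MvPolynomial.pderiv k P
        - 2 * (MvPolynomial.X i * (MvPolynomial.X k *
          MvPolynomial.pderiv i (MvPolynomial.pderiv k P))) := by
    intro i k
    by_cases hik : i = k
    · subst hik
      simp only [Lp, sub_self, map_zero, mul_zero, if_true]
      ring
    · simp only [Lp, map_sub, MvPolynomial.pderiv_mul, e, hik, Ne.symm hik, if_true, if_false,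
        Crest.Agent.R230.PolyAux.pderiv_comm k i]
      ring
  have h5 : ∑ i, ∑ k, MvPolynomial.X i ^ 2 * MvPolynomial.pderiv k (MvPolynomial.pderiv k P) =
      Crest.Agent.R230.r2 n * Crest.Agent.R230.lap P := by
    rw [Crest.Agent.R230.r2, Crest.Agent.R230.lap, Finset.sum_mul_sum]
  have h6 : ∑ i, ∑ k, MvPolynomial.X k ^ 2 * MvPolynomial.pderiv i (MvPolynomial.pderiv i P) =
      Crest.Agent.R230.r2 n * Crest.Agent.R230.lap P := by
    rw [Finset.sum_comm, h5]
  simp only [h4, Finset.sum_sub_distrib, Finset.sum_add_distrib, ← Finset.mul_sum,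
    Finset.sum_ite_eq, Finset.mem_univ, if_true, Finset.sum_const, Finset.card_univ,
    Fintype.card_fin, nsmul_eq_mul, h1]
  simp only [Finset.mul_sum]
  rw [h5, h6]
  have h7 : ∑ i, MvPolynomial.X i * ((n : MP n) * MvPolynomial.pderiv i P) =
      (n : MP n) * (MvPolynomial.C (l : ℝ) * P) := by
    rw [← h1, Finset.mul_sum]
    exact Finset.sum_congr rfl fun i _ => by ring
  rw [h7]
  simp only [← Finset.mul_sum] at h2 ⊢
  rw [h2]
  simp only [map_mul, map_sub, map_add, map_natCast, map_ofNat]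
  ring

/-- a function continuous off the origin and orthogonal to all polynomials vanishes on the sphere -/
theorem eq_zero_of_orth_poly (hn : 1 ≤ n) {f : E n → ℝ} (hf : ContinuousOn f {0}ᶜ)
    (h : ∀ w : MP n, ∫ p, f p * ev w p ∂sph n = 0) {p : E n} (hp : ‖p‖ = 1) : f p = 0 := by
  have hm := Crest.Agent.R230.memLp_of_continuousOn hf 2
  have i1 : Integrable (fun p => f p ^ 2) (sph n) := hm.integrable_sq
  have h0 : ∫ p, f p ^ 2 ∂sph n ≤ 0 := by
    refine le_of_forall_pos_le_add fun ε hε => ?_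
    obtain ⟨W, hW⟩ := Crest.Agent.R230.exists_poly_approx hm hε
    have i2 : Integrable (fun p => 2 * (f p * ev W p)) (sph n) :=
      (Crest.Agent.R230.integrable_of_continuousOn
        (hf.mul (Crest.Agent.R230.continuous_ev W).continuousOn)).const_mul 2
    have i3 : Integrable (fun p => (f p - ev W p) ^ 2) (sph n) :=
      (hm.sub (Crest.Agent.R230.memLp_of_continuous (Crest.Agent.R230.continuous_ev W) 2)).integrable_sq
    have h1 : ∫ p, f p ^ 2 ∂sph n ≤ ∫ p, ((f p - ev W p) ^ 2 + 2 * (f p * ev W p)) ∂sph n :=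
      integral_mono i1 (i3.add i2) fun p => by
        have := sq_nonneg (ev W p)
        simp only
        nlinarith
    rw [integral_add i3 i2, integral_const_mul, h W] at h1
    linarith
  have h2 := (integral_eq_zero_iff_of_nonneg (fun p => sq_nonneg (f p)) i1).1
    (le_antisymm h0 (integral_nonneg fun p => sq_nonneg (f p)))
  refine Crest.Agent.R230.eq_on_sphere hf ?_ hp
  filter_upwards [h2] with p hp
  exact pow_eq_zero_iff two_ne_zero |>.1 hp

/-- a tower from a smooth curve in a finite-dimensional space -/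
theorem tower_of_smooth {W : Type} [NormedAddCommGroup W] [NormedSpace ℝ W] [FiniteDimensional ℝ W]
    (ι : W →ₗ[ℝ] MP n) {N : ℕ} (hι : ∀ u, (ι u).totalDegree ≤ N) {v : ℝ → W}
    (hv : ContDiff ℝ ∞ v) : Tower N fun r t => ι (iteratedDeriv r v t) := by
  refine ⟨fun r t => hι _, fun r t m => ?_⟩
  have h1 : HasDerivAt (iteratedDeriv r v) (iteratedDeriv (r + 1) v t) t := by
    rw [iteratedDeriv_succ]
    exact (hv.differentiable_iteratedDeriv r (by exact_mod_cast ENat.natCast_lt_top r) t).hasDerivAt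
  exact (LinearMap.toContinuousLinearMap
    ((MvPolynomial.lcoeff ℝ m).comp ι)).hasFDerivAt.comp_hasDerivAt t h1

end Crest.Agent.R202
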