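import Crest.Agent.R202.BRound
import Crest.Agent.R202.BCoef

/-!
# Row 202: limit eigenfunctions and eigenvalue differentials (definitions)
-/

set_option autoImplicit false
open scoped ContDiff RealInnerProductSpace Topology
open MeasureTheory Set Filter Module
open Crest.GeometryTopology.CoordMetric
open Crest.Agent.R230 (E MP sph ev Harm)

noncomputable section
namespace Crest.Agent.R202

/-- `R` (with derivative `P`) is the limit of the normalised radial parts of the chosen Galerkin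
eigenvectors with label `(j, s, x)` -/
structure EigLim (d : ℕ) [NeZero d] (g : RSt) (j : ℕ) (s : Bool) (x : ℕ × ℕ) (R P : ℝ → ℝ) :
    Prop where
  sol : RadSol d j x.1 g.1 g.2 (lamI d (toSt g) j x) R P
  norm : mS d (fun X => R X ^ 2) = 1
  pol : ∃ p : ℕ → Polynomial ℝ, (∀ᶠ M in UU, psi d (toSt g) j s x M = secMap d j s x.1 (p M)) ∧
    TendstoUniformlyOn (fun M X => Real.sqrt (cm s x.1) * RM j x.1 (p M) X) R UU (Ioo 0 1) ∧
    TendstoUniformlyOn (fun M X => Real.sqrt (cm s x.1) * SM j x.1 (p M) X)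
      (fun X => 2 * Real.sqrt (X * (1 - X)) * P X) UU (Ioo 0 1)

/-- symmetric directions supported in `(1/8, 1/4)` -/
def Dir : Submodule ℝ RSt where
  carrier := {f | ContDiff ℝ ∞ f.1 ∧ ContDiff ℝ ∞ f.2 ∧ ∃ Xa Xb : ℝ, 1 / 8 < Xa ∧ Xb < 1 / 4 ∧
    ∀ X, X ∉ Icc Xa Xb → f.1 X = 0 ∧ f.2 X = 0}
  add_mem' := by
    rintro f g ⟨h1, h2, a, b, ha, hb, h⟩ ⟨h1', h2', a', b', ha', hb', h'⟩
    refine ⟨h1.add h1', h2.add h2', min a a', max b b', lt_min ha ha', max_lt hb hb', fun X hX => ?_⟩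
    have e1 := h X fun hh => hX ⟨(min_le_left _ _).trans hh.1, hh.2.trans (le_max_left _ _)⟩
    have e2 := h' X fun hh => hX ⟨(min_le_right _ _).trans hh.1, hh.2.trans (le_max_right _ _)⟩
    simp [e1.1, e1.2, e2.1, e2.2]
  zero_mem' := ⟨contDiff_const, contDiff_const, 1, 0, by norm_num, by norm_num, fun _ _ => ⟨rfl, rfl⟩⟩
  smul_mem' := by
    rintro r f ⟨h1, h2, a, b, ha, hb, h⟩
    refine ⟨h1.const_smul r, h2.const_smul r, a, b, ha, hb, fun X hX => ?_⟩
    simp [(h X hX).1, (h X hX).2]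

/-- the differential of the eigenvalue with radial function `R` in the symmetric direction `f` -/
def dlam (d : ℕ) (g : RSt) (j m : ℕ) (R P : ℝ → ℝ) (f : RSt) : ℝ :=
  mS d fun X => 2 * f.1 X * Real.exp (2 * g.1 X) * (4 * X * (1 - X) * P X ^ 2) +
    2 * bet d (f.1 X) (f.2 X) * Real.exp (2 * bet d (g.1 X) (g.2 X)) * ((m : ℝ) ^ 2 * R X ^ 2 / X) +
    2 * f.2 X * Real.exp (2 * g.2 X) * (Jd d j * R X ^ 2 / (1 - X))

theorem UU_le : UU ≤ atTop := by
  rw [← Nat.cofinite_eq_atTop]; exact Filter.hyperfilter_le_cofinite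

instance : UU.NeBot := inferInstanceAs (Filter.hyperfilter ℕ : Filter ℕ).NeBot

end Crest.Agent.R202
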