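import Crest.Agent.R202.DMer
import Crest.Agent.R202.CLim

/-!
# Row 202, D2: limit eigenfunctions

Write `psi M = secMap s m (p M)`.  By `inner_sec`, `QF_sec` (`r = 0`) the vector
`u M = secMap true m (c • p M)`, `c = √(cm s m / cm true m)` (`= 1`), is a unit eigenvector in the `+` sector, hence
in `WS d j true M` (`eigF_WS`).  Take `Y` from `exists_harm_ne`, a unit `o` with `Y o ≠ 0`, and the towers
`P M r t = κ_M^r e^{κ_M t} iota Y (u M)`, `κ_M = √(λ_M + 1)`, `q = 1`; they are Galerkin solutions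
(`gal_consistent`), the coefficients are bounded (`coefBd_path` with `V = Unit`).  `reg_lim` gives `V`;
at `t = 0` the identities `D0 D0 = κ²`, `sec_angular` pass to the limit (`Tower.wd_lift`), so
`merid_ode` applies to `R X = √cm V (merid o X)/Y o`.  Uniform convergence on the sphere gives the
convergence of `RM`, `SM` (`ev_merid`), the bounds, the normalisation (`inner_sec`) and the boundary
behaviour at `X → 1` (each `SM` resp. `RM` tends to `0`).
-/

set_option autoImplicit false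
open scoped ContDiff RealInnerProductSpace Topology
open MeasureTheory Set Filter Module
open Crest.GeometryTopology.CoordMetric
open Crest.Agent.R230 (E MP sph ev Harm)

noncomputable section
namespace Crest.Agent.R202

variable {d j : ℕ} [NeZero d]

namespace DLimAux

theorem tu_const {ι X : Type*} (g : X → ℝ) (l : Filter ι) (s : Set X) :
    TendstoUniformlyOn (fun _ : ι => g) g l s :=
  fun _ hu => Eventually.of_forall fun _ _ _ => refl_mem_uniformity hu

theorem tu_cmul {ι X : Type*} {F : ι → X → ℝ} {f : X → ℝ} {l : Filter ι} {s : Set X}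
    (h : TendstoUniformlyOn F f l s) (c : ℝ) :
    TendstoUniformlyOn (fun M x => c * F M x) (fun x => c * f x) l s :=
  (Real.uniformContinuous_const_mul (x := c)).comp_tendstoUniformlyOn h

theorem tu_sum {ι X A : Type*} (T : Finset A) {F : A → ι → X → ℝ} {g : A → X → ℝ} {l : Filter ι}
    {s : Set X} (h : ∀ e ∈ T, TendstoUniformlyOn (F e) (g e) l s) :
    TendstoUniformlyOn (fun M x => ∑ e ∈ T, F e M x) (fun x => ∑ e ∈ T, g e x) l s := by
  classical
  induction T using Finset.induction_on with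
  | empty => simpa using tu_const (fun _ : X => (0 : ℝ)) l s
  | insert a T ha ih =>
    simp only [Finset.sum_insert ha]
    exact (h a (Finset.mem_insert_self _ _)).add (ih fun e he => h e (Finset.mem_insert_of_mem he))

theorem tu_mul {ι X : Type*} {F G : ι → X → ℝ} {f g : X → ℝ} {l : Filter ι} {s : Set X}
    (hF : TendstoUniformlyOn F f l s) (hG : TendstoUniformlyOn G g l s) {B C : ℝ}
    (hf : ∀ x ∈ s, |f x| ≤ B) (hg : ∀ x ∈ s, |g x| ≤ C) :
    TendstoUniformlyOn (fun M x => F M x * G M x) (fun x => f x * g x) l s := by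
  rw [Metric.tendstoUniformlyOn_iff] at hF hG ⊢
  intro ε hε
  set K := |B| + |C| + 2 with hK
  have hK0 : 0 < K := by positivity
  have hδ : 0 < min 1 (ε / K) := lt_min one_pos (by positivity)
  filter_upwards [hF _ hδ, hG _ hδ] with M h1 h2 x hx
  have a1 := h1 x hx
  have a2 := h2 x hx
  rw [Real.dist_eq] at a1 a2 ⊢
  set δ := min 1 (ε / K) with hδ'
  have hδ1 : δ ≤ 1 := min_le_left _ _
  have hδ2 : δ * K ≤ ε := by rw [← le_div_iff₀ hK0]; exact min_le_right _ _
  have b1 := (hf x hx).trans (le_abs_self B)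
  have b2 := (hg x hx).trans (le_abs_self C)
  have e : f x * g x - F M x * G M x =
      f x * (g x - G M x) + (f x - F M x) * g x - (f x - F M x) * (g x - G M x) := by ring
  have c1 : |f x * (g x - G M x)| ≤ |B| * δ := by
    rw [abs_mul]; exact mul_le_mul b1 a2.le (abs_nonneg _) (abs_nonneg _)
  have c2 : |(f x - F M x) * g x| ≤ δ * |C| := by
    rw [abs_mul]; exact mul_le_mul a1.le b2 (abs_nonneg _) hδ.le
  have c3 : |(f x - F M x) * (g x - G M x)| ≤ δ * 1 := by
    rw [abs_mul]; exact mul_le_mul a1.le (a2.le.trans hδ1) (abs_nonneg _) hδ.le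
  rw [e]
  have c4 := abs_sub (f x * (g x - G M x) + (f x - F M x) * g x) ((f x - F M x) * (g x - G M x))
  have c5 := abs_add_le (f x * (g x - G M x)) ((f x - F M x) * g x)
  nlinarith

theorem integrable_mS {F : ℝ → ℝ} (hF : ContinuousOn F (Ioo 0 1)) {C : ℝ}
    (hb : ∀ X ∈ Ioo (0 : ℝ) 1, |F X| ≤ C) :
    Integrable (fun p : E (d + 2) => F (XX (zOf p))) (sph (d + 2)) := by
  classical
  have := R230.sph_prob (n := d + 2) (by omega)
  have hm : Measurable ((Ioo (0 : ℝ) 1).piecewise F fun _ => 0) :=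
    hF.measurable_piecewise continuousOn_const measurableSet_Ioo
  have hm' := hm.comp (continuous_XX.comp (continuous_zOf d)).measurable
  have he : (fun p : E (d + 2) => F (XX (zOf p))) =ᵐ[sph (d + 2)]
      ((Ioo (0 : ℝ) 1).piecewise F fun _ => 0) ∘ XX ∘ zOf := by
    filter_upwards [ae_XX (d := d)] with p hp
    exact (piecewise_eq_of_mem (Ioo (0 : ℝ) 1) F (fun _ => 0) (i := XX (zOf p)) hp).symm
  refine Integrable.of_bound (hm'.aestronglyMeasurable.congr he.symm) C ?_
  filter_upwards [ae_XX (d := d)] with p hp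
  exact hb _ hp

theorem mS_tendsto {ι : Type*} {l : Filter ι} {F : ι → ℝ → ℝ} {f : ℝ → ℝ}
    (h : TendstoUniformlyOn F f l (Ioo 0 1)) (hF : ∀ M, ContinuousOn (F M) (Ioo 0 1))
    (hf : ContinuousOn f (Ioo 0 1)) {C : ℝ} (hb : ∀ X ∈ Ioo (0 : ℝ) 1, |f X| ≤ C) :
    Tendsto (fun M => mS d (F M)) l (𝓝 (mS d f)) := by
  have := R230.sph_prob (n := d + 2) (by omega)
  have i0 := integrable_mS (d := d) hf hb
  rw [Metric.tendsto_nhds]
  intro ε hε
  filter_upwards [Metric.tendstoUniformlyOn_iff.1 h (ε / 2) (by positivity)] with M hM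
  have i1 := integrable_mS (d := d) (hF M) (C := C + ε / 2) fun X hX => by
    have h1 := hM X hX
    have h2 := hb X hX
    rw [Real.dist_eq, abs_lt] at h1
    rw [abs_le] at h2 ⊢
    constructor <;> linarith [h1.1, h1.2, h2.1, h2.2]
  rw [dist_eq_norm, mS, mS, ← integral_sub i1 i0]
  refine (norm_integral_le_of_norm_le_const (C := ε / 2) ?_).trans_lt ?_
  · filter_upwards [ae_XX (d := d)] with p hp
    have := hM _ hp
    rw [dist_comm, dist_eq_norm] at this
    exact this.le
  · simp only [probReal_univ]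
    linarith

theorem tendsto_zero_of_unif {ι : Type*} {l : Filter ι} [l.NeBot] {F : ι → ℝ → ℝ} {f : ℝ → ℝ}
    (h : TendstoUniformlyOn F f l (Ioo 0 1)) (hF : ∀ M, Tendsto (F M) (𝓝[<] 1) (𝓝 0)) :
    Tendsto f (𝓝[<] 1) (𝓝 0) := by
  rw [Metric.tendsto_nhds]
  intro ε hε
  obtain ⟨M, hM⟩ := (Metric.tendstoUniformlyOn_iff.1 h (ε / 2) (by positivity)).exists
  filter_upwards [Metric.tendsto_nhds.1 (hF M) (ε / 2) (by positivity),
    Ioo_mem_nhdsLT (zero_lt_one' ℝ)] with X h1 h2
  linarith [dist_triangle (f X) (F M X) 0, hM X h2]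

omit [NeZero d] in
theorem mS_const_mul (c : ℝ) (f : ℝ → ℝ) : mS d (fun X => c * f X) = c * mS d f := by
  simp only [mS, integral_const_mul]

theorem contOn_SM (j m : ℕ) (p : Polynomial ℝ) : ContinuousOn (SM j m p) (Ioo 0 1) := by
  obtain ⟨g, hg, e⟩ := BSecAux.exists_SM j m p
  exact hg.continuousOn.congr e

theorem cm_eq (s : Bool) (m : ℕ) :
    (eav 0 (Nat.dist m m) + sgn s * eav 0 (m + m)) / 2 = cm s m := by
  rw [Nat.dist_self, cm]
  simp [eav]

theorem inner_same (s : Bool) (m : ℕ) (p p' : Polynomial ℝ) :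
    ⟪secMap d j s m p, secMap d j s m p'⟫ = mS d fun X =>
      (Real.sqrt (cm s m) * RM j m p X) * (Real.sqrt (cm s m) * RM j m p' X) := by
  have h0 : 0 ≤ cm s m := by
    cases s <;> simp only [cm, sgn, eav] <;> split_ifs <;> simp_all
  rw [inner_sec, cm_eq, ← mS_const_mul]
  congr 1
  funext X
  rw [mul_mul_mul_comm, Real.mul_self_sqrt h0]

theorem ev_atTop (a : ℕ) : ∀ᶠ M in UU, a ≤ M := UU_le (eventually_ge_atTop a)

/-- the facts about a limit which are used below -/
theorem lim_data {g : RSt} {s : Bool} {x : ℕ × ℕ} {R P : ℝ → ℝ} (h : EigLim d g j s x R P) :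
    ∃ (p : ℕ → Polynomial ℝ) (B : ℝ), (∀ᶠ M in UU, psi d (toSt g) j s x M = secMap d j s x.1 (p M)) ∧
      TendstoUniformlyOn (fun M X => Real.sqrt (cm s x.1) * RM j x.1 (p M) X) R UU (Ioo 0 1) ∧
      TendstoUniformlyOn (fun M X => Real.sqrt (cm s x.1) * SM j x.1 (p M) X)
        (fun X => 2 * Real.sqrt (X * (1 - X)) * P X) UU (Ioo 0 1) ∧
      ContinuousOn R (Ioo 0 1) ∧
      ContinuousOn (fun X => 2 * Real.sqrt (X * (1 - X)) * P X) (Ioo 0 1) ∧
      (∀ X ∈ Ioo (0 : ℝ) 1, |R X| ≤ B) ∧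
      ∀ X ∈ Ioo (0 : ℝ) 1, |2 * Real.sqrt (X * (1 - X)) * P X| ≤ 2 * B := by
  obtain ⟨p, h1, h2, h3⟩ := h.pol
  obtain ⟨B, hB⟩ := h.sol.bd
  refine ⟨p, B, h1, h2, h3, fun X hX => (h.sol.d1 X hX).continuousAt.continuousWithinAt,
    h3.continuousOn (Eventually.of_forall fun M =>
      continuousOn_const.mul (contOn_SM j x.1 (p M))).frequently, fun X hX => (hB X hX).1,
    fun X hX => ?_⟩
  rw [abs_mul, abs_mul, abs_of_nonneg (Real.sqrt_nonneg _), abs_two, mul_assoc]
  linarith [(hB X hX).2]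

theorem bdd_of_supp {a : ℝ → ℝ} (ha : ContinuousOn a (Ioo 0 1)) {Xa Xb : ℝ} (h0 : 0 < Xa)
    (h1 : Xb < 1) (hs : ∀ X, X ∉ Icc Xa Xb → a X = 0) : ∃ C, ∀ X ∈ Ioo (0 : ℝ) 1, |a X| ≤ C := by
  obtain ⟨C, hC⟩ := (isCompact_Icc (a := Xa) (b := Xb)).exists_bound_of_continuousOn
    (ha.mono fun X hX => ⟨h0.trans_le hX.1, hX.2.trans_lt h1⟩)
  refine ⟨|C|, fun X _ => ?_⟩
  by_cases hX : X ∈ Icc Xa Xb
  · exact (hC X hX).trans (le_abs_self C)
  · rw [hs X hX, abs_zero]; exact abs_nonneg C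

theorem abs_mul_le {a b A B : ℝ} (ha : |a| ≤ A) (hb : |b| ≤ B) : |a * b| ≤ A * B := by
  rw [abs_mul]
  exact mul_le_mul ha hb (abs_nonneg _) ((abs_nonneg _).trans ha)

/-- the eigenvector transported to the even sector -/
theorem even_eig {g : RSt} (hg : RAdm d g) {s : Bool} {x : ℕ × ℕ} (hx : okS s x.1) {M : ℕ}
    (hM : x.1 + 2 * x.2 + 2 ≤ M) {p : Polynomial ℝ}
    (hp : psi d (toSt g) j s x M = secMap d j s x.1 p) :
    ⟪secMap d j true x.1 p, secMap d j true x.1 p⟫ = 1 ∧
      EigF (QG d j (toSt g)) (WS d j true M) (secMap d j true x.1 p) (lamM d (toSt g) j x M) := by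
  obtain ⟨h1, h2, -⟩ := psi_spec (j := j) hg hx hM
  rw [hp] at h1 h2
  have h3 : ⟪secMap d j s x.1 p, secMap d j s x.1 p⟫ = 1 := by
    rw [real_inner_self_eq_norm_sq, h1, one_pow]
  cases s
  swap
  · exact ⟨h3, h2⟩
  have hm : x.1 ≠ 0 := by have := hx.resolve_left (by simp); omega
  have he : eav 0 (x.1 + x.1) = 0 := if_neg (by omega)
  have hi : ∀ p', ⟪secMap d j true x.1 p, secMap d j true x.1 p'⟫ =
      ⟪secMap d j false x.1 p, secMap d j false x.1 p'⟫ := fun p' => by
    rw [inner_sec, inner_sec, he, mul_zero, mul_zero]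
  refine ⟨(hi p).trans h3, eigF_WS hg (m := x.1) ⟨?_, ?_⟩⟩
  · exact BSecAux.sec_mem hm ((BSecAux.deg_sec (Or.inl rfl) hx p).trans_le (mem_WS.1 h2.1).1)
  · rintro _ ⟨hw, p', rfl⟩
    have hw' : secMap d j false x.1 p' ∈ Sec d j false x.1 M :=
      BSecAux.sec_mem hm ((BSecAux.deg_sec hx (Or.inl rfl) p').trans_le (mem_WS.1 hw).1)
    rw [hi, ← h2.2 _ hw'.1, BSecAux.QG_sec hg, BSecAux.QG_sec hg, he, mul_zero, mul_zero]

omit [NeZero d] in
theorem exists_pole {Y : MP d} (hY1 : ∫ o, ev (Y * Y) o ∂sph d = 1) :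
    ∃ o : E d, ‖o‖ = 1 ∧ ev Y o ≠ 0 := by
  by_contra hc
  push Not at hc
  have : ∫ o, ev (Y * Y) o ∂sph d = ∫ _o, (0 : ℝ) ∂sph d := by
    refine integral_congr_ae ?_
    filter_upwards [R230.ae_norm (n := d)] with o ho
    rw [R230.ev_mul, hc o ho, mul_zero]
  rw [hY1, integral_zero] at this
  exact one_ne_zero this

theorem QS_atT (G : St) (t : ℝ) (Q w : MP (d + 2)) :
    QS (atT (cT d fun _ => G) t) Q w = QS (cf d G) Q w := by
  unfold QS ipw
  congr 1
  refine Finset.sum_congr rfl fun i _ => Finset.sum_congr rfl fun k _ => integral_congr_ae ?_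
  filter_upwards [R230.ae_norm (n := d + 2)] with p hp
  rw [atT_cT _ _ _ _ hp]

/-- the exponential solution attached to an eigenvector -/
theorem gal_exp {G : St} (hG : Adm d G) {Y : MP d} (hY : Y ∈ Harm d j)
    (hY1 : ∫ o, ev (Y * Y) o ∂sph d = 1) {M : ℕ} {u : RP d j} {lam κ : ℝ}
    (hu : EigF (QG d j G) (WS d j true M) u lam) (hκ : κ ^ 2 = lam + 1) :
    Gal (M + j) (cT d fun _ => G) (fun _ => 1)
      fun r t => (κ ^ r * Real.exp (κ * t)) • iota Y (toP d j u) := by
  refine ⟨⟨fun r t => ?_, fun r t m => ?_⟩, fun t w hw => ?_⟩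
  · exact (MvPolynomial.totalDegree_smul_le _ _).trans ((totalDegree_iota hY _).trans
      (Nat.add_le_add_right (mem_WS.1 hu.1).1 j))
  · simp only [MvPolynomial.coeff_smul, smul_eq_mul]
    have h1 : HasDerivAt (fun s => Real.exp (κ * s)) (Real.exp (κ * t) * κ) t := by
      simpa using ((hasDerivAt_id t).const_mul κ).exp
    exact ((h1.const_mul (κ ^ r)).mul_const
      (MvPolynomial.coeff m (iota Y (toP d j u)))).congr_deriv (by ring)
  · rw [QS_atT]
    have := gal_consistent hG hY hY1 (s := true) (M := M)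
      (u := (κ ^ 0 * Real.exp (κ * t)) • u) (u₂ := (κ ^ 2 * Real.exp (κ * t)) • u)
      (Submodule.smul_mem _ _ hu.1) (Submodule.smul_mem _ _ hu.1) (q := 1) (fun w hw => by
        rw [map_smul, LinearMap.smul_apply, real_inner_smul_left, real_inner_smul_left,
          hu.2 w hw, hκ, smul_eq_mul]
        ring) w hw
    simpa only [map_smul] using this

theorem coef_static {ε γ₀ : ℝ} (hε : ε ≤ epsU d) (hγ : γ₀ ≤ ε) {G : St} (hs : Small d ε γ₀ G) :
    ∃ Bd, CoefBd (cT d fun _ => G) (fun _ => 1) (1 / 2) Bd := by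
  obtain ⟨Bd, h⟩ := coefBd_path (V := Unit) (F := fun _ => G) (fun _ => hs.adm) (fun _ => 1)
    fun _ => 1
  have e : comb (V := Unit) (fun _ => G) (fun _ => 1) = G := by simp [comb]
  have := h (fun _ _ => 1) (fun _ => 1) contDiff_const contDiff_const (fun r t => by
      rw [iteratedDeriv_const]
      split_ifs
      · exact (pi_norm_const_le _).trans (by simp)
      · simp) (fun r t => by
      rw [iteratedDeriv_const]
      split_ifs <;> simp) (fun t z => by
      rw [e]
      exact ⟨(hs.abs_le z).1.trans hε, (hs.abs_le z).2.trans (hγ.trans hε)⟩)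
  simp only [e] at this
  exact ⟨Bd, this⟩

/-- the limit on the sphere -/
theorem exists_V {ε γ₀ : ℝ} (hε : ε ≤ epsU d) (hγ : γ₀ ≤ ε) {G : St} (hs : Small d ε γ₀ G)
    {Y : MP d} (hY : Y ∈ Harm d j) (hY1 : ∫ o, ev (Y * Y) o ∂sph d = 1) {u : ℕ → RP d j}
    {lam : ℕ → ℝ} {lam₀ : ℝ} (hlam : Tendsto lam UU (𝓝 lam₀))
    (hu : ∀ᶠ M in UU, ⟪u M, u M⟫ = 1 ∧ EigF (QG d j G) (WS d j true M) (u M) (lam M)) :
    ∃ V : E (d + 2) → ℝ, ContDiffOn ℝ ∞ V {0}ᶜ ∧
      (∀ w : List (Fin (d + 2) × Fin (d + 2)), TendstoUniformlyOn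
        (fun M => ev (pw w (iota Y (toP d j (u M))))) (wd (w.map some) V) UU (Metric.sphere 0 1)) ∧
      ∀ p : E (d + 2), ‖p‖ = 1 → (1 / 2) * ∑ i, ∑ k,
        Lf i k (fun z => cT d (fun _ => G) i k z * Lf i k V z) p = -lam₀ * V p := by
  obtain ⟨Bd, hBd⟩ := coef_static hε hγ hs
  set κ : ℕ → ℝ := fun M => Real.sqrt (lam M + 1) with hκ
  have hpos : ∀ᶠ M in UU, 0 ≤ lam M := hu.mono fun M hM => by
    have h1 := hM.2.2 _ hM.2.1
    rw [hM.1, mul_one] at h1
    exact h1 ▸ QG_nonneg hs.adm (u M)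
  have hsq : ∀ᶠ M in UU, κ M ^ 2 = lam M + 1 := hpos.mono fun M hM =>
    Real.sq_sqrt (by linarith)
  have hκt : Tendsto κ UU (𝓝 (Real.sqrt (lam₀ + 1))) := (hlam.add_const 1).sqrt
  set K := Real.sqrt (lam₀ + 1) + 1 with hK
  have hK0 : 0 ≤ K := by positivity
  have hκK : ∀ᶠ M in UU, κ M ≤ K := hκt.eventually (eventually_le_nhds (by linarith))
  set P : ℕ → ℕ → ℝ → MP (d + 2) := fun M r t =>
    (κ M ^ r * Real.exp (κ M * t)) • iota Y (toP d j (u M)) with hP
  have hGal : ∀ᶠ M in UU, Gal (M + j) (cT d fun _ => G) (fun _ => 1) (P M) := by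
    filter_upwards [hu, hsq] with M h1 h2 using gal_exp hs.adm hY hY1 h1.2 h2
  obtain ⟨V, hV, hconv, hpde, -⟩ := reg_lim (n := d + 2) (by omega) (Filter.hyperfilter ℕ)
    (c₀ := 1 / 2) (by norm_num) Bd (fun M => M + j) ((tendsto_add_atTop_nat j).mono_left UU_le)
    (fun _ => cT d fun _ => G) (cT d fun _ => G) (fun _ => 1) P hBd.smooth
    (fun i k t => tu_const _ _ _) (hGal.mono fun M hM => ⟨hBd, hM⟩)
    (fun t => Real.exp (K * max t 0)) (fun t => (Real.exp_pos _).le)
    (fun a b hab => Real.exp_le_exp.2 (mul_le_mul_of_nonneg_left (max_le_max_right 0 hab) hK0))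
    (fun T => by
      filter_upwards [show ∀ᶠ M in UU, _ from hu, show ∀ᶠ M in UU, _ from hκK] with M h1 h2 t _
      have e : P M 0 t = iota Y (toP d j (Real.exp (κ M * t) • u M)) := by
        simp only [hP, pow_zero, one_mul, map_smul]
      rw [e, ipw_iota hY hY, if_pos rfl, hY1, one_mul, ← inner_RP, real_inner_smul_left,
        real_inner_smul_right, h1.1, mul_one, ← sq]
      refine pow_le_pow_left₀ (Real.exp_pos _).le (Real.exp_le_exp.2 ?_) 2
      have h0 : 0 ≤ κ M := Real.sqrt_nonneg _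
      exact (mul_le_mul_of_nonneg_left (le_max_left t 0) h0).trans
        (mul_le_mul_of_nonneg_right h2 (le_max_right t 0)))
  have hev : ∀ w : List (Option (Fin (d + 2) × Fin (d + 2))), TendstoUniformlyOn
      (fun M => ev (pw (w.filterMap id) (P M (w.filter Option.isNone).length 0)))
      (wd w V) UU (Metric.sphere 0 1) := by
    intro w
    have h0 := hconv w 0
    simp only [Real.exp_zero, one_smul] at h0
    refine TendstoUniformlyOn.congr h0 (hGal.mono fun M hM p hp => ?_)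
    have hp1 : ‖p‖ = 1 := by simpa using hp
    have h1 := lift_exp (fun t => pw (w.filterMap id) (P M (w.filter Option.isNone).length t)) 0 hp1
    rw [Real.exp_zero, one_smul] at h1
    exact (hM.tower.wd_lift w (CLimAux.sph_sub hp)).trans h1
  have hw : ∀ w : List (Fin (d + 2) × Fin (d + 2)), TendstoUniformlyOn
      (fun M => ev (pw w (iota Y (toP d j (u M))))) (wd (w.map some) V) UU (Metric.sphere 0 1) := by
    intro w
    have h0 := hev (w.map some)
    have e1 : (w.map some).filterMap id = w := by simp [List.filterMap_map]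
    have e2 : ((w.map some).filter Option.isNone).length = 0 := by
      simp [List.filter_map]
    simpa only [e1, e2, hP, pow_zero, mul_zero, Real.exp_zero, mul_one, one_smul] using h0
  refine ⟨V, hV, hw, fun p hp => ?_⟩
  have hp' : p ∈ Metric.sphere (0 : E (d + 2)) 1 := by simpa using hp
  have h0 : Tendsto (fun M => ev (iota Y (toP d j (u M))) p) UU (𝓝 (V p)) := (hw []).tendsto_at hp'
  have h2 : Tendsto (fun M => ev (P M 2 0) p) UU (𝓝 (D0 (D0 V) p)) :=
    (hev [none, none]).tendsto_at hp'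
  have h3 : D0 (D0 V) p = (lam₀ + 1) * V p := by
    refine tendsto_nhds_unique h2 (((hlam.add_const 1).mul h0).congr' ?_)
    filter_upwards [hsq] with M hM
    simp only [hP, mul_zero, Real.exp_zero, mul_one, R230.ev_smul, hM]
  have h4 := hpde p (CLimAux.sph_sub hp')
  rw [h3] at h4
  linarith

end DLimAux

open DLimAux

theorem eig_limit (hj : okJ d j) {ε γ₀ : ℝ} (hε : ε ≤ epsU d) (hγ : γ₀ ≤ ε) {g : RSt}
    (hg : RAdm d g) (hs : Small d ε γ₀ (toSt g)) {s : Bool} {x : ℕ × ℕ} (hx : okS s x.1) :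
    ∃ R P, EigLim d g j s x R P := by
  choose p hp using fun M => (psi_mem_Sec d (toSt g) j s x M).2
  obtain ⟨Y, hY, hY1⟩ := exists_harm_ne hj
  obtain ⟨o, ho, hYo⟩ := exists_pole hY1
  obtain ⟨V, hV, hw, h3⟩ := exists_V hε hγ hs hY hY1 (u := fun M => secMap d j true x.1 (p M))
    ((lamM_tendsto hs.adm x).mono_left UU_le)
    ((ev_atTop _).mono fun M hM => even_eig hg hx hM (hp M).symm)
  set Q : ℕ → MP (d + 2) := fun M => iota Y (toP d j (secMap d j true x.1 (p M))) with hQ
  have h0 : TendstoUniformlyOn (fun M => ev (Q M)) V UU (Metric.sphere 0 1) := hw []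
  have hL : ∀ i k, TendstoUniformlyOn (fun M => ev (Lp i k (Q M))) (Lf i k V) UU
      (Metric.sphere 0 1) := fun i k => hw [(i, k)]
  have hLL : ∀ i k, TendstoUniformlyOn (fun M => ev (Lp i k (Lp i k (Q M)))) (Lf i k (Lf i k V)) UU
      (Metric.sphere 0 1) := fun i k => hw [(i, k), (i, k)]
  have h1 : ∀ q : E (d + 2), ‖q‖ = 1 →
      Lf (zI d 0) (zI d 1) (Lf (zI d 0) (zI d 1) V) q = -((x.1 : ℝ) ^ 2) * V q := by
    intro q hq
    have hq' : q ∈ Metric.sphere (0 : E (d + 2)) 1 := by simpa using hq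
    refine tendsto_nhds_unique ((hLL _ _).tendsto_at hq')
      (((h0.tendsto_at hq').const_mul _).congr fun M => ?_)
    rw [hQ, (sec_angular hY x.1 (p M)).1, R230.ev_smul]
  have h2 : ∀ q : E (d + 2), ‖q‖ = 1 →
      ∑ a, ∑ b, Lf (yI d a) (yI d b) (Lf (yI d a) (yI d b) V) q = -(2 * Jd d j) * V q := by
    intro q hq
    have hq' : q ∈ Metric.sphere (0 : E (d + 2)) 1 := by simpa using hq
    refine tendsto_nhds_unique (tendsto_finsetSum _ fun a _ => tendsto_finsetSum _ fun b _ =>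
      (hLL _ _).tendsto_at hq') (((h0.tendsto_at hq').const_mul _).congr fun M => ?_)
    rw [← R230.ev_smul, hQ, ← (sec_angular hY x.1 (p M)).2]
    simp only [R230.ev_sum]
  have hD : TendstoUniformlyOn (fun M => merD o (ev (Q M))) (merD o V) UU (Metric.sphere 0 1) := by
    have := tu_cmul (tu_sum Finset.univ fun a _ => tu_cmul (hL (zI d 0) (yI d a)) (o a)) (-1)
    simp only [neg_one_mul] at this
    refine (this.congr (Eventually.of_forall fun M q _ => ?_)).congr_right fun q _ => rfl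
    simp only [merD, Lf_ev]
  have hmer : ∀ X ∈ Ioo (0 : ℝ) 1, merid o X ∈ Metric.sphere (0 : E (d + 2)) 1 := fun X hX => by
    simpa using norm_merid ho hX
  set c := Real.sqrt (cm s x.1) / ev Y o with hc
  have hsq : ∀ X ∈ Ioo (0 : ℝ) 1, 0 < Real.sqrt (X * (1 - X)) := fun X hX =>
    Real.sqrt_pos.2 (mul_pos hX.1 (sub_pos.2 hX.2))
  have cR : TendstoUniformlyOn (fun M X => Real.sqrt (cm s x.1) * RM j x.1 (p M) X)
      (fun X => c * V (merid o X)) UU (Ioo 0 1) := by
    refine (tu_cmul ((h0.comp (merid o)).mono hmer) c).congr (Eventually.of_forall fun M X hX => ?_)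
    simp only [Function.comp_apply, hQ, (ev_merid hY ho x.1 (p M) hX).1, hc]
    field_simp
  have cS : TendstoUniformlyOn (fun M X => Real.sqrt (cm s x.1) * SM j x.1 (p M) X)
      (fun X => 2 * Real.sqrt (X * (1 - X)) *
        (c * (merD o V (merid o X) / (2 * Real.sqrt (X * (1 - X)))))) UU (Ioo 0 1) := by
    refine ((tu_cmul ((hD.comp (merid o)).mono hmer) c).congr
      (Eventually.of_forall fun M X hX => ?_)).congr_right fun X hX => ?_
    · simp only [Function.comp_apply, hQ, (ev_merid hY ho x.1 (p M) hX).2, hc]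
      field_simp
    · have := (hsq X hX).ne'
      simp only [Function.comp_apply]
      field_simp
  obtain ⟨B₁, hB₁⟩ := (isCompact_sphere (0 : E (d + 2)) 1).exists_bound_of_continuousOn
    (hV.continuousOn.mono CLimAux.sph_sub)
  obtain ⟨B₂, hB₂⟩ := (isCompact_sphere (0 : E (d + 2)) 1).exists_bound_of_continuousOn
    (f := merD o V) ((continuousOn_finsetSum Finset.univ fun a _ => continuousOn_const.mul
      (contDiffOn_Lf (zI d 0) (yI d a) hV).continuousOn).neg.mono CLimAux.sph_sub)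
  have bR : ∀ X ∈ Ioo (0 : ℝ) 1, |c * V (merid o X)| ≤ |c| * B₁ := fun X hX =>
    abs_mul_le le_rfl (hB₁ _ (hmer X hX))
  have d1 : ∀ X ∈ Ioo (0 : ℝ) 1, HasDerivAt (fun X => c * V (merid o X))
      (c * (merD o V (merid o X) / (2 * Real.sqrt (X * (1 - X))))) X := fun X hX =>
    (hasDerivAt_merid ho hV hX).const_mul c
  have cont : ContinuousOn (fun X => c * V (merid o X)) (Ioo 0 1) := fun X hX =>
    (d1 X hX).continuousAt.continuousWithinAt
  have hnorm : mS d (fun X => (c * V (merid o X)) ^ 2) = 1 := by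
    have hc' := fun M => (continuous_const (y := Real.sqrt (cm s x.1))).mul
      (BSecAux.continuous_RM j x.1 (p M))
    have t1 := mS_tendsto (d := d) (tu_mul cR cR bR bR)
      (fun M => ((hc' M).mul (hc' M)).continuousOn) (cont.mul cont)
      fun X hX => abs_mul_le (bR X hX) (bR X hX)
    simp only [sq]
    refine tendsto_nhds_unique t1 (tendsto_const_nhds.congr' ?_)
    filter_upwards [ev_atTop (x.1 + 2 * x.2 + 2)] with M hM
    rw [← inner_same, hp M, real_inner_self_eq_norm_sq, (psi_spec hg hx hM).1, one_pow]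
  refine ⟨fun X => c * V (merid o X),
    fun X => c * (merD o V (merid o X) / (2 * Real.sqrt (X * (1 - X)))),
    ⟨d1, fun X hX => ?_, ⟨|c| * B₁ + |c| * B₂, fun X hX => ?_⟩, ?_, fun hj0 => ?_, fun hj0 => ?_⟩,
    hnorm, p, Eventually.of_forall fun M => (hp M).symm, cR, cS⟩
  · exact (((merid_ode hg ho hV h1 h2 h3 hX).const_mul c).congr_deriv (by ring)).congr_of_eventuallyEq
      (Eventually.of_forall fun X => by ring)
  · have b2 : |c * merD o V (merid o X)| ≤ |c| * B₂ := abs_mul_le le_rfl (hB₂ _ (hmer X hX))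
    have n1 := (abs_nonneg _).trans (bR X hX)
    have n2 := (abs_nonneg _).trans b2
    refine ⟨by linarith [bR X hX], ?_⟩
    have h := hsq X hX
    have e : Real.sqrt (X * (1 - X)) *
        |c * (merD o V (merid o X) / (2 * Real.sqrt (X * (1 - X))))| =
          |c * merD o V (merid o X)| / 2 := by
      rw [← mul_div_assoc, abs_div, abs_of_pos (mul_pos two_pos h)]
      field_simp
    rw [e]
    linarith
  · by_contra hc0
    push Not at hc0
    rw [mS_congr (g := fun _ => 0) fun X hX => by rw [hc0 X hX]; simp] at hnorm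
    simp [mS] at hnorm
  · have t1 := tendsto_zero_of_unif cS fun M => by
      have hp1 := (p M).continuous
      have hp2 := (p M).derivative.continuous
      have hcont : Continuous fun X : ℝ => Real.sqrt (cm s x.1) *
          (x.1 * Real.sqrt X ^ (x.1 - 1) * Real.sqrt (1 - X) ^ (j + 1) * (p M).eval X +
            2 * Real.sqrt X ^ (x.1 + 1) * Real.sqrt (1 - X) ^ (j + 1) * (p M).derivative.eval X -
            Real.sqrt X ^ (x.1 + 1) * (j * Real.sqrt (1 - X) ^ (j - 1)) * (p M).eval X) := by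
        fun_prop
      have := (hcont.tendsto 1).mono_left (nhdsWithin_le_nhds (s := Iio 1))
      simp only [hj0, sub_self, Real.sqrt_zero, zero_add, pow_one, mul_zero, zero_mul,
        Nat.cast_zero, add_zero] at this
      refine this.congr' ?_
      filter_upwards [Ioo_mem_nhdsLT (zero_lt_one' ℝ)] with X hX
      rw [BSecAux.SM_eq j x.1 (p M) hX]
      simp only [hj0, zero_add, pow_one, mul_zero, zero_mul, Nat.cast_zero]
    have t2 : Tendsto (fun X : ℝ => 2 * Real.sqrt X) (𝓝[<] 1) (𝓝 (2 * Real.sqrt 1)) :=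
      ((Real.continuous_sqrt.tendsto 1).const_mul 2).mono_left nhdsWithin_le_nhds
    have t3 := t1.div t2 (by simp)
    rw [zero_div] at t3
    refine t3.congr' ?_
    filter_upwards [Ioo_mem_nhdsLT (zero_lt_one' ℝ)] with X hX
    have a1 := (Real.sqrt_pos.2 hX.1).ne'
    simp only [Pi.div_apply]
    generalize c * (merD o V (merid o X) / (2 * Real.sqrt (X * (1 - X)))) = W
    rw [Real.sqrt_mul hX.1.le]
    field_simp
  · refine tendsto_zero_of_unif cR fun M => ?_
    have := (((BSecAux.continuous_RM j x.1 (p M)).tendsto 1).const_mul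
      (Real.sqrt (cm s x.1))).mono_left (nhdsWithin_le_nhds (s := Iio 1))
    have e : RM j x.1 (p M) 1 = 0 := by simp [RM, hj0]
    rwa [e, mul_zero] at this

/-- convergence of weighted forms with weights supported inside `(0,1)` -/
theorem qf_limit {g : RSt} {s : Bool} {x x' : ℕ × ℕ} (hx : okS s x.1) (hx' : okS s x'.1)
    {R P R' P' : ℝ → ℝ} (h : EigLim d g j s x R P) (h' : EigLim d g j s x' R' P')
    {A B C : ℝ → ℝ} (hA : Continuous A) (hB : Continuous B) (hC : Continuous C) {Xa Xb : ℝ}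
    (ha : 0 < Xa) (hb : Xb < 1) (hsupp : ∀ X, X ∉ Icc Xa Xb → A X = 0 ∧ B X = 0 ∧ C X = 0) (r : ℕ) :
    Tendsto (fun M => QF d j (fun z => A (XX z) * ev (Hp true r) z)
        (fun z => B (XX z) * ev (Hp true r) z) (fun z => C (XX z) * ev (Hp true r) z)
        (psi d (toSt g) j s x M) (psi d (toSt g) j s x' M)) UU
      (𝓝 ((Real.sqrt (cm s x.1) * Real.sqrt (cm s x'.1))⁻¹ * mS d fun X => Real.sqrt X ^ r *
        ((eav r (Nat.dist x.1 x'.1) + sgn s * eav r (x.1 + x'.1)) / 2 *
            (A X * (4 * X * (1 - X) * (P X * P' X)) + C X * (Jd d j * (R X * R' X) / (1 - X))) +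
          (eav r (Nat.dist x.1 x'.1) - sgn s * eav r (x.1 + x'.1)) / 2 *
            (B X * ((x.1 : ℝ) * x'.1 * (R X * R' X) / X))))) := by
  obtain ⟨p, B₁, e1, cR, cS, kR, kS, bR, bS⟩ := lim_data h
  obtain ⟨p', B₂, e1', cR', cS', kR', kS', bR', bS'⟩ := lim_data h'
  set c₁ := (eav r (Nat.dist x.1 x'.1) + sgn s * eav r (x.1 + x'.1)) / 2 with hc₁
  set c₂ := (eav r (Nat.dist x.1 x'.1) - sgn s * eav r (x.1 + x'.1)) / 2 with hc₂
  set a : ℝ → ℝ := fun X => Real.sqrt X ^ r * (c₁ * A X) with ha'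
  set b : ℝ → ℝ := fun X => Real.sqrt X ^ r *
    (c₁ * (C X * (Jd d j / (1 - X))) + c₂ * (B X * ((x.1 : ℝ) * x'.1 / X))) with hb'
  have ka : ContinuousOn a (Ioo 0 1) := Continuous.continuousOn (by fun_prop)
  have kb : ContinuousOn b (Ioo 0 1) := by
    refine (Real.continuous_sqrt.pow r).continuousOn.mul ((continuousOn_const.mul
      (hC.continuousOn.mul (continuousOn_const.div (by fun_prop) fun X hX => ?_))).add
      (continuousOn_const.mul (hB.continuousOn.mul
        (continuousOn_const.div continuousOn_id fun X hX => hX.1.ne'))))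
    exact (sub_pos.2 hX.2).ne'
  obtain ⟨Ca, hCa⟩ := bdd_of_supp ka ha hb fun X hX => by simp [ha', (hsupp X hX).1]
  obtain ⟨Cb, hCb⟩ := bdd_of_supp kb ha hb fun X hX => by
    simp [hb', (hsupp X hX).2.1, (hsupp X hX).2.2]
  have bSS := fun X hX => abs_mul_le (bS X hX) (bS' X hX)
  have bRR := fun X hX => abs_mul_le (bR X hX) (bR' X hX)
  have u1 := (tu_mul (tu_const a UU _) (tu_mul cS cS' bS bS') hCa bSS).add
    (tu_mul (tu_const b UU _) (tu_mul cR cR' bR bR') hCb bRR)
  have t1 := mS_tendsto (d := d) u1 (fun M =>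
      (ka.mul ((continuousOn_const.mul (contOn_SM j x.1 (p M))).mul
        (continuousOn_const.mul (contOn_SM j x'.1 (p' M))))).add
      (kb.mul ((continuousOn_const.mul (BSecAux.continuous_RM j x.1 (p M)).continuousOn).mul
        (continuousOn_const.mul (BSecAux.continuous_RM j x'.1 (p' M)).continuousOn))))
    ((ka.mul (kS.mul kS')).add (kb.mul (kR.mul kR'))) (C := Ca * (2 * B₁ * (2 * B₂)) + Cb * (B₁ * B₂))
    fun X hX => (abs_add_le _ _).trans
      (add_le_add (abs_mul_le (hCa X hX) (bSS X hX)) (abs_mul_le (hCb X hX) (bRR X hX)))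
  have n1 := (Real.sqrt_pos.2 (cm_pos hx)).ne'
  have n2 := (Real.sqrt_pos.2 (cm_pos hx')).ne'
  have t2 := t1.const_mul (Real.sqrt (cm s x.1) * Real.sqrt (cm s x'.1))⁻¹
  convert t2.congr' ?_ using 3
  · refine mS_congr fun X hX => ?_
    have e := Real.mul_self_sqrt (mul_pos hX.1 (sub_pos.2 hX.2)).le
    simp only [Pi.add_apply, ha', hb']
    linear_combination (-4 * Real.sqrt X ^ r * c₁ * A X * P X * P' X) * e
  · filter_upwards [e1, e1'] with M h1 h2
    rw [h1, h2, QF_sec hA hB hC, ← mS_const_mul]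
    congr 1
    funext X
    simp only [Pi.add_apply, ha', hb', ← hc₁, ← hc₂]
    field_simp
    ring

/-- orthogonality survives -/
theorem eigLim_orth {g : RSt} (hg : RAdm d g) {s : Bool} {m k k' : ℕ} (hx : okS s m) (hk : k ≠ k')
    {R P R' P' : ℝ → ℝ} (h : EigLim d g j s (m, k) R P) (h' : EigLim d g j s (m, k') R' P') :
    mS d (fun X => R X * R' X) = 0 := by
  obtain ⟨p, B₁, e1, cR, -, kR, -, bR, -⟩ := lim_data h
  obtain ⟨p', B₂, e1', cR', -, kR', -, bR', -⟩ := lim_data h'
  have t1 := mS_tendsto (d := d) (tu_mul cR cR' bR bR')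
    (fun M => (continuousOn_const.mul (BSecAux.continuous_RM j m (p M)).continuousOn).mul
      (continuousOn_const.mul (BSecAux.continuous_RM j m (p' M)).continuousOn)) (kR.mul kR')
    fun X hX => abs_mul_le (bR X hX) (bR' X hX)
  refine tendsto_nhds_unique t1 (tendsto_const_nhds.congr' ?_)
  filter_upwards [e1, e1', ev_atTop (m + 2 * k + 2)] with M h1 h2 hM
  rw [← inner_same, ← h1, ← h2,
    (psi_spec (x := (m, k)) hg hx hM).2.2 (m, k') (by simpa using hk.symm)]

end Crest.Agent.R202
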