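import Crest.Agent.R202.DDefs

/-!
# Row 202, D1: the eigenvalue equation along a meridian

Let `x(X) = (√X, 0, √(1-X) o)`, `o` a unit vector of `ℝ^d`, and `T = Σ_a o_a L_{0,a}`; then
`d/dX f(x(X)) = -(T f)(x(X)) / (2 √(X(1-X)))`.  With `½ Σ L_{ik}² f = |x|² Δf - D²f(x,x) - (n-1) Df(x)`,
`L_{01}² f = z₀² ∂₁²f - z₀ ∂₀ f` and `½ Σ_{a,b} L_{ab}² f = |y|² Δ_y f - D²f(y,y) - (d-1) Df(y)` at `x(X)`:
`½ Σ L² f = T² f + (cot s - (d-1) tan s) ∂_s f + L_{01}² f / X + ½ Σ L_{ab}² f/(1-X)`, `∂_s = -T`.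
The coefficients `cf d (toSt g) i k` depend on `X` only: they are killed by `L_{01}` and `L_{ab}`, and
`½ Σ (L_{ik} e^{2α})(L_{ik} f) = ∂_s e^{2α} ∂_s f`.
-/

set_option autoImplicit false
open scoped ContDiff RealInnerProductSpace Topology
open MeasureTheory Set Filter Module
open Crest.GeometryTopology.CoordMetric
open Crest.Agent.R230 (E MP sph ev Harm)

noncomputable section
namespace Crest.Agent.R202

variable {d : ℕ} [NeZero d]

/-- the point `(√X, 0, √(1-X) o)` -/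
def merid (o : E d) (X : ℝ) : E (d + 2) :=
  WithLp.toLp 2 (Fin.cons (Real.sqrt X) (Fin.cons 0 fun a => Real.sqrt (1 - X) * o a))

/-- the derivative `∂_s` along the meridian -/
def merD (o : E d) (f : E (d + 2) → ℝ) (x : E (d + 2)) : ℝ := -∑ a, o a * Lf (zI d 0) (yI d a) f x

set_option linter.unusedSectionVars false

namespace DMerAux

open Crest.Agent.R230 (ev_add ev_sub ev_mul ev_X ev_C ev_one ev_zero)

theorem zI_zero : zI d 0 = 0 := rfl
theorem zI_one : zI d 1 = Fin.succ 0 := rfl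

theorem sum_split (f : Fin (d + 2) → ℝ) :
    ∑ i, f i = f (zI d 0) + f (zI d 1) + ∑ a, f (yI d a) := by
  rw [Fin.sum_univ_succ, Fin.sum_univ_succ]
  exact (add_assoc _ _ _).symm

theorem z0_ne_z1 : zI d 0 ≠ zI d 1 := by
  intro h
  have := congrArg Fin.val h
  simp [zI] at this

theorem z_ne_y (i : Fin 2) (a : Fin d) : zI d i ≠ yI d a := by
  intro h
  have := congrArg Fin.val h
  have h2 := i.2
  simp only [zI, yI, Fin.val_castLE, Fin.val_succ] at this
  omega

theorem yI_inj : Function.Injective (yI d) := fun _ _ h =>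
  Fin.succ_injective _ (Fin.succ_injective _ h)

theorem zI_inj : Function.Injective (zI d) := Fin.castLE_injective (by omega)

theorem merid_z0 (o : E d) (X : ℝ) : merid o X (zI d 0) = Real.sqrt X := rfl
theorem merid_z1 (o : E d) (X : ℝ) : merid o X (zI d 1) = 0 := rfl
theorem merid_y (o : E d) (X : ℝ) (a : Fin d) : merid o X (yI d a) = Real.sqrt (1 - X) * o a := rfl

theorem sum_sq {o : E d} (ho : ‖o‖ = 1) : ∑ a, o a ^ 2 = 1 := by
  rw [← EuclideanSpace.real_norm_sq_eq, ho, one_pow]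

section calc1

variable {n : ℕ}

theorem pd_of_has {f : E n → ℝ} {f' : E n →L[ℝ] ℝ} {x : E n} (h : HasFDerivAt f f' x) (k : Fin n) :
    pderiv k f x = f' (EuclideanSpace.single k 1) := by
  rw [pderiv, h.fderiv]

theorem has_coord (a : Fin n) (x : E n) :
    HasFDerivAt (fun z : E n => z a) (EuclideanSpace.proj a : E n →L[ℝ] ℝ) x :=
  (EuclideanSpace.proj a : E n →L[ℝ] ℝ).hasFDerivAt

theorem proj_single (a k : Fin n) :
    (EuclideanSpace.proj a : E n →L[ℝ] ℝ) (EuclideanSpace.single k 1) = if a = k then 1 else 0 := by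
  simp

theorem pd_Lf {V : E n → ℝ} (hV : ContDiffOn ℝ ∞ V {0}ᶜ) {x : E n} (hx : x ≠ 0) (a b k : Fin n) :
    pderiv k (Lf a b V) x =
      (if a = k then pderiv b V x else 0) + x a * pderiv k (pderiv b V) x -
        ((if b = k then pderiv a V x else 0) + x b * pderiv k (pderiv a V) x) := by
  have ha := (CFieldAux.diffAt (CFieldAux.contDiffOn_pderiv a hV) hx).hasFDerivAt
  have hb := (CFieldAux.diffAt (CFieldAux.contDiffOn_pderiv b hV) hx).hasFDerivAt
  have h := ((has_coord a x).mul hb).sub ((has_coord b x).mul ha)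
  rw [show Lf a b V = (fun z : E n => z a) * pderiv b V - (fun z : E n => z b) * pderiv a V from rfl,
    pd_of_has h]
  simp only [sub_apply, add_apply, smul_apply, smul_eq_mul, proj_single, mul_ite, mul_one,
    mul_zero]
  simp only [pderiv]
  ring

theorem LL_ne {V : E n → ℝ} (hV : ContDiffOn ℝ ∞ V {0}ᶜ) {x : E n} (hx : x ≠ 0) {i k : Fin n}
    (h : i ≠ k) : Lf i k (Lf i k V) x =
      x i ^ 2 * pderiv k (pderiv k V) x + x k ^ 2 * pderiv i (pderiv i V) x -
        x i * x k * (pderiv k (pderiv i V) x + pderiv i (pderiv k V) x) -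
        x i * pderiv i V x - x k * pderiv k V x := by
  rw [Lf, pd_Lf hV hx, pd_Lf hV hx]
  simp only [h, h.symm, if_true, if_false]
  ring

theorem Lf_self (i : Fin n) (f : E n → ℝ) (x : E n) : Lf i i f x = 0 := sub_self _

theorem LL_swap {V : E n → ℝ} (hV : ContDiffOn ℝ ∞ V {0}ᶜ) {x : E n} (hx : x ≠ 0) (i k : Fin n) :
    Lf k i (Lf k i V) x = Lf i k (Lf i k V) x := by
  by_cases h : i = k
  · rw [h]
  · rw [LL_ne hV hx h, LL_ne hV hx (Ne.symm h)]
    ring

theorem Lf_swap (i k : Fin n) (f : E n → ℝ) (x : E n) : Lf k i f x = -Lf i k f x := by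
  simp only [Lf]
  ring

theorem Lf_comp {F : ℝ → ℝ} {F' : ℝ} {ρ : E n → ℝ} {x : E n} (hρ : DifferentiableAt ℝ ρ x)
    (hF : HasDerivAt F F' (ρ x)) (i k : Fin n) :
    Lf i k (fun z => F (ρ z)) x = F' * Lf i k ρ x := by
  have h := hF.comp_hasFDerivAt x hρ.hasFDerivAt
  rw [Lf, show (fun z => F (ρ z)) = F ∘ ρ from rfl, pd_of_has h, pd_of_has h]
  simp only [Lf, pderiv, smul_apply, smul_eq_mul]
  ring

end calc1

theorem contDiffOn_merD (o : E d) {f : E (d + 2) → ℝ} (hf : ContDiffOn ℝ ∞ f {0}ᶜ) :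
    ContDiffOn ℝ ∞ (merD o f) {0}ᶜ :=
  (ContDiffOn.sum fun a _ => contDiffOn_const.mul (contDiffOn_Lf (zI d 0) (yI d a) hf)).neg

theorem pd_merD (o : E d) {f : E (d + 2) → ℝ} (hf : ContDiffOn ℝ ∞ f {0}ᶜ) {x : E (d + 2)}
    (hx : x ≠ 0) (k : Fin (d + 2)) :
    pderiv k (merD o f) x = -∑ b, o b * pderiv k (Lf (zI d 0) (yI d b) f) x := by
  have h := (HasFDerivAt.fun_sum (u := Finset.univ) fun b _ =>
    (CFieldAux.diffAt (contDiffOn_Lf (zI d 0) (yI d b) hf) hx).hasFDerivAt.const_mul (o b)).neg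
  rw [show merD o f = -fun z => ∑ b, o b * Lf (zI d 0) (yI d b) f z from rfl, pd_of_has h]
  simp [pderiv]

/-- the meridian derivative in terms of the gradient -/
theorem merD_merid {o : E d} (ho : ‖o‖ = 1) (f : E (d + 2) → ℝ) (X : ℝ) :
    merD o f (merid o X) = Real.sqrt (1 - X) * pderiv (zI d 0) f (merid o X) -
      Real.sqrt X * ∑ a, o a * pderiv (yI d a) f (merid o X) := by
  have h : ∀ a, o a * Lf (zI d 0) (yI d a) f (merid o X) =
      Real.sqrt X * (o a * pderiv (yI d a) f (merid o X)) -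
        Real.sqrt (1 - X) * pderiv (zI d 0) f (merid o X) * o a ^ 2 := by
    intro a
    rw [Lf, merid_z0, merid_y]
    ring
  simp only [merD, h, Finset.sum_sub_distrib, ← Finset.mul_sum, sum_sq ho]
  ring

end DMerAux

open DMerAux

theorem norm_merid {o : E d} (ho : ‖o‖ = 1) {X : ℝ} (hX : X ∈ Ioo (0 : ℝ) 1) : ‖merid o X‖ = 1 := by
  have h : ‖merid o X‖ ^ 2 = 1 := by
    rw [EuclideanSpace.real_norm_sq_eq, sum_split]
    simp only [merid_z0, merid_z1, merid_y, mul_pow, ← Finset.mul_sum, sum_sq ho,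
      Real.sq_sqrt hX.1.le, Real.sq_sqrt (sub_nonneg.2 hX.2.le)]
    ring
  nlinarith [norm_nonneg (merid o X)]

theorem hasDerivAt_merid {o : E d} (ho : ‖o‖ = 1) {f : E (d + 2) → ℝ} (hf : ContDiffOn ℝ ∞ f {0}ᶜ)
    {X : ℝ} (hX : X ∈ Ioo (0 : ℝ) 1) :
    HasDerivAt (fun X => f (merid o X)) (merD o f (merid o X) / (2 * Real.sqrt (X * (1 - X)))) X := by
  have hx : merid o X ≠ 0 := by
    intro h
    have := norm_merid ho hX
    rw [h, norm_zero] at this
    exact zero_ne_one this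
  have h1 : 0 < 1 - X := sub_pos.2 hX.2
  have ha := Real.sqrt_pos.2 hX.1
  have hb := Real.sqrt_pos.2 h1
  let e : E (d + 2) := merid o 1
  let w : E (d + 2) := merid o 0
  have hm : merid o = fun X => Real.sqrt X • e + Real.sqrt (1 - X) • w := by
    funext X
    ext i
    refine Fin.cases ?_ (fun i => Fin.cases ?_ (fun a => ?_) i) i
    · simp [e, w, merid]
    · simp [e, w, merid]
    · simp [e, w, merid]
  have hd : HasDerivAt (merid o)
      ((1 / (2 * Real.sqrt X)) • e + (-1 / (2 * Real.sqrt (1 - X))) • w) X := by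
    rw [hm]
    exact ((Real.hasDerivAt_sqrt hX.1.ne').smul_const e).add
      ((((hasDerivAt_id X).const_sub 1).sqrt h1.ne').smul_const w)
  have h := (CFieldAux.diffAt hf hx).hasFDerivAt.comp_hasDerivAt X hd
  refine (h.congr_deriv ?_)
  rw [CFieldAux.fderiv_apply_eq_sum, sum_split, merD_merid ho, Real.sqrt_mul hX.1.le]
  simp only [PiLp.add_apply, PiLp.smul_apply, smul_eq_mul, e, w, merid_z0, merid_z1, merid_y,
    Real.sqrt_one, Real.sqrt_zero, sub_self, sub_zero, zero_mul, mul_zero, add_zero, zero_add,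
    one_mul, mul_one, mul_assoc, ← Finset.mul_sum]
  field_simp
  ring

namespace DMerAux

open Crest.Agent.R230 (ev_add ev_sub ev_mul ev_X ev_C ev_one ev_zero)

theorem ev_smul_arg {n k : ℕ} {Y : MP n} (hY : Y.IsHomogeneous k) (r : ℝ) (x : E n) :
    ev Y (r • x) = r ^ k * ev Y x := by
  simp only [ev, MvPolynomial.eval_eq', Finset.mul_sum]
  refine Finset.sum_congr rfl fun m hm => ?_
  have h : ∑ i, m i = k := by
    rw [← Finsupp.degree_eq_sum]
    by_contra hne
    exact MvPolynomial.mem_support_iff.1 hm (hY.coeff_eq_zero hne)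
  have e : ∀ i, (r • x).ofLp i ^ m i = r ^ m i * x.ofLp i ^ m i := fun i => by
    rw [PiLp.smul_apply, smul_eq_mul, mul_pow]
  simp only [e, Finset.prod_mul_distrib, Finset.prod_pow_eq_pow_sum, h]
  ring

theorem ev_Hpair_axis (m : ℕ) {z : E 2} (hz : z 1 = 0) :
    ev (Hpair m).1 z = z 0 ^ m ∧ ev (Hpair m).2 z = 0 := by
  induction m with
  | zero => simp [Hpair]
  | succ m ih =>
    simp only [Hpair, ev_sub, ev_add, ev_mul, ev_X, ih.1, ih.2, hz]
    constructor <;> ring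

theorem ev_merid1 {j : ℕ} {Y : MP d} (hY : Y ∈ Harm d j) (o : E d) (m : ℕ)
    (p : Polynomial ℝ) {X : ℝ} (hX : X ∈ Ioo (0 : ℝ) 1) :
    ev (iota Y (toP d j (secMap d j true m p))) (merid o X) = ev Y o * RM j m p X := by
  have h1 : yOf (merid o X) = Real.sqrt (1 - X) • o := by
    ext a
    rfl
  have h2 : XX (zOf (merid o X)) = X := by
    show Real.sqrt X ^ 2 + 0 ^ 2 = X
    rw [Real.sq_sqrt hX.1.le]
    ring
  have h3 : ev (Hp true m) (zOf (merid o X)) = Real.sqrt X ^ m :=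
    (ev_Hpair_axis m (z := zOf (merid o X)) rfl).1
  rw [ev_iota, ev_secMap, h1, h2, h3, ev_smul_arg hY.1, RM]
  ring

theorem hasDerivAt_RM (j m : ℕ) (p : Polynomial ℝ) {X : ℝ} (hX : X ∈ Ioo (0 : ℝ) 1) :
    HasDerivAt (RM j m p) (SM j m p X / (2 * Real.sqrt (X * (1 - X)))) X := by
  have h1 : 0 < 1 - X := sub_pos.2 hX.2
  have ha := Real.sqrt_pos.2 hX.1
  have hb := Real.sqrt_pos.2 h1
  have d1 := (Real.hasDerivAt_sqrt hX.1.ne').pow m
  have d2 := (((hasDerivAt_id X).const_sub 1).sqrt h1.ne').pow j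
  have d3 := (d1.mul d2).mul (p.hasDerivAt X)
  refine d3.congr_deriv ?_
  have ea := Real.sq_sqrt hX.1.le
  have eb := Real.sq_sqrt h1.le
  simp only [SM, Real.sqrt_mul hX.1.le, id, Pi.mul_apply, Pi.pow_apply]
  generalize Real.sqrt X = a at *
  generalize Real.sqrt (1 - X) = b at *
  have pa : (m : ℝ) * a ^ (m - 1) = m * a ^ m / a := by
    rcases m with _ | m
    · simp
    · rw [Nat.add_sub_cancel, pow_succ]
      field_simp
  have pb : (j : ℝ) * b ^ (j - 1) = j * b ^ j / b := by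
    rcases j with _ | j
    · simp
    · rw [Nat.add_sub_cancel, pow_succ]
      field_simp
  rw [pa, pb, ← eb]
  generalize Polynomial.eval X p = P
  generalize Polynomial.eval X (Polynomial.derivative p) = P'
  rw [← ea]
  field_simp
  ring

section poly

variable {n : ℕ}

theorem Lp_mul (i k : Fin n) (P Q : MP n) : Lp i k (P * Q) = Lp i k P * Q + P * Lp i k Q := by
  simp only [Lp, MvPolynomial.pderiv_mul]
  ring

theorem Lp_add (i k : Fin n) (P Q : MP n) : Lp i k (P + Q) = Lp i k P + Lp i k Q := by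
  simp only [Lp, map_add]
  ring

theorem Lp_sub (i k : Fin n) (P Q : MP n) : Lp i k (P - Q) = Lp i k P - Lp i k Q := by
  simp only [Lp, map_sub]
  ring

theorem Lp_C (i k : Fin n) (c : ℝ) : Lp i k (MvPolynomial.C c) = 0 := by
  simp [Lp]

theorem Lp_rename {n' : ℕ} {f : Fin n → Fin n'} (hf : Function.Injective f) (i k : Fin n)
    (P : MP n) : Lp (f i) (f k) (MvPolynomial.rename f P) = MvPolynomial.rename f (Lp i k P) := by
  simp only [Lp, MvPolynomial.pderiv_rename hf, map_sub, map_mul, MvPolynomial.rename_X]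

theorem pderiv_rename_zero {n' : ℕ} {f : Fin n → Fin n'} {i : Fin n'} (hi : ∀ a, f a ≠ i)
    (P : MP n) : MvPolynomial.pderiv i (MvPolynomial.rename f P) = 0 := by
  induction P using MvPolynomial.induction_on with
  | C c => simp
  | add p q hp hq => rw [map_add, map_add, hp, hq, add_zero]
  | mul_X p a hp =>
    rw [map_mul, MvPolynomial.pderiv_mul, hp, MvPolynomial.rename_X,
      MvPolynomial.pderiv_X_of_ne (hi a), zero_mul, mul_zero, add_zero]

theorem Lp_rename_zero {n' : ℕ} {f : Fin n → Fin n'} {i k : Fin n'} (hi : ∀ a, f a ≠ i)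
    (hk : ∀ a, f a ≠ k) (P : MP n) : Lp i k (MvPolynomial.rename f P) = 0 := by
  rw [Lp, pderiv_rename_zero hi, pderiv_rename_zero hk, mul_zero, mul_zero, sub_zero]

end poly

theorem Lp_X0 : Lp 0 1 (MvPolynomial.X 0 : MP 2) = -MvPolynomial.X 1 := by
  simp [Lp]

theorem Lp_X1 : Lp 0 1 (MvPolynomial.X 1 : MP 2) = MvPolynomial.X 0 := by
  simp [Lp]

theorem Lp_Hpair (m : ℕ) : Lp 0 1 (Hpair m).1 = -(MvPolynomial.C (m : ℝ) * (Hpair m).2) ∧
    Lp 0 1 (Hpair m).2 = MvPolynomial.C (m : ℝ) * (Hpair m).1 := by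
  induction m with
  | zero => simp [Hpair, Lp]
  | succ m ih =>
    simp only [Hpair, Lp_sub, Lp_add, Lp_mul, Lp_X0, Lp_X1, ih.1, ih.2, Nat.cast_add, Nat.cast_one,
      map_add, map_one]
    constructor <;> ring

theorem Lp_rad (p : Polynomial ℝ) :
    Lp 0 1 (Polynomial.aeval (MvPolynomial.X 0 ^ 2 + MvPolynomial.X 1 ^ 2 : MP 2) p) = 0 := by
  have h : Lp 0 1 (MvPolynomial.X 0 ^ 2 + MvPolynomial.X 1 ^ 2 : MP 2) = 0 := by
    simp only [sq, Lp_add, Lp_mul, Lp_X0, Lp_X1]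
    ring
  induction p using Polynomial.induction_on with
  | C c => rw [Polynomial.aeval_C, MvPolynomial.algebraMap_eq, Lp_C]
  | add p q hp hq => rw [map_add, Lp_add, hp, hq, add_zero]
  | monomial k c hk =>
    rw [pow_succ Polynomial.X k, ← mul_assoc, map_mul, Lp_mul, hk, Polynomial.aeval_X, h, zero_mul, mul_zero,
      add_zero]

theorem iota_apply (Y : MP d) (π : MP 2) :
    iota Y π = MvPolynomial.rename (yI d) Y * MvPolynomial.rename (zI d) π := rfl

theorem Lp_z_iota (Y : MP d) (π : MP 2) :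
    Lp (zI d 0) (zI d 1) (iota Y π) = iota Y (Lp 0 1 π) := by
  rw [iota_apply, iota_apply, Lp_mul, Lp_rename zI_inj,
    Lp_rename_zero (fun a => (z_ne_y 0 a).symm) (fun a => (z_ne_y 1 a).symm), zero_mul, zero_add]

theorem Lp_y_iota (Y : MP d) (π : MP 2) (a b : Fin d) :
    Lp (yI d a) (yI d b) (iota Y π) = iota (Lp a b Y) π := by
  rw [iota_apply, iota_apply, Lp_mul, Lp_rename yI_inj,
    Lp_rename_zero (fun i => z_ne_y i a) (fun i => z_ne_y i b), mul_zero, add_zero]

end DMerAux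

/-- the values of a sector polynomial and of its `s`-derivative on the meridian -/
theorem ev_merid {j : ℕ} {Y : MP d} (hY : Y ∈ Harm d j) {o : E d} (ho : ‖o‖ = 1) (m : ℕ)
    (p : Polynomial ℝ) {X : ℝ} (hX : X ∈ Ioo (0 : ℝ) 1) :
    ev (iota Y (toP d j (secMap d j true m p))) (merid o X) = ev Y o * RM j m p X ∧
      merD o (ev (iota Y (toP d j (secMap d j true m p)))) (merid o X) = ev Y o * SM j m p X := by
  refine ⟨ev_merid1 hY o m p hX, ?_⟩
  have h1 := hasDerivAt_merid ho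
    (Crest.Agent.R230.contDiff_ev (iota Y (toP d j (secMap d j true m p)))).contDiffOn hX
  have h2 : HasDerivAt (fun X => ev (iota Y (toP d j (secMap d j true m p))) (merid o X))
      (ev Y o * (SM j m p X / (2 * Real.sqrt (X * (1 - X))))) X := by
    refine ((hasDerivAt_RM j m p hX).const_mul (ev Y o)).congr_of_eventuallyEq ?_
    filter_upwards [Ioo_mem_nhds hX.1 hX.2] with X' hX' using ev_merid1 hY o m p hX'
  have h3 := h1.unique h2
  have h4 : 0 < 2 * Real.sqrt (X * (1 - X)) :=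
    mul_pos two_pos (Real.sqrt_pos.2 (mul_pos hX.1 (sub_pos.2 hX.2)))
  rw [← mul_div_assoc] at h3
  exact (div_left_inj' h4.ne').1 h3

/-- the angular eigenvalue equations of a sector polynomial -/
theorem sec_angular {j : ℕ} {Y : MP d} (hY : Y ∈ Harm d j) (m : ℕ) (p : Polynomial ℝ) :
    Lp (zI d 0) (zI d 1) (Lp (zI d 0) (zI d 1) (iota Y (toP d j (secMap d j true m p)))) =
        -((m : ℝ) ^ 2) • iota Y (toP d j (secMap d j true m p)) ∧
      ∑ a, ∑ b, Lp (yI d a) (yI d b) (Lp (yI d a) (yI d b) (iota Y (toP d j (secMap d j true m p)))) =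
        -(2 * Jd d j) • iota Y (toP d j (secMap d j true m p)) := by
  constructor
  · rw [Lp_z_iota, Lp_z_iota, ← map_smul]
    congr 1
    have e : toP d j (secMap d j true m p) = (Hpair m).1 *
        Polynomial.aeval (MvPolynomial.X 0 ^ 2 + MvPolynomial.X 1 ^ 2 : MP 2) p := rfl
    rw [e, MvPolynomial.smul_eq_C_mul]
    have hn : ∀ P : MP 2, Lp 0 1 (-P) = -Lp 0 1 P := fun P => by
      simp only [Lp, map_neg]
      ring
    simp only [Lp_mul, Lp_rad, (Lp_Hpair m).1, (Lp_Hpair m).2, mul_zero, add_zero, hn, Lp_C,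
      zero_mul, zero_add, map_neg, map_pow]
    ring
  · simp only [Lp_y_iota]
    generalize toP d j (secMap d j true m p) = π
    simp only [iota_apply, ← Finset.sum_mul, ← map_sum]
    rw [sum_Lp_Lp hY.1, hY.2, MvPolynomial.smul_eq_C_mul, Jd]
    simp only [mul_zero, zero_sub, map_mul, map_neg, map_ofNat, MvPolynomial.rename_C]
    ring

namespace DMerAux

/-- the spherical Laplacian along the meridian -/
theorem lap_merid {o : E d} (ho : ‖o‖ = 1) {V : E (d + 2) → ℝ} (hV : ContDiffOn ℝ ∞ V {0}ᶜ)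
    {X : ℝ} (hX : X ∈ Ioo (0 : ℝ) 1) :
    ∑ a, Lf (zI d 0) (yI d a) (Lf (zI d 0) (yI d a) V) (merid o X) +
      ∑ a, Lf (zI d 1) (yI d a) (Lf (zI d 1) (yI d a) V) (merid o X) =
    merD o (merD o V) (merid o X) +
      (1 - d * X) * (merD o V (merid o X) / Real.sqrt (X * (1 - X))) +
      (1 - X) / X * Lf (zI d 0) (zI d 1) (Lf (zI d 0) (zI d 1) V) (merid o X) +
      X / (1 - X) * ((1 / 2) *
        ∑ a, ∑ b, Lf (yI d a) (yI d b) (Lf (yI d a) (yI d b) V) (merid o X)) := by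
  have hx : merid o X ≠ 0 := by
    intro h
    have := norm_merid ho hX
    rw [h, norm_zero] at this
    exact zero_ne_one this
  have h1 : 0 < 1 - X := sub_pos.2 hX.2
  have ha := Real.sqrt_pos.2 hX.1
  have hb := Real.sqrt_pos.2 h1
  have ea := Real.sq_sqrt hX.1.le
  have eb := Real.sq_sqrt h1.le
  have hs := sum_sq ho
  obtain ⟨u, hu⟩ : ∃ u : Fin (d + 2) → ℝ, ∀ i, pderiv i V (merid o X) = u i := ⟨_, fun _ => rfl⟩
  obtain ⟨H, hH⟩ : ∃ H : Fin (d + 2) → Fin (d + 2) → ℝ,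
      ∀ i k, pderiv i (pderiv k V) (merid o X) = H i k := ⟨_, fun _ _ => rfl⟩
  have S1 : ∑ a, Lf (zI d 0) (yI d a) (Lf (zI d 0) (yI d a) V) (merid o X) =
      Real.sqrt X ^ 2 * ∑ a, H (yI d a) (yI d a) +
        Real.sqrt (1 - X) ^ 2 * H (zI d 0) (zI d 0) * ∑ a, o a ^ 2 -
        Real.sqrt X * Real.sqrt (1 - X) * ∑ a, o a * H (yI d a) (zI d 0) -
        Real.sqrt X * Real.sqrt (1 - X) * ∑ a, o a * H (zI d 0) (yI d a) -
        ∑ _a : Fin d, Real.sqrt X * u (zI d 0) - Real.sqrt (1 - X) * ∑ a, o a * u (yI d a) := by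
    simp only [Finset.mul_sum, ← Finset.sum_add_distrib, ← Finset.sum_sub_distrib]
    refine Finset.sum_congr rfl fun a _ => ?_
    rw [LL_ne hV hx (z_ne_y 0 a)]
    simp only [hu, hH, merid_z0, merid_y]
    ring
  have S2 : ∑ a, Lf (zI d 1) (yI d a) (Lf (zI d 1) (yI d a) V) (merid o X) =
      Real.sqrt (1 - X) ^ 2 * H (zI d 1) (zI d 1) * ∑ a, o a ^ 2 -
        Real.sqrt (1 - X) * ∑ a, o a * u (yI d a) := by
    simp only [Finset.mul_sum, ← Finset.sum_sub_distrib]
    refine Finset.sum_congr rfl fun a _ => ?_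
    rw [LL_ne hV hx (z_ne_y 1 a)]
    simp only [hu, hH, merid_z1, merid_y]
    ring
  have S3' : ∀ a b, Lf (yI d a) (yI d b) (Lf (yI d a) (yI d b) V) (merid o X) =
      Real.sqrt (1 - X) ^ 2 * (o a ^ 2 * H (yI d b) (yI d b)) +
        Real.sqrt (1 - X) ^ 2 * (H (yI d a) (yI d a) * o b ^ 2) -
        Real.sqrt (1 - X) ^ 2 * (o a * o b * H (yI d a) (yI d b)) -
        Real.sqrt (1 - X) ^ 2 * (o b * o a * H (yI d b) (yI d a)) -
        Real.sqrt (1 - X) * (o a * u (yI d a)) - Real.sqrt (1 - X) * (o b * u (yI d b)) +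
        if a = b then 2 * Real.sqrt (1 - X) * (o a * u (yI d a)) else 0 := by
    intro a b
    split_ifs with h
    · subst h
      rw [Lf_self]
      ring
    · rw [LL_ne hV hx (yI_inj.ne h)]
      simp only [hu, hH, merid_y]
      ring
  have S3 : ∑ a, ∑ b, Lf (yI d a) (yI d b) (Lf (yI d a) (yI d b) V) (merid o X) =
      2 * Real.sqrt (1 - X) ^ 2 * ∑ a, H (yI d a) (yI d a) -
        2 * Real.sqrt (1 - X) ^ 2 * ∑ a, ∑ b, o a * o b * H (yI d a) (yI d b) -
        2 * (d - 1) * Real.sqrt (1 - X) * ∑ a, o a * u (yI d a) := by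
    have hc : ∑ a, ∑ b, o b * o a * H (yI d b) (yI d a) =
        ∑ a, ∑ b, o a * o b * H (yI d a) (yI d b) := Finset.sum_comm
    simp only [S3', Finset.sum_add_distrib, Finset.sum_sub_distrib, ← Finset.mul_sum,
      ← Finset.sum_mul, hs, Finset.sum_ite_eq, Finset.mem_univ, if_true, Finset.sum_const,
      Finset.card_univ, Fintype.card_fin, nsmul_eq_mul, hc]
    simp only [mul_left_comm _ (d : ℝ), ← Finset.mul_sum]
    ring
  have S4 : Lf (zI d 0) (zI d 1) (Lf (zI d 0) (zI d 1) V) (merid o X) =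
      Real.sqrt X ^ 2 * H (zI d 1) (zI d 1) - Real.sqrt X * u (zI d 0) := by
    rw [LL_ne hV hx z0_ne_z1]
    simp only [hu, hH, merid_z0, merid_z1]
    ring
  have S6 : merD o V (merid o X) = Real.sqrt (1 - X) * u (zI d 0) -
      Real.sqrt X * ∑ a, o a * u (yI d a) := by
    rw [merD_merid ho]
    simp only [hu]
  have P0 : pderiv (zI d 0) (merD o V) (merid o X) =
      -(∑ b, o b * u (yI d b) + Real.sqrt X * ∑ b, o b * H (zI d 0) (yI d b) -
        Real.sqrt (1 - X) * H (zI d 0) (zI d 0) * ∑ b, o b ^ 2) := by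
    rw [pd_merD o hV hx]
    simp only [Finset.mul_sum, ← Finset.sum_add_distrib, ← Finset.sum_sub_distrib]
    congr 1
    refine Finset.sum_congr rfl fun b _ => ?_
    rw [pd_Lf hV hx]
    simp only [hu, hH, merid_z0, merid_y, if_true, (z_ne_y 0 b).symm, if_false]
    ring
  have P1 : ∀ a, pderiv (yI d a) (merD o V) (merid o X) =
      -(Real.sqrt X * ∑ b, o b * H (yI d a) (yI d b) - o a * u (zI d 0) -
        Real.sqrt (1 - X) * H (yI d a) (zI d 0) * ∑ b, o b ^ 2) := by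
    intro a
    have e : o a * u (zI d 0) = ∑ b, if b = a then o b * u (zI d 0) else 0 := by simp
    rw [pd_merD o hV hx, e]
    simp only [Finset.mul_sum, ← Finset.sum_sub_distrib]
    congr 1
    refine Finset.sum_congr rfl fun b _ => ?_
    rw [pd_Lf hV hx]
    simp only [hu, hH, merid_z0, merid_y, z_ne_y 0 a, if_false, yI_inj.eq_iff]
    split_ifs <;> ring
  have P2 : ∑ a, o a * pderiv (yI d a) (merD o V) (merid o X) =
      -(Real.sqrt X * ∑ a, ∑ b, o a * o b * H (yI d a) (yI d b)) + u (zI d 0) * ∑ a, o a ^ 2 +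
        Real.sqrt (1 - X) * ∑ a, o a * H (yI d a) (zI d 0) := by
    simp only [P1, hs, mul_one]
    rw [← mul_one (u (zI d 0)), ← hs]
    simp only [Finset.mul_sum, ← Finset.sum_add_distrib, ← Finset.sum_neg_distrib]
    refine Finset.sum_congr rfl fun a _ => ?_
    simp only [mul_assoc, ← Finset.mul_sum, Finset.sum_neg_distrib, hs]
    ring
  rw [S1, S2, S3, S4, S6, merD_merid ho, P0, P2, hs, Real.sqrt_mul hX.1.le]
  simp only [Finset.sum_const, Finset.card_univ, Fintype.card_fin, nsmul_eq_mul]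
  generalize ∑ a, H (yI d a) (yI d a) = t1
  generalize ∑ a, ∑ b, o a * o b * H (yI d a) (yI d b) = t2
  generalize ∑ a, o a * H (yI d a) (zI d 0) = t3
  generalize ∑ a, o a * H (zI d 0) (yI d a) = t4
  generalize ∑ a, o a * u (yI d a) = t5
  generalize Real.sqrt X = a at *
  generalize Real.sqrt (1 - X) = b at *
  rw [← eb]
  have hab : a ^ 2 + b ^ 2 = 1 := by linarith
  rw [← ea]
  field_simp
  linear_combination (b * u (zI d 0) - a * t5) * hab

/-- the coefficient `cf` of a symmetric state as a function of `X` -/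
def cX (d : ℕ) (g : RSt) (i k : Fin (d + 2)) (X : ℝ) : ℝ :=
  Real.exp (2 * g.1 X) +
    if (i : ℕ) + k = 1 then (Real.exp (2 * bet d (g.1 X) (g.2 X)) - Real.exp (2 * g.1 X)) / X
    else if 2 ≤ (i : ℕ) ∧ 2 ≤ (k : ℕ) ∧ i ≠ k then
      (Real.exp (2 * g.2 X) - Real.exp (2 * g.1 X)) / (1 - X)
    else 0

theorem diff_cX {g : RSt} (hg : RAdm d g) (i k : Fin (d + 2)) {X : ℝ} (hX : X ∈ Ioo (0 : ℝ) 1) :
    DifferentiableAt ℝ (cX d g i k) X := by
  have h1 : DifferentiableAt ℝ g.1 X := hg.s1.differentiable (by simp) X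
  have h2 : DifferentiableAt ℝ g.2 X := hg.s2.differentiable (by simp) X
  have h3 := hX.1.ne'
  have h4 := (sub_pos.2 hX.2).ne'
  unfold cX bet
  split_ifs <;> fun_prop (disch := assumption)

/-- `|z|²` on `ℝ^{d+2}` -/
def rho (d : ℕ) (x : E (d + 2)) : ℝ := x (zI d 0) ^ 2 + x (zI d 1) ^ 2

theorem diff_rho : Differentiable ℝ (rho d) := by
  unfold rho
  fun_prop

theorem pd_rho (x : E (d + 2)) (k : Fin (d + 2)) : pderiv k (rho d) x =
    (if zI d 0 = k then 2 * x (zI d 0) else 0) + if zI d 1 = k then 2 * x (zI d 1) else 0 := by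
  have h := ((has_coord (zI d 0) x).pow 2).add ((has_coord (zI d 1) x).pow 2)
  rw [show rho d = (fun z : E (d + 2) => z (zI d 0) ^ 2) + fun z : E (d + 2) => z (zI d 1) ^ 2
    from rfl, pd_of_has h]
  simp only [add_apply, smul_apply, smul_eq_mul, proj_single, nsmul_eq_mul]
  split_ifs <;> simp

theorem rho_merid (o : E d) {X : ℝ} (hX : X ∈ Ioo (0 : ℝ) 1) : rho d (merid o X) = X := by
  rw [rho, merid_z0, merid_z1, Real.sq_sqrt hX.1.le]
  ring

theorem Lf_term {g : RSt} (hg : RAdm d g) {o : E d} (ho : ‖o‖ = 1) {V : E (d + 2) → ℝ}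
    (hV : ContDiffOn ℝ ∞ V {0}ᶜ) {X : ℝ} (hX : X ∈ Ioo (0 : ℝ) 1) (i k : Fin (d + 2)) :
    Lf i k (fun z => cT d (fun _ => toSt g) i k z * Lf i k V z) (merid o X) =
      deriv (cX d g i k) X * Lf i k (rho d) (merid o X) * Lf i k V (merid o X) +
        cX d g i k X * Lf i k (Lf i k V) (merid o X) := by
  have hn := norm_merid ho hX
  have hx : merid o X ≠ 0 := by
    intro h
    rw [h, norm_zero] at hn
    exact zero_ne_one hn
  have hc : cT d (fun _ => toSt g) i k = fun z => cX d g i k (rho d (‖z‖⁻¹ • z)) := rfl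
  have hF : DifferentiableAt ℝ (cX d g i k) (rho d (merid o X)) := by
    rw [rho_merid o hX]
    exact diff_cX hg i k hX
  have hN : DifferentiableAt ℝ (fun z : E (d + 2) => ‖z‖⁻¹ • z) (merid o X) :=
    ((differentiableAt_id.norm ℝ hx).inv (norm_ne_zero_iff.2 hx)).smul differentiableAt_id
  have hx1 : ‖merid o X‖⁻¹ • merid o X = merid o X := by rw [hn, inv_one, one_smul]
  have hd : DifferentiableAt ℝ (fun z => cX d g i k (rho d (‖z‖⁻¹ • z))) (merid o X) := by
    refine DifferentiableAt.comp (g := cX d g i k) (merid o X) ?_ ((diff_rho _).comp _ hN)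
    rw [hx1]
    exact hF
  have h1 : Lf i k (fun z => cX d g i k (rho d (‖z‖⁻¹ • z))) (merid o X) =
      Lf i k (fun z => cX d g i k (rho d z)) (merid o X) :=
    Lf_congr_sphere i k hd (hF.comp _ (diff_rho _)) fun z hz => by
      rw [hz, hn, inv_one, one_smul]
  rw [hc, Lf_mul i k hd (CFieldAux.diffAt (contDiffOn_Lf i k hV) hx), h1,
    Lf_comp (diff_rho _) hF.hasDerivAt, hx1, rho_merid o hX]

theorem cX_mixed (g : RSt) (i : Fin 2) (a : Fin d) :
    (cX d g (zI d i) (yI d a) = fun X => Real.exp (2 * g.1 X)) ∧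
      cX d g (yI d a) (zI d i) = fun X => Real.exp (2 * g.1 X) := by
  have hi := i.2
  constructor
  · funext X
    rw [cX, if_neg, if_neg, add_zero]
    · simp only [zI, Fin.val_castLE]
      omega
    · simp only [zI, yI, Fin.val_castLE, Fin.val_succ]
      omega
  · funext X
    rw [cX, if_neg, if_neg, add_zero]
    · simp only [zI, Fin.val_castLE]
      omega
    · simp only [zI, yI, Fin.val_castLE, Fin.val_succ]
      omega

end DMerAux

theorem merid_ode {g : RSt} (hg : RAdm d g) {j m : ℕ} {lam : ℝ} {o : E d} (ho : ‖o‖ = 1)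
    {V : E (d + 2) → ℝ} (hV : ContDiffOn ℝ ∞ V {0}ᶜ)
    (h1 : ∀ p : E (d + 2), ‖p‖ = 1 →
      Lf (zI d 0) (zI d 1) (Lf (zI d 0) (zI d 1) V) p = -((m : ℝ) ^ 2) * V p)
    (h2 : ∀ p : E (d + 2), ‖p‖ = 1 →
      ∑ a, ∑ b, Lf (yI d a) (yI d b) (Lf (yI d a) (yI d b) V) p = -(2 * Jd d j) * V p)
    (h3 : ∀ p : E (d + 2), ‖p‖ = 1 → (1 / 2) * ∑ i, ∑ k,
      Lf i k (fun z => cT d (fun _ => toSt g) i k z * Lf i k V z) p = -lam * V p)
    {X : ℝ} (hX : X ∈ Ioo (0 : ℝ) 1) :
    HasDerivAt (fun X => Real.exp (2 * g.1 X) *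
        (merD o V (merid o X) / (2 * Real.sqrt (X * (1 - X)))))
      (((Vp d j m g.1 g.2 X - lam) * V (merid o X) - (4 - (4 + 2 * (d : ℝ)) * X) *
        (Real.exp (2 * g.1 X) * (merD o V (merid o X) / (2 * Real.sqrt (X * (1 - X)))))) /
        (4 * X * (1 - X))) X := by
  have hn := norm_merid ho hX
  have hx : merid o X ≠ 0 := by
    intro h
    rw [h, norm_zero] at hn
    exact zero_ne_one hn
  have hX1 : 0 < 1 - X := sub_pos.2 hX.2
  have hXX : 0 < X * (1 - X) := mul_pos hX.1 hX1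
  have hs := Real.sqrt_pos.2 hXX
  have hA : DifferentiableAt ℝ (fun X => Real.exp (2 * g.1 X)) X := by
    have : DifferentiableAt ℝ g.1 X := hg.s1.differentiable (by simp) X
    fun_prop
  obtain ⟨T, hT⟩ : ∃ T : Fin (d + 2) → Fin (d + 2) → ℝ, ∀ i k,
      Lf i k (fun z => cT d (fun _ => toSt g) i k z * Lf i k V z) (merid o X) = T i k :=
    ⟨_, fun _ _ => rfl⟩
  have e01 : T (zI d 0) (zI d 1) = (Real.exp (2 * g.1 X) +
      (Real.exp (2 * bet d (g.1 X) (g.2 X)) - Real.exp (2 * g.1 X)) / X) *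
        Lf (zI d 0) (zI d 1) (Lf (zI d 0) (zI d 1) V) (merid o X) := by
    have e : Lf (zI d 0) (zI d 1) (rho d) (merid o X) = 0 := by
      simp only [Lf, pd_rho, merid_z1, z0_ne_z1, if_true, if_false]
      ring
    rw [← hT, Lf_term hg ho hV hX, e, cX, if_pos (show (zI d 0 : ℕ) + zI d 1 = 1 from rfl)]
    ring
  have e10 : T (zI d 1) (zI d 0) = (Real.exp (2 * g.1 X) +
      (Real.exp (2 * bet d (g.1 X) (g.2 X)) - Real.exp (2 * g.1 X)) / X) *
        Lf (zI d 0) (zI d 1) (Lf (zI d 0) (zI d 1) V) (merid o X) := by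
    have e : Lf (zI d 1) (zI d 0) (rho d) (merid o X) = 0 := by
      simp only [Lf, pd_rho, merid_z1, z0_ne_z1, if_true, if_false]
      ring
    rw [← hT, Lf_term hg ho hV hX, e, cX, if_pos (show (zI d 1 : ℕ) + zI d 0 = 1 from rfl),
      LL_swap hV hx]
    ring
  have eii : ∀ i, T i i = 0 := fun i => by rw [← hT, Lf_self]
  have r0 : ∀ a, Lf (zI d 0) (yI d a) (rho d) (merid o X) =
      -2 * Real.sqrt (X * (1 - X)) * o a := by
    intro a
    simp only [Lf, pd_rho, merid_z0, merid_z1, merid_y, z_ne_y, if_true, if_false,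
      z0_ne_z1.symm, Real.sqrt_mul hX.1.le]
    ring
  have r1 : ∀ a, Lf (zI d 1) (yI d a) (rho d) (merid o X) = 0 := by
    intro a
    simp only [Lf, pd_rho, merid_z1, z_ne_y, if_true, if_false, z0_ne_z1]
    ring
  have e0a : ∀ a, T (zI d 0) (yI d a) =
      -2 * Real.sqrt (X * (1 - X)) * deriv (fun X => Real.exp (2 * g.1 X)) X *
        (o a * Lf (zI d 0) (yI d a) V (merid o X)) +
      Real.exp (2 * g.1 X) * Lf (zI d 0) (yI d a) (Lf (zI d 0) (yI d a) V) (merid o X) := by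
    intro a
    rw [← hT, Lf_term hg ho hV hX, (cX_mixed g 0 a).1, r0]
    ring
  have ea0 : ∀ a, T (yI d a) (zI d 0) =
      -2 * Real.sqrt (X * (1 - X)) * deriv (fun X => Real.exp (2 * g.1 X)) X *
        (o a * Lf (zI d 0) (yI d a) V (merid o X)) +
      Real.exp (2 * g.1 X) * Lf (zI d 0) (yI d a) (Lf (zI d 0) (yI d a) V) (merid o X) := by
    intro a
    rw [← hT, Lf_term hg ho hV hX, (cX_mixed g 0 a).2, LL_swap hV hx,
      Lf_swap (zI d 0) (yI d a) (rho d), Lf_swap (zI d 0) (yI d a) V, r0]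
    ring
  have e1a : ∀ a, T (zI d 1) (yI d a) =
      Real.exp (2 * g.1 X) * Lf (zI d 1) (yI d a) (Lf (zI d 1) (yI d a) V) (merid o X) := by
    intro a
    rw [← hT, Lf_term hg ho hV hX, (cX_mixed g 1 a).1, r1]
    ring
  have ea1 : ∀ a, T (yI d a) (zI d 1) =
      Real.exp (2 * g.1 X) * Lf (zI d 1) (yI d a) (Lf (zI d 1) (yI d a) V) (merid o X) := by
    intro a
    rw [← hT, Lf_term hg ho hV hX, (cX_mixed g 1 a).2, LL_swap hV hx,
      Lf_swap (zI d 1) (yI d a) (rho d), r1]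
    ring
  have eab : ∀ a b, T (yI d a) (yI d b) = (Real.exp (2 * g.1 X) +
      (Real.exp (2 * g.2 X) - Real.exp (2 * g.1 X)) / (1 - X)) *
        Lf (yI d a) (yI d b) (Lf (yI d a) (yI d b) V) (merid o X) := by
    intro a b
    by_cases hab : a = b
    · rw [hab, eii, Lf_self, mul_zero]
    · have e : Lf (yI d a) (yI d b) (rho d) (merid o X) = 0 := by
        simp only [Lf, pd_rho, z_ne_y, if_false]
        ring
      rw [← hT, Lf_term hg ho hV hX, e, cX, if_neg, if_pos]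
      · ring
      · refine ⟨?_, ?_, yI_inj.ne hab⟩ <;> simp [yI]
      · simp only [yI, Fin.val_succ]
        omega
  have k3 := h3 _ hn
  have kW : ∑ a, o a * Lf (zI d 0) (yI d a) V (merid o X) = -merD o V (merid o X) :=
    (neg_neg _).symm
  simp only [hT, sum_split, eii, e01, e10, e0a, ea0, e1a, ea1, eab, Finset.sum_add_distrib,
    ← Finset.mul_sum, kW, h1 _ hn, h2 _ hn] at k3
  have k4 := lap_merid ho hV hX
  rw [h1 _ hn, h2 _ hn] at k4
  have d1 := hasDerivAt_merid ho (contDiffOn_merD o hV) hX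
  have d2 : HasDerivAt (fun X : ℝ => 2 * Real.sqrt (X * (1 - X)))
      (2 * ((1 * (1 - X) + X * (-1)) / (2 * Real.sqrt (X * (1 - X))))) X :=
    (((hasDerivAt_id X).mul ((hasDerivAt_id X).const_sub 1)).sqrt hXX.ne').const_mul 2
  have d3 := hA.hasDerivAt.mul (d1.div d2 (mul_pos two_pos hs).ne')
  refine d3.congr_deriv ?_
  have es := Real.sq_sqrt hXX.le
  simp only [Vp, Pi.div_apply]
  generalize ∑ a, Lf (zI d 0) (yI d a) (Lf (zI d 0) (yI d a) V) (merid o X) = t0 at *
  generalize ∑ a, Lf (zI d 1) (yI d a) (Lf (zI d 1) (yI d a) V) (merid o X) = t1 at *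
  generalize merD o (merD o V) (merid o X) = DD at *
  generalize merD o V (merid o X) = W at *
  generalize V (merid o X) = v at *
  generalize deriv (fun X => Real.exp (2 * g.1 X)) X = A' at *
  generalize Real.exp (2 * g.1 X) = A at *
  generalize Real.exp (2 * bet d (g.1 X) (g.2 X)) = B at *
  generalize Real.exp (2 * g.2 X) = C at *
  generalize Real.sqrt (X * (1 - X)) = s at *
  have i1 : X * X⁻¹ = 1 := mul_inv_cancel₀ hX.1.ne'
  have i2 : (1 - X) * (1 - X)⁻¹ = 1 := mul_inv_cancel₀ hX1.ne'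
  have key : ((m : ℝ) ^ 2 * B / X + Jd d j * C / (1 - X) - lam) * v =
      2 * s * A' * W + A * DD + A * (1 - d * X) * (W / s) := by
    linear_combination (-1) * k3 + A * k4 + A * (m : ℝ) ^ 2 * v * i1 + A * Jd d j * v * i2
  rw [key, show 4 * X * (1 - X) = 4 * s ^ 2 by rw [es]; ring]
  field_simp
  ring

end Crest.Agent.R202
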