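import Crest.Agent.R202.EMaster

/-!
# Row 202, E5: independence of eigenvalue differentials

Write `W_i = ρ_i² capR_i²` (`cap_ident`), use `master_ge_two` / `master_one` and the tools
`cap_sum_cont`, `cap_order_indep`, `capW_expo`, `expo_top` (a constant has exponent `0 < ν`).

Pair (`λ_a = λ_b`, `x = δ_a - δ_b`).  `d ≥ 2`: `m_a² W_a = m_b² W_b` gives `m_a = m_b` (orders); if
`m_a ≥ 1` then `W_a = W_b`, so `J_a = J_b`, `j_a = j_b`; if `m_a = 0` then `J_a W_a = J_b W_b` and
`λ (W_a - W_b) = c` force `J_a = J_b` (else `W_a` or `W_b` is constant or zero).  `d = 1`: `W_a = W_b`,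
`m_a = m_b`, and `RadSol.cross` excludes `j_a ≠ j_b`.

Four terms (`x = r(δ_a - δ_b) - (δ_c - δ_e)`, `D₁ = W_a - W_b`, `D₂ = W_c - W_e`); `r = 0` is the pair case.
* `λ_a ≠ λ_c`, `d ≥ 2`: eliminate `W_e` (or `W_b`) between `U_λ = c` and `U_m = 0`:
  `(m_c² - m_e²) W_c` is a combination of functions of smaller exponent (if `λ_c > λ_a`; `ν` is
  increasing in `λ`), symmetric otherwise.  `d = 1`: `D₁` is constant, `= 0` at `X = 0`, orders.
* `λ_a = λ_c`, `d = 1`: all labels have distinct `m` (`RadSol.cross`), `U_{λ²} = 0`, orders.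
  `d ≥ 2`, `j_a = j_c`: `U_m = 0` kills the labels with `m ≥ 1`, `U_λ = c` the one with `m = 0`;
  `j_a ≠ j_c`: `U_J = 0`, `U_λ = c` make `D₁` constant.

Round state (`indep_round`): continue the relation analytically to `X → 0`.  `d ≥ 2`: second relation,
the left side vanishes to order `X^{min m}`, the right side to exact order `X^{min m - 1}`.
`d = 1`: `medium`.
-/

set_option autoImplicit false
open scoped ContDiff Topology
open Set Filter

noncomputable section
namespace Crest.Agent.R202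

variable {d : ℕ} {al ga : ℝ → ℝ} {ι : Type} [Fintype ι] [DecidableEq ι] {j m : ι → ℕ}
  {lam ν : ι → ℝ} {R P : ι → ℝ → ℝ} {X₁ X₂ : ℝ}

namespace EI

theorem lam_pos {d j m : ℕ} {lam ν : ℝ} (h : NuOK d j m lam ν) : 0 < lam := by
  rw [h.eq]
  have := h.pos
  positivity

theorem nu_lt {d j m j' m' : ℕ} {lam ν lam' ν' : ℝ} (h : NuOK d j m lam ν)
    (h' : NuOK d j' m' lam' ν') (hl : lam < lam') : ν < ν' := by
  by_contra hc
  push Not at hc
  have h1 := h.eq
  have h2 := h'.eq
  have h3 := h'.pos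
  have hd : (0 : ℝ) ≤ d := Nat.cast_nonneg d
  nlinarith

theorem Jd_inj {d j j' : ℕ} (hd : 2 ≤ d) (h : Jd d j = Jd d j') : j = j' := by
  unfold Jd at h
  have hd' : (2 : ℝ) ≤ d := by exact_mod_cast hd
  have hj : (0 : ℝ) ≤ j := Nat.cast_nonneg j
  have hj' : (0 : ℝ) ≤ j' := Nat.cast_nonneg j'
  have h2 : ((j : ℝ) - j') * ((j : ℝ) + j' + d - 2) = 0 := by linarith
  rcases mul_eq_zero.mp h2 with h3 | h3
  · exact_mod_cast sub_eq_zero.mp h3
  · have a1 : (j : ℝ) = 0 := by linarith
    have a2 : (j' : ℝ) = 0 := by linarith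
    exact_mod_cast a1.trans a2.symm

theorem sum_pair (a b : ι) (g : ι → ℝ) :
    ∑ i, (Pi.single a 1 - Pi.single b 1 : ι → ℝ) i * g i = g a - g b := by
  simp [sub_mul, Finset.sum_sub_distrib, Pi.single_apply]

theorem sum_four (a b c e : ι) (r : ℝ) (g : ι → ℝ) :
    ∑ i, (r • (Pi.single a 1 - Pi.single b 1) - (Pi.single c 1 - Pi.single e 1) : ι → ℝ) i * g i =
      r * (g a - g b) - (g c - g e) := by
  have h1 := sum_pair a b g
  have h2 := sum_pair c e g
  rw [← h1, ← h2, Finset.mul_sum, ← Finset.sum_sub_distrib]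
  refine Finset.sum_congr rfl fun i _ => ?_
  simp only [Pi.sub_apply, Pi.smul_apply, smul_eq_mul]
  ring

omit [Fintype ι] [DecidableEq ι] in
/-- two functions `capR²` with distinct orders are independent -/
theorem order2 (hν : ∀ i, NuOK d (j i) (m i) (lam i) (ν i)) {a b : ι} (hm : m a ≠ m b)
    {Xa Xb p q : ℝ} (ha : 0 ≤ Xa) (hab : Xa < Xb) (hb : Xb ≤ 1 / 2)
    (hs : ∀ X ∈ Ioo Xa Xb, p * capR d (j a) (m a) (ν a) X ^ 2 +
      q * capR d (j b) (m b) (ν b) X ^ 2 = 0) : p = 0 ∧ q = 0 := by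
  let σ : Fin 2 → ι := ![a, b]
  have key := cap_order_indep (d := d) (ι := Fin 2) (j := fun i => j (σ i)) (m := fun i => m (σ i))
    (lam := fun i => lam (σ i)) (ν := fun i => ν (σ i)) (x := ![p, q]) (fun i => hν (σ i))
    (by
      intro i i' _ _ h
      fin_cases i <;> fin_cases i'
      · rfl
      · exact absurd h hm
      · exact absurd h hm.symm
      · rfl) ha hab hb
    (by
      intro X hX
      simpa [Fin.sum_univ_two, σ] using hs X hX)
  exact ⟨by simpa using congrFun key 0, by simpa using congrFun key 1⟩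

omit [Fintype ι] [DecidableEq ι] in
/-- the value at `X = 0` -/
theorem val2 (hν : ∀ i, NuOK d (j i) (m i) (lam i) (ν i)) {a b : ι} (ma : 1 ≤ m a) (mb : 1 ≤ m b)
    {Xa Xb p q c : ℝ} (ha : 0 ≤ Xa) (hab : Xa < Xb) (hb : Xb ≤ 1 / 2)
    (hs : ∀ X ∈ Ioo Xa Xb, p * capR d (j a) (m a) (ν a) X ^ 2 +
      q * capR d (j b) (m b) (ν b) X ^ 2 = c) : c = 0 := by
  let σ : Fin 2 → ι := ![a, b]
  have key := cap_sum_cont (d := d) (ι := Fin 2) (j := fun i => j (σ i)) (m := fun i => m (σ i))
    (lam := fun i => lam (σ i)) (ν := fun i => ν (σ i)) (x := ![p, q]) (c := c) (fun i => hν (σ i))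
    ha hab hb
    (by
      intro X hX
      simpa [Fin.sum_univ_two, σ] using hs X hX) 0 ⟨by norm_num, by norm_num⟩
  have h1 : m a ≠ 0 := by omega
  have h2 : m b ≠ 0 := by omega
  simpa [Fin.sum_univ_two, σ, h1, h2] using key.symm

omit [Fintype ι] [DecidableEq ι] in
/-- a combination of two functions with orders `≥ 1` that is constant is trivial -/
theorem const2 (hν : ∀ i, NuOK d (j i) (m i) (lam i) (ν i)) {a b : ι} (ma : 1 ≤ m a) (mb : 1 ≤ m b)
    (hm : m a ≠ m b) {Xa Xb p q c : ℝ} (ha : 0 ≤ Xa) (hab : Xa < Xb) (hb : Xb ≤ 1 / 2)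
    (hs : ∀ X ∈ Ioo Xa Xb, p * capR d (j a) (m a) (ν a) X ^ 2 +
      q * capR d (j b) (m b) (ν b) X ^ 2 = c) : p = 0 ∧ q = 0 := by
  have hc := val2 hν ma mb ha hab hb hs
  subst hc
  exact order2 hν hm ha hab hb hs

omit [Fintype ι] [DecidableEq ι] in
/-- the term with the largest exponent cannot occur in a constant combination -/
theorem expo3 (hν : ∀ i, NuOK d (j i) (m i) (lam i) (ν i)) {a b e : ι}
    {Xa Xb p q s c : ℝ} (hq : q ≠ 0 → ν b < ν a) (hs' : s ≠ 0 → ν e < ν a)
    (ha : 0 ≤ Xa) (hab : Xa < Xb) (hb : Xb ≤ 1 / 2)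
    (hs : ∀ X ∈ Ioo Xa Xb, p * capR d (j a) (m a) (ν a) X ^ 2 +
      q * capR d (j b) (m b) (ν b) X ^ 2 + s * capR d (j e) (m e) (ν e) X ^ 2 = c) : p = 0 := by
  classical
  by_contra hp
  let σ : Fin 3 → ι := ![a, b, e]
  have key := cap_sum_cont (d := d) (ι := Fin 3) (j := fun i => j (σ i)) (m := fun i => m (σ i))
    (lam := fun i => lam (σ i)) (ν := fun i => ν (σ i)) (x := ![p, q, s]) (c := c)
    (fun i => hν (σ i)) ha hab hb
    (by
      intro X hX
      simpa [Fin.sum_univ_three, σ] using hs X hX)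
  have h1 : Expo (fun _ => (1 : ℝ)) 0 := expo_of_tendsto one_ne_zero tendsto_const_nhds
  let E : ι → ℝ → ℝ := fun i Y => (Y / (Y - 1)) ^ m i * capG d (j i) (m i) (ν i) Y ^ 2
  have hE : ∀ i, Expo (E i) (ν i) := fun i => capW_expo (hν i)
  let G : Fin 3 → ℝ → ℝ := ![fun _ => 1, if q = 0 then fun _ => 1 else E b,
    if s = 0 then fun _ => 1 else E e]
  let τ : Fin 3 → ℝ := ![0, if q = 0 then 0 else ν b, if s = 0 then 0 else ν e]
  have hpos := (hν a).pos
  refine expo_top (ι := Fin 3) (hE a) (G := G) (σ := τ) ?_ ?_ ![c / p, -q / p, -s / p] ?_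
  · intro i
    fin_cases i
    · exact h1
    · by_cases h : q = 0
      · simpa [G, τ, h] using h1
      · simpa [G, τ, h] using hE b
    · by_cases h : s = 0
      · simpa [G, τ, h] using h1
      · simpa [G, τ, h] using hE e
  · intro i
    fin_cases i
    · simpa [τ] using hpos
    · by_cases h : q = 0
      · simpa [τ, h] using hpos
      · simpa [τ, h] using hq h
    · by_cases h : s = 0
      · simpa [τ, h] using hpos
      · simpa [τ, h] using hs' h
  · have hmem : Ioo (-1 : ℝ) 1 ∈ 𝓝[<] (1 : ℝ) := Ioo_mem_nhdsLT (by norm_num)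
    filter_upwards [hmem] with Y hY
    have k := key Y hY
    simp only [Fin.sum_univ_three, σ, Matrix.cons_val_zero, Matrix.cons_val_one,
      Matrix.cons_val_two, Matrix.head_cons, Matrix.tail_cons] at k
    have k' : p * E a Y + q * E b Y + s * E e Y = c := k
    have e1 : -q / p * G 1 Y = -q / p * E b Y := by
      by_cases h : q = 0
      · simp [h]
      · simp [G, h]
    have e2 : -s / p * G 2 Y = -s / p * E e Y := by
      by_cases h : s = 0
      · simp [h]
      · simp [G, h]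
    have e0 : G 0 Y = 1 := rfl
    rw [Fin.sum_univ_three]
    simp only [Matrix.cons_val_zero, Matrix.cons_val_one, Matrix.cons_val_two, Matrix.head_cons,
      Matrix.tail_cons]
    rw [e1, e2, e0, ← k']
    field_simp
    ring

omit [Fintype ι] [DecidableEq ι] in
theorem cross_j (hj : ∀ i, j i ≤ 1) (hal : Continuous al) (hga : Continuous ga)
    (hR : ∀ i, RadSol 1 (j i) (m i) al ga (lam i) (R i) (P i)) {a b : ι} (hm : m a = m b)
    (hl : lam a = lam b) : j a = j b := by
  by_contra hne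
  have ha := hj a
  have hb := hj b
  have h1 := hR a
  have h2 := hR b
  rw [← hm, ← hl] at h2
  rcases Nat.lt_or_gt_of_ne hne with h | h
  · have e1 : j a = 0 := by omega
    have e2 : j b = 1 := by omega
    rw [e1] at h1
    rw [e2] at h2
    exact RadSol.cross hal hga h1 h2
  · have e1 : j a = 1 := by omega
    have e2 : j b = 0 := by omega
    rw [e1] at h1
    rw [e2] at h2
    exact RadSol.cross hal hga h2 h1

omit [Fintype ι] in
theorem four_supp {a b c e i : ι} {r : ℝ}
    (h : (r • (Pi.single a 1 - Pi.single b 1) - (Pi.single c 1 - Pi.single e 1) : ι → ℝ) i ≠ 0) :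
    i = a ∨ i = b ∨ i = c ∨ i = e := by
  by_contra hc
  push Not at hc
  obtain ⟨h1, h2, h3, h4⟩ := hc
  apply h
  simp [h1, h2, h3, h4]

omit [Fintype ι] in
theorem four_fin {a b c e : ι} (hab : a ≠ b) (hce : c ≠ e) {r : ℝ} (hr : r ≠ 0)
    (ha : (r • (Pi.single a 1 - Pi.single b 1) - (Pi.single c 1 - Pi.single e 1) : ι → ℝ) a = 0)
    (hb : (r • (Pi.single a 1 - Pi.single b 1) - (Pi.single c 1 - Pi.single e 1) : ι → ℝ) b = 0) :
    (c = a ∧ e = b) ∨ (c = b ∧ e = a) := by
  simp only [Pi.sub_apply, Pi.smul_apply, smul_eq_mul, Pi.single_apply, if_true, hab, hab.symm,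
    if_false] at ha hb
  by_cases h1 : a = c
  · subst h1
    left
    refine ⟨rfl, ?_⟩
    by_contra h2
    have h3 : ¬ b = e := fun h => h2 h.symm
    simp [hab.symm, h3] at hb
    exact hr hb
  · by_cases h2 : a = e
    · subst h2
      right
      refine ⟨?_, rfl⟩
      by_contra h3
      have h4 : ¬ b = c := fun h => h3 h.symm
      simp [hab.symm, h4] at hb
      exact hr hb
    · simp [h1, h2] at ha
      exact absurd ha hr

omit [Fintype ι] [DecidableEq ι] in
theorem exists_rho (hal : ContDiff ℝ ∞ al) (hga : ContDiff ℝ ∞ ga) (h0 : 0 < X₁) (h1 : X₁ < 1 / 2)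
    (hSF : SF al ga X₁) (hR : ∀ i, RadSol d (j i) (m i) al ga (lam i) (R i) (P i))
    (hν : ∀ i, NuOK d (j i) (m i) (lam i) (ν i)) :
    ∃ ρ : ι → ℝ, (∀ i, ρ i ≠ 0) ∧ ∀ i, ∀ X ∈ Ioo (0 : ℝ) X₁,
      R i X = ρ i * capR d (j i) (m i) (ν i) X ∧ P i X = ρ i * capP d (j i) (m i) (ν i) X := by
  have h := fun i => cap_ident (hν i) hal.continuous hga.continuous h0 h1.le
    (fun X hX => hSF.cap X hX.2.le) (hR i)
  choose ρ h1 h2 using h
  exact ⟨ρ, h1, h2⟩

theorem natsq_inj {a b : ℕ} (h : (a : ℝ) ^ 2 - (b : ℝ) ^ 2 = 0) : a = b := by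
  have h1 : (a : ℝ) ^ 2 = (b : ℝ) ^ 2 := by linarith
  have h2 : a ^ 2 = b ^ 2 := by exact_mod_cast h1
  exact Nat.pow_left_injective two_ne_zero h2

theorem pow_pos_of_ne {x : ℝ} (h : x ≠ 0) : 0 < x ^ 2 := by positivity

omit [Fintype ι] [DecidableEq ι] in
/-- the second relation at the round state is impossible for `d ≥ 2` (orders at `X = 0`) -/
theorem round_two (hd : 2 ≤ d) (hν : ∀ i, NuOK d (j i) (m i) (lam i) (ν i)) {a b : ι}
    (ma : 1 ≤ m a) (mab : m a < m b) {wa wb J : ℝ} (hwa : wa ≠ 0) (h0 : 0 < X₁) (h12 : X₁ < X₂)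
    (h2 : X₂ ≤ 1 / 2)
    (hs : ∀ X ∈ Ioo X₁ X₂, J * (wa * capR d (j a) (m a) (ν a) X ^ 2 -
        wb * capR d (j b) (m b) (ν b) X ^ 2) / (1 - X) =
      ((d : ℝ) - 1) * (((m a : ℝ) ^ 2 * (wa * capR d (j a) (m a) (ν a) X ^ 2) -
        (m b : ℝ) ^ 2 * (wb * capR d (j b) (m b) (ν b) X ^ 2)) / X)) : False := by
  obtain ⟨k, hk⟩ : ∃ k, m b = m a + (k + 1) := ⟨m b - m a - 1, by omega⟩
  let g : ι → ℝ → ℝ := fun i X => capG d (j i) (m i) (ν i) (X / (X - 1))
  have hY : AnalyticOnNhd ℝ (fun X : ℝ => X / (X - 1)) (Iio (1 / 2)) := by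
    intro X hX
    have : X - 1 ≠ 0 := by
      have : X < 1 / 2 := hX
      linarith
    exact analyticAt_id.div (analyticAt_id.sub analyticAt_const) this
  have hmaps : MapsTo (fun X : ℝ => X / (X - 1)) (Iio (1 / 2)) (Ioo (-1) 1) := by
    intro X hX
    have hX' : X < 1 / 2 := hX
    have hneg : X - 1 < 0 := by linarith
    constructor
    · rw [lt_div_iff_of_neg hneg]
      linarith
    · rw [div_lt_iff_of_neg hneg]
      linarith
  have hg : ∀ i, AnalyticOnNhd ℝ (g i) (Iio (1 / 2)) := fun i =>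
    (capG_analytic (hν i)).comp hY hmaps
  let F : ℝ → ℝ := fun X => X * J * (wa * g a X ^ 2 - wb * (X ^ (k + 1) * g b X ^ 2)) -
    ((d : ℝ) - 1) * (1 - X) * ((m a : ℝ) ^ 2 * (wa * g a X ^ 2) -
      (m b : ℝ) ^ 2 * (wb * (X ^ (k + 1) * g b X ^ 2)))
  have hF : AnalyticOnNhd ℝ F (Iio (1 / 2)) := by
    intro X hX
    have h1 := hg a X hX
    have h2 := hg b X hX
    have h3 : AnalyticAt ℝ (fun X : ℝ => X) X := analyticAt_id
    exact ((h3.mul analyticAt_const).mul ((analyticAt_const.mul (h1.pow 2)).sub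
      (analyticAt_const.mul ((h3.pow _).mul (h2.pow 2))))).sub
      ((analyticAt_const.mul (analyticAt_const.sub h3)).mul
        ((analyticAt_const.mul (analyticAt_const.mul (h1.pow 2))).sub
          (analyticAt_const.mul (analyticAt_const.mul ((h3.pow _).mul (h2.pow 2))))))
  have hsq : ∀ i, ∀ X : ℝ, 0 ≤ X → capR d (j i) (m i) (ν i) X ^ 2 = X ^ m i * g i X ^ 2 := by
    intro i X hX
    simp only [capR, g]
    rw [mul_pow, ← pow_mul, mul_comm (m i) 2, pow_mul, Real.sq_sqrt hX]
  have hzero : ∀ X ∈ Ioo X₁ X₂, F X = 0 := by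
    intro X hX
    have hX0 : 0 < X := h0.trans hX.1
    have hX1 : 1 - X ≠ 0 := by
      have := hX.2
      linarith
    have k1 := hs X hX
    rw [hsq a X hX0.le, hsq b X hX0.le, hk, pow_add] at k1
    have hp : X ^ m a ≠ 0 := pow_ne_zero _ hX0.ne'
    simp only [F]
    rw [hk]
    field_simp at k1
    linear_combination k1
  have hmid : (X₁ + X₂) / 2 ∈ Ioo X₁ X₂ := ⟨by linarith, by linarith⟩
  have hev : F =ᶠ[𝓝 ((X₁ + X₂) / 2)] 0 := by
    filter_upwards [Ioo_mem_nhds hmid.1 hmid.2] with X hX using hzero X hX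
  have hall := hF.eqOn_zero_of_preconnected_of_eventuallyEq_zero isPreconnected_Iio
    (show (X₁ + X₂) / 2 ∈ Iio (1 / 2 : ℝ) from lt_of_lt_of_le hmid.2 h2) hev
  have h00 := hall (show (0 : ℝ) ∈ Iio (1 / 2 : ℝ) from by norm_num)
  have hga : g a 0 = 1 := by
    simp only [g, zero_div]
    exact capG_zero _ _ _ _
  simp only [F, hga, Pi.zero_apply, zero_mul, ne_eq, Nat.add_eq_zero_iff, one_ne_zero, and_false,
    not_false_eq_true, zero_pow, mul_zero, sub_zero, one_pow, mul_one, zero_sub, neg_eq_zero] at h00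
  have hd' : (2 : ℝ) ≤ d := by exact_mod_cast hd
  have hm' : (0 : ℝ) < m a := by exact_mod_cast ma
  exact mul_ne_zero (by linarith) (mul_ne_zero (pow_pos hm' 2).ne' hwa) h00

end EI

open EI

theorem indep_pair (hd : 1 ≤ d) (hj : d = 1 → ∀ i, j i ≤ 1) (hal : ContDiff ℝ ∞ al)
    (hga : ContDiff ℝ ∞ ga) (h0 : 0 < X₁) (h1 : X₁ < 1 / 2) (h12 : X₁ < X₂) (hSF : SF al ga X₁)
    (hR : ∀ i, RadSol d (j i) (m i) al ga (lam i) (R i) (P i))
    (hν : ∀ i, NuOK d (j i) (m i) (lam i) (ν i))
    (hinj : ∀ i i', j i = j i' → m i = m i' → lam i = lam i' → i = i') {a b : ι}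
    (hab : lam a = lam b)
    (hrel : Rel d j m (Pi.single a 1 - Pi.single b 1) al ga R P (Ioo X₁ X₂)) : a = b := by
  obtain ⟨ρ, hρ0, hρ⟩ := exists_rho hal hga h0 h1 hSF hR hν
  have wa : 0 < ρ a ^ 2 := pow_pos_of_ne (hρ0 a)
  have la := lam_pos (hν a)
  rcases Nat.lt_or_ge d 2 with hd2 | hd2
  · have hd1 : d = 1 := by omega
    subst hd1
    obtain ⟨hL2, -⟩ := master_one (hj rfl) hal hga h0 h1 h12 hSF hR hν hρ hrel
    have hm : m a = m b := by
      by_contra hm
      have := (order2 hν hm (p := lam a ^ 2 * ρ a ^ 2) (q := -(lam b ^ 2 * ρ b ^ 2)) le_rfl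
        (by norm_num) le_rfl (fun X hX => by
          have k := hL2 X hX
          simp only [mul_assoc] at k
          rw [sum_pair] at k
          linarith)).1
      have : 0 < lam a ^ 2 * ρ a ^ 2 := by positivity
      linarith
    exact hinj a b (cross_j (hj rfl) hal.continuous hga.continuous hR hm hab) hm hab
  · obtain ⟨hM, hJ, c, hL⟩ := master_ge_two hd2 hal hga h0 h1 h12 hSF hR hν hρ hrel
    have hm : m a = m b := by
      by_contra hm
      obtain ⟨k1, k2⟩ := order2 hν hm (p := (m a : ℝ) ^ 2 * ρ a ^ 2)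
        (q := -((m b : ℝ) ^ 2 * ρ b ^ 2)) le_rfl (by norm_num) le_rfl (fun X hX => by
          have k := hM X hX
          simp only [mul_assoc] at k
          rw [sum_pair] at k
          linarith)
      have wb : 0 < ρ b ^ 2 := pow_pos_of_ne (hρ0 b)
      have e1 : (m a : ℝ) ^ 2 = 0 := (mul_eq_zero.mp k1).resolve_right wa.ne'
      have e2 : (m b : ℝ) ^ 2 = 0 := (mul_eq_zero.mp (neg_eq_zero.mp k2)).resolve_right wb.ne'
      exact hm (natsq_inj (by rw [e1, e2, sub_zero]))
    have hJe : lam a * (Jd d (j b) - Jd d (j a)) * ρ a ^ 2 = 0 := by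
      refine expo3 hν (a := a) (b := a) (e := a) (q := 0) (s := 0) (c := Jd d (j b) * c)
        (fun h => absurd rfl h) (fun h => absurd rfl h) le_rfl (by norm_num : (0 : ℝ) < 1 / 2)
        le_rfl (fun X hX => ?_)
      have k1 := hJ X hX
      have k2 := hL X hX
      simp only [mul_assoc] at k1 k2
      rw [sum_pair] at k1 k2
      rw [← hab] at k2
      linear_combination Jd d (j b) * k2 - lam a * k1
    have hJe' : Jd d (j a) = Jd d (j b) := by
      rcases mul_eq_zero.mp hJe with h | h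
      · rcases mul_eq_zero.mp h with h | h
        · exact absurd h la.ne'
        · linarith
      · exact absurd h wa.ne'
    exact hinj a b (Jd_inj hd2 hJe') hm hab

theorem indep_four (hd : 1 ≤ d) (hj : d = 1 → ∀ i, j i ≤ 1) (hal : ContDiff ℝ ∞ al)
    (hga : ContDiff ℝ ∞ ga) (h0 : 0 < X₁) (h1 : X₁ < 1 / 2) (h12 : X₁ < X₂) (hSF : SF al ga X₁)
    (hR : ∀ i, RadSol d (j i) (m i) al ga (lam i) (R i) (P i))
    (hν : ∀ i, NuOK d (j i) (m i) (lam i) (ν i))
    (hinj : ∀ i i', j i = j i' → m i = m i' → lam i = lam i' → i = i') {a b c e : ι}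
    (hab : a ≠ b) (hce : c ≠ e) (jab : j a = j b) (jce : j c = j e) (lab : lam a = lam b)
    (lce : lam c = lam e) (ma : 1 ≤ m a) (mb : 1 ≤ m b) (r : ℝ)
    (hrel : Rel d j m (r • (Pi.single a 1 - Pi.single b 1) - (Pi.single c 1 - Pi.single e 1))
      al ga R P (Ioo X₁ X₂)) : (c = a ∧ e = b) ∨ (c = b ∧ e = a) := by
  obtain ⟨ρ, hρ0, hρ⟩ := exists_rho hal hga h0 h1 hSF hR hν
  have w : ∀ i, 0 < ρ i ^ 2 := fun i => pow_pos_of_ne (hρ0 i)
  have lp : ∀ i, 0 < lam i := fun i => lam_pos (hν i)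
  have mab : m a ≠ m b := fun h => hab (hinj a b jab h lab)
  have mce : m c ≠ m e := fun h => hce (hinj c e jce h lce)
  have h02 : (0 : ℝ) < 1 / 2 := by norm_num
  rcases Nat.lt_or_ge d 2 with hd2 | hd2
  · have hd1 : d = 1 := by omega
    subst hd1
    obtain ⟨hL2, c0, hL⟩ := master_one (hj rfl) hal hga h0 h1 h12 hSF hR hν hρ hrel
    have hr : r ≠ 0 := by
      intro hr
      have := (order2 hν mce (p := lam c ^ 2 * ρ c ^ 2) (q := -(lam e ^ 2 * ρ e ^ 2)) le_rfl
        h02 le_rfl (fun X hX => by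
          have k := hL2 X hX
          simp only [mul_assoc] at k
          rw [sum_four, hr] at k
          linarith)).1
      have h2 := w c
      have h3 := lp c
      have : 0 < lam c ^ 2 * ρ c ^ 2 := by positivity
      linarith
    by_cases hl : lam a = lam c
    · have hlam : ∀ i, (i = a ∨ i = b ∨ i = c ∨ i = e) → lam i = lam a := by
        rintro i (rfl | rfl | rfl | rfl)
        · rfl
        · exact lab.symm
        · exact hl.symm
        · exact lce.symm.trans hl.symm
      have key := cap_order_indep (d := 1) (j := j) (m := m) (lam := lam) (ν := ν)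
        (x := fun i => (r • (Pi.single a 1 - Pi.single b 1) - (Pi.single c 1 - Pi.single e 1) :
          ι → ℝ) i * lam i ^ 2 * ρ i ^ 2) hν
        (by
          intro i i' hi hi' hm
          have s1 := four_supp (left_ne_zero_of_mul (left_ne_zero_of_mul hi))
          have s2 := four_supp (left_ne_zero_of_mul (left_ne_zero_of_mul hi'))
          have hl' : lam i = lam i' := (hlam i s1).trans (hlam i' s2).symm
          exact hinj i i' (cross_j (hj rfl) hal.continuous hga.continuous hR hm hl') hm hl')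
        le_rfl h02 le_rfl hL2
      have hx : ∀ i, (r • (Pi.single a 1 - Pi.single b 1) - (Pi.single c 1 - Pi.single e 1) :
          ι → ℝ) i = 0 := by
        intro i
        have k := congrFun key i
        simp only [Pi.zero_apply] at k
        rcases mul_eq_zero.mp k with h | h
        · rcases mul_eq_zero.mp h with h | h
          · exact h
          · exact absurd h (pow_pos (lp i) 2).ne'
        · exact absurd h (w i).ne'
      exact four_fin hab hce hr (hx a) (hx b)
    · exfalso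
      have := (const2 hν ma mb mab (p := r * lam a * (lam a - lam c) * ρ a ^ 2)
        (q := -(r * lam a * (lam a - lam c) * ρ b ^ 2)) (c := -(lam c * c0)) le_rfl h02 le_rfl
        (fun X hX => by
          have k1 := hL2 X hX
          have k2 := hL X hX
          simp only [mul_assoc] at k1 k2
          rw [sum_four] at k1 k2
          rw [← lab, ← lce] at k1 k2
          linear_combination k1 - lam c * k2)).1
      exact mul_ne_zero (mul_ne_zero (mul_ne_zero hr (lp a).ne') (sub_ne_zero.mpr hl)) (w a).ne' this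
  · obtain ⟨hM, hJ, c0, hL⟩ := master_ge_two hd2 hal hga h0 h1 h12 hSF hR hν hρ hrel
    -- elimination of `W_e`
    have elimE : (r ≠ 0 → lam a < lam c) → False := by
      intro hlt
      have := expo3 hν (a := c) (b := a) (e := b)
        (p := lam c * ((m e : ℝ) ^ 2 - (m c : ℝ) ^ 2) * ρ c ^ 2)
        (q := r * ((lam c * (m a : ℝ) ^ 2 - (m e : ℝ) ^ 2 * lam a) * ρ a ^ 2))
        (s := r * (-((lam c * (m b : ℝ) ^ 2 - (m e : ℝ) ^ 2 * lam a) * ρ b ^ 2)))
        (c := -((m e : ℝ) ^ 2 * c0))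
        (fun h => nu_lt (hν a) (hν c) (hlt (left_ne_zero_of_mul h)))
        (fun h => nu_lt (hν b) (hν c) (lab ▸ hlt (left_ne_zero_of_mul h))) le_rfl h02 le_rfl
        (fun X hX => by
          have k1 := hM X hX
          have k2 := hL X hX
          simp only [mul_assoc] at k1 k2
          rw [sum_four] at k1 k2
          rw [← lab, ← lce] at k2
          linear_combination lam c * k1 - (m e : ℝ) ^ 2 * k2)
      rcases mul_eq_zero.mp this with h | h
      · rcases mul_eq_zero.mp h with h | h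
        · exact absurd h (lp c).ne'
        · exact mce (natsq_inj h).symm
      · exact absurd h (w c).ne'
    have hr : r ≠ 0 := fun hr => elimE fun h => absurd hr h
    rcases lt_trichotomy (lam a) (lam c) with hl | hl | hl
    · exact (elimE fun _ => hl).elim
    · by_cases hjc : j a = j c
      · have hlam : ∀ i, (i = a ∨ i = b ∨ i = c ∨ i = e) → lam i = lam a ∧ j i = j a := by
          rintro i (rfl | rfl | rfl | rfl)
          · exact ⟨rfl, rfl⟩
          · exact ⟨lab.symm, jab.symm⟩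
          · exact ⟨hl.symm, hjc.symm⟩
          · exact ⟨lce.symm.trans hl.symm, jce.symm.trans hjc.symm⟩
        have key := cap_order_indep (d := d) (j := j) (m := m) (lam := lam) (ν := ν)
          (x := fun i => (r • (Pi.single a 1 - Pi.single b 1) - (Pi.single c 1 - Pi.single e 1) :
            ι → ℝ) i * (m i : ℝ) ^ 2 * ρ i ^ 2) hν
          (by
            intro i i' hi hi' hm
            have s1 := hlam i (four_supp (left_ne_zero_of_mul (left_ne_zero_of_mul hi)))
            have s2 := hlam i' (four_supp (left_ne_zero_of_mul (left_ne_zero_of_mul hi')))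
            exact hinj i i' (s1.2.trans s2.2.symm) hm (s1.1.trans s2.1.symm))
          le_rfl h02 le_rfl hM
        have hx : ∀ i, 1 ≤ m i → (r • (Pi.single a 1 - Pi.single b 1) -
            (Pi.single c 1 - Pi.single e 1) : ι → ℝ) i = 0 := by
          intro i hi
          have k := congrFun key i
          simp only [Pi.zero_apply] at k
          have hmi : (0 : ℝ) < m i := by exact_mod_cast hi
          rcases mul_eq_zero.mp k with h | h
          · rcases mul_eq_zero.mp h with h | h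
            · exact h
            · exact absurd h (pow_pos hmi 2).ne'
          · exact absurd h (w i).ne'
        exact four_fin hab hce hr (hx a ma) (hx b mb)
      · exfalso
        have hJ' : Jd d (j a) - Jd d (j c) ≠ 0 := fun h => hjc (Jd_inj hd2 (sub_eq_zero.mp h))
        have := (const2 hν ma mb mab (p := r * lam a * (Jd d (j a) - Jd d (j c)) * ρ a ^ 2)
          (q := -(r * lam a * (Jd d (j a) - Jd d (j c)) * ρ b ^ 2)) (c := -(Jd d (j c) * c0))
          le_rfl h02 le_rfl (fun X hX => by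
            have k1 := hJ X hX
            have k2 := hL X hX
            simp only [mul_assoc] at k1 k2
            rw [sum_four] at k1 k2
            rw [← lab, ← lce, ← hl] at k2
            rw [← jab, ← jce] at k1
            rw [← jab, ← jce] at k2
            rw [← jab]
            linear_combination lam a * k1 - Jd d (j c) * k2)).1
        exact mul_ne_zero (mul_ne_zero (mul_ne_zero hr (lp a).ne') hJ') (w a).ne' this
    · exfalso
      have := expo3 hν (a := a) (b := c) (e := e)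
        (p := r * lam a * ((m a : ℝ) ^ 2 - (m b : ℝ) ^ 2) * ρ a ^ 2)
        (q := -((lam a * (m c : ℝ) ^ 2 - (m b : ℝ) ^ 2 * lam c) * ρ c ^ 2))
        (s := (lam a * (m e : ℝ) ^ 2 - (m b : ℝ) ^ 2 * lam c) * ρ e ^ 2)
        (c := -((m b : ℝ) ^ 2 * c0))
        (fun _ => nu_lt (hν c) (hν a) hl)
        (fun _ => nu_lt (hν e) (hν a) (lce ▸ hl)) le_rfl h02 le_rfl
        (fun X hX => by
          have k1 := hM X hX
          have k2 := hL X hX
          simp only [mul_assoc] at k1 k2
          rw [sum_four] at k1 k2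
          rw [← lab, ← lce] at k2
          linear_combination lam a * k1 - (m b : ℝ) ^ 2 * k2)
      rcases mul_eq_zero.mp this with h | h
      · rcases mul_eq_zero.mp h with h | h
        · exact mul_ne_zero hr (lp a).ne' h
        · exact mab (natsq_inj h)
      · exact absurd h (w a).ne'

theorem indep_round (hd : 1 ≤ d) (hj : d = 1 → ∀ i, j i ≤ 1) (h0 : 0 < X₁) (h12 : X₁ < X₂)
    (h2 : X₂ ≤ 1 / 2)
    (hR : ∀ i, RadSol d (j i) (m i) (fun _ => 0) (fun _ => 0) (lam i) (R i) (P i))
    (hν : ∀ i, NuOK d (j i) (m i) (lam i) (ν i)) {a b : ι} (jab : j a = j b) (lab : lam a = lam b)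
    (ma : 1 ≤ m a) (mb : 1 ≤ m b) (mab : m a ≠ m b)
    (hrel : Rel d j m (Pi.single a 1 - Pi.single b 1) (fun _ => 0) (fun _ => 0) R P (Ioo X₁ X₂)) :
    False := by
  have h := fun i => cap_ident (hν i) (al := fun _ => 0) (ga := fun _ => 0) continuous_const
    continuous_const (X₁ := 1 / 2) (by norm_num) le_rfl (fun _ _ => ⟨rfl, rfl⟩) (hR i)
  choose ρ hρ0 hρ using h
  have w : ∀ i, 0 < ρ i ^ 2 := fun i => pow_pos_of_ne (hρ0 i)
  have hsub : ∀ X ∈ Ioo X₁ X₂, X ∈ Ioo (0 : ℝ) (1 / 2) := fun X hX =>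
    ⟨h0.trans hX.1, lt_of_lt_of_le hX.2 h2⟩
  rcases Nat.lt_or_ge d 2 with hd2 | hd2
  · have hd1 : d = 1 := by omega
    subst hd1
    obtain ⟨c0, hc⟩ := medium le_rfl contDiff_const contDiff_const hR h0.le (by linarith) hrel
    have := (const2 hν ma mb mab (p := lam a * ρ a ^ 2) (q := -(lam b * ρ b ^ 2)) (c := c0)
      h0.le h12 h2 (fun X hX => by
        have k := hc X hX
        rw [sum_pair, (hρ a X (hsub X hX)).1, (hρ b X (hsub X hX)).1] at k
        simp only [Nat.cast_one, sub_self, zero_mul, sub_zero] at k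
        linear_combination k)).1
    exact mul_ne_zero (lam_pos (hν a)).ne' (w a).ne' this
  · have key : ∀ X ∈ Ioo X₁ X₂, Jd d (j a) * (ρ a ^ 2 * capR d (j a) (m a) (ν a) X ^ 2 -
        ρ b ^ 2 * capR d (j b) (m b) (ν b) X ^ 2) / (1 - X) =
      ((d : ℝ) - 1) * (((m a : ℝ) ^ 2 * (ρ a ^ 2 * capR d (j a) (m a) (ν a) X ^ 2) -
        (m b : ℝ) ^ 2 * (ρ b ^ 2 * capR d (j b) (m b) (ν b) X ^ 2)) / X) := by
      intro X hX
      have k := (hrel X hX).2
      rw [sum_pair, sum_pair, (hρ a X (hsub X hX)).1, (hρ b X (hsub X hX)).1] at k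
      simp only [bet, neg_zero, mul_zero, sub_zero, Real.exp_zero, one_mul] at k
      have hJ : Jd d (j b) = Jd d (j a) := by rw [jab]
      rw [hJ] at k
      linear_combination k
    rcases Nat.lt_or_gt_of_ne mab with hlt | hlt
    · exact round_two hd2 hν ma hlt (w a).ne' h0 h12 h2 key
    · refine round_two hd2 hν mb hlt (wb := ρ a ^ 2) (J := Jd d (j a)) (w b).ne' h0 h12 h2
        (fun X hX => ?_)
      linear_combination -key X hX

end Crest.Agent.R202
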