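import Crest.Agent.R202.DLim
import Crest.Agent.R202.EIndep

/-!
# Row 202, D3: simplicity in the sectors, uniform gaps, first variation

`lamI_strict`: two limit eigenfunctions with the same eigenvalue are proportional (`RadSol.prop`) and
orthogonal.  `lamM_unif`: the functions `τ ↦ lamM` are uniformly Lipschitz (`QG_lip`, `lamk_le_of_le`,
monotonicity in `M`) and converge pointwise.  `lam_taylor`: `lamk_cluster` in the sector with
`Z = span {psi}`, `A`, `B` the spans of the lower / higher chosen eigenvectors (`B = Sec ⊓ (A ⊔ Z)ᗮ`,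
`psi_compl`), `ε = r`, `Q₁ = QD (r⁻¹ • f)`, `ζ = 0`, `QD_le`, `QG_taylor`; pass to the limit with `qf_limit`
(`r = 0`, `Hp true 0 = 1`).  `rel_of_dlam`: test with `(φ, 0)` and `(0, φ)`, `eq_zero_of_mS`.
-/

set_option autoImplicit false
open scoped ContDiff RealInnerProductSpace Topology
open MeasureTheory Set Filter Module
open Crest.GeometryTopology.CoordMetric
open Crest.Agent.R230 (E MP sph ev Harm)

noncomputable section
namespace Crest.Agent.R202

variable {d j : ℕ} [NeZero d]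

omit [NeZero d] in
theorem DSimple.mS_mul (c : ℝ) (f : ℝ → ℝ) : mS d (fun X => c * f X) = c * mS d f := by
  unfold mS
  exact integral_const_mul c _

theorem lamI_strict (hj : okJ d j) {ε γ₀ : ℝ} (hε : ε ≤ epsU d) (hγ : γ₀ ≤ ε) {g : RSt}
    (hg : RAdm d g) (hs : Small d ε γ₀ (toSt g)) (m : ℕ) :
    StrictMono fun k => lamI d (toSt g) j (m, k) := by
  intro k k' hkk
  refine lt_of_le_of_ne (lamI_mono hg.adm m hkk.le) fun he => ?_
  obtain ⟨R, P, h⟩ := eig_limit hj hε hγ hg hs (s := true) (x := (m, k)) (Or.inl rfl)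
  obtain ⟨R', P', h'⟩ := eig_limit hj hε hγ hg hs (s := true) (x := (m, k')) (Or.inl rfl)
  have h1 := h.sol
  have h2 := h'.sol
  have he' : lamI d (toSt g) j (m, k) = lamI d (toSt g) j (m, k') := he
  rw [← he'] at h2
  obtain ⟨ρ, hρ, hprop⟩ := RadSol.prop hg.s1.continuous hg.s2.continuous rfl h1 h2
  have h3 := eigLim_orth hg (Or.inl rfl) hkk.ne h h'
  have h4 : mS d (fun X => R X * R' X) = mS d (fun X => ρ * R X ^ 2) :=
    mS_congr fun X hX => by rw [(hprop X hX).1]; ring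
  rw [h4, DSimple.mS_mul, h.norm, mul_one] at h3
  exact hρ h3

theorem DSimple.lamM_le_exp {G G' : St} (hG : Adm d G) (hG' : Adm d G') {r : ℝ}
    (h : ∀ z, |G'.1 z - G.1 z| ≤ r ∧ |G'.2 z - G.2 z| ≤ r) {x : ℕ × ℕ} {M : ℕ}
    (hM : x.1 + 2 * x.2 + 2 ≤ M) :
    lamM d G' j x M ≤ Real.exp (2 * d * r) * lamM d G j x M := by
  have := lamk_le_of_le (Q := QG d j G') (Q' := QG d j G) (S := Sec d j true x.1 M)
    (c := Real.exp (2 * d * r)) (b := 0) (Real.exp_pos _).le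
    (fun u _ => by simpa using QG_le_exp hG hG' h u)
    (lt_finrank_Sec (d := d) (j := j) (s := true) (Or.inl rfl) hM)
  simpa [lamM] using this

omit [NeZero d] in
theorem DSimple.seg_adm {G₀ G₁ : St} (h₀ : Adm d G₀) (h₁ : Adm d G₁) (τ : ℝ) :
    Adm d ((1 - τ) • G₀ + τ • G₁) := (h₀.smul _).add (h₁.smul _)

omit [NeZero d] in
theorem DSimple.seg_dist {G₀ G₁ : St} (h₀ : Adm d G₀) (h₁ : Adm d G₁) : ∃ K : ℝ, 0 < K ∧
    ∀ (σ τ δ : ℝ), |τ - σ| ≤ δ → ∀ z,
      |((1 - τ) • G₀ + τ • G₁).1 z - ((1 - σ) • G₀ + σ • G₁).1 z| ≤ K * δ ∧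
      |((1 - τ) • G₀ + τ • G₁).2 z - ((1 - σ) • G₀ + σ • G₁).2 z| ≤ K * δ := by
  obtain ⟨C₀, hC₀, a₀, b₀⟩ := h₀.exists_sz
  obtain ⟨C₁, hC₁, a₁, b₁⟩ := h₁.exists_sz
  refine ⟨C₀ + C₁, by positivity, fun σ τ δ hδ z => ?_⟩
  have key : ∀ p q : ℝ, |p| ≤ C₀ → |q| ≤ C₁ →
      |((1 - τ) * p + τ * q) - ((1 - σ) * p + σ * q)| ≤ (C₀ + C₁) * δ := by
    intro p q hp hq
    have e : ((1 - τ) * p + τ * q) - ((1 - σ) * p + σ * q) = (τ - σ) * (q - p) := by ring
    rw [e, abs_mul, mul_comm]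
    have h1 : |q - p| ≤ C₀ + C₁ := (abs_sub q p).trans (by linarith)
    exact mul_le_mul h1 hδ (abs_nonneg _) (by positivity)
  exact ⟨key _ _ (a₀.abs_le z) (a₁.abs_le z), key _ _ (b₀.abs_le z) (b₁.abs_le z)⟩

theorem lamM_unif {G₀ G₁ : St} (h₀ : Adm d G₀) (h₁ : Adm d G₁) (x : ℕ × ℕ) :
    TendstoUniformlyOn (fun M (τ : ℝ) => lamM d ((1 - τ) • G₀ + τ • G₁) j x M)
      (fun τ => lamI d ((1 - τ) • G₀ + τ • G₁) j x) atTop (Icc 0 1) := by
  rw [← tendstoLocallyUniformlyOn_iff_tendstoUniformlyOn_of_compact isCompact_Icc,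
    Metric.tendstoLocallyUniformlyOn_iff]
  intro ε hε σ _
  obtain ⟨K, hK, hd⟩ := DSimple.seg_dist h₀ h₁
  set L := lamI d ((1 - σ) • G₀ + σ • G₁) j x with hL
  have hc : Continuous fun δ : ℝ =>
      Real.exp (2 * d * (K * δ)) * (L + δ) - Real.exp (-(2 * d * (K * δ))) * L := by fun_prop
  have h0 : ∀ᶠ δ in 𝓝 (0 : ℝ),
      Real.exp (2 * d * (K * δ)) * (L + δ) - Real.exp (-(2 * d * (K * δ))) * L < ε :=
    hc.continuousAt.eventually_lt continuousAt_const (by simpa using hε)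
  obtain ⟨δ, hδ, hδ0⟩ := (h0.filter_mono (nhdsWithin_le_nhds (s := Ioi 0))).and
    self_mem_nhdsWithin |>.exists
  have hδ0' : (0 : ℝ) < δ := hδ0
  refine ⟨Metric.closedBall σ δ, mem_nhdsWithin_of_mem_nhds (Metric.closedBall_mem_nhds σ hδ0'), ?_⟩
  have hev : ∀ᶠ M in atTop, lamM d ((1 - σ) • G₀ + σ • G₁) j x M < L + δ :=
    (lamM_tendsto (DSimple.seg_adm h₀ h₁ σ) x).eventually_lt_const (by linarith)
  filter_upwards [hev, eventually_ge_atTop (x.1 + 2 * x.2 + 2)] with M hM hM' τ hτ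
  have hτ' : |τ - σ| ≤ δ := by simpa [Real.dist_eq] using hτ
  have hτ'' : |σ - τ| ≤ δ := by rwa [abs_sub_comm]
  have a1 := DSimple.lamM_le_exp (j := j) (DSimple.seg_adm h₀ h₁ σ) (DSimple.seg_adm h₀ h₁ τ)
    (hd σ τ δ hτ') hM'
  have a2 := lamI_le_exp (j := j) (DSimple.seg_adm h₀ h₁ τ) (DSimple.seg_adm h₀ h₁ σ)
    (hd τ σ δ hτ'') x
  have a3 := lamI_le_lamM (j := j) (DSimple.seg_adm h₀ h₁ τ) (x := x) (M := M)
    (lt_finrank_Sec (Or.inl rfl) hM')
  rw [← hL] at a2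
  have a4 : Real.exp (-(2 * d * (K * δ))) * L ≤ lamI d ((1 - τ) • G₀ + τ • G₁) j x := by
    rw [Real.exp_neg, inv_mul_le_iff₀ (Real.exp_pos _)]
    exact a2
  have a5 := mul_le_mul_of_nonneg_left hM.le (Real.exp_pos (2 * d * (K * δ))).le
  rw [Real.dist_eq, abs_sub_comm, abs_of_nonneg (by linarith)]
  linarith

theorem DSimple.continuous_seg {G₀ G₁ : St} (h₀ : Adm d G₀) (h₁ : Adm d G₁) (x : ℕ × ℕ) :
    Continuous fun τ : ℝ => lamI d ((1 - τ) • G₀ + τ • G₁) j x := by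
  have h := continuous_lamI (j := j) (V := Fin 2) (adm_zero d) (F := ![G₀, G₁])
    (fun v => by fin_cases v <;> assumption) x
  have h2 : Continuous fun τ : ℝ => (![1 - τ, τ] : Fin 2 → ℝ) := by
    refine continuous_pi fun v => ?_
    fin_cases v
    · exact continuous_const.sub continuous_id
    · exact continuous_id
  refine (h.comp h2).congr fun τ => ?_
  simp [comb, Fin.sum_univ_two]

theorem gap_segment (hj : okJ d j) {ε γ₀ : ℝ} (hε : ε ≤ epsU d) (hγ : γ₀ ≤ ε) {g₀ g₁ : RSt}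
    (hg₀ : RAdm d g₀) (hs₀ : Small d ε γ₀ (toSt g₀)) (hg₁ : RAdm d g₁)
    (hs₁ : Small d ε γ₀ (toSt g₁)) (m k : ℕ) : ∃ γ : ℝ, 0 < γ ∧ ∀ᶠ M in atTop, ∀ τ ∈ Icc (0 : ℝ) 1,
      lamM d ((1 - τ) • toSt g₀ + τ • toSt g₁) j (m, k) M + γ ≤
        lamM d ((1 - τ) • toSt g₀ + τ • toSt g₁) j (m, k + 1) M := by
  have hc : Continuous fun τ : ℝ => lamI d ((1 - τ) • toSt g₀ + τ • toSt g₁) j (m, k + 1) -
      lamI d ((1 - τ) • toSt g₀ + τ • toSt g₁) j (m, k) :=
    (DSimple.continuous_seg hg₀.adm hg₁.adm _).sub (DSimple.continuous_seg hg₀.adm hg₁.adm _)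
  obtain ⟨τ₀, hτ₀, hmin⟩ := (isCompact_Icc (a := (0 : ℝ)) (b := 1)).exists_isMinOn
    ⟨0, by simp⟩ hc.continuousOn
  set μ := lamI d ((1 - τ₀) • toSt g₀ + τ₀ • toSt g₁) j (m, k + 1) -
      lamI d ((1 - τ₀) • toSt g₀ + τ₀ • toSt g₁) j (m, k) with hμ
  have hpos : 0 < μ := by
    have e : (1 - τ₀) • toSt g₀ + τ₀ • toSt g₁ = toSt ((1 - τ₀) • g₀ + τ₀ • g₁) := by
      rw [toSt_add, toSt_smul, toSt_smul]
    have hs := hs₀.convex hs₁ hτ₀
    rw [hμ]
    rw [e] at hs ⊢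
    exact sub_pos.2 (lamI_strict hj hε hγ ((hg₀.smul _).add (hg₁.smul _)) hs m (Nat.lt_succ_self k))
  refine ⟨μ / 2, by linarith, ?_⟩
  have hu := Metric.tendstoUniformlyOn_iff.1 (lamM_unif (j := j) hg₀.adm hg₁.adm (m, k)) (μ / 2)
    (by linarith)
  filter_upwards [hu, eventually_ge_atTop (m + 2 * (k + 1) + 2)] with M hM hM' τ hτ
  have a1 := hM τ hτ
  have a2 : μ ≤ lamI d ((1 - τ) • toSt g₀ + τ • toSt g₁) j (m, k + 1) -
      lamI d ((1 - τ) • toSt g₀ + τ • toSt g₁) j (m, k) := hmin hτ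
  have a3 := lamI_le_lamM (j := j) (DSimple.seg_adm hg₀.adm hg₁.adm τ) (x := (m, k + 1)) (M := M)
    (lt_finrank_Sec (Or.inl rfl) hM')
  rw [Real.dist_eq, abs_lt] at a1
  linarith [a1.1]

theorem Dir.radm {f : RSt} (hf : f ∈ Dir) (d : ℕ) : RAdm d f := by
  obtain ⟨h1, h2, a, b, ha, hb, h⟩ := hf
  refine ⟨h1, h2, fun X hX => h X fun hh => hX ⟨by linarith [hh.1], ?_⟩⟩
  linarith [hh.2, nine_tenth_le_xhi d]

/-- coefficient of the first component of the direction -/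
def DSimple.F1 (d : ℕ) (g : RSt) (m : ℕ) (R P : ℝ → ℝ) (X : ℝ) : ℝ :=
  2 * Real.exp (2 * g.1 X) * (4 * X * (1 - X) * P X ^ 2) -
    2 * Real.exp (2 * bet d (g.1 X) (g.2 X)) * ((m : ℝ) ^ 2 * R X ^ 2 / X)

/-- coefficient of the second component of the direction -/
def DSimple.F2 (d : ℕ) (g : RSt) (j m : ℕ) (R : ℝ → ℝ) (X : ℝ) : ℝ :=
  2 * Real.exp (2 * g.2 X) * (Jd d j * R X ^ 2 / (1 - X)) -
    2 * ((d : ℝ) - 1) * Real.exp (2 * bet d (g.1 X) (g.2 X)) * ((m : ℝ) ^ 2 * R X ^ 2 / X)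

omit [NeZero d] in
theorem DSimple.dlam_eq (g : RSt) (m : ℕ) (R P : ℝ → ℝ) (f : RSt) :
    dlam d g j m R P f =
      mS d fun X => f.1 X * DSimple.F1 d g m R P X + f.2 X * DSimple.F2 d g j m R X := by
  unfold dlam
  congr 1
  funext X
  simp only [DSimple.F1, DSimple.F2, bet]
  ring

omit [NeZero d] in
theorem DSimple.sol_cont {g : RSt} (hg : RAdm d g) {m : ℕ} {lam : ℝ} {R P : ℝ → ℝ}
    (h : RadSol d j m g.1 g.2 lam R P) : ContinuousOn R (Ioo 0 1) ∧ ContinuousOn P (Ioo 0 1) := by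
  refine ⟨fun X hX => (h.d1 X hX).continuousAt.continuousWithinAt, ?_⟩
  have h1 : ContinuousOn (fun X => Real.exp (2 * g.1 X) * P X) (Ioo 0 1) :=
    fun X hX => (h.d2 X hX).continuousAt.continuousWithinAt
  have h2 : Continuous fun X => Real.exp (-(2 * g.1 X)) := by
    have := hg.s1.continuous
    fun_prop
  refine (h2.continuousOn.mul h1).congr fun X _ => ?_
  simp only [Pi.mul_apply]
  rw [← mul_assoc, ← Real.exp_add]
  simp

omit [NeZero d] in
theorem DSimple.F_cont {g : RSt} (hg : RAdm d g) {m : ℕ} {lam : ℝ} {R P : ℝ → ℝ}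
    (h : RadSol d j m g.1 g.2 lam R P) : ContinuousOn (DSimple.F1 d g m R P) (Ioo 0 1) ∧
      ContinuousOn (DSimple.F2 d g j m R) (Ioo 0 1) := by
  obtain ⟨hR, hP⟩ := DSimple.sol_cont hg h
  have c1 := hg.s1.continuous
  have c2 := hg.s2.continuous
  have e1 : Continuous fun X => Real.exp (2 * g.1 X) := by fun_prop
  have e2 : Continuous fun X => Real.exp (2 * g.2 X) := by fun_prop
  have e3 : Continuous fun X => Real.exp (2 * bet d (g.1 X) (g.2 X)) := by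
    unfold bet; fun_prop
  have q1 : ContinuousOn (fun X => (m : ℝ) ^ 2 * R X ^ 2 / X) (Ioo 0 1) :=
    (continuousOn_const.mul (hR.pow 2)).div continuousOn_id fun X hX => hX.1.ne'
  have q2 : ContinuousOn (fun X => Jd d j * R X ^ 2 / (1 - X)) (Ioo 0 1) :=
    (continuousOn_const.mul (hR.pow 2)).div (continuousOn_const.sub continuousOn_id)
      fun X hX => (sub_pos.2 hX.2).ne'
  have q3 : ContinuousOn (fun X => 4 * X * (1 - X) * P X ^ 2) (Ioo 0 1) :=
    (by fun_prop : Continuous fun X : ℝ => 4 * X * (1 - X)).continuousOn.mul (hP.pow 2)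
  exact ⟨((continuousOn_const.mul e1.continuousOn).mul q3).sub
      ((continuousOn_const.mul e3.continuousOn).mul q1),
    ((continuousOn_const.mul e2.continuousOn).mul q2).sub
      ((continuousOn_const.mul e3.continuousOn).mul q1)⟩

theorem DSimple.cont_mul {φ F : ℝ → ℝ} (hφ : Continuous φ) (hF : ContinuousOn F (Ioo 0 1))
    {a b : ℝ} (ha : 0 < a) (hb : b < 1) (h : ∀ X, X ∉ Icc a b → φ X = 0) :
    Continuous fun X => φ X * F X := by
  refine continuous_iff_continuousAt.2 fun X => ?_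
  by_cases hX : X ∈ Ioo (0 : ℝ) 1
  · exact hφ.continuousAt.mul (hF.continuousAt (isOpen_Ioo.mem_nhds hX))
  · have hX' : X ∈ (Icc a b)ᶜ := fun hh => hX ⟨by linarith [hh.1], by linarith [hh.2]⟩
    refine (continuousAt_const (y := (0 : ℝ))).congr ?_
    filter_upwards [isClosed_Icc.isOpen_compl.mem_nhds hX'] with Y hY
    rw [h Y hY, zero_mul]

omit [NeZero d] in
theorem DSimple.integrable {g : RSt} (hg : RAdm d g) {m : ℕ} {lam : ℝ} {R P : ℝ → ℝ}
    (h : RadSol d j m g.1 g.2 lam R P) {f : RSt} (hf : f ∈ Dir) :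
    Integrable (fun p : E (d + 2) => f.1 (XX (zOf p)) * DSimple.F1 d g m R P (XX (zOf p)) +
      f.2 (XX (zOf p)) * DSimple.F2 d g j m R (XX (zOf p))) (sph (d + 2)) := by
  obtain ⟨h1, h2, a, b, ha, hb, hs⟩ := hf
  obtain ⟨c1, c2⟩ := DSimple.F_cont hg h
  have k1 := DSimple.cont_mul h1.continuous c1 (a := a) (b := b) (by linarith) (by linarith)
    fun X hX => (hs X hX).1
  have k2 := DSimple.cont_mul h2.continuous c2 (a := a) (b := b) (by linarith) (by linarith)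
    fun X hX => (hs X hX).2
  exact Crest.Agent.R230.integrable_of_continuous
    ((k1.add k2).comp (continuous_XX.comp (continuous_zOf d)))

theorem exists_dlam {g : RSt} (hg : RAdm d g) {s : Bool} {x : ℕ × ℕ} {R P : ℝ → ℝ}
    (h : EigLim d g j s x R P) :
    ∃ L : Dir →ₗ[ℝ] ℝ, ∀ f : Dir, L f = dlam d g j x.1 R P f := by
  refine ⟨⟨⟨fun f => dlam d g j x.1 R P f, fun f f' => ?_⟩, fun r f => ?_⟩, fun _ => rfl⟩
  · simp only [DSimple.dlam_eq, mS]
    rw [← integral_add (DSimple.integrable hg h.sol f.2) (DSimple.integrable hg h.sol f'.2)]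
    congr 1
    funext p
    simp only [Submodule.coe_add, Prod.fst_add, Prod.snd_add, Pi.add_apply]
    ring
  · simp only [DSimple.dlam_eq, RingHom.id_apply, smul_eq_mul]
    rw [← DSimple.mS_mul]
    congr 1
    funext X
    simp only [Submodule.coe_smul, Prod.smul_fst, Prod.smul_snd, Pi.smul_apply, smul_eq_mul]
    ring

theorem QD_tendsto {g : RSt} (hg : RAdm d g) {s : Bool} {x : ℕ × ℕ} (hx : okS s x.1) {R P : ℝ → ℝ}
    (h : EigLim d g j s x R P) {f : RSt} (hf : f ∈ Dir) :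
    Tendsto (fun M => QD d j (toSt g) (toSt f) (psi d (toSt g) j s x M) (psi d (toSt g) j s x M)) UU
      (𝓝 (dlam d g j x.1 R P f)) := by
  obtain ⟨h1, h2, a, b, ha, hb, hs⟩ := hf
  have c1 := hg.s1.continuous
  have c2 := hg.s2.continuous
  have c3 := h1.continuous
  have c4 := h2.continuous
  have key := qf_limit hx hx h h (A := fun X => 2 * f.1 X * Real.exp (2 * g.1 X))
    (B := fun X => 2 * bet d (f.1 X) (f.2 X) * Real.exp (2 * bet d (g.1 X) (g.2 X)))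
    (C := fun X => 2 * f.2 X * Real.exp (2 * g.2 X)) (by fun_prop) (by unfold bet; fun_prop)
    (by fun_prop) (Xa := a) (Xb := b) (by linarith) (by linarith)
    (fun X hX => by simp [(hs X hX).1, (hs X hX).2, bet]) 0
  have e1 : ∀ z : E 2, ev (Hp true 0) z = 1 := fun z => by
    simp [Hp, Hpair, ev]
  simp only [e1, mul_one] at key
  have hcm := cm_pos hx
  have e2 : eav 0 (Nat.dist x.1 x.1) = 1 := by simp [eav]
  have e3 : (1 + sgn s * eav 0 (x.1 + x.1)) / 2 = cm s x.1 := rfl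
  have e4 : (1 - sgn s * eav 0 (x.1 + x.1)) / 2 * (x.1 : ℝ) = cm s x.1 * x.1 := by
    rcases Nat.eq_zero_or_pos x.1 with h0 | h0
    · simp [h0]
    · have : eav 0 (x.1 + x.1) = 0 := by
        unfold eav
        rw [if_neg (by omega)]
      simp [cm, this]
  rw [e2, e3, Real.mul_self_sqrt hcm.le, ← DSimple.mS_mul] at key
  convert key using 2
  · rfl
  unfold dlam
  congr 1
  funext X
  have e5 : ∀ B W : ℝ, (1 - sgn s * eav 0 (x.1 + x.1)) / 2 * (B * ((x.1 : ℝ) * x.1 * W / X)) =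
      cm s x.1 * (B * ((x.1 : ℝ) * x.1 * W / X)) := fun B W => by
    calc _ = ((1 - sgn s * eav 0 (x.1 + x.1)) / 2 * (x.1 : ℝ)) * (B * (x.1 * W / X)) := by ring
      _ = _ := by rw [e4]; ring
  rw [e5, pow_zero, one_mul, ← mul_add, inv_mul_cancel_left₀ hcm.ne']
  ring

/-- the differential does not depend on the parity -/
theorem dlam_parity {g : RSt} (hg : RAdm d g) {s s' : Bool} {x : ℕ × ℕ} {R P R' P' : ℝ → ℝ}
    (h : EigLim d g j s x R P) (h' : EigLim d g j s' x R' P') (f : RSt) :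
    dlam d g j x.1 R P f = dlam d g j x.1 R' P' f := by
  obtain ⟨ρ, -, hprop⟩ := RadSol.prop hg.s1.continuous hg.s2.continuous rfl h.sol h'.sol
  have h4 : mS d (fun X => R' X ^ 2) = mS d (fun X => ρ ^ 2 * R X ^ 2) :=
    mS_congr fun X hX => by rw [(hprop X hX).1]; ring
  rw [DSimple.mS_mul, h.norm, h'.norm, mul_one] at h4
  unfold dlam
  refine mS_congr fun X hX => ?_
  rw [(hprop X hX).1, (hprop X hX).2, mul_pow, mul_pow, ← h4, one_mul, one_mul]

/-- the Galerkin version of the Taylor estimate -/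
theorem DSimple.taylor_M {γ Λ : ℝ} (hγ : 0 < γ) (hΛ : 0 ≤ Λ) : ∃ C r₀ : ℝ, 0 ≤ C ∧ 0 < r₀ ∧
    ∀ {g : RSt}, RAdm d g → ∀ {m k M : ℕ}, m + 2 * (k + 1) + 2 ≤ M →
      (∀ k', k' < k → lamM d (toSt g) j (m, k') M + γ ≤ lamM d (toSt g) j (m, k) M) →
      lamM d (toSt g) j (m, k) M + γ ≤ lamM d (toSt g) j (m, k + 1) M →
      lamM d (toSt g) j (m, k) M ≤ Λ → ∀ {F : St}, Adm d F → ∀ {r : ℝ}, 0 ≤ r → r ≤ r₀ →
      (∀ z, |F.1 z| ≤ r ∧ |F.2 z| ≤ r) →
      |lamM d (toSt g + F) j (m, k) M - lamM d (toSt g) j (m, k) M -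
        QD d j (toSt g) F (psi d (toSt g) j true (m, k) M) (psi d (toSt g) j true (m, k) M)| ≤
        C * r ^ 2 := by
  have hd1 : (1 : ℝ) ≤ d := by exact_mod_cast Nat.one_le_iff_ne_zero.2 (NeZero.ne d)
  obtain ⟨ε₁, C', hε₁, hC', H⟩ := lamk_cluster (C := (2 * d) ^ 2) (γ := γ) (Λ := Λ)
    (by positivity) hγ hΛ
  refine ⟨C', min ε₁ (1 / (2 * d)), hC', lt_min hε₁ (by positivity), ?_⟩
  intro g hg m k M hM hlow hup hle F hF r hr0 hr hFr
  have hr1 : r ≤ ε₁ := hr.trans (min_le_left _ _)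
  have hr2 : 2 * d * r ≤ 1 := by
    have := hr.trans (min_le_right _ _)
    rw [le_div_iff₀ (by positivity)] at this
    linarith
  set ψ : ℕ → RP d j := fun k' => psi d (toSt g) j true (m, k') M with hψ
  have hsp : ∀ k', k' ≤ k → ‖ψ k'‖ = 1 ∧
      EigF (QG d j (toSt g)) (WS d j true M) (ψ k') (lamM d (toSt g) j (m, k') M) ∧
      ∀ k'', k'' ≠ k' → ⟪ψ k', ψ k''⟫ = 0 := fun k' hk' => by
    obtain ⟨a1, a2, a3⟩ := psi_spec (j := j) hg (s := true) (x := (m, k')) (Or.inl rfl) (M := M)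
      (by simp only; omega)
    exact ⟨a1, a2, fun k'' hk'' => a3 (m, k'') (by simpa using hk'')⟩
  have hmem : ∀ k', ψ k' ∈ Sec d j true m M := fun k' => psi_mem_Sec d (toSt g) j true (m, k') M
  set S := Sec d j true m M with hS
  set A : Submodule ℝ (RP d j) := Submodule.span ℝ (range fun i : Fin k => ψ i) with hA
  set Z : Submodule ℝ (RP d j) := Submodule.span ℝ {ψ k} with hZ
  have hAS : A ≤ S := Submodule.span_le.2 (by rintro _ ⟨i, rfl⟩; exact hmem i)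
  have hZS : Z ≤ S := Submodule.span_le.2 (by rintro _ rfl; exact hmem k)
  have hSW : S ≤ WS d j true M := inf_le_left
  have : FiniteDimensional ℝ (A ⊔ Z : Submodule ℝ (RP d j)) :=
    Submodule.finiteDimensional_of_le (sup_le hAS hZS)
  set B : Submodule ℝ (RP d j) := (A ⊔ Z)ᗮ ⊓ S with hB
  have hsum : A ⊔ Z ⊔ B = S :=
    Submodule.sup_orthogonal_inf_of_hasOrthogonalProjection (sup_le hAS hZS)
  have hAZ : A ⟂ Z := by
    rw [hA, hZ, Submodule.isOrtho_span]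
    rintro _ ⟨i, rfl⟩ _ rfl
    exact (hsp i i.2.le).2.2 k i.2.ne'
  have hB' : (A ⊔ Z) ⟂ B := (Submodule.isOrtho_orthogonal_right _).mono_right inf_le_left
  have hAB : A ⟂ B := hB'.mono_left le_sup_left
  have hZB : Z ⟂ B := hB'.mono_left le_sup_right
  -- the form vanishes between an eigen-span and its orthogonal complement
  have hQA : ∀ u ∈ A, ∀ w ∈ S, (∀ v ∈ A, ⟪v, w⟫ = 0) → QG d j (toSt g) u w = 0 := by
    intro u hu w hw ho
    induction hu using Submodule.span_induction with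
    | mem v hv =>
      obtain ⟨i, rfl⟩ := hv
      rw [(hsp i i.2.le).2.1.2 w (hSW hw), ho _ (Submodule.subset_span ⟨i, rfl⟩), mul_zero]
    | zero => simp
    | add v v' _ _ h1 h2 => simp [h1, h2]
    | smul c v _ h1 => simp [h1]
  have hQZ : ∀ u ∈ Z, ∀ w ∈ S, QG d j (toSt g) u w = lamM d (toSt g) j (m, k) M * ⟪u, w⟫ := by
    intro u hu w hw
    obtain ⟨c, rfl⟩ := Submodule.mem_span_singleton.1 hu
    rw [map_smul, LinearMap.smul_apply, (hsp k le_rfl).2.1.2 w (hSW hw), real_inner_smul_left,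
      smul_eq_mul]
    ring
  have hon : Orthonormal ℝ fun i : Fin k => ψ i :=
    ⟨fun i => (hsp i i.2.le).1, fun i i' hii => (hsp i i.2.le).2.2 i'
      (fun hh => hii (Fin.ext hh.symm))⟩
  have hfA : finrank ℝ A = k := by
    rw [hA, finrank_span_eq_card hon.linearIndependent, Fintype.card_fin]
  have hfZ : finrank ℝ Z = 1 := finrank_span_singleton (by
    intro h0
    have := (hsp k le_rfl).1
    rw [h0, norm_zero] at this
    exact zero_ne_one this)
  have hF1 : r • (r⁻¹ • F) = F := by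
    rcases hr0.eq_or_lt with h0 | h0
    · have : F = 0 := by
        refine Prod.ext (funext fun z => ?_) (funext fun z => ?_)
        · exact abs_nonpos_iff.1 (h0 ▸ (hFr z).1)
        · exact abs_nonpos_iff.1 (h0 ▸ (hFr z).2)
      simp [this]
    · rw [smul_smul, mul_inv_cancel₀ h0.ne', one_smul]
  have hF2 : ∀ z, |(r⁻¹ • F).1 z| ≤ 1 ∧ |(r⁻¹ • F).2 z| ≤ 1 := fun z => by
    have key : ∀ t : ℝ, |t| ≤ r → |r⁻¹ * t| ≤ 1 := fun t ht => by
      rw [abs_mul, abs_of_nonneg (inv_nonneg.2 hr0)]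
      exact (mul_le_mul_of_nonneg_left ht (inv_nonneg.2 hr0)).trans (inv_mul_le_one_of_le₀ le_rfl hr0)
    exact ⟨key _ (hFr z).1, key _ (hFr z).2⟩
  have hQD : ∀ u w, r * QD d j (toSt g) (r⁻¹ • F) u w = QD d j (toSt g) F u w := fun u w => by
    conv_rhs => rw [← hF1, QD_smul]
    simp
  have main := H (QG d j (toSt g)) (QD d j (toSt g) (r⁻¹ • F)) (QG d j (toSt g + F)) S A Z B r
    (lamM d (toSt g) j (m, k) M) 0 (QG_sym _) (QD_sym _ _) (QG_sym _) hr0 hr1 le_rfl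
    (by positivity) hle hsum hAZ hAB hZB
    (fun u hu w hw => hQA u hu w (hZS hw) fun v hv => hAZ.inner_eq hv hw)
    (fun u hu w hw => hQA u hu w hw.2 fun v hv => hAB.inner_eq hv hw)
    (fun u hu w hw => by rw [hQZ u hu w hw.2, hZB.inner_eq hu hw, mul_zero])
    (fun u _ => QG_nonneg hg.adm u) (fun u hu => ?_) (fun u hu => ?_) (fun u hu => ?_)
    (fun u _ => ?_) (fun u _ => ?_) 0 (by rw [hfZ]; exact one_pos)
  · rw [hfA, add_zero, zero_add, hZ, lamk_one_dim (hsp k le_rfl).1, hQD] at main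
    exact main
  · obtain ⟨c, hc, e1, e2⟩ := ASpec_expand (Q := QG d j (toSt g)) (S := WS d j true M)
      (e := fun i : Fin k => ψ i) (μ := fun i => lamM d (toSt g) j (m, i) M)
      (fun i i' hii => hon.2 hii) (fun i => (hsp i i.2.le).2.1) hu
    rw [e1, e2, Finset.mul_sum]
    exact Finset.sum_le_sum fun i _ =>
      mul_le_mul_of_nonneg_right (by linarith [hlow i i.2]) (hc i)
  · rw [hQZ u hu u (hZS hu), real_inner_self_eq_norm_sq]
    simp
  · have := psi_compl (j := j) hg (s := true) (m := m) (k := k + 1) (M := M) (Or.inl rfl)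
      (lt_finrank_Sec (Or.inl rfl) hM) hu.2 fun k' hk' => by
        rcases (Nat.lt_succ_iff.1 hk').eq_or_lt with h1 | h1
        · exact hZB.inner_eq (h1 ▸ Submodule.mem_span_singleton_self _) hu
        · exact hAB.inner_eq (Submodule.subset_span ⟨⟨k', h1⟩, rfl⟩) hu
    exact (mul_le_mul_of_nonneg_right hup (sq_nonneg _)).trans this
  · have := QD_le (j := j) hg.adm (hF.smul r⁻¹) hF2 u
    refine this.trans (mul_le_mul_of_nonneg_right ?_ (QG_nonneg hg.adm u))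
    nlinarith
  · rw [hQD]
    refine (QG_taylor hg.adm hF hr2 hFr u).trans (le_of_eq ?_)
    ring

theorem lam_taylor (hj : okJ d j) {ε γ₀ : ℝ} (hε : ε ≤ epsU d) (hγ : γ₀ ≤ ε) {g : RSt}
    (hg : RAdm d g) (hs : Small d ε γ₀ (toSt g)) {x : ℕ × ℕ} {R P : ℝ → ℝ}
    (h : EigLim d g j true x R P) : ∃ C r₀ : ℝ, 0 ≤ C ∧ 0 < r₀ ∧ ∀ f ∈ Dir, ∀ r, 0 ≤ r → r ≤ r₀ →
      (∀ X, |f.1 X| ≤ r ∧ |f.2 X| ≤ r) →
      |lamI d (toSt (g + f)) j x - lamI d (toSt g) j x - dlam d g j x.1 R P f| ≤ C * r ^ 2 := by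
  obtain ⟨m, k⟩ := x
  have hgap : ∀ k', ∃ γ : ℝ, 0 < γ ∧ ∀ᶠ M in atTop,
      lamM d (toSt g) j (m, k') M + γ ≤ lamM d (toSt g) j (m, k' + 1) M := fun k' => by
    obtain ⟨γ, hγ0, hev⟩ := gap_segment hj hε hγ hg hs hg hs m k'
    refine ⟨γ, hγ0, hev.mono fun M hM => ?_⟩
    simpa using hM 0 ⟨le_rfl, zero_le_one⟩
  obtain ⟨γ₁, hγ₁, hev₁⟩ := hgap k
  obtain ⟨γ₂, hγ₂, hev₂⟩ := hgap (k - 1)
  obtain ⟨C, r₀, hC, hr₀, H⟩ := DSimple.taylor_M (d := d) (j := j) (γ := min γ₁ γ₂)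
    (Λ := |lamI d (toSt g) j (m, k)| + 1) (lt_min hγ₁ hγ₂) (by positivity)
  refine ⟨C, r₀, hC, hr₀, fun f hf r hr0 hr hfr => ?_⟩
  have hfa := Dir.radm hf d
  have t1 := (lamM_tendsto (j := j) (hg.add hfa).adm (m, k)).mono_left UU_le
  have t2 := lamM_tendsto (j := j) hg.adm (m, k)
  have t3 := QD_tendsto hg (Or.inl rfl) h hf
  refine le_of_tendsto ((t1.sub (t2.mono_left UU_le)).sub t3).abs (UU_le ?_)
  have hev₃ : ∀ᶠ M in atTop, lamM d (toSt g) j (m, k) M < |lamI d (toSt g) j (m, k)| + 1 :=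
    t2.eventually_lt_const (by linarith [le_abs_self (lamI d (toSt g) j (m, k))])
  filter_upwards [hev₁, hev₂, hev₃, eventually_ge_atTop (m + 2 * (k + 1) + 2)] with M h1 h2 h3 hM
  rw [toSt_add]
  refine H hg hM (fun k' hk' => ?_) (by linarith [min_le_left γ₁ γ₂]) h3.le hfa.adm hr0 hr
    fun z => hfr _
  have e : k - 1 + 1 = k := by omega
  rw [e] at h2
  have a : lamM d (toSt g) j (m, k') M ≤ lamM d (toSt g) j (m, k - 1) M :=
    lamk_mono (by simp only; omega)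
      (lt_finrank_Sec (d := d) (j := j) (s := true) (Or.inl rfl) (by simp only; omega))
  linarith [min_le_right γ₁ γ₂]

theorem rel_of_dlam {g : RSt} (hg : RAdm d g) {ι : Type} [Fintype ι] {jj m : ι → ℕ} {lam x : ι → ℝ}
    {R P : ι → ℝ → ℝ} (h : ∀ i, RadSol d (jj i) (m i) g.1 g.2 (lam i) (R i) (P i))
    (hrel : ∀ f ∈ Dir, ∑ i, x i * dlam d g (jj i) (m i) (R i) (P i) f = 0) :
    Rel d jj m x g.1 g.2 R P (Ioo (1 / 8) (1 / 4)) := by
  have hsub : Ioo (1 / 8 : ℝ) (1 / 4) ⊆ Ioo 0 1 := Ioo_subset_Ioo (by norm_num) (by norm_num)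
  have key : ∀ f ∈ Dir, mS d (fun X =>
      f.1 X * ∑ i, x i * DSimple.F1 d g (m i) (R i) (P i) X +
        f.2 X * ∑ i, x i * DSimple.F2 d g (jj i) (m i) (R i) X) = 0 := fun f hf => by
    rw [← hrel f hf]
    simp only [DSimple.dlam_eq, mS, ← integral_const_mul]
    rw [← integral_finsetSum _ fun i _ => (DSimple.integrable hg (h i) hf).const_mul (x i)]
    congr 1
    funext p
    rw [Finset.mul_sum, Finset.mul_sum, ← Finset.sum_add_distrib]
    exact Finset.sum_congr rfl fun i _ => by ring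
  have z1 := eq_zero_of_mS (d := d) (F := fun X => ∑ i, x i * DSimple.F1 d g (m i) (R i) (P i) X)
    (Xa := 1 / 8) (Xb := 1 / 4) (by norm_num) (by norm_num)
    (continuousOn_finsetSum _ fun i _ =>
      continuousOn_const.mul ((DSimple.F_cont hg (h i)).1.mono hsub))
    (fun φ hφ ⟨a, b, ha, hb, hs⟩ => by
      simpa using key (φ, 0) ⟨hφ, contDiff_const, a, b, ha, hb, fun X hX => ⟨hs X hX, rfl⟩⟩)
  have z2 := eq_zero_of_mS (d := d) (F := fun X => ∑ i, x i * DSimple.F2 d g (jj i) (m i) (R i) X)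
    (Xa := 1 / 8) (Xb := 1 / 4) (by norm_num) (by norm_num)
    (continuousOn_finsetSum _ fun i _ =>
      continuousOn_const.mul ((DSimple.F_cont hg (h i)).2.mono hsub))
    (fun φ hφ ⟨a, b, ha, hb, hs⟩ => by
      simpa using key (0, φ) ⟨contDiff_const, hφ, a, b, ha, hb, fun X hX => ⟨rfl, hs X hX⟩⟩)
  intro X hX
  have y1 := z1 X hX
  have y2 := z2 X hX
  have s1 : ∑ i, x i * DSimple.F1 d g (m i) (R i) (P i) X =
      2 * (Real.exp (2 * g.1 X) * ∑ i, x i * (4 * X * (1 - X) * P i X ^ 2) -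
        Real.exp (2 * bet d (g.1 X) (g.2 X)) * (∑ i, x i * ((m i : ℝ) ^ 2 * R i X ^ 2)) / X) := by
    rw [Finset.mul_sum, Finset.mul_sum, Finset.sum_div, ← Finset.sum_sub_distrib, Finset.mul_sum]
    exact Finset.sum_congr rfl fun i _ => by unfold DSimple.F1; ring
  have s2 : ∑ i, x i * DSimple.F2 d g (jj i) (m i) (R i) X =
      2 * (Real.exp (2 * g.2 X) * (∑ i, x i * (Jd d (jj i) * R i X ^ 2)) / (1 - X) -
        ((d : ℝ) - 1) * (Real.exp (2 * bet d (g.1 X) (g.2 X)) *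
          (∑ i, x i * ((m i : ℝ) ^ 2 * R i X ^ 2)) / X)) := by
    rw [Finset.mul_sum, Finset.mul_sum, Finset.sum_div, Finset.sum_div, Finset.mul_sum,
      ← Finset.sum_sub_distrib, Finset.mul_sum]
    exact Finset.sum_congr rfl fun i _ => by unfold DSimple.F2; ring
  rw [s1] at y1
  rw [s2] at y2
  constructor <;> linarith

end Crest.Agent.R202
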