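import Crest.Agent.R202.EDefs

/-!
# Row 202, E2: Wronskian arguments

`X (1-X)^{d/2} A (R₁ P₂ - R₂ P₁)` is constant on `(0,1)` and tends to `0` as `X → 0⁺` (`bd`).
Uniqueness for the linear system in `(R, A P)` on compact subintervals (Gronwall /
`ODE_solution_unique`).  Cross parity (`d = 1`, `J = 0` for `j = 0, 1`): both functions solve the same
equation, hence are proportional, so `R → 0` and `Π = X √(1-X) A P → 0` at `1`; the energy
`R² + Π²` has `|E'| ≤ C (1-X)^{-1/2} E` near `1`, so it vanishes.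
-/

set_option autoImplicit false
open scoped ContDiff Topology
open Set Filter

noncomputable section
namespace Crest.Agent.R202

variable {d j m : ℕ} {al ga : ℝ → ℝ} {lam : ℝ}

namespace EWron

theorem le_of_deriv {F F' : ℝ → ℝ} {a b : ℝ} (hab : a ≤ b)
    (h : ∀ x ∈ Icc a b, HasDerivAt F (F' x) x) (h' : ∀ x ∈ Icc a b, 0 ≤ F' x) : F a ≤ F b :=
  monotoneOn_of_hasDerivWithinAt_nonneg (convex_Icc a b)
    (fun x hx => (h x hx).continuousAt.continuousWithinAt)
    (fun x hx => (h x (interior_subset hx)).hasDerivWithinAt)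
    (fun x hx => h' x (interior_subset hx)) (left_mem_Icc.2 hab) (right_mem_Icc.2 hab) hab

theorem const_of_deriv {F : ℝ → ℝ} {a b : ℝ} (h : ∀ x ∈ Ioo a b, HasDerivAt F 0 x) :
    ∃ c, ∀ x ∈ Ioo a b, F x = c :=
  isOpen_Ioo.exists_is_const_of_deriv_eq_zero isPreconnected_Ioo
    (fun x hx => (h x hx).differentiableAt.differentiableWithinAt) fun x hx => (h x hx).deriv

theorem energy_le (r q a c : ℝ) :
    |2 * r * q * a + 2 * c * q ^ 2| ≤ (|a| + 2 * |c|) * (r ^ 2 + q ^ 2) := by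
  have h1 : |2 * r * q| ≤ r ^ 2 + q ^ 2 :=
    abs_le.2 ⟨by nlinarith [sq_nonneg (r + q)], by nlinarith [sq_nonneg (r - q)]⟩
  have h2 := abs_add_le (2 * r * q * a) (2 * c * q ^ 2)
  rw [abs_mul _ a, abs_mul _ (q ^ 2), abs_mul 2 c, abs_two, abs_sq] at h2
  nlinarith [abs_nonneg a, abs_nonneg c, sq_nonneg r, mul_le_mul_of_nonneg_right h1 (abs_nonneg a)]

/-- uniqueness for a linear system -/
theorem lin_unique {R Q a b c : ℝ → ℝ} (ha : ContinuousOn a (Ioo 0 1))
    (hb : ContinuousOn b (Ioo 0 1)) (hc : ContinuousOn c (Ioo 0 1))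
    (hR : ∀ X ∈ Ioo (0 : ℝ) 1, HasDerivAt R (a X * Q X) X)
    (hQ : ∀ X ∈ Ioo (0 : ℝ) 1, HasDerivAt Q (b X * R X + c X * Q X) X) {X₀ : ℝ}
    (h0 : X₀ ∈ Ioo (0 : ℝ) 1) (hR0 : R X₀ = 0) (hQ0 : Q X₀ = 0) {Y : ℝ} (hY : Y ∈ Ioo (0 : ℝ) 1) :
    R Y = 0 ∧ Q Y = 0 := by
  have hsub : uIcc X₀ Y ⊆ Ioo 0 1 := ordConnected_Ioo.uIcc_subset h0 hY
  obtain ⟨K, hK⟩ := isCompact_uIcc.bddAbove_image
    (((ha.add hb).abs.add (hc.abs.const_mul 2)).mono hsub)
  have hE : ∀ X ∈ uIcc X₀ Y, HasDerivAt (fun X => R X ^ 2 + Q X ^ 2)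
      (2 * R X * Q X * (a X + b X) + 2 * c X * Q X ^ 2) X := fun X hX =>
    (((hR X (hsub hX)).fun_pow 2).add ((hQ X (hsub hX)).fun_pow 2)).congr_deriv (by simp; ring)
  have hb : ∀ X ∈ uIcc X₀ Y,
      |2 * R X * Q X * (a X + b X) + 2 * c X * Q X ^ 2| ≤ K * (R X ^ 2 + Q X ^ 2) := fun X hX =>
    (energy_le _ _ _ _).trans (mul_le_mul_of_nonneg_right (hK ⟨X, hX, rfl⟩) (by positivity))
  have key : R Y ^ 2 + Q Y ^ 2 ≤ 0 := by
    rcases le_total X₀ Y with h | h
    · rw [uIcc_of_le h] at hE hb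
      have := le_of_deriv h (fun X hX => ((hE X hX).mul
        ((hasDerivAt_id X).const_mul (-K)).exp).neg) fun X hX => by
          have := mul_le_mul_of_nonneg_right (abs_le.1 (hb X hX)).2 (Real.exp_pos (-K * X)).le
          simp only [id]
          linarith
      simp only [Pi.neg_apply, Pi.mul_apply, hR0, hQ0] at this
      exact nonpos_of_mul_nonpos_left (by linarith) (Real.exp_pos (-K * id Y))
    · rw [uIcc_of_ge h] at hE hb
      have := le_of_deriv h (fun X hX => (hE X hX).mul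
        ((hasDerivAt_id X).const_mul K).exp) fun X hX => by
          have := mul_le_mul_of_nonneg_right (abs_le.1 (hb X hX)).1 (Real.exp_pos (K * X)).le
          simp only [id]
          linarith
      simp only [Pi.mul_apply, hR0, hQ0] at this
      exact nonpos_of_mul_nonpos_left (by linarith) (Real.exp_pos (K * id Y))
  exact ⟨by nlinarith [sq_nonneg (R Y), sq_nonneg (Q Y)],
    by nlinarith [sq_nonneg (R Y), sq_nonneg (Q Y)]⟩

/-- uniqueness for the radial equation -/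
theorem rad_unique (hal : Continuous al) (hga : Continuous ga) {R P : ℝ → ℝ}
    (d1 : ∀ X ∈ Ioo (0 : ℝ) 1, HasDerivAt R (P X) X)
    (d2 : ∀ X ∈ Ioo (0 : ℝ) 1, HasDerivAt (fun X => Real.exp (2 * al X) * P X)
      (((Vp d j m al ga X - lam) * R X - (4 - (4 + 2 * (d : ℝ)) * X) *
        (Real.exp (2 * al X) * P X)) / (4 * X * (1 - X))) X) {X₀ : ℝ}
    (h0 : X₀ ∈ Ioo (0 : ℝ) 1) (hR0 : R X₀ = 0) (hP0 : P X₀ = 0) {Y : ℝ} (hY : Y ∈ Ioo (0 : ℝ) 1) :
    R Y = 0 ∧ P Y = 0 := by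
  have hne : ∀ X ∈ Ioo (0 : ℝ) 1, 4 * X * (1 - X) ≠ 0 := fun X hX =>
    mul_ne_zero (mul_ne_zero four_ne_zero hX.1.ne') (sub_pos.2 hX.2).ne'
  have hV : ContinuousOn (Vp d j m al ga) (Ioo 0 1) := by
    unfold Vp bet
    exact (ContinuousOn.div (by fun_prop) (by fun_prop) fun X hX => hX.1.ne').add
      (ContinuousOn.div (by fun_prop) (by fun_prop) fun X hX => (sub_pos.2 hX.2).ne')
  have := lin_unique (a := fun X => (Real.exp (2 * al X))⁻¹)
    (b := fun X => (Vp d j m al ga X - lam) / (4 * X * (1 - X)))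
    (c := fun X => -(4 - (4 + 2 * (d : ℝ)) * X) / (4 * X * (1 - X)))
    (Continuous.inv₀ (by fun_prop) fun X => (Real.exp_pos _).ne').continuousOn
    ((hV.sub continuousOn_const).div (by fun_prop) hne)
    (ContinuousOn.div (by fun_prop) (by fun_prop) hne)
    (fun X hX => (d1 X hX).congr_deriv (inv_mul_cancel_left₀ (Real.exp_pos _).ne' _).symm)
    (fun X hX => (d2 X hX).congr_deriv (by ring)) h0 hR0 (by rw [hP0, mul_zero]) hY
  exact ⟨this.1, (mul_eq_zero.1 this.2).resolve_left (Real.exp_pos _).ne'⟩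

/-- the Wronskian vanishes -/
theorem wronskian (hal : Continuous al) {j' : ℕ} (hJ : Jd d j = Jd d j')
    {R P R' P' : ℝ → ℝ} (h : RadSol d j m al ga lam R P) (h' : RadSol d j' m al ga lam R' P')
    {X : ℝ} (hX : X ∈ Ioo (0 : ℝ) 1) : R X * P' X = R' X * P X := by
  obtain ⟨c, hc⟩ := const_of_deriv (a := 0) (b := 1) (F := fun X =>
      X * Real.exp ((d : ℝ) / 2 * Real.log (1 - X)) *
        (R X * (Real.exp (2 * al X) * P' X) - R' X * (Real.exp (2 * al X) * P X))) fun X hX => by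
    have h1 := hX.1.ne'
    have h2 := (sub_pos.2 hX.2).ne'
    refine (((hasDerivAt_id' X).mul ((((hasDerivAt_id' X).const_sub 1).log h2).const_mul
      ((d : ℝ) / 2)).exp).mul (((h.d1 X hX).mul (h'.d2 X hX)).sub
        ((h'.d1 X hX).mul (h.d2 X hX)))).congr_deriv ?_
    simp only [Vp, hJ, Pi.mul_apply, Pi.sub_apply]
    field_simp
    ring
  obtain ⟨B, hB⟩ := h.bd
  obtain ⟨B', hB'⟩ := h'.bd
  have hg : ContinuousAt (fun X => Real.exp ((d : ℝ) / 2 * Real.log (1 - X)) * Real.exp (2 * al X) *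
      (Real.sqrt X / Real.sqrt (1 - X)) * (2 * B * B')) 0 := by
    have h1 : ContinuousAt (fun X : ℝ => Real.log (1 - X)) 0 :=
      ContinuousAt.log (by fun_prop) (by simp)
    have h2 : ContinuousAt (fun X : ℝ => Real.sqrt X / Real.sqrt (1 - X)) 0 :=
      ContinuousAt.div (by fun_prop) (by fun_prop) (by simp)
    fun_prop
  have h0 : |c| ≤ 0 := by
    have ht := hg.tendsto.mono_left (nhdsWithin_le_nhds (s := Ioi 0))
    simp only [Real.sqrt_zero, zero_div, mul_zero, zero_mul] at ht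
    refine ge_of_tendsto ht (mem_of_superset (Ioo_mem_nhdsGT zero_lt_one) fun Y hY => ?_)
    obtain ⟨a1, a2⟩ := hB Y hY
    obtain ⟨b1, b2⟩ := hB' Y hY
    have s1 := Real.sqrt_pos.2 (sub_pos.2 hY.2)
    have e : Y = Real.sqrt Y / Real.sqrt (1 - Y) * Real.sqrt (Y * (1 - Y)) := by
      rw [Real.sqrt_mul hY.1.le]
      field_simp
      exact (Real.sq_sqrt hY.1.le).symm
    have e2 : c = Real.exp ((d : ℝ) / 2 * Real.log (1 - Y)) * Real.exp (2 * al Y) *
        (Real.sqrt Y / Real.sqrt (1 - Y)) * (R Y * (Real.sqrt (Y * (1 - Y)) * P' Y) -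
          R' Y * (Real.sqrt (Y * (1 - Y)) * P Y)) := by
      rw [← hc Y hY]
      linear_combination (Real.exp ((d : ℝ) / 2 * Real.log (1 - Y)) * Real.exp (2 * al Y) *
        (R Y * P' Y - R' Y * P Y)) * e
    have hB0 := (abs_nonneg _).trans a1
    have hB0' := (abs_nonneg _).trans b1
    have s2 := Real.sqrt_nonneg (Y * (1 - Y))
    change |c| ≤ _
    rw [e2, abs_mul, abs_of_nonneg (by positivity)]
    gcongr
    refine (abs_sub _ _).trans ?_
    rw [abs_mul, abs_mul, abs_mul, abs_mul, abs_of_nonneg s2]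
    linarith [mul_le_mul a1 b2 (by positivity) hB0, mul_le_mul b1 a2 (by positivity) hB0']
  have h1 := hc X hX
  rw [abs_nonpos_iff.1 h0] at h1
  have h2 := (mul_eq_zero.1 h1).resolve_left (mul_pos hX.1 (Real.exp_pos _)).ne'
  exact mul_left_cancel₀ (Real.exp_pos (2 * al X)).ne' (by linarith)

end EWron

theorem RadSol.smul {R P : ℝ → ℝ} (h : RadSol d j m al ga lam R P) {ρ : ℝ} (hρ : ρ ≠ 0) :
    RadSol d j m al ga lam (fun X => ρ * R X) (fun X => ρ * P X) := by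
  obtain ⟨B, hB⟩ := h.bd
  obtain ⟨X₀, h0, h1⟩ := h.ne
  refine ⟨fun X hX => (h.d1 X hX).const_mul ρ, fun X hX => ?_, ⟨|ρ| * B, fun X hX => ?_⟩,
    ⟨X₀, h0, mul_ne_zero hρ h1⟩, fun hj => ?_, fun hj => ?_⟩
  · simp only [mul_left_comm _ ρ]
    exact ((h.d2 X hX).const_mul ρ).congr_deriv (by ring)
  · rw [abs_mul, abs_mul, mul_left_comm]
    exact ⟨mul_le_mul_of_nonneg_left (hB X hX).1 (abs_nonneg _),
      mul_le_mul_of_nonneg_left (hB X hX).2 (abs_nonneg _)⟩
  · simpa only [mul_left_comm _ ρ, mul_zero] using (h.b0 hj).const_mul ρ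
  · simpa only [mul_zero] using (h.b1 hj).const_mul ρ

/-- a radial eigenfunction has no double zero -/
theorem RadSol.ne_zero (hal : Continuous al) (hga : Continuous ga) {R P : ℝ → ℝ}
    (h : RadSol d j m al ga lam R P) {X : ℝ} (hX : X ∈ Ioo (0 : ℝ) 1) : R X ≠ 0 ∨ P X ≠ 0 := by
  by_contra! h0
  obtain ⟨Y, hY, h1⟩ := h.ne
  exact h1 (EWron.rad_unique hal hga h.d1 h.d2 hX h0.1 h0.2 hY).1

theorem RadSol.prop (hal : Continuous al) (hga : Continuous ga) {j' : ℕ} (hJ : Jd d j = Jd d j')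
    {R P R' P' : ℝ → ℝ} (h : RadSol d j m al ga lam R P) (h' : RadSol d j' m al ga lam R' P') :
    ∃ ρ : ℝ, ρ ≠ 0 ∧ ∀ X ∈ Ioo (0 : ℝ) 1, R' X = ρ * R X ∧ P' X = ρ * P X := by
  obtain ⟨X₀, h0, h1⟩ := h.ne
  have key : ∀ X ∈ Ioo (0 : ℝ) 1, R' X = R' X₀ / R X₀ * R X ∧ P' X = R' X₀ / R X₀ * P X := by
    intro X hX
    have := EWron.rad_unique (d := d) (j := j) (m := m) (lam := lam) hal hga
      (R := fun X => R' X - R' X₀ / R X₀ * R X) (P := fun X => P' X - R' X₀ / R X₀ * P X)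
      (fun X hX => (h'.d1 X hX).sub ((h.d1 X hX).const_mul _))
      (fun X hX => by
        simp only [mul_sub (Real.exp _), mul_left_comm (Real.exp _) (R' X₀ / R X₀)]
        refine ((h'.d2 X hX).sub ((h.d2 X hX).const_mul _)).congr_deriv ?_
        simp only [Vp, hJ]
        ring)
      h0 (by field_simp; ring)
      (by have := EWron.wronskian hal hJ h h' h0; field_simp; linarith) hX
    exact ⟨sub_eq_zero.1 this.1, sub_eq_zero.1 this.2⟩
  refine ⟨_, fun hρ => ?_, key⟩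
  obtain ⟨Y, hY, h2⟩ := h'.ne
  exact h2 (by rw [(key Y hY).1, hρ, zero_mul])

theorem RadSol.cross (hal : Continuous al) (hga : Continuous ga) {R P R' P' : ℝ → ℝ}
    (h : RadSol 1 0 m al ga lam R P) (h' : RadSol 1 1 m al ga lam R' P') : False := by
  obtain ⟨ρ, hρ, hp⟩ := h.prop hal hga (j' := 1) (by norm_num [Jd]) h'
  have hm : Ioo (1 / 2 : ℝ) 1 ∈ 𝓝[<] (1 : ℝ) := Ioo_mem_nhdsLT (by norm_num)
  have t1 : Tendsto R (𝓝[<] 1) (𝓝 0) := by
    have := (h'.b1 one_ne_zero).const_mul ρ⁻¹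
    rw [mul_zero] at this
    refine this.congr' (mem_of_superset hm fun X hX => ?_)
    change ρ⁻¹ * R' X = R X
    rw [(hp X ⟨by linarith [hX.1], hX.2⟩).1, inv_mul_cancel_left₀ hρ]
  have t2 : Tendsto (fun X => Real.sqrt (1 - X) * (Real.exp (2 * al X) * P X)) (𝓝[<] 1) (𝓝 0) := by
    have hc : Continuous fun X => Real.exp (2 * al X) := by fun_prop
    simpa only [mul_left_comm (Real.exp _), mul_zero] using
      ((hc.tendsto 1).mono_left nhdsWithin_le_nhds).mul (h.b0 rfl)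
  have hne : ∀ X ∈ Icc (1 / 2 : ℝ) 1, X ≠ 0 := fun X hX => by linarith [hX.1]
  have hc : ContinuousOn (fun X => |(Real.exp (2 * al X))⁻¹ + ((m : ℝ) ^ 2 *
      Real.exp (2 * bet 1 (al X) (ga X)) / X - lam) / (4 * X)| + 2 * |(-1) / X|) (Icc (1 / 2) 1) := by
    unfold bet
    refine (ContinuousOn.add (Continuous.inv₀ (by fun_prop) fun X =>
      (Real.exp_pos _).ne').continuousOn (((ContinuousOn.div (by fun_prop) (by fun_prop) hne).sub
        continuousOn_const).div (by fun_prop) fun X hX =>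
          mul_ne_zero four_ne_zero (hne X hX))).abs.add
      ((ContinuousOn.div (by fun_prop) (by fun_prop) hne).abs.const_mul 2)
  obtain ⟨K, hK⟩ := isCompact_Icc.bddAbove_image hc
  have hK0 : 0 ≤ K := le_trans (by positivity) (hK ⟨1, by norm_num, rfl⟩)
  have key : ∀ Y ∈ Ioo (1 / 2 : ℝ) 1, (R (1 / 2) ^ 2 + (Real.sqrt (1 - 1 / 2) *
      (Real.exp (2 * al (1 / 2)) * P (1 / 2))) ^ 2) * Real.exp (-2 * K * Real.sqrt (1 - 1 / 2)) ≤
      R Y ^ 2 + (Real.sqrt (1 - Y) * (Real.exp (2 * al Y) * P Y)) ^ 2 := by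
    intro Y hY
    have hI : ∀ X ∈ Icc (1 / 2) Y, X ∈ Ioo (0 : ℝ) 1 := fun X hX =>
      ⟨by linarith [hX.1], hX.2.trans_lt hY.2⟩
    have hs : ∀ X ∈ Icc (1 / 2) Y, HasDerivAt (fun X => Real.sqrt (1 - X))
        (-1 / (2 * Real.sqrt (1 - X))) X := fun X hX =>
      ((hasDerivAt_id' X).const_sub 1).sqrt (sub_pos.2 (hI X hX).2).ne'
    refine (EWron.le_of_deriv hY.1.le (fun X hX => (((h.d1 X (hI X hX)).fun_pow 2).fun_add
      (((hs X hX).fun_mul (h.d2 X (hI X hX))).fun_pow 2)).fun_mul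
        ((hs X hX).const_mul (-2 * K)).exp) fun X hX => ?_).trans
      (mul_le_of_le_one_right (by positivity) (Real.exp_le_one_iff.2 (by
        nlinarith [Real.sqrt_nonneg (1 - Y)])))
    have a1 := (hI X hX).1
    have a2 := sub_pos.2 (hI X hX).2
    have a3 := hK ⟨X, ⟨hX.1, (hI X hX).2.le⟩, rfl⟩
    have s1 := Real.sqrt_pos.2 a2
    have s2 := Real.sq_sqrt a2.le
    have s3 : Real.sqrt (1 - X) ≤ 1 := Real.sqrt_le_one.2 (by linarith)
    have hA := Real.exp_pos (2 * al X)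
    simp only [Vp, Jd, Nat.cast_zero, zero_mul, zero_div, add_zero, Nat.cast_one] at a3 ⊢
    generalize Real.sqrt (1 - X) = s at s1 s2 s3 ⊢
    generalize Real.exp (2 * al X) = A at hA a3 ⊢
    generalize (m : ℝ) ^ 2 * Real.exp (2 * bet 1 (al X) (ga X)) / X - lam = v at a3 ⊢
    have a4 := (abs_le.1 (EWron.energy_le (R X) (s * (A * P X)) (A⁻¹ + v / (4 * X))
      (s * (-1 / X)))).1
    have a5 : (|A⁻¹ + v / (4 * X)| + 2 * |s * (-1 / X)|) * (R X ^ 2 + (s * (A * P X)) ^ 2) ≤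
        K * (R X ^ 2 + (s * (A * P X)) ^ 2) := by
      refine mul_le_mul_of_nonneg_right (le_trans ?_ a3) (by positivity)
      rw [abs_mul, abs_of_pos s1]
      nlinarith [abs_nonneg (-1 / X)]
    have a6 : 0 ≤ Real.exp (-2 * K * s) / s * (2 * R X * (s * (A * P X)) * (A⁻¹ + v / (4 * X)) +
        2 * (s * (-1 / X)) * (s * (A * P X)) ^ 2 + K * (R X ^ 2 + (s * (A * P X)) ^ 2)) :=
      mul_nonneg (by positivity) (by linarith)
    refine a6.trans_eq ?_
    have hX' : X = 1 - s ^ 2 := by linarith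
    rw [← s2]
    norm_num
    field_simp
    rw [hX']
    ring
  have t3 := (t1.pow 2).add (t2.pow 2)
  have h0 := ge_of_tendsto t3 (mem_of_superset hm key)
  have h1 := nonpos_of_mul_nonpos_left (h0.trans_eq (by norm_num)) (Real.exp_pos _)
  have h2 := sq_nonneg (R (1 / 2))
  have h3 := sq_nonneg (Real.sqrt (1 - 1 / 2) * (Real.exp (2 * al (1 / 2)) * P (1 / 2)))
  rcases h.ne_zero hal hga (X := 1 / 2) (by norm_num) with h4 | h4
  · exact h4 (pow_eq_zero_iff two_ne_zero |>.1 (le_antisymm (by linarith) h2))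
  · exact mul_ne_zero (Real.sqrt_pos.2 (by norm_num)).ne' (mul_ne_zero (Real.exp_pos _).ne' h4)
      (pow_eq_zero_iff two_ne_zero |>.1 (le_antisymm (by linarith) h3))

/-- the first integral: a relation forces `U_λ - (d-1) e^{2β} U_m / X` to be constant.
With `Π_i = A P_i`, `T = Σ x_i X² (1-X)^d · 4 Π_i²`-type quantity: differentiate
`X(1-X)^{d-1} · A · (A Σ x_i 4X(1-X) P_i²)` with the equation, and use
`X (1-X)^{d-1} A = (X e^{-2β}) ((1-X) e^{-2γ})^{d-1}`. -/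
theorem medium (hd : 1 ≤ d) (hal : ContDiff ℝ ∞ al) (hga : ContDiff ℝ ∞ ga) {ι : Type} [Fintype ι]
    {j m : ι → ℕ} {lam x : ι → ℝ} {R P : ι → ℝ → ℝ}
    (h : ∀ i, RadSol d (j i) (m i) al ga (lam i) (R i) (P i)) {X₁ X₂ : ℝ} (h1 : 0 ≤ X₁)
    (h2 : X₂ ≤ 1) (hrel : Rel d j m x al ga R P (Ioo X₁ X₂)) :
    ∃ c : ℝ, ∀ X ∈ Ioo X₁ X₂, ∑ i, x i * (lam i * R i X ^ 2) -
      ((d : ℝ) - 1) * (Real.exp (2 * bet d (al X) (ga X)) *
        (∑ i, x i * ((m i : ℝ) ^ 2 * R i X ^ 2)) / X) = c := by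
  refine EWron.const_of_deriv fun X hX => ?_
  have hI : X ∈ Ioo (0 : ℝ) 1 := ⟨h1.trans_lt hX.1, hX.2.trans_le h2⟩
  have a1 := hI.1.ne'
  have a2 := (sub_pos.2 hI.2).ne'
  have hA := (Real.exp_pos (2 * al X)).ne'
  have hU : ∀ w : ι → ℝ, HasDerivAt (fun X => ∑ i, x i * (w i * R i X ^ 2))
      (∑ i, x i * (w i * (2 * R i X * P i X))) X := fun w =>
    HasDerivAt.fun_sum fun i _ => ((((h i).d1 X hI).fun_pow 2).const_mul (w i)).const_mul
      (x i) |>.congr_deriv (by simp)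
  have hT := HasDerivAt.fun_sum (u := Finset.univ) fun i _ =>
    (((h i).d2 X hI).fun_pow 2).const_mul (x i)
  have dal := (hal.differentiable (by simp) X).hasDerivAt
  have dga := (hga.differentiable (by simp) X).hasDerivAt
  have dbe : HasDerivAt (fun X => bet d (al X) (ga X))
      (-deriv al X - ((d : ℝ) - 1) * deriv ga X) X := dal.neg.sub (dga.const_mul _)
  have hS := ((dbe.const_mul 2).exp.fun_mul (hU fun i => (m i : ℝ) ^ 2)).fun_div
    (hasDerivAt_id' X) a1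
  have hr1 : ∀ Y ∈ Ioo X₁ X₂,
      4 * Y * (1 - Y) * ∑ i, x i * (Real.exp (2 * al Y) * P i Y) ^ 2 = Real.exp (2 * al Y) *
        (Real.exp (2 * bet d (al Y) (ga Y)) * (∑ i, x i * ((m i : ℝ) ^ 2 * R i Y ^ 2)) / Y) := by
    intro Y hY
    rw [← (hrel Y hY).1]
    simp only [Finset.mul_sum]
    exact Finset.sum_congr rfl fun i _ => by ring
  have r1 := ((((hasDerivAt_id' X).const_mul 4).fun_mul
    ((hasDerivAt_id' X).const_sub 1)).fun_mul hT).unique
      (((dal.const_mul 2).exp.fun_mul hS).congr_of_eventuallyEq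
        (mem_of_superset (isOpen_Ioo.mem_nhds hX) hr1))
  have r2 := (((dga.const_mul 2).exp.fun_mul (hU fun i => Jd d (j i))).fun_div
    ((hasDerivAt_id' X).const_sub 1) a2).unique
      ((hS.const_mul ((d : ℝ) - 1)).congr_of_eventuallyEq
        (mem_of_superset (isOpen_Ioo.mem_nhds hX) fun Y hY => (hrel Y hY).2))
  have r3 := hr1 X hX
  have r4 := (hrel X hX).2
  have r5 : 4 * X * (1 - X) * ∑ i, x i * (((2 : ℕ) : ℝ) * (Real.exp (2 * al X) * P i X) ^ (2 - 1) *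
      (((Vp d (j i) (m i) al ga X - lam i) * R i X - (4 - (4 + 2 * (d : ℝ)) * X) *
        (Real.exp (2 * al X) * P i X)) / (4 * X * (1 - X)))) =
      Real.exp (2 * al X) * (Real.exp (2 * bet d (al X) (ga X)) *
        (∑ i, x i * ((m i : ℝ) ^ 2 * (2 * R i X * P i X))) / X + Real.exp (2 * ga X) *
        (∑ i, x i * (Jd d (j i) * (2 * R i X * P i X))) / (1 - X) -
          ∑ i, x i * (lam i * (2 * R i X * P i X))) - 2 * (4 - (4 + 2 * (d : ℝ)) * X) *
        ∑ i, x i * (Real.exp (2 * al X) * P i X) ^ 2 := by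
    simp only [Finset.mul_sum, Finset.sum_div, ← Finset.sum_add_distrib, ← Finset.sum_sub_distrib]
    refine Finset.sum_congr rfl fun i _ => ?_
    simp only [Vp]
    field_simp
    ring
  refine ((hU lam).sub (hS.const_mul ((d : ℝ) - 1))).congr_deriv ?_
  rw [r5] at r1
  clear r5 hT hS hU hr1 hrel dbe
  generalize ∑ i, x i * (lam i * (2 * R i X * P i X)) = u1 at *
  generalize ∑ i, x i * ((m i : ℝ) ^ 2 * (2 * R i X * P i X)) = u2 at *
  generalize ∑ i, x i * (Jd d (j i) * (2 * R i X * P i X)) = u3 at *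
  generalize ∑ i, x i * ((m i : ℝ) ^ 2 * R i X ^ 2) = U2 at *
  generalize ∑ i, x i * (Jd d (j i) * R i X ^ 2) = U3 at *
  generalize ∑ i, x i * (Real.exp (2 * al X) * P i X) ^ 2 = T at *
  generalize Real.exp (2 * al X) = A at *
  generalize Real.exp (2 * ga X) = G at *
  generalize Real.exp (2 * bet d (al X) (ga X)) = Bt at *
  rw [← r2]
  refine mul_left_cancel₀ hA ?_
  linear_combination (norm := (field_simp; ring)) (-1) * r1 -
    A * (2 * deriv ga X + 1 / (1 - X)) * r4 + ((d : ℝ) * X - 1) / (X * (1 - X)) * r3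

end Crest.Agent.R202
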