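import Crest.Agent.R202.EHyp
import Crest.Agent.R202.EWron

/-!
# Row 202, E3: the regular solution on the round cap and its continuation

`R = X^{m/2} G(Y)`, `Y = X/(X-1)`, `1 - X = 1/(1-Y)`, `dY/dX = -(1-Y)²`,
`G = (1-Y)^{b - j/2} h(Y)`, `h = ₂F₁(b, b'; m+1; Y)`, `b = (m+j+ν+d)/2`, `b' = (m-j+ν+2)/2`,
`b + b' - (m+1) = ν + d/2`; so `(1-Y) G'/G → (ν - m)/2`.
`X ∈ (0, 1/2)` corresponds to `Y ∈ (-1, 0)`; identities between analytic functions of `Y` on an
interval extend to `(-1, 1)` (`AnalyticOnNhd.eqOn_of_preconnected_of_eventuallyEq`), where the growth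
at `Y → 1⁻` is known.
-/

set_option autoImplicit false
open scoped ContDiff Topology
open Set Filter

noncomputable section
namespace Crest.Agent.R202

variable {d j m : ℕ} {lam ν : ℝ}

theorem ecap_b (h : NuOK d j m lam ν) : 0 < ((m : ℝ) + j + ν + d) / 2 := by
  have := h.pos
  positivity

theorem ecap_b' (h : NuOK d j m lam ν) : 0 < ((m : ℝ) - j + ν + 2) / 2 := by
  have := h.big
  linarith

theorem ecap_c (m : ℕ) : 0 < (m : ℝ) + 1 := by positivity

theorem ecap_rpow_analytic (p : ℝ) {Y : ℝ} (hY : Y < 1) :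
    AnalyticAt ℝ (fun Y : ℝ => (1 - Y) ^ p) Y := by
  have h1 : ContDiffAt ℝ ω (fun Y : ℝ => 1 - Y) Y := by fun_prop
  exact (h1.rpow_const_of_ne (p := p) (by linarith)).analyticAt

theorem ecap_rpow_deriv (p : ℝ) {Y : ℝ} (hY : Y < 1) :
    HasDerivAt (fun Y : ℝ => (1 - Y) ^ p) (-(p / (1 - Y)) * (1 - Y) ^ p) Y := by
  have h0 : (0 : ℝ) < 1 - Y := by linarith
  have h1 : HasDerivAt (fun Y : ℝ => 1 - Y) (-1) Y := by
    simpa using (hasDerivAt_id Y).const_sub 1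
  have h2 := h1.rpow_const (p := p) (Or.inl h0.ne')
  refine HasDerivAt.congr_deriv h2 ?_
  rw [Real.rpow_sub_one h0.ne']
  field_simp

theorem capG_analytic (h : NuOK d j m lam ν) : AnalyticOnNhd ℝ (capG d j m ν) (Ioo (-1) 1) := by
  intro Y hY
  exact (ecap_rpow_analytic _ hY.2).mul (hyp_analytic (ecap_b h) (ecap_b' h) (ecap_c m) Y hY)

theorem capG_zero (d j m : ℕ) (ν : ℝ) : capG d j m ν 0 = 1 := by
  unfold capG
  rw [hyp_zero, sub_zero, Real.one_rpow, one_mul]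

theorem capG_pos (h : NuOK d j m lam ν) {Y : ℝ} (h0 : 0 ≤ Y) (h1 : Y < 1) : 0 < capG d j m ν Y := by
  unfold capG
  exact mul_pos (Real.rpow_pos_of_pos (by linarith) _)
    (hyp_pos (ecap_b h) (ecap_b' h) (ecap_c m) h0 h1)

/-- first derivative of `(1-Y)^p H` -/
theorem ecap_d1 {H : ℝ → ℝ} (hH : AnalyticOnNhd ℝ H (Ioo (-1) 1)) (p : ℝ) {Y : ℝ}
    (hY : Y ∈ Ioo (-1 : ℝ) 1) :
    deriv (fun Y => (1 - Y) ^ p * H Y) Y = (1 - Y) ^ p * (deriv H Y - p / (1 - Y) * H Y) := by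
  have h1 := (ecap_rpow_deriv p hY.2).mul (hH Y hY).differentiableAt.hasDerivAt
  have h2 : deriv (fun Y => (1 - Y) ^ p * H Y) Y = _ := h1.deriv
  rw [h2]
  ring

/-- second derivative of `(1-Y)^p H` -/
theorem ecap_d2 {H : ℝ → ℝ} (hH : AnalyticOnNhd ℝ H (Ioo (-1) 1)) (p : ℝ) {Y : ℝ}
    (hY : Y ∈ Ioo (-1 : ℝ) 1) :
    deriv (deriv (fun Y => (1 - Y) ^ p * H Y)) Y = (1 - Y) ^ p *
      (deriv (deriv H) Y - 2 * p / (1 - Y) * deriv H Y + p * (p - 1) / (1 - Y) ^ 2 * H Y) := by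
  have he : deriv (fun Y => (1 - Y) ^ p * H Y) =ᶠ[𝓝 Y]
      fun Y => (1 - Y) ^ p * (deriv H Y - p / (1 - Y) * H Y) := by
    filter_upwards [isOpen_Ioo.mem_nhds hY] with Z hZ using ecap_d1 hH p hZ
  rw [he.deriv_eq]
  have h0 : (0 : ℝ) < 1 - Y := by linarith [hY.2]
  have h1 : HasDerivAt (fun Y : ℝ => 1 - Y) (-1) Y := by
    simpa using (hasDerivAt_id Y).const_sub 1
  have h2 : HasDerivAt (fun Y : ℝ => p / (1 - Y)) (p / (1 - Y) ^ 2) Y := by
    have := (hasDerivAt_const Y p).div h1 h0.ne'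
    refine HasDerivAt.congr_deriv this ?_
    ring
  have h3 := (ecap_rpow_deriv p hY.2).mul ((hH.deriv Y hY).differentiableAt.hasDerivAt.sub
    (h2.mul (hH Y hY).differentiableAt.hasDerivAt))
  have h4 : deriv (fun Y => (1 - Y) ^ p * (deriv H Y - p / (1 - Y) * H Y)) Y = _ := h3.deriv
  rw [h4]
  simp only [Pi.sub_apply, Pi.mul_apply]
  field_simp
  ring

theorem capG_logderiv (h : NuOK d j m lam ν) :
    Tendsto (fun Y => (1 - Y) * deriv (capG d j m ν) Y / capG d j m ν Y) (𝓝[<] 1)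
      (𝓝 ((ν - m) / 2)) := by
  have hlt : (m : ℝ) + 1 < ((m : ℝ) + j + ν + d) / 2 + ((m : ℝ) - j + ν + 2) / 2 := by
    have := h.pos
    have : (0 : ℝ) ≤ d := Nat.cast_nonneg d
    linarith
  have h1 := (hyp_abel (ecap_b h) (ecap_b' h) (ecap_c m) hlt).sub_const (((m : ℝ) + ν + d) / 2)
  have h2 : ((m : ℝ) + j + ν + d) / 2 + ((m : ℝ) - j + ν + 2) / 2 - ((m : ℝ) + 1) -
      ((m : ℝ) + ν + d) / 2 = (ν - m) / 2 := by ring
  rw [h2] at h1
  refine h1.congr' ?_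
  filter_upwards [Ioo_mem_nhdsLT (zero_lt_one' ℝ)] with Y hY
  have hY' : Y ∈ Ioo (-1 : ℝ) 1 := ⟨by linarith [hY.1], hY.2⟩
  have h3 := ecap_d1 (hyp_analytic (ecap_b h) (ecap_b' h) (ecap_c m)) (((m : ℝ) + ν + d) / 2) hY'
  have h4 := hyp_pos (ecap_b h) (ecap_b' h) (ecap_c m) hY.1.le hY.2
  have h0 : (0 : ℝ) < 1 - Y := by linarith [hY.2]
  have h5 := Real.rpow_pos_of_pos h0 (((m : ℝ) + ν + d) / 2)
  unfold capG
  rw [h3]
  field_simp

theorem ecap_mem {X : ℝ} (hX : X ∈ Ioo (0 : ℝ) (1 / 2)) : X / (X - 1) ∈ Ioo (-1 : ℝ) 1 := by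
  have h1 : X - 1 < 0 := by linarith [hX.2]
  constructor
  · rw [lt_div_iff_of_neg h1]
    linarith [hX.2]
  · rw [div_lt_iff_of_neg h1]
    linarith [hX.2]

theorem ecap_Y_deriv {X : ℝ} (hX : X < 1) :
    HasDerivAt (fun X : ℝ => X / (X - 1)) (-(1 - X / (X - 1)) ^ 2) X := by
  have h1 : X - 1 ≠ 0 := by linarith
  have h2 := (hasDerivAt_id X).div ((hasDerivAt_id X).sub_const 1) h1
  refine HasDerivAt.congr_deriv h2 ?_
  simp only [id]
  field_simp
  ring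

theorem ecap_sqrt_pow (m : ℕ) {X : ℝ} (hX : 0 < X) :
    HasDerivAt (fun X : ℝ => Real.sqrt X ^ m) ((m : ℝ) / (2 * X) * Real.sqrt X ^ m) X := by
  have h1 := (Real.hasDerivAt_sqrt hX.ne').pow m
  refine HasDerivAt.congr_deriv h1 ?_
  have h2 : 0 < Real.sqrt X := Real.sqrt_pos.2 hX
  have h3 : Real.sqrt X * Real.sqrt X = X := Real.mul_self_sqrt hX.le
  rcases m with _ | k
  · simp
  · simp only [Nat.add_sub_cancel]
    generalize Real.sqrt X = s at h2 h3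
    subst h3
    field_simp
    ring

theorem capR_analytic (h : NuOK d j m lam ν) : AnalyticOnNhd ℝ (capR d j m ν) (Ioo 0 (1 / 2)) := by
  intro X hX
  have h1 : AnalyticAt ℝ (fun X : ℝ => Real.sqrt X ^ m) X :=
    (Real.contDiffAt_sqrt (n := ω) hX.1.ne').analyticAt.pow m
  have h2 : AnalyticAt ℝ (fun X : ℝ => X / (X - 1)) X :=
    analyticAt_id.div (analyticAt_id.sub analyticAt_const) (by
      have := hX.2
      change X - 1 ≠ 0
      linarith)
  exact h1.mul ((capG_analytic h _ (ecap_mem hX)).comp_of_eq h2 rfl)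

theorem ecap_R_deriv (h : NuOK d j m lam ν) {X : ℝ} (hX : X ∈ Ioo (0 : ℝ) (1 / 2)) :
    HasDerivAt (capR d j m ν) (Real.sqrt X ^ m * ((m : ℝ) / (2 * X) * capG d j m ν (X / (X - 1)) -
      (1 - X / (X - 1)) ^ 2 * deriv (capG d j m ν) (X / (X - 1)))) X := by
  have h1 := (capG_analytic h _ (ecap_mem hX)).differentiableAt.hasDerivAt.comp X
    (ecap_Y_deriv (by linarith [hX.2]))
  have h2 := (ecap_sqrt_pow m hX.1).mul h1
  refine HasDerivAt.congr_deriv h2 ?_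
  simp only [Function.comp]
  ring

theorem capP_eq (h : NuOK d j m lam ν) {X : ℝ} (hX : X ∈ Ioo (0 : ℝ) (1 / 2)) :
    capP d j m ν X = Real.sqrt X ^ m * ((m : ℝ) / (2 * X) * capG d j m ν (X / (X - 1)) -
      (1 - X / (X - 1)) ^ 2 * deriv (capG d j m ν) (X / (X - 1))) :=
  (ecap_R_deriv h hX).deriv

theorem ecap_Vp (d j m : ℕ) {al ga : ℝ → ℝ} {X : ℝ} (h1 : al X = 0) (h2 : ga X = 0) :
    Vp d j m al ga X = (m : ℝ) ^ 2 / X + (j : ℝ) * ((j : ℝ) + d - 2) / (1 - X) := by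
  unfold Vp bet Jd
  rw [h1, h2]
  simp

theorem capR_ode (h : NuOK d j m lam ν) {X : ℝ} (hX : X ∈ Ioo (0 : ℝ) (1 / 2)) :
    HasDerivAt (capR d j m ν) (capP d j m ν X) X ∧ HasDerivAt (capP d j m ν)
      (((Vp d j m (fun _ => 0) (fun _ => 0) X - lam) * capR d j m ν X -
        (4 - (4 + 2 * (d : ℝ)) * X) * capP d j m ν X) / (4 * X * (1 - X))) X := by
  refine ⟨(capR_analytic h X hX).differentiableAt.hasDerivAt, ?_⟩
  have he : capP d j m ν =ᶠ[𝓝 X] fun X => Real.sqrt X ^ m *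
      ((m : ℝ) / (2 * X) * capG d j m ν (X / (X - 1)) -
        (1 - X / (X - 1)) ^ 2 * deriv (capG d j m ν) (X / (X - 1))) := by
    filter_upwards [isOpen_Ioo.mem_nhds hX] with Z hZ using capP_eq h hZ
  refine HasDerivAt.congr_of_eventuallyEq ?_ he
  have hX1 : X < 1 := by linarith [hX.2]
  have hY := ecap_mem hX
  have hYd := ecap_Y_deriv hX1
  have g0 := (capG_analytic h _ hY).differentiableAt.hasDerivAt.comp X hYd
  have g1 := ((capG_analytic h).deriv _ hY).differentiableAt.hasDerivAt.comp X hYd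
  have a1 : HasDerivAt (fun X : ℝ => (m : ℝ) / (2 * X)) (-((m : ℝ) / (2 * X ^ 2))) X := by
    have := (hasDerivAt_const X (m : ℝ)).div ((hasDerivAt_id X).const_mul 2)
      (by have := hX.1; simp only [id]; positivity)
    refine HasDerivAt.congr_deriv this ?_
    have := hX.1
    simp only [id]
    field_simp
    ring
  have a2 := (hYd.const_sub 1).pow 2
  have a3 := (ecap_sqrt_pow m hX.1).mul ((a1.mul g0).sub (a2.mul g1))
  refine HasDerivAt.congr_deriv a3 ?_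
  rw [capP_eq h hX, ecap_Vp d j m rfl rfl, h.eq]
  have hH := hyp_analytic (ecap_b h) (ecap_b' h) (ecap_c m)
  have e1 := ecap_d1 hH (((m : ℝ) + ν + d) / 2) hY
  have e2 := ecap_d2 hH (((m : ℝ) + ν + d) / 2) hY
  have e3 := hyp_ode (ecap_b h) (ecap_b' h) (ecap_c m) hY
  simp only [Function.comp, Pi.sub_apply, Pi.mul_apply, Pi.pow_apply,
    show (2 : ℕ) - 1 = 1 from rfl, pow_one, Nat.cast_ofNat]
  unfold capR capG
  rw [e1, e2]
  have hs : 0 < 1 - X := by linarith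
  have hY1 : X / (X - 1) = -X / (1 - X) := by
    rw [div_eq_div_iff (by linarith) hs.ne']
    ring
  have hY2 : 1 - X / (X - 1) = 1 / (1 - X) := by
    rw [hY1]
    field_simp
    ring
  generalize deriv (deriv (hyp (((m : ℝ) + j + ν + d) / 2) (((m : ℝ) - j + ν + 2) / 2)
    ((m : ℝ) + 1))) (X / (X - 1)) = H2 at *
  generalize deriv (hyp (((m : ℝ) + j + ν + d) / 2) (((m : ℝ) - j + ν + 2) / 2)
    ((m : ℝ) + 1)) (X / (X - 1)) = H1 at *
  generalize hyp (((m : ℝ) + j + ν + d) / 2) (((m : ℝ) - j + ν + 2) / 2)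
    ((m : ℝ) + 1) (X / (X - 1)) = H0 at *
  generalize (1 - X / (X - 1)) ^ (((m : ℝ) + ν + d) / 2) = T at *
  generalize Real.sqrt X ^ m = S at *
  rw [hY2, hY1] at *
  have hX0 := hX.1
  have e4 : H2 = (1 - X) ^ 2 / X * (((m : ℝ) + 1 - (((m : ℝ) + j + ν + d) / 2 +
      ((m : ℝ) - j + ν + 2) / 2 + 1) * (-X / (1 - X))) * H1 -
      ((m : ℝ) + j + ν + d) / 2 * (((m : ℝ) - j + ν + 2) / 2) * H0) := by
    field_simp at e3 ⊢
    linarith
  rw [e4]
  field_simp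
  ring

/-- `X · capP X → 0` as `X → 0⁺` -/
theorem ecap_lim (h : NuOK d j m lam ν) :
    Tendsto (capR d j m ν) (𝓝[>] 0) (𝓝 (0 ^ m)) ∧
      Tendsto (fun X => X * capP d j m ν X) (𝓝[>] 0) (𝓝 0) ∧
      ∀ᶠ X in 𝓝[>] (0 : ℝ), capR d j m ν X ≠ 0 := by
  have h0 : (0 : ℝ) ∈ Ioo (-1 : ℝ) 1 := by constructor <;> norm_num
  have hY : Tendsto (fun X : ℝ => X / (X - 1)) (𝓝[>] 0) (𝓝 0) := by
    have := (ecap_Y_deriv (X := 0) zero_lt_one).continuousAt.tendsto
    rw [zero_div] at this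
    exact this.mono_left nhdsWithin_le_nhds
  have hG : Tendsto (fun X : ℝ => capG d j m ν (X / (X - 1))) (𝓝[>] 0) (𝓝 1) := by
    have := (capG_analytic h 0 h0).continuousAt.tendsto.comp hY
    rwa [capG_zero] at this
  have hG' : Tendsto (fun X : ℝ => deriv (capG d j m ν) (X / (X - 1))) (𝓝[>] 0)
      (𝓝 (deriv (capG d j m ν) 0)) := ((capG_analytic h).deriv 0 h0).continuousAt.tendsto.comp hY
  have hid : Tendsto (fun X : ℝ => X) (𝓝[>] 0) (𝓝 0) := tendsto_id.mono_left nhdsWithin_le_nhds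
  have hS : Tendsto (fun X : ℝ => Real.sqrt X ^ m) (𝓝[>] 0) (𝓝 (0 ^ m)) := by
    have := hid.sqrt.pow m
    rwa [Real.sqrt_zero] at this
  refine ⟨?_, ?_, ?_⟩
  · have := hS.mul hG
    rw [mul_one] at this
    exact this
  · have h1 := hS.mul ((hG.const_mul ((m : ℝ) / 2)).sub
      (hid.mul (((hY.const_sub 1).pow 2).mul hG')))
    have h2 : (0 : ℝ) ^ m * ((m : ℝ) / 2 * 1 - 0 * ((1 - 0) ^ 2 * deriv (capG d j m ν) 0)) = 0 := by
      rcases m with _ | k <;> simp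
    rw [h2] at h1
    refine h1.congr' ?_
    filter_upwards [Ioo_mem_nhdsGT (show (0 : ℝ) < 1 / 2 by norm_num)] with X hX
    rw [capP_eq h hX]
    have := hX.1
    field_simp
  · filter_upwards [hG.eventually_ne one_ne_zero, self_mem_nhdsWithin] with X hX hX0
    exact mul_ne_zero (pow_ne_zero _ (Real.sqrt_pos.2 hX0).ne') hX

/-- on a round cap every radial eigenfunction is a non-zero multiple of `capR` -/
theorem cap_ident (h : NuOK d j m lam ν) {al ga : ℝ → ℝ} (hal : Continuous al)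
    (hga : Continuous ga) {X₁ : ℝ} (h0 : 0 < X₁) (h1 : X₁ ≤ 1 / 2)
    (hcap : ∀ X ∈ Ioo (0 : ℝ) X₁, al X = 0 ∧ ga X = 0) {R P : ℝ → ℝ}
    (hR : RadSol d j m al ga lam R P) :
    ∃ ρ : ℝ, ρ ≠ 0 ∧ ∀ X ∈ Ioo (0 : ℝ) X₁, R X = ρ * capR d j m ν X ∧ P X = ρ * capP d j m ν X := by
  have hm1 : ∀ X ∈ Ioo (0 : ℝ) X₁, X ∈ Ioo (0 : ℝ) 1 := fun X hX => ⟨hX.1, by linarith [hX.2]⟩
  have hm2 : ∀ X ∈ Ioo (0 : ℝ) X₁, X ∈ Ioo (0 : ℝ) (1 / 2) := fun X hX => ⟨hX.1, by linarith [hX.2]⟩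
  set V : ℝ → ℝ := fun X => Vp d j m (fun _ => 0) (fun _ => 0) X - lam with hV
  set r := capR d j m ν with hr
  set q := capP d j m ν with hq
  -- the equation of `P` on the cap
  have hP : ∀ X ∈ Ioo (0 : ℝ) X₁, HasDerivAt P
      ((V X * R X - (4 - (4 + 2 * (d : ℝ)) * X) * P X) / (4 * X * (1 - X))) X := by
    intro X hX
    have h2 := hR.d2 X (hm1 X hX)
    rw [ecap_Vp d j m (hcap X hX).1 (hcap X hX).2, (hcap X hX).1, mul_zero, Real.exp_zero,
      one_mul] at h2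
    have h3 : V X = (m : ℝ) ^ 2 / X + (j : ℝ) * ((j : ℝ) + d - 2) / (1 - X) - lam := by
      simp only [hV]
      rw [ecap_Vp d j m rfl rfl]
    rw [h3]
    refine h2.congr_of_eventuallyEq ?_
    filter_upwards [isOpen_Ioo.mem_nhds hX] with Z hZ
    rw [(hcap Z hZ).1, mul_zero, Real.exp_zero, one_mul]
  have hr1 : ∀ X ∈ Ioo (0 : ℝ) X₁, HasDerivAt r (q X) X := fun X hX => (capR_ode h (hm2 X hX)).1
  have hq1 : ∀ X ∈ Ioo (0 : ℝ) X₁, HasDerivAt q
      ((V X * r X - (4 - (4 + 2 * (d : ℝ)) * X) * q X) / (4 * X * (1 - X))) X :=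
    fun X hX => (capR_ode h (hm2 X hX)).2
  -- the Wronskian
  set Z : ℝ → ℝ := fun X => Real.sqrt (1 - X) ^ d * (X * (R X * q X - P X * r X)) with hZ
  have hZd : ∀ X ∈ Ioo (0 : ℝ) X₁, HasDerivAt Z 0 X := by
    intro X hX
    have hX0 := hX.1
    have hs : 0 < 1 - X := by linarith [(hm1 X hX).2]
    have a0 : HasDerivAt (fun Y : ℝ => 1 - Y) (-1) X := by
      simpa using (hasDerivAt_id X).const_sub 1
    have a1 := (ecap_sqrt_pow d hs).comp X a0
    have a2 := a1.mul ((hasDerivAt_id X).mul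
      (((hR.d1 X (hm1 X hX)).mul (hq1 X hX)).sub ((hP X hX).mul (hr1 X hX))))
    refine HasDerivAt.congr_deriv a2 ?_
    simp only [Function.comp, Pi.sub_apply, Pi.mul_apply, id]
    field_simp
    ring
  have hZc : ∀ X ∈ Ioo (0 : ℝ) X₁, ∀ X' ∈ Ioo (0 : ℝ) X₁, Z X = Z X' := fun X hX X' hX' =>
    isOpen_Ioo.is_const_of_deriv_eq_zero isPreconnected_Ioo
      (fun Y hY => (hZd Y hY).differentiableAt.differentiableWithinAt)
      (fun Y hY => (hZd Y hY).deriv) hX hX'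
  obtain ⟨l1, l2, l3⟩ := ecap_lim h
  obtain ⟨B, hB⟩ := hR.bd
  have hid : Tendsto (fun X : ℝ => X) (𝓝[>] 0) (𝓝 0) := tendsto_id.mono_left nhdsWithin_le_nhds
  have hev : ∀ᶠ X in 𝓝[>] (0 : ℝ), X ∈ Ioo (0 : ℝ) X₁ := Ioo_mem_nhdsGT h0
  have hZ0 : Tendsto Z (𝓝[>] 0) (𝓝 0) := by
    have t1 : Tendsto (fun X : ℝ => Real.sqrt (1 - X) ^ d) (𝓝[>] 0) (𝓝 (Real.sqrt (1 - 0) ^ d)) :=
      (hid.const_sub 1).sqrt.pow d
    have t2 : Tendsto (fun X : ℝ => R X * (X * q X)) (𝓝[>] 0) (𝓝 0) := by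
      refine squeeze_zero_norm' (a := fun X => B * |X * q X|) ?_ ?_
      · filter_upwards [hev] with X hX
        rw [Real.norm_eq_abs, abs_mul]
        exact mul_le_mul_of_nonneg_right (hB X (hm1 X hX)).1 (abs_nonneg _)
      · have := l2.abs.const_mul B
        rwa [abs_zero, mul_zero] at this
    have t3 : Tendsto (fun X : ℝ => X * P X) (𝓝[>] 0) (𝓝 0) := by
      refine squeeze_zero_norm' (a := fun X => B * (Real.sqrt X / Real.sqrt (1 - X))) ?_ ?_
      · filter_upwards [hev] with X hX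
        have hX0 := hX.1
        have hs : 0 < 1 - X := by linarith [(hm1 X hX).2]
        have b1 := (hB X (hm1 X hX)).2
        rw [Real.sqrt_mul hX0.le] at b1
        have b2 : 0 < Real.sqrt X := Real.sqrt_pos.2 hX0
        have b3 : 0 < Real.sqrt (1 - X) := Real.sqrt_pos.2 hs
        have b4 : Real.sqrt X * Real.sqrt X = X := Real.mul_self_sqrt hX0.le
        rw [Real.norm_eq_abs, abs_mul, abs_of_pos hX0, ← mul_div_assoc, le_div_iff₀ b3]
        calc X * |P X| * Real.sqrt (1 - X)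
            = (Real.sqrt X * Real.sqrt (1 - X) * |P X|) * Real.sqrt X := by
              nth_rewrite 1 [← b4]
              ring
          _ ≤ B * Real.sqrt X := mul_le_mul_of_nonneg_right b1 b2.le
      · have := (hid.sqrt.div (hid.const_sub 1).sqrt (by simp)).const_mul B
        rwa [Real.sqrt_zero, zero_div, mul_zero] at this
    have t4 := t1.mul (t2.sub (t3.mul l1))
    rw [zero_mul, sub_self, mul_zero] at t4
    refine t4.congr fun X => ?_
    simp only [hZ]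
    ring
  have hW : ∀ X ∈ Ioo (0 : ℝ) X₁, R X * q X = P X * r X := by
    intro X hX
    have c1 : Tendsto Z (𝓝[>] 0) (𝓝 (Z X)) :=
      tendsto_const_nhds.congr' (hev.mono fun X' hX' => hZc X hX X' hX')
    have c2 : Z X = 0 := tendsto_nhds_unique c1 hZ0
    have hs : 0 < 1 - X := by linarith [(hm1 X hX).2]
    have c3 : Real.sqrt (1 - X) ^ d ≠ 0 := pow_ne_zero _ (Real.sqrt_pos.2 hs).ne'
    have c4 := (mul_eq_zero.1 ((mul_eq_zero.1 c2).resolve_left c3)).resolve_left hX.1.ne'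
    linarith
  -- the ratio
  have hN : ∀ X ∈ Ioo (0 : ℝ) X₁, R X ^ 2 + P X ^ 2 ≠ 0 := by
    intro X hX
    rcases hR.ne_zero hal hga (hm1 X hX) with h2 | h2 <;> positivity
  set σ : ℝ → ℝ := fun X => (r X * R X + q X * P X) / (R X ^ 2 + P X ^ 2) with hσ
  have hσ1 : ∀ X ∈ Ioo (0 : ℝ) X₁, r X = σ X * R X ∧ q X = σ X * P X := by
    intro X hX
    have c1 := hN X hX
    have c2 := hW X hX
    simp only [hσ]
    constructor
    · field_simp
      linear_combination (-P X) * c2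
    · field_simp
      linear_combination (R X) * c2
  have hσd : ∀ X ∈ Ioo (0 : ℝ) X₁, DifferentiableAt ℝ σ X := by
    intro X hX
    have c1 := (hR.d1 X (hm1 X hX)).differentiableAt
    have c2 := (hP X hX).differentiableAt
    have c3 := (hr1 X hX).differentiableAt
    have c4 := (hq1 X hX).differentiableAt
    exact ((c3.mul c1).add (c4.mul c2)).div ((c1.pow 2).add (c2.pow 2)) (hN X hX)
  have hσ0 : ∀ X ∈ Ioo (0 : ℝ) X₁, deriv σ X = 0 := by
    intro X hX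
    have c1 := (hσd X hX).hasDerivAt
    have e1 : r =ᶠ[𝓝 X] σ * R := by
      filter_upwards [isOpen_Ioo.mem_nhds hX] with Y hY using (hσ1 Y hY).1
    have e2 : q =ᶠ[𝓝 X] σ * P := by
      filter_upwards [isOpen_Ioo.mem_nhds hX] with Y hY using (hσ1 Y hY).2
    have c2 := ((c1.mul (hR.d1 X (hm1 X hX))).congr_of_eventuallyEq e1).unique (hr1 X hX)
    have c3 := ((c1.mul (hP X hX)).congr_of_eventuallyEq e2).unique (hq1 X hX)
    obtain ⟨c4, c5⟩ := hσ1 X hX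
    have c6 : deriv σ X * R X = 0 := by linarith
    have c7 : deriv σ X * P X = 0 := by
      rw [c4, c5] at c3
      have : (V X * (σ X * R X) - (4 - (4 + 2 * (d : ℝ)) * X) * (σ X * P X)) / (4 * X * (1 - X)) =
          σ X * ((V X * R X - (4 - (4 + 2 * (d : ℝ)) * X) * P X) / (4 * X * (1 - X))) := by ring
      linarith
    rcases hR.ne_zero hal hga (hm1 X hX) with h2 | h2
    · exact (mul_eq_zero.1 c6).resolve_right h2
    · exact (mul_eq_zero.1 c7).resolve_right h2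
  obtain ⟨X₀, hX₀, hr0⟩ := (hev.and l3).exists
  have hσX : σ X₀ ≠ 0 := by
    intro h2
    apply hr0
    change r X₀ = 0
    rw [(hσ1 X₀ hX₀).1, h2, zero_mul]
  refine ⟨(σ X₀)⁻¹, inv_ne_zero hσX, fun X hX => ?_⟩
  have c1 : σ X = σ X₀ := isOpen_Ioo.is_const_of_deriv_eq_zero isPreconnected_Ioo
    (fun Y hY => (hσd Y hY).differentiableWithinAt) hσ0 hX hX₀
  obtain ⟨c2, c3⟩ := hσ1 X hX
  rw [c2, c3, c1]
  constructor <;> field_simp

end Crest.Agent.R202
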