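import Crest.Agent.R202.ECap

/-!
# Row 202, E3: the regular solution on the round cap and its continuation

`R = X^{m/2} G(Y)`, `Y = X/(X-1)`, `1 - X = 1/(1-Y)`, `dY/dX = -(1-Y)²`,
`G = (1-Y)^{b - j/2} h(Y)`, `h = ₂F₁(b, b'; m+1; Y)`, `b = (m+j+ν+d)/2`, `b' = (m-j+ν+2)/2`,
`b + b' - (m+1) = ν + d/2`; so `(1-Y) G'/G → (ν - m)/2`.
`X ∈ (0, 1/2)` corresponds to `Y ∈ (-1, 0)`; identities between analytic functions of `Y` on an
interval extend to `(-1, 1)` (`AnalyticOnNhd.eqOn_of_preconnected_of_eventuallyEq`), where the growth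
at `Y → 1⁻` is known.
-/

set_option autoImplicit false
open scoped ContDiff Topology
open Set Filter

noncomputable section
namespace Crest.Agent.R202

variable {d j m : ℕ} {lam ν : ℝ}

namespace ECtl

theorem ev_Ioo : ∀ᶠ Y in 𝓝[<] (1 : ℝ), Y ∈ Ioo (0 : ℝ) 1 := Ioo_mem_nhdsLT one_pos

theorem phi_phi {X : ℝ} (hX : X ≠ 1) : X / (X - 1) / (X / (X - 1) - 1) = X := by
  have h : X - 1 ≠ 0 := sub_ne_zero.2 hX
  have h2 : X / (X - 1) - 1 = (X - 1)⁻¹ := by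
    field_simp
    ring
  rw [h2]
  field_simp

theorem phi_mem {X : ℝ} (h0 : 0 < X) (h1 : X < 1 / 2) : X / (X - 1) ∈ Ioo (-1 : ℝ) 1 := by
  have h : X - 1 < 0 := by linarith
  constructor
  · rw [lt_div_iff_of_neg h]
    linarith
  · rw [div_lt_iff_of_neg h]
    linarith

theorem phi_analytic : AnalyticOnNhd ℝ (fun Y : ℝ => Y / (Y - 1)) (Ioo (-1) 1) := fun Y hY =>
  analyticAt_id.div (analyticAt_id.sub analyticAt_const) (by
    have := hY.2
    show Y - 1 ≠ 0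
    linarith)

/-- the identity theorem through `Y = X / (X - 1)` -/
theorem cont {Φ : ℝ → ℝ} (hΦ : AnalyticOnNhd ℝ Φ (Ioo (-1) 1)) {Xa Xb c : ℝ} (ha : 0 ≤ Xa)
    (hab : Xa < Xb) (hb : Xb ≤ 1 / 2) (hs : ∀ X ∈ Ioo Xa Xb, Φ (X / (X - 1)) = c) :
    ∀ Y ∈ Ioo (-1 : ℝ) 1, Φ Y = c := by
  set X₀ := (Xa + Xb) / 2 with hX₀
  have h1 : Xa < X₀ := by rw [hX₀]; linarith
  have h2 : X₀ < Xb := by rw [hX₀]; linarith
  have hY₀ := phi_mem (X := X₀) (by linarith) (by linarith)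
  have hc : ContinuousAt (fun Y : ℝ => Y / (Y - 1)) (X₀ / (X₀ - 1)) :=
    (phi_analytic _ hY₀).continuousAt
  have h3 : ∀ᶠ Y in 𝓝 (X₀ / (X₀ - 1)), Y / (Y - 1) ∈ Ioo Xa Xb := by
    refine hc.eventually (isOpen_Ioo.mem_nhds ?_)
    show X₀ / (X₀ - 1) / (X₀ / (X₀ - 1) - 1) ∈ Ioo Xa Xb
    rw [phi_phi (by linarith)]
    exact ⟨h1, h2⟩
  have h4 : Φ =ᶠ[𝓝 (X₀ / (X₀ - 1))] fun _ => c := by
    filter_upwards [h3, isOpen_Ioo.mem_nhds hY₀] with Y hY hY'
    have := hs _ hY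
    rwa [phi_phi hY'.2.ne] at this
  exact hΦ.eqOn_of_preconnected_of_eventuallyEq analyticOnNhd_const isPreconnected_Ioo hY₀ h4

theorem expo_phi (k : ℕ) : Expo (fun Y : ℝ => (Y / (Y - 1)) ^ k) k := by
  have h1 : Expo (fun Y : ℝ => (-Y) ^ k) 0 := by
    refine expo_of_tendsto (c := (-1) ^ k) (by positivity) ?_
    refine Tendsto.mono_left ?_ nhdsWithin_le_nhds
    exact (by fun_prop : Continuous fun Y : ℝ => (-Y) ^ k).tendsto 1
  have h2 := h1.mul (expo_zpow (-(k : ℤ)))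
  have h3 : (0 : ℝ) + -((-(k : ℤ) : ℤ) : ℝ) = k := by simp
  rw [h3] at h2
  refine h2.congr ?_
  filter_upwards [ev_Ioo] with Y hY
  rw [zpow_neg, zpow_natCast, ← inv_pow, ← mul_pow, ← div_eq_mul_inv, ← neg_sub Y 1, neg_div_neg_eq]

theorem expo_G (h : NuOK d j m lam ν) : Expo (capG d j m ν) ((ν - m) / 2) := by
  refine expo_of_logderiv ?_ (capG_logderiv h)
  filter_upwards [ev_Ioo] with Y hY
  exact ⟨(capG_analytic h Y ⟨by linarith [hY.1], hY.2⟩).differentiableAt,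
    (capG_pos h hY.1.le hY.2).ne'⟩

theorem capR_sq (d j m : ℕ) (ν : ℝ) {X : ℝ} (hX : 0 ≤ X) :
    capR d j m ν X ^ 2 = X ^ m * capG d j m ν (X / (X - 1)) ^ 2 := by
  rw [capR, mul_pow, ← pow_mul, mul_comm m 2, pow_mul, Real.sq_sqrt hX]

/-- `m/2 G + Y (1-Y) G'` -/
def Dg (d j m : ℕ) (ν Y : ℝ) : ℝ :=
  (m : ℝ) / 2 * capG d j m ν Y + Y * (1 - Y) * deriv (capG d j m ν) Y

theorem Dg_analytic (h : NuOK d j m lam ν) : AnalyticOnNhd ℝ (Dg d j m ν) (Ioo (-1) 1) := by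
  intro Y hY
  exact (analyticAt_const.mul (capG_analytic h Y hY)).add
    ((analyticAt_id.mul (analyticAt_const.sub analyticAt_id)).mul ((capG_analytic h).deriv Y hY))

theorem Dg_tendsto (h : NuOK d j m lam ν) :
    Tendsto (fun Y => Dg d j m ν Y / capG d j m ν Y) (𝓝[<] 1) (𝓝 (ν / 2)) := by
  have h1 : Tendsto (fun Y : ℝ => Y) (𝓝[<] 1) (𝓝 1) := tendsto_id.mono_left nhdsWithin_le_nhds
  have h2 := (h1.mul (capG_logderiv h)).const_add ((m : ℝ) / 2)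
  have h3 : (m : ℝ) / 2 + 1 * ((ν - m) / 2) = ν / 2 := by ring
  rw [h3] at h2
  refine h2.congr' ?_
  filter_upwards [ev_Ioo] with Y hY
  have := (capG_pos h hY.1.le hY.2).ne'
  rw [Dg]
  field_simp

theorem capP_eq' (h : NuOK d j m lam ν) {X : ℝ} (hX : X ∈ Ioo (0 : ℝ) (1 / 2)) :
    capP d j m ν X = Real.sqrt X ^ m * (Dg d j m ν (X / (X - 1)) / X) := by
  rw [capP_eq h hX, Dg]
  have h0 : X ≠ 0 := hX.1.ne'
  have h1 : X - 1 ≠ 0 := by linarith [hX.2]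
  congr 1
  field_simp
  ring

/-- the continued control functional -/
def Hc (d j m j' m' k : ℕ) (ν ν' σ Y : ℝ) : ℝ :=
  (Y / (Y - 1)) ^ k * ((1 - Y)⁻¹ * (4 * (Dg d j m ν Y * Dg d j' m' ν' Y)) +
    σ * (capG d j m ν Y * capG d j' m' ν' Y))

theorem Hc_analytic {j' m' : ℕ} {lam' ν' : ℝ} (h : NuOK d j m lam ν) (h' : NuOK d j' m' lam' ν')
    (k : ℕ) (σ : ℝ) : AnalyticOnNhd ℝ (Hc d j m j' m' k ν ν' σ) (Ioo (-1) 1) := by
  intro Y hY
  refine ((phi_analytic Y hY).pow k).mul (AnalyticAt.add (AnalyticAt.mul ?_ (analyticAt_const.mul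
    ((Dg_analytic h Y hY).mul (Dg_analytic h' Y hY)))) (analyticAt_const.mul
    ((capG_analytic h Y hY).mul (capG_analytic h' Y hY))))
  refine (analyticAt_const.sub analyticAt_id).inv ?_
  have := hY.2
  simp only [Pi.sub_apply, id]
  linarith

theorem Hc_expo {j' m' : ℕ} {lam' ν' : ℝ} (h : NuOK d j m lam ν) (h' : NuOK d j' m' lam' ν')
    (k : ℕ) (σ : ℝ) :
    Expo (Hc d j m j' m' k ν ν' σ) (k + ((ν - m) / 2 + (ν' - m') / 2) + 1) := by
  have h1 : Tendsto (fun Y : ℝ => σ * (1 - Y)) (𝓝[<] 1) (𝓝 0) := by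
    refine Tendsto.mono_left ?_ nhdsWithin_le_nhds
    have := (by fun_prop : Continuous fun Y : ℝ => σ * (1 - Y)).tendsto 1
    simpa using this
  have h2 := (((Dg_tendsto h).mul (Dg_tendsto h')).const_mul 4).add h1
  have h3 : 4 * (ν / 2 * (ν' / 2)) + 0 ≠ 0 := by
    have := mul_pos h.pos h'.pos
    intro h4
    nlinarith
  have h4 := (((expo_phi k).mul ((expo_G h).mul (expo_G h'))).mul (expo_zpow (-1))).mul
    (expo_of_tendsto h3 h2)
  have h5 : (k : ℝ) + ((ν - m) / 2 + (ν' - m') / 2) + -((-1 : ℤ) : ℝ) + 0 =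
      k + ((ν - m) / 2 + (ν' - m') / 2) + 1 := by simp
  rw [h5] at h4
  refine h4.congr ?_
  filter_upwards [ev_Ioo] with Y hY
  have g1 := (capG_pos h hY.1.le hY.2).ne'
  have g2 := (capG_pos h' hY.1.le hY.2).ne'
  have g3 : 1 - Y ≠ 0 := by linarith [hY.2]
  rw [Hc, zpow_neg, zpow_one]
  generalize (Y / (Y - 1)) ^ k = w
  field_simp

theorem Hc_eq {j' m' : ℕ} {lam' ν' : ℝ} (h : NuOK d j m lam ν) (h' : NuOK d j' m' lam' ν')
    {k p : ℕ} (hk : m + m' + p = 2 * k) (σ : ℝ) {X : ℝ} (hX : X ∈ Ioo (0 : ℝ) (1 / 2)) :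
    Hc d j m j' m' k ν ν' σ (X / (X - 1)) = Real.sqrt X ^ p * X *
      (4 * X * (1 - X) * (capP d j m ν X * capP d j' m' ν' X) +
        σ * (capR d j m ν X * capR d j' m' ν' X) / X) := by
  have h0 : X ≠ 0 := hX.1.ne'
  have h1 : X - 1 ≠ 0 := by linarith [hX.2]
  have h2 : X ^ k = Real.sqrt X ^ m * Real.sqrt X ^ m' * Real.sqrt X ^ p := by
    rw [← pow_add, ← pow_add, hk, pow_mul, Real.sq_sqrt hX.1.le]
  have h3 : (1 - X / (X - 1))⁻¹ = 1 - X := by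
    have : 1 - X / (X - 1) = (1 - X)⁻¹ := by
      have h4 : 1 - X ≠ 0 := by linarith [hX.2]
      field_simp
      ring
    rw [this, inv_inv]
  rw [Hc, phi_phi (by linarith [hX.2]), capP_eq' h hX, capP_eq' h' hX, capR, capR, h2, h3]
  field_simp

end ECtl

open ECtl

/-- the continuation of `capR²` has growth exponent `ν` -/
theorem capW_expo (h : NuOK d j m lam ν) :
    Expo (fun Y => (Y / (Y - 1)) ^ m * capG d j m ν Y ^ 2) ν := by
  have h1 := (expo_phi m).mul ((expo_G h).mul (expo_G h))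
  have h2 : (m : ℝ) + ((ν - m) / 2 + (ν - m) / 2) = ν := by ring
  rw [h2] at h1
  simpa only [sq] using h1

/-- a polynomial-type identity `Σ x_i capR_i² = c` on an interval of the cap continues -/
theorem cap_sum_cont {ι : Type} [Fintype ι] {j m : ι → ℕ} {lam ν x : ι → ℝ}
    (h : ∀ i, NuOK d (j i) (m i) (lam i) (ν i)) {Xa Xb c : ℝ} (ha : 0 ≤ Xa) (hab : Xa < Xb)
    (hb : Xb ≤ 1 / 2) (hs : ∀ X ∈ Ioo Xa Xb, ∑ i, x i * capR d (j i) (m i) (ν i) X ^ 2 = c) :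
    ∀ Y ∈ Ioo (-1 : ℝ) 1, ∑ i, x i * ((Y / (Y - 1)) ^ m i * capG d (j i) (m i) (ν i) Y ^ 2) = c := by
  refine cont (Φ := fun Y => ∑ i, x i * ((Y / (Y - 1)) ^ m i * capG d (j i) (m i) (ν i) Y ^ 2))
    (fun Y hY => ?_) ha hab hb fun X hX => ?_
  · exact Finset.analyticAt_fun_sum _ fun i _ => analyticAt_const.mul
      (((phi_analytic Y hY).pow _).mul ((capG_analytic (h i) Y hY).pow 2))
  · rw [← hs X hX]
    refine Finset.sum_congr rfl fun i _ => ?_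
    rw [capR_sq _ _ _ _ (by linarith [hX.1]), phi_phi (by linarith [hX.2])]

/-- functions `capR_i²` with distinct `m_i` are independent (orders of vanishing at `Y = 0`) -/
theorem cap_order_indep {ι : Type} [Fintype ι] {j m : ι → ℕ} {lam ν x : ι → ℝ}
    (h : ∀ i, NuOK d (j i) (m i) (lam i) (ν i)) (hm : ∀ i i', x i ≠ 0 → x i' ≠ 0 → m i = m i' → i = i')
    {Xa Xb : ℝ} (ha : 0 ≤ Xa) (hab : Xa < Xb) (hb : Xb ≤ 1 / 2)
    (hs : ∀ X ∈ Ioo Xa Xb, ∑ i, x i * capR d (j i) (m i) (ν i) X ^ 2 = 0) : x = 0 := by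
  classical
  have hc := cap_sum_cont h ha hab hb hs
  by_contra hx
  have hne : (Finset.univ.filter fun i => x i ≠ 0).Nonempty := by
    by_contra hn
    refine hx (funext fun i => ?_)
    by_contra hi
    exact hn ⟨i, Finset.mem_filter.2 ⟨Finset.mem_univ _, hi⟩⟩
  obtain ⟨i₀, hi₀, hmin⟩ := Finset.exists_min_image _ m hne
  have hx₀ : x i₀ ≠ 0 := (Finset.mem_filter.1 hi₀).2
  have hle : ∀ i, x i ≠ 0 → m i₀ ≤ m i := fun i hi =>
    hmin i (Finset.mem_filter.2 ⟨Finset.mem_univ _, hi⟩)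
  set Ψ : ℝ → ℝ := fun Y =>
    ∑ i, x i * ((Y / (Y - 1)) ^ (m i - m i₀) * capG d (j i) (m i) (ν i) Y ^ 2) with hΨ
  have h0 : (0 : ℝ) ∈ Ioo (-1 : ℝ) 1 := ⟨by norm_num, by norm_num⟩
  have hcont : ContinuousAt Ψ 0 :=
    (Finset.analyticAt_fun_sum _ fun i _ => analyticAt_const.mul
      (((phi_analytic 0 h0).pow _).mul ((capG_analytic (h i) 0 h0).pow 2))).continuousAt
  have hz : ∀ᶠ Y in 𝓝[>] (0 : ℝ), Ψ Y = 0 := by
    filter_upwards [Ioo_mem_nhdsGT one_pos] with Y hY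
    have h1 : Y / (Y - 1) ≠ 0 := div_ne_zero hY.1.ne' (by linarith [hY.2])
    have h2 := hc Y ⟨by linarith [hY.1], hY.2⟩
    have h3 : (Y / (Y - 1)) ^ m i₀ * Ψ Y = 0 := by
      rw [← h2, hΨ, Finset.mul_sum]
      refine Finset.sum_congr rfl fun i _ => ?_
      by_cases hi : x i = 0
      · simp [hi]
      · obtain ⟨k, hk⟩ := Nat.exists_eq_add_of_le (hle i hi)
        rw [hk, Nat.add_sub_cancel_left, pow_add]
        ring
    exact (mul_eq_zero.1 h3).resolve_left (pow_ne_zero _ h1)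
  have h1 : Ψ 0 = 0 :=
    tendsto_nhds_unique (hcont.tendsto.mono_left nhdsWithin_le_nhds)
      (tendsto_const_nhds.congr' (hz.mono fun Y hY => hY.symm))
  have h2 : Ψ 0 = x i₀ := by
    rw [hΨ]
    simp only [capG_zero, zero_div]
    rw [Finset.sum_eq_single i₀]
    · simp
    · intro i _ hi
      by_cases hxi : x i = 0
      · simp [hxi]
      · have h3 : m i - m i₀ ≠ 0 := by
          intro h4
          exact hi (hm i i₀ hxi hx₀ (by have := hle i hxi; omega))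
        simp [h3]
    · simp
  exact hx₀ (h2 ▸ h1)

/-- independence of the control functionals: the continuation of
`(4X(1-X) P P' + σ R R'/X) / (R R')` tends to `-ν ν' ≠ 0`, so the exponent is `(ν+ν')/2`;
multiply by `√X^p` to have integer powers of `X`. -/
theorem indep_ctl {ι : Type} [Fintype ι] {j m j' m' : ι → ℕ} {lam ν lam' ν' σ x : ι → ℝ}
    (h : ∀ i, NuOK d (j i) (m i) (lam i) (ν i)) (h' : ∀ i, NuOK d (j' i) (m' i) (lam' i) (ν' i))
    (hinj : ∀ i i', x i ≠ 0 → x i' ≠ 0 → ν i + ν' i = ν i' + ν' i' → i = i') (p : ℕ)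
    (hp : ∀ i, x i ≠ 0 → (m i + m' i + p) % 2 = 0)
    {Xa Xb : ℝ} (ha : 0 ≤ Xa) (hab : Xa < Xb) (hb : Xb ≤ 1 / 2)
    (hs : ∀ X ∈ Ioo Xa Xb, ∑ i, x i *
      (4 * X * (1 - X) * (capP d (j i) (m i) (ν i) X * capP d (j' i) (m' i) (ν' i) X) +
        σ i * (capR d (j i) (m i) (ν i) X * capR d (j' i) (m' i) (ν' i) X) / X) = 0) : x = 0 := by
  classical
  set k : ι → ℕ := fun i => (m i + m' i + p) / 2 with hk
  have hk2 : ∀ i, x i ≠ 0 → m i + m' i + p = 2 * k i := fun i hi => by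
    have := hp i hi
    simp only [hk]
    omega
  set H : ι → ℝ → ℝ := fun i => Hc d (j i) (m i) (j' i) (m' i) (k i) (ν i) (ν' i) (σ i) with hH
  have hc : ∀ Y ∈ Ioo (-1 : ℝ) 1, ∑ i, x i * H i Y = 0 := by
    refine cont (Φ := fun Y => ∑ i, x i * H i Y) (fun Y hY => ?_) ha hab hb fun X hX => ?_
    · exact Finset.analyticAt_fun_sum _ fun i _ => analyticAt_const.mul
        (Hc_analytic (h i) (h' i) _ _ Y hY)
    · have h1 := congrArg (fun t => Real.sqrt X ^ p * X * t) (hs X hX)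
      simp only [mul_zero, Finset.mul_sum] at h1
      rw [← h1]
      refine Finset.sum_congr rfl fun i _ => ?_
      by_cases hi : x i = 0
      · simp [hi]
      · simp only [hH]
        rw [Hc_eq (h i) (h' i) (hk2 i hi) _ ⟨by linarith [hX.1], by linarith [hX.2]⟩]
        ring
  have hz := expo_indep (ι := {i // x i ≠ 0}) (G := fun i => H i.1)
    (σ := fun i => k i.1 + ((ν i.1 - m i.1) / 2 + (ν' i.1 - m' i.1) / 2) + 1)
    (fun i => Hc_expo (h i.1) (h' i.1) _ _) (fun i i' hii => ?_) (x := fun i => x i.1) ?_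
  · funext i
    by_contra hi
    exact hi (congrFun hz ⟨i, hi⟩)
  · refine Subtype.ext (hinj _ _ i.2 i'.2 ?_)
    have h1 : ((m i.1 : ℝ) + m' i.1 + p) = 2 * k i.1 := by exact_mod_cast hk2 _ i.2
    have h2 : ((m i'.1 : ℝ) + m' i'.1 + p) = 2 * k i'.1 := by exact_mod_cast hk2 _ i'.2
    simp only at hii
    linarith
  · filter_upwards [ev_Ioo] with Y hY
    refine Eq.trans ?_ (hc Y ⟨by linarith [hY.1], hY.2⟩)
    rw [← Finset.sum_subtype (Finset.univ.filter fun i => x i ≠ 0) (by simp)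
      (fun i => x i * H i Y)]
    refine Finset.sum_filter_of_ne fun i _ hi h0 => hi ?_
    rw [h0, zero_mul]

end Crest.Agent.R202
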