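import Crest.Agent.R202.EDefs

/-!
# Row 202, E1: the hypergeometric series with positive parameters; growth exponents

Radius: `a_{k+1}/a_k → 1`.  ODE: compare coefficients.  Abelian lemma:
`(1-Y) h' = Σ ((k+1) a_{k+1} - k a_k) Y^k`, `((k+1) a_{k+1} - k a_k)/a_k → b + b' - c =: e > 0`, and
`Σ a_k = ∞` (eventually `(k+1) a_{k+1} ≥ k a_k > 0`), so `h Y → ∞` and `(1-Y) h'/h → e`.
-/

set_option autoImplicit false
open scoped ContDiff Topology
open Set Filter

noncomputable section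
namespace Crest.Agent.R202

/-! ### power series of radius at least one -/

/-- the series `Σ a_k Y^k` converges absolutely on the unit disc -/
def EHypR (a : ℕ → ℝ) : Prop := ∀ r : ℝ, 0 ≤ r → r < 1 → Summable fun k => |a k| * r ^ k

theorem EHypR.summable {a : ℕ → ℝ} (h : EHypR a) {Y : ℝ} (hY : Y ∈ Ioo (-1 : ℝ) 1) :
    Summable fun k => a k * Y ^ k := by
  refine Summable.of_norm ?_
  simpa only [norm_mul, norm_pow, Real.norm_eq_abs] using
    h |Y| (abs_nonneg _) (abs_lt.2 ⟨hY.1, hY.2⟩)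

theorem EHypR.der {a : ℕ → ℝ} (h : EHypR a) : EHypR fun k => ((k : ℝ) + 1) * a (k + 1) := by
  intro r hr0 hr1
  obtain ⟨s, hrs, hs1⟩ := exists_between hr1
  have hs0 : 0 < s := lt_of_le_of_lt hr0 hrs
  have hsum := h s hs0.le hs1
  have hq0 : 0 ≤ r / s := div_nonneg hr0 hs0.le
  have hq1 : ‖r / s‖ < 1 := by rw [Real.norm_eq_abs, abs_of_nonneg hq0, div_lt_one hs0]; exact hrs
  have h1 := (summable_pow_mul_geometric_of_norm_lt_one 1 hq1).add
    (summable_geometric_of_norm_lt_one hq1)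
  refine Summable.of_nonneg_of_le (fun k => by positivity) (fun k => ?_)
    (h1.mul_left ((∑' k, |a k| * s ^ k) / s))
  have h2 : |a (k + 1)| * s ^ (k + 1) ≤ ∑' k, |a k| * s ^ k :=
    hsum.le_tsum (k + 1) fun j _ => by positivity
  have h3 : |((k : ℝ) + 1) * a (k + 1)| * r ^ k =
      (|a (k + 1)| * s ^ (k + 1) / s) * ((k : ℝ) ^ 1 * (r / s) ^ k + (r / s) ^ k) := by
    rw [abs_mul, abs_of_nonneg (by positivity : (0 : ℝ) ≤ k + 1), div_pow, pow_succ s k]
    field_simp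
  rw [h3]
  gcongr

theorem EHyp_shift {u v : ℕ → ℝ} {Y S : ℝ} (h : HasSum (fun k => u k * Y ^ k) S) (h0 : v 0 = 0)
    (h1 : ∀ k, v (k + 1) = u k) : HasSum (fun k => v k * Y ^ k) (Y * S) := by
  rw [← hasSum_nat_add_iff' 1]
  simp only [Finset.sum_range_one, h0, zero_mul, sub_zero, h1]
  refine (h.mul_left Y).congr_fun ?_
  intro k
  ring

theorem EHypR.hasDerivAt {a : ℕ → ℝ} (h : EHypR a) {Y : ℝ} (hY : Y ∈ Ioo (-1 : ℝ) 1) :
    HasDerivAt (fun y => ∑' k, a k * y ^ k) (∑' k : ℕ, ((k : ℝ) + 1) * a (k + 1) * Y ^ k) Y := by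
  obtain ⟨r, hr0, hr1⟩ := exists_between (abs_lt.2 ⟨hY.1, hY.2⟩ : |Y| < 1)
  have hr : 0 < r := lt_of_le_of_lt (abs_nonneg _) hr0
  have hu : Summable fun k : ℕ => |a k| * (k * r ^ (k - 1)) := by
    rw [← summable_nat_add_iff 1]
    refine (h.der r hr.le hr1).congr fun k => ?_
    rw [abs_mul, abs_of_nonneg (by positivity : (0 : ℝ) ≤ k + 1)]
    rw [Nat.add_sub_cancel]
    push_cast
    ring
  have h1 := hasDerivAt_tsum_of_isPreconnected (g := fun k y => a k * y ^ k)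
    (g' := fun k y => a k * (k * y ^ (k - 1))) (t := Ioo (-r) r) (y₀ := 0) (y := Y) hu isOpen_Ioo
    isPreconnected_Ioo (fun k y _ => (hasDerivAt_pow k y).const_mul _) (fun k y hy => by
      rw [norm_mul, norm_mul, norm_pow, Real.norm_eq_abs, Real.norm_eq_abs, Real.norm_eq_abs,
        Nat.abs_cast]
      have : |y| ≤ r := (abs_lt.2 ⟨hy.1, hy.2⟩).le
      gcongr) ⟨by linarith, hr⟩ (h.summable ⟨by norm_num, by norm_num⟩) (abs_lt.1 hr0)
  have h2 : HasSum (fun k : ℕ => a k * (k * Y ^ (k - 1)))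
      (∑' k : ℕ, ((k : ℝ) + 1) * a (k + 1) * Y ^ k) := by
    rw [← hasSum_nat_add_iff' 1]
    simp only [Finset.sum_range_one, Nat.cast_zero, zero_mul, mul_zero, sub_zero]
    refine (h.der.summable hY).hasSum.congr_fun fun k => ?_
    rw [Nat.add_sub_cancel]
    push_cast
    ring
  rwa [h2.tsum_eq] at h1

theorem EHypR.analytic {a : ℕ → ℝ} (h : EHypR a) :
    AnalyticOnNhd ℝ (fun y => ∑' k, a k * y ^ k) (Ioo (-1) 1) := by
  have h1 : 1 ≤ (FormalMultilinearSeries.ofScalars ℝ a).radius := by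
    refine ENNReal.le_of_forall_nnreal_lt fun r hr => ?_
    refine FormalMultilinearSeries.le_radius_of_summable _ ?_
    simp only [FormalMultilinearSeries.ofScalars_norm, Real.norm_eq_abs]
    exact h r r.2 (by exact_mod_cast hr)
  have h2 := (FormalMultilinearSeries.ofScalars ℝ a).analyticOnNhd
  have e : (FormalMultilinearSeries.ofScalars ℝ a).sum = fun y => ∑' k, a k * y ^ k := by
    funext y
    exact FormalMultilinearSeries.ofScalars_sum_eq a y
  rw [e] at h2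
  refine h2.mono fun y hy => ?_
  rw [Metric.mem_eball, edist_zero_right]
  refine lt_of_lt_of_le ?_ h1
  have : ‖y‖₊ < 1 := by
    rw [← NNReal.coe_lt_coe]
    exact abs_lt.2 ⟨hy.1, hy.2⟩
  rw [enorm_eq_nnnorm]
  exact_mod_cast this

theorem EHyp_small {α : Type} {l : Filter α} {φ L : α → ℝ} (hL : Tendsto L l atTop)
    (h : ∀ ε : ℝ, 0 < ε → ∃ C, ∀ᶠ y in l, |φ y| ≤ ε * L y + C) :
    Tendsto (fun y => φ y / L y) l (𝓝 0) := by
  rw [Metric.tendsto_nhds]
  intro ε hε
  obtain ⟨C, hC⟩ := h (ε / 2) (half_pos hε)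
  filter_upwards [hC, hL.eventually_gt_atTop 0, hL.eventually_gt_atTop (2 * C / ε)] with y h1 h2 h3
  rw [dist_zero_right, Real.norm_eq_abs, abs_div, abs_of_pos h2, div_lt_iff₀ h2]
  rw [div_lt_iff₀ hε] at h3
  linarith

theorem EHyp_ev : ∀ᶠ Y in 𝓝[<] (1 : ℝ), Y ∈ Ioo (0 : ℝ) 1 := Ioo_mem_nhdsLT one_pos

theorem EHyp_top {a : ℕ → ℝ} (h : EHypR a) (h0 : ∀ k, 0 ≤ a k) (hs : ¬ Summable a) :
    Tendsto (fun y : ℝ => ∑' k, a k * y ^ k) (𝓝[<] 1) atTop := by
  rw [tendsto_atTop]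
  intro M
  obtain ⟨N, hN⟩ := (((not_summable_iff_tendsto_nat_atTop_of_nonneg h0).1 hs).eventually_gt_atTop
    M).exists
  have hc : Continuous fun y : ℝ => ∑ k ∈ Finset.range N, a k * y ^ k := by fun_prop
  have h1 : ∀ᶠ y in 𝓝 (1 : ℝ), M < ∑ k ∈ Finset.range N, a k * y ^ k :=
    hc.continuousAt.eventually (lt_mem_nhds (by simpa using hN))
  filter_upwards [h1.filter_mono nhdsWithin_le_nhds, EHyp_ev] with y h2 hy
  refine h2.le.trans ((h.summable ⟨by linarith [hy.1], hy.2⟩).sum_le_tsum _ fun k _ => ?_)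
  exact mul_nonneg (h0 k) (pow_nonneg hy.1.le _)

theorem EHyp_abel {a w : ℕ → ℝ} (h : EHypR a) (h0 : ∀ k, 0 < a k) (hs : ¬ Summable a)
    (hw : Tendsto (fun k => w k / a k) atTop (𝓝 0)) {S : ℝ → ℝ}
    (hS : ∀ y ∈ Ioo (0 : ℝ) 1, HasSum (fun k => w k * y ^ k) (S y)) :
    Tendsto (fun y => S y / ∑' k, a k * y ^ k) (𝓝[<] 1) (𝓝 0) := by
  refine EHyp_small (EHyp_top h (fun k => (h0 k).le) hs) fun ε hε => ?_
  obtain ⟨N, hN⟩ := Metric.tendsto_atTop.1 hw ε hε
  refine ⟨∑ k ∈ Finset.range N, |w k|, ?_⟩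
  filter_upwards [EHyp_ev] with y hy
  have h1 := (h.summable ⟨by linarith [hy.1], hy.2⟩).hasSum.mul_left ε
  have h2 : HasSum (fun k => if k ∈ Finset.range N then |w k| else 0)
      (∑ k ∈ Finset.range N, |w k|) := by
    have := hasSum_sum_of_ne_finset_zero (L := SummationFilter.unconditional ℕ)
      (f := fun k => if k ∈ Finset.range N then |w k| else 0) (s := Finset.range N)
      fun k hk => if_neg hk
    rwa [Finset.sum_congr rfl fun k hk => if_pos hk] at this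
  rw [← Real.norm_eq_abs]
  refine (hS y hy).norm_le_of_bounded (h1.add h2) fun k => ?_
  have hp : 0 ≤ y ^ k := pow_nonneg hy.1.le _
  have hp1 : y ^ k ≤ 1 := pow_le_one₀ hy.1.le hy.2.le
  have ha := h0 k
  rw [norm_mul, Real.norm_eq_abs, Real.norm_eq_abs, abs_of_nonneg hp]
  split_ifs with hk
  · have : 0 ≤ ε * (a k * y ^ k) := by positivity
    nlinarith [abs_nonneg (w k)]
  · have h3 := hN k (by simpa using hk)
    rw [dist_zero_right, Real.norm_eq_abs, abs_div, abs_of_pos ha, div_lt_iff₀ ha] at h3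
    nlinarith

variable {b b' c : ℝ}

theorem EHyp_pos (hb : 0 < b) (hb' : 0 < b') (hc : 0 < c) (k : ℕ) : 0 < hcoef b b' c k := by
  induction k with
  | zero => exact one_pos
  | succ k ih => rw [hcoef]; positivity

theorem EHyp_rec (hc : 0 < c) (k : ℕ) :
    ((k : ℝ) + 1) * hcoef b b' c (k + 1) * (c + k) = hcoef b b' c k * ((b + k) * (b' + k)) := by
  rw [hcoef]
  field_simp

theorem EHyp_inv (x y : ℝ) : Tendsto (fun k : ℕ => x / (y + k)) atTop (𝓝 0) :=
  tendsto_const_nhds.div_atTop (tendsto_atTop_add_const_left _ _ tendsto_natCast_atTop_atTop)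

theorem EHyp_R (hb : 0 < b) (hb' : 0 < b') (hc : 0 < c) : EHypR (hcoef b b' c) := by
  intro r hr0 hr1
  rcases hr0.eq_or_lt with rfl | hr
  · refine summable_of_ne_finset_zero (s := {0}) fun k hk => ?_
    rw [zero_pow (by simpa using hk), mul_zero]
  have hp := EHyp_pos hb hb' hc
  refine summable_of_ratio_test_tendsto_lt_one hr1 (Eventually.of_forall fun k => ?_) ?_
  · have := hp k
    positivity
  · have h1 := (((EHyp_inv (b - c) c).const_add 1).mul ((EHyp_inv (b' - 1) 1).const_add 1)).mul_const r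
    simp only [add_zero, one_mul] at h1
    refine h1.congr fun k => ?_
    have h2 := hp k
    have h3 := hp (k + 1)
    rw [Real.norm_of_nonneg (by positivity), Real.norm_of_nonneg (by positivity), abs_of_pos h2,
      abs_of_pos h3, hcoef]
    field_simp
    ring

theorem EHyp_deriv (hb : 0 < b) (hb' : 0 < b') (hc : 0 < c) {Y : ℝ} (hY : Y ∈ Ioo (-1 : ℝ) 1) :
    deriv (hyp b b' c) Y = ∑' k : ℕ, ((k : ℝ) + 1) * hcoef b b' c (k + 1) * Y ^ k :=
  ((EHyp_R hb hb' hc).hasDerivAt hY).deriv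

theorem EHyp_L : Tendsto (fun Y : ℝ => -Real.log (1 - Y)) (𝓝[<] 1) atTop := by
  refine tendsto_neg_atBot_atTop.comp (Real.tendsto_log_nhdsGT_zero.comp ?_)
  refine tendsto_nhdsWithin_iff.2 ⟨?_, ?_⟩
  · have : Tendsto (fun Y : ℝ => 1 - Y) (𝓝 1) (𝓝 (1 - 1)) := tendsto_const_nhds.sub tendsto_id
    rw [sub_self] at this
    exact this.mono_left nhdsWithin_le_nhds
  · filter_upwards [self_mem_nhdsWithin] with Y hY
    exact sub_pos.2 (mem_Iio.1 hY)

theorem EHyp_ratio {F G : ℝ → ℝ} {ρ σ : ℝ} (hF : Expo F ρ) (hG : Expo G σ) (h : σ < ρ) :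
    Tendsto (fun Y => G Y / F Y) (𝓝[<] 1) (𝓝 0) := by
  rw [tendsto_zero_iff_norm_tendsto_zero]
  have h1 := Real.tendsto_exp_atBot.comp
    (EHyp_L.atTop_mul_neg (sub_neg.2 h) (hG.2.sub hF.2))
  refine h1.congr' ?_
  filter_upwards [hF.1, hG.1, EHyp_L.eventually_gt_atTop 0] with Y h2 h3 h4
  have e : -Real.log (1 - Y) * (Real.log |G Y| / -Real.log (1 - Y) -
      Real.log |F Y| / -Real.log (1 - Y)) = Real.log |G Y| - Real.log |F Y| := by
    generalize -Real.log (1 - Y) = L at h4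
    field_simp
  simp only [Function.comp_apply]
  rw [e, Real.exp_sub, Real.exp_log (abs_pos.2 h3), Real.exp_log (abs_pos.2 h2), Real.norm_eq_abs,
    abs_div]

theorem hyp_analytic (hb : 0 < b) (hb' : 0 < b') (hc : 0 < c) :
    AnalyticOnNhd ℝ (hyp b b' c) (Ioo (-1) 1) := by
  exact (EHyp_R hb hb' hc).analytic

theorem hyp_zero (b b' c : ℝ) : hyp b b' c 0 = 1 := by
  rw [hyp, tsum_eq_single 0 fun k hk => by rw [zero_pow hk, mul_zero]]
  simp [hcoef]

theorem hyp_pos (hb : 0 < b) (hb' : 0 < b') (hc : 0 < c) {Y : ℝ} (h0 : 0 ≤ Y) (h1 : Y < 1) :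
    0 < hyp b b' c Y := by
  refine ((EHyp_R hb hb' hc).summable ⟨by linarith, h1⟩).tsum_pos
    (fun k => mul_nonneg (EHyp_pos hb hb' hc k).le (pow_nonneg h0 _)) 0 ?_
  simp [hcoef]

theorem hyp_ode (hb : 0 < b) (hb' : 0 < b') (hc : 0 < c) {Y : ℝ} (hY : Y ∈ Ioo (-1 : ℝ) 1) :
    Y * (1 - Y) * deriv (deriv (hyp b b' c)) Y + (c - (b + b' + 1) * Y) * deriv (hyp b b' c) Y -
      b * b' * hyp b b' c Y = 0 := by
  have hR := EHyp_R hb hb' hc
  have e : deriv (hyp b b' c) =ᶠ[𝓝 Y]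
      fun y => ∑' k : ℕ, ((k : ℝ) + 1) * hcoef b b' c (k + 1) * y ^ k := by
    filter_upwards [isOpen_Ioo.mem_nhds hY] with y hy
    exact EHyp_deriv hb hb' hc hy
  rw [e.deriv_eq, (hR.der.hasDerivAt hY).deriv, EHyp_deriv hb hb' hc hY, hyp]
  have s0 := (hR.summable hY).hasSum
  have s1 := (hR.der.summable hY).hasSum
  have s2 := (hR.der.der.summable hY).hasSum
  have t1 := EHyp_shift (v := fun k => (k : ℝ) * hcoef b b' c k) s1 (by simp)
    fun k => by push_cast; ring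
  have t2 := EHyp_shift (v := fun k => (k : ℝ) * (((k : ℝ) + 1) * hcoef b b' c (k + 1))) s2
    (by simp) fun k => by push_cast; ring
  have t3 := EHyp_shift (v := fun k => ((k : ℝ) - 1) * ((k : ℝ) * hcoef b b' c k)) t2
    (by simp) fun k => by push_cast; ring
  have u := (((t2.sub t3).add (s1.mul_left c)).sub (t1.mul_left (b + b' + 1))).sub
    (s0.mul_left (b * b'))
  have z := u.congr_fun (g := fun _ => (0 : ℝ)) fun k => by
    linear_combination (-Y ^ k) * EHyp_rec (b := b) (b' := b') hc k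
  have := hasSum_zero.unique z
  linear_combination -this

theorem hyp_abel (hb : 0 < b) (hb' : 0 < b') (hc : 0 < c) (he : c < b + b') :
    Tendsto (fun Y => (1 - Y) * deriv (hyp b b' c) Y / hyp b b' c Y) (𝓝[<] 1) (𝓝 (b + b' - c)) := by
  have hR := EHyp_R hb hb' hc
  have hp := EHyp_pos hb hb' hc
  have hw : ∀ k : ℕ, ((k : ℝ) + 1) * hcoef b b' c (k + 1) - k * hcoef b b' c k -
      (b + b' - c) * hcoef b b' c k = (b * b' - (b + b' - c) * c) / (c + k) * hcoef b b' c k := by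
    intro k
    have hk : c + k ≠ 0 := by positivity
    field_simp
    linear_combination EHyp_rec (b := b) (b' := b') hc k
  have hs : ¬ Summable (hcoef b b' c) := by
    have h1 : ∀ k : ℕ, hcoef b b' c 1 ≤ ((k : ℝ) + 1) * hcoef b b' c (k + 1) := by
      intro k
      induction k with
      | zero => simp
      | succ k ih =>
        refine ih.trans (le_of_mul_le_mul_right ?_ (by positivity : 0 < c + ((k + 1 : ℕ) : ℝ)))
        rw [EHyp_rec hc (k + 1)]
        push_cast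
        have h2 := hp (k + 1)
        have h3 : ((k : ℝ) + 1) * (c + (k + 1)) ≤ (b + (k + 1)) * (b' + (k + 1)) := by
          have : (0 : ℝ) ≤ k := k.cast_nonneg
          nlinarith [mul_pos hb hb']
        nlinarith
    intro hs
    refine Real.not_summable_one_div_natCast ?_
    rw [← summable_nat_add_iff 1] at hs ⊢
    refine Summable.of_nonneg_of_le (fun k => by positivity) (fun k => ?_)
      (hs.div_const (hcoef b b' c 1))
    push_cast
    rw [div_le_div_iff₀ (by positivity) (hp 1)]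
    linarith [h1 k]
  have h1 := EHyp_abel (w := fun k => ((k : ℝ) + 1) * hcoef b b' c (k + 1) - k * hcoef b b' c k -
      (b + b' - c) * hcoef b b' c k)
    (S := fun y => (1 - y) * deriv (hyp b b' c) y - (b + b' - c) * hyp b b' c y) hR hp hs
    ((EHyp_inv (b * b' - (b + b' - c) * c) c).congr fun k => by
      rw [hw k, mul_div_cancel_right₀ _ (hp k).ne'])
    fun y hy => by
      have hy' : y ∈ Ioo (-1 : ℝ) 1 := ⟨by linarith [hy.1], hy.2⟩
      have s0 := (hR.summable hy').hasSum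
      have s1 := (hR.der.summable hy').hasSum
      have t1 := EHyp_shift (v := fun k => (k : ℝ) * hcoef b b' c k) s1 (by simp)
        fun k => by push_cast; ring
      rw [EHyp_deriv hb hb' hc hy', hyp]
      rw [sub_mul, one_mul]
      exact ((s1.sub t1).sub (s0.mul_left (b + b' - c))).congr_fun fun k => by ring
  have h2 := h1.add_const (b + b' - c)
  rw [zero_add] at h2
  refine h2.congr' ?_
  filter_upwards [EHyp_ev] with y hy
  have h3 := (hyp_pos hb hb' hc hy.1.le hy.2).ne'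
  change (_ - _) / hyp b b' c y + _ = _
  field_simp
  ring

theorem expo_of_logderiv {F : ℝ → ℝ} {ρ : ℝ}
    (hF : ∀ᶠ Y in 𝓝[<] (1 : ℝ), DifferentiableAt ℝ F Y ∧ F Y ≠ 0)
    (h : Tendsto (fun Y => (1 - Y) * deriv F Y / F Y) (𝓝[<] 1) (𝓝 ρ)) : Expo F ρ := by
  refine ⟨hF.mono fun _ h => h.2, ?_⟩
  have key : Tendsto (fun Y => (Real.log (F Y) - ρ * -Real.log (1 - Y)) / -Real.log (1 - Y))
      (𝓝[<] 1) (𝓝 0) := by
    refine EHyp_small EHyp_L fun ε hε => ?_
    obtain ⟨Y₀, hY₀, hI⟩ := mem_nhdsLT_iff_exists_Ioo_subset.1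
      (hF.and (Metric.tendsto_nhds.1 h ε hε))
    have hd : ∀ s : ℝ, ∀ Y ∈ Ioo Y₀ 1, HasDerivAt
        (fun Y => ε * -Real.log (1 - Y) + s * (Real.log (F Y) - ρ * -Real.log (1 - Y)))
        ((ε + s * ((1 - Y) * deriv F Y / F Y - ρ)) / (1 - Y)) Y := by
      intro s Y hY
      have h1 : 1 - Y ≠ 0 := (sub_pos.2 hY.2).ne'
      have h2 := (hI hY).1
      have hL := (((hasDerivAt_id Y).const_sub 1).log h1).neg
      have := (hL.const_mul ε).add (((h2.1.hasDerivAt.log h2.2).sub (hL.const_mul ρ)).const_mul s)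
      refine this.congr_deriv ?_
      have h3 := h2.2
      simp only [id]
      field_simp
    have hm : ∀ s : ℝ, |s| = 1 → MonotoneOn
        (fun Y => ε * -Real.log (1 - Y) + s * (Real.log (F Y) - ρ * -Real.log (1 - Y)))
        (Ioo Y₀ 1) := by
      intro s hs
      refine monotoneOn_of_deriv_nonneg (convex_Ioo _ _)
        (fun Y hY => (hd s Y hY).continuousAt.continuousWithinAt)
        (fun Y hY => (hd s Y (interior_subset hY)).differentiableAt.differentiableWithinAt)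
        fun Y hY => ?_
      have hY' := interior_subset hY
      rw [(hd s Y hY').deriv]
      refine div_nonneg ?_ (sub_pos.2 hY'.2).le
      have h1 := (hI hY').2
      rw [Real.dist_eq] at h1
      have h2 := neg_abs_le (s * ((1 - Y) * deriv F Y / F Y - ρ))
      rw [abs_mul, hs, one_mul] at h2
      linarith
    obtain ⟨Y₁, h1, h2⟩ := exists_between (mem_Iio.1 hY₀)
    refine ⟨|Real.log (F Y₁) - ρ * -Real.log (1 - Y₁)| + |ε * -Real.log (1 - Y₁)|, ?_⟩
    filter_upwards [Ioo_mem_nhdsLT h2] with Y hY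
    have a1 := hm 1 abs_one ⟨h1, h2⟩ ⟨h1.trans hY.1, hY.2⟩ hY.1.le
    have a2 := hm (-1) (by simp) ⟨h1, h2⟩ ⟨h1.trans hY.1, hY.2⟩ hY.1.le
    simp only at a1 a2
    have a3 := neg_abs_le (Real.log (F Y₁) - ρ * -Real.log (1 - Y₁))
    have a4 := le_abs_self (Real.log (F Y₁) - ρ * -Real.log (1 - Y₁))
    have a5 := neg_abs_le (ε * -Real.log (1 - Y₁))
    rw [abs_le]
    constructor <;> linarith
  have h2 := key.add_const ρ
  rw [zero_add] at h2
  refine h2.congr' ?_
  filter_upwards [EHyp_L.eventually_gt_atTop 0] with Y hY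
  rw [Real.log_abs]
  generalize -Real.log (1 - Y) = L at hY
  field_simp
  ring

theorem Expo.mul {F G : ℝ → ℝ} {ρ σ : ℝ} (hF : Expo F ρ) (hG : Expo G σ) :
    Expo (fun Y => F Y * G Y) (ρ + σ) := by
  refine ⟨(hF.1.and hG.1).mono fun _ h => mul_ne_zero h.1 h.2, (hF.2.add hG.2).congr' ?_⟩
  filter_upwards [hF.1, hG.1] with Y h1 h2
  rw [abs_mul, Real.log_mul (abs_ne_zero.2 h1) (abs_ne_zero.2 h2), add_div]

theorem expo_of_tendsto {F : ℝ → ℝ} {c : ℝ} (hc : c ≠ 0) (h : Tendsto F (𝓝[<] 1) (𝓝 c)) :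
    Expo F 0 := by
  exact ⟨h.eventually_ne hc, (h.abs.log (abs_ne_zero.2 hc)).div_atTop EHyp_L⟩

theorem expo_zpow (k : ℤ) : Expo (fun Y => (1 - Y) ^ k) (-(k : ℝ)) := by
  refine ⟨EHyp_ev.mono fun Y hY => zpow_ne_zero _ (sub_pos.2 hY.2).ne', tendsto_const_nhds.congr' ?_⟩
  filter_upwards [EHyp_L.eventually_gt_atTop 0] with Y hY
  have : Real.log (1 - Y) ≠ 0 := (neg_pos.1 hY).ne
  rw [Real.log_abs, Real.log_zpow]
  field_simp

theorem Expo.congr {F G : ℝ → ℝ} {ρ : ℝ} (hF : Expo F ρ) (h : F =ᶠ[𝓝[<] 1] G) : Expo G ρ := by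
  refine ⟨(hF.1.and h).mono fun _ h => h.2 ▸ h.1, hF.2.congr' ?_⟩
  filter_upwards [h] with Y hY
  rw [hY]

/-- a function of larger exponent is not a combination of functions of smaller exponent -/
theorem expo_top {ι : Type} [Fintype ι] {F : ℝ → ℝ} {ρ : ℝ} (hF : Expo F ρ) {G : ι → ℝ → ℝ}
    {σ : ι → ℝ} (hG : ∀ i, Expo (G i) (σ i)) (hσ : ∀ i, σ i < ρ) (x : ι → ℝ)
    (h : ∀ᶠ Y in 𝓝[<] (1 : ℝ), F Y = ∑ i, x i * G i Y) : False := by
  have h1 : Tendsto (fun Y => ∑ i, x i * (G i Y / F Y)) (𝓝[<] 1) (𝓝 (∑ i, x i * 0)) :=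
    tendsto_finset_sum _ fun i _ => (EHyp_ratio hF (hG i) (hσ i)).const_mul _
  have h2 : Tendsto (fun Y => ∑ i, x i * (G i Y / F Y)) (𝓝[<] 1) (𝓝 1) := by
    refine tendsto_const_nhds.congr' ?_
    filter_upwards [h, hF.1] with Y h3 h4
    simp only [← mul_div_assoc]
    rw [← Finset.sum_div, ← h3, div_self h4]
  simpa using tendsto_nhds_unique h1 h2

theorem expo_indep {ι : Type} [Fintype ι] {G : ι → ℝ → ℝ} {σ : ι → ℝ} (hG : ∀ i, Expo (G i) (σ i))
    (hσ : Function.Injective σ) {x : ι → ℝ} (h : ∀ᶠ Y in 𝓝[<] (1 : ℝ), ∑ i, x i * G i Y = 0) :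
    x = 0 := by
  classical
  by_contra hx
  obtain ⟨i, hi, hmax⟩ := (Finset.univ.filter fun i => x i ≠ 0).exists_max_image σ (by
    obtain ⟨i, hi⟩ := Function.ne_iff.1 hx
    exact ⟨i, by simpa using hi⟩)
  have hi' : x i ≠ 0 := by simpa using hi
  have h1 : Tendsto (fun Y => ∑ j, x j * (G j Y / G i Y)) (𝓝[<] 1)
      (𝓝 (∑ j, if j = i then x i else 0)) := by
    refine tendsto_finset_sum _ fun j _ => ?_
    split_ifs with hj
    · subst hj
      refine tendsto_const_nhds.congr' ?_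
      filter_upwards [(hG j).1] with Y hY
      rw [div_self hY, mul_one]
    · by_cases h0 : x j = 0
      · simp [h0]
      · have := (EHyp_ratio (hG i) (hG j)
          (lt_of_le_of_ne (hmax j (by simpa using h0)) fun h' => hj (hσ h'))).const_mul (x j)
        rwa [mul_zero] at this
  have h2 : Tendsto (fun Y => ∑ j, x j * (G j Y / G i Y)) (𝓝[<] 1) (𝓝 0) := by
    refine tendsto_const_nhds.congr' ?_
    filter_upwards [h] with Y h3
    simp only [← mul_div_assoc]
    rw [← Finset.sum_div, h3, zero_div]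
  exact hi' (by simpa using tendsto_nhds_unique h1 h2)

end Crest.Agent.R202
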