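import Crest.Agent.R202.EMasterAux

/-!
# Row 202, E4: relations at a super-flat state

Let `R⁰_i = ρ_i capR_i` (analytic on `(0,1/2)`, equal to `R_i` up to `X₁`), `b = bfl (X - X₁)`.
Gronwall for `u = (R - R⁰, A P - P⁰)`, `u(X₁) = 0`, `|u'| ≤ C |u| + C b`, gives `|u| ≤ C ∫ b`, and
`∫₀ˢ bfl ≤ s² e^{-1/s} bfl s` (`bfl' σ = bfl σ · e^{1/σ}/σ²`).  An analytic function that is
`O(e^{-1/s})` as `s → 0⁺` vanishes identically (`flat_zero`).
`d ≥ 2`: second relation: first `U_J⁰/(1-X) = (d-1) U_m⁰/X` (flatness), subtract, divide by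
`e^{-2κ b} - 1 ≈ -2κ b`: `U_m⁰ = O(e^{-1/s})`; then `medium`.
`d = 1`: `medium` gives `U_λ = c` to the right of `X₁`; differentiate, multiply by `A`, differentiate
again with the equation:  `A Σ x λ 4X(1-X) P² + e^{2β} Σ x λ m² R²/X = Σ x λ² R²`; here
`A P² = e^{-2κ b} (A P)²` and `e^{2β} = e^{-2κ b}`.
-/

set_option autoImplicit false
open scoped ContDiff Topology
open Set Filter

noncomputable section
namespace Crest.Agent.R202

theorem bfl_contDiff : ContDiff ℝ ∞ bfl := EM.bfl_contDiff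

theorem bfl_nonneg (s : ℝ) : 0 ≤ bfl s := EM.bfl_nonneg s

theorem bfl_pos {s : ℝ} (hs : 0 < s) : 0 < bfl s := EM.bfl_pos hs

theorem bfl_of_nonpos {s : ℝ} (hs : s ≤ 0) : bfl s = 0 := EM.bfl_of_nonpos hs

theorem integral_bfl_le {s : ℝ} (hs : 0 < s) :
    ∫ σ in (0 : ℝ)..s, bfl σ ≤ s ^ 2 * Real.exp (-1 / s) * bfl s :=
  EM.integral_bfl_le hs

theorem flat_zero {F : ℝ → ℝ} {a b x₀ C : ℝ} (hF : AnalyticOnNhd ℝ F (Ioo a b)) (hx : x₀ ∈ Ioo a b)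
    (h : ∀ᶠ s in 𝓝[>] (0 : ℝ), |F (x₀ + s)| ≤ C * Real.exp (-1 / s)) : ∀ x ∈ Ioo a b, F x = 0 :=
  EM.flat_zero hF hx h

variable {d : ℕ} {al ga : ℝ → ℝ} {ι : Type} [Fintype ι] {j m : ι → ℕ} {lam ν x ρ : ι → ℝ}
  {R P : ι → ℝ → ℝ} {X₁ X₂ : ℝ}

namespace EM

theorem sum_deriv_zero {f : ι → ℝ → ℝ} {f' : ι → ℝ} {X c : ℝ}
    (hf : ∀ i, HasDerivAt (f i) (f' i) X) (h : ∀ᶠ Y in 𝓝 X, ∑ i, x i * f i Y = c) :
    ∑ i, x i * f' i = 0 := by
  have h1 : HasDerivAt (fun Y => ∑ i, x i * f i Y) (∑ i, x i * f' i) X :=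
    HasDerivAt.fun_sum fun i _ => (hf i).const_mul (x i)
  exact h1.unique ((hasDerivAt_const X c).congr_of_eventuallyEq h)

theorem const_of_deriv {F : ℝ → ℝ} {a b : ℝ} (h : ∀ X ∈ Ioo a b, HasDerivAt F 0 X) :
    ∃ c, ∀ X ∈ Ioo a b, F X = c :=
  isOpen_Ioo.exists_is_const_of_deriv_eq_zero isPreconnected_Ioo
    (fun X hX => (h X hX).differentiableAt.differentiableWithinAt) fun X hX => (h X hX).deriv

/-- the differentiated first relation -/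
theorem medium {Q : ι → ℝ → ℝ} {J : ι → ℝ} {X a D : ℝ} (hX : X ∈ Ioo (0 : ℝ) 1)
    (hR : ∀ i, HasDerivAt (R i) (a * Q i X) X)
    (hQ : ∀ i, HasDerivAt (Q i) ((((m i : ℝ) ^ 2 * a / X + J i / (1 - X) - lam i) * R i X -
      (4 - (4 + 2 * D) * X) * Q i X) / (4 * X * (1 - X))) X)
    (hT : ∀ᶠ Y in 𝓝 X, ∑ i, x i * (4 * Y * (1 - Y) * Q i Y ^ 2 - (m i : ℝ) ^ 2 * R i Y ^ 2 / Y) = 0) :
    ∑ i, x i * (lam i * (2 * R i X * Q i X)) =
      (D - 1) / (X * (1 - X)) * ∑ i, x i * ((m i : ℝ) ^ 2 * R i X ^ 2) +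
        (∑ i, x i * (J i * (2 * R i X * Q i X))) / (1 - X) := by
  have h0 := hX.1.ne'
  have h1 := (sub_pos.2 hX.2).ne'
  have e0 := hT.self_of_nhds
  have e1 := sum_deriv_zero (x := x) (fun i =>
    ((((hasDerivAt_id' X).const_mul 4).mul ((hasDerivAt_id' X).const_sub 1)).mul
      ((hQ i).pow 2)).sub ((((hR i).pow 2).const_mul ((m i : ℝ) ^ 2)).div (hasDerivAt_id' X) h0))
    hT
  rw [Finset.mul_sum, Finset.sum_div, ← Finset.sum_add_distrib, ← sub_eq_zero,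
    ← Finset.sum_sub_distrib]
  have e2 := congrArg₂ (fun u v => (D * X - 1) / (X * (1 - X)) * u - v) e0 e1
  simp only [mul_zero, sub_zero] at e2
  rw [Finset.mul_sum, ← Finset.sum_sub_distrib] at e2
  rw [← e2]
  refine Finset.sum_congr rfl fun i _ => ?_
  simp only [Pi.mul_apply, Pi.pow_apply, Nat.cast_ofNat, Nat.add_one_sub_one, pow_one]
  field_simp
  ring

theorem setup (h1 : X₁ < 1 / 2) (h12 : X₁ < X₂) (hSF : SF al ga X₁) :
    ∃ κ T : ℝ, κ ≠ 0 ∧ 0 < T ∧ X₁ + T ≤ 1 / 2 ∧ X₁ + T ≤ X₂ ∧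
      ∀ X ∈ Ioo X₁ (X₁ + T), al X = κ * bfl (X - X₁) ∧ ga X = 0 := by
  obtain ⟨κ, δ, hκ, hδ, hfl⟩ := hSF.flat
  refine ⟨κ, min δ (min (1 / 2 - X₁) (X₂ - X₁)), hκ,
    lt_min hδ (lt_min (sub_pos.2 h1) (sub_pos.2 h12)), ?_, ?_, fun X hX => hfl X ⟨hX.1, ?_⟩⟩
  · linarith [(min_le_right δ _).trans (min_le_left (1 / 2 - X₁) (X₂ - X₁))]
  · linarith [(min_le_right δ _).trans (min_le_right (1 / 2 - X₁) (X₂ - X₁))]
  · linarith [hX.2, min_le_left δ (min (1 / 2 - X₁) (X₂ - X₁))]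

theorem rel_one {I : Set ℝ} (hrel : Rel d j m x al ga R P I) {X : ℝ} (hX : X ∈ I)
    (hga : ga X = 0) :
    ∑ i, x i * (4 * X * (1 - X) * (Real.exp (2 * al X) * P i X) ^ 2 -
      (m i : ℝ) ^ 2 * R i X ^ 2 / X) = 0 := by
  have h := (hrel X hX).1
  have e : Real.exp (2 * al X) * Real.exp (2 * bet d (al X) (ga X)) = 1 := by
    rw [← Real.exp_add, bet, hga, mul_zero, sub_zero, mul_neg, add_neg_cancel, Real.exp_zero]
  have e1 : ∑ i, x i * (4 * X * (1 - X) * (Real.exp (2 * al X) * P i X) ^ 2 -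
      (m i : ℝ) ^ 2 * R i X ^ 2 / X) =
      Real.exp (2 * al X) * (Real.exp (2 * al X) * ∑ i, x i * (4 * X * (1 - X) * P i X ^ 2)) -
        (∑ i, x i * ((m i : ℝ) ^ 2 * R i X ^ 2)) / X := by
    rw [Finset.mul_sum, Finset.mul_sum, Finset.sum_div, ← Finset.sum_sub_distrib]
    exact Finset.sum_congr rfl fun i _ => by ring
  rw [e1, h, ← mul_div_assoc, ← mul_assoc, e, one_mul, sub_self]

theorem ev_mem {T : ℝ} (hT : 0 < T) : ∀ᶠ s in 𝓝[>] (0 : ℝ), X₁ + s ∈ Ioo X₁ (X₁ + T) := by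
  filter_upwards [Ioo_mem_nhdsGT hT] with s hs
  exact ⟨by linarith [hs.1], by linarith [hs.2]⟩

theorem an_inv : AnalyticOnNhd ℝ (fun X : ℝ => X⁻¹) (Ioo 0 (1 / 2)) := fun _ hX =>
  analyticAt_id.inv hX.1.ne'

theorem an_inv' : AnalyticOnNhd ℝ (fun X : ℝ => (1 - X)⁻¹) (Ioo 0 (1 / 2)) := fun X hX =>
  (analyticAt_const.sub analyticAt_id).inv
    (show (1 : ℝ) - X ≠ 0 from (by linarith [hX.2] : (0 : ℝ) < 1 - X).ne')

theorem an_quad : AnalyticOnNhd ℝ (fun X : ℝ => 4 * X * (1 - X)) (Ioo 0 (1 / 2)) := fun _ _ =>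
  (analyticAt_const.mul analyticAt_id).mul (analyticAt_const.sub analyticAt_id)

end EM

open EM in
theorem master_ge_two (hd : 2 ≤ d) (hal : ContDiff ℝ ∞ al) (hga : ContDiff ℝ ∞ ga)
    (h0 : 0 < X₁) (h1 : X₁ < 1 / 2) (h12 : X₁ < X₂) (hSF : SF al ga X₁)
    (hR : ∀ i, RadSol d (j i) (m i) al ga (lam i) (R i) (P i))
    (hν : ∀ i, NuOK d (j i) (m i) (lam i) (ν i))
    (hρ : ∀ i, ∀ X ∈ Ioo (0 : ℝ) X₁, R i X = ρ i * capR d (j i) (m i) (ν i) X ∧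
      P i X = ρ i * capP d (j i) (m i) (ν i) X)
    (hrel : Rel d j m x al ga R P (Ioo X₁ X₂)) :
    (∀ X ∈ Ioo (0 : ℝ) (1 / 2),
      ∑ i, x i * (m i : ℝ) ^ 2 * ρ i ^ 2 * capR d (j i) (m i) (ν i) X ^ 2 = 0) ∧
    (∀ X ∈ Ioo (0 : ℝ) (1 / 2),
      ∑ i, x i * Jd d (j i) * ρ i ^ 2 * capR d (j i) (m i) (ν i) X ^ 2 = 0) ∧
    ∃ c : ℝ, ∀ X ∈ Ioo (0 : ℝ) (1 / 2),
      ∑ i, x i * lam i * ρ i ^ 2 * capR d (j i) (m i) (ν i) X ^ 2 = c := by
  have hX : X₁ ∈ Ioo (0 : ℝ) (1 / 2) := ⟨h0, h1⟩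
  obtain ⟨κ, T, hκ, hT, -, hT2, hfl⟩ := setup h1 h12 hSF
  have hA := fun i => approx hX hSF (hR i) (hν i) (hρ i)
  have hsub : ∀ X ∈ Ioo X₁ (X₁ + T), X ∈ Ioo X₁ X₂ := fun X h => ⟨h.1, h.2.trans_le hT2⟩
  have hd1 : (d : ℝ) - 1 ≠ 0 := by
    have : (2 : ℝ) ≤ d := by exact_mod_cast hd
    linarith
  obtain ⟨hm, hJ⟩ := Ap.split hX
    ((Ap.const ((d : ℝ) - 1)).mul hX ((Ap.sum Finset.univ fun i => (Ap.const (x i)).mul hX
      ((Ap.const ((m i : ℝ) ^ 2)).mul hX ((hA i).1.sq hX))).mul hX (Ap.refl an_inv)))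
    ((Ap.sum Finset.univ fun i => (Ap.const (x i)).mul hX
      ((Ap.const (Jd d (j i))).mul hX ((hA i).1.sq hX))).mul hX (Ap.refl an_inv')) hκ (by
      filter_upwards [ev_mem (X₁ := X₁) hT] with s hs
      have h := (hrel _ (hsub _ hs)).2
      simp only [bet, (hfl _ hs).1, (hfl _ hs).2, mul_zero, sub_zero, Real.exp_zero, one_mul,
        add_sub_cancel_left, mul_neg, div_eq_mul_inv] at h
      rw [h]
      ring)
  have hm' : ∀ X ∈ Ioo (0 : ℝ) (1 / 2),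
      ∑ i, x i * ((m i : ℝ) ^ 2 * (ρ i * capR d (j i) (m i) (ν i) X) ^ 2) = 0 := fun X h =>
    (mul_eq_zero.1 ((mul_eq_zero.1 (hm X h)).resolve_left hd1)).resolve_right
      (inv_ne_zero h.1.ne')
  have hJ' : ∀ X ∈ Ioo (0 : ℝ) (1 / 2),
      ∑ i, x i * (Jd d (j i) * (ρ i * capR d (j i) (m i) (ν i) X) ^ 2) = 0 := fun X h =>
    (mul_eq_zero.1 (hJ X h)).resolve_right
      (inv_ne_zero (by linarith [h.2] : (0 : ℝ) < 1 - X).ne')
  have hT0 := Ap.eq_zero hX (Ap.sum Finset.univ fun i => (Ap.const (x i)).mul hX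
      (((Ap.refl an_quad).mul hX ((hA i).2.sq hX)).sub
        (((Ap.const ((m i : ℝ) ^ 2)).mul hX ((hA i).1.sq hX)).mul hX (Ap.refl an_inv)))) (by
      filter_upwards [ev_mem (X₁ := X₁) hT] with s hs
      simpa only [div_eq_mul_inv] using rel_one hrel (hsub _ hs) (hfl _ hs).2)
  refine ⟨fun X h => ?_, fun X h => ?_, const_of_deriv fun X h => ?_⟩
  · rw [← hm' X h]
    exact Finset.sum_congr rfl fun i _ => by ring
  · rw [← hJ' X h]
    exact Finset.sum_congr rfl fun i _ => by ring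
  · have hn : Ioo (0 : ℝ) (1 / 2) ∈ 𝓝 X := isOpen_Ioo.mem_nhds h
    have hode := fun i => capR_ode (hν i) h
    have e1 := EM.medium (x := x) (m := m) (lam := lam) (J := fun i => Jd d (j i)) (a := 1)
      (D := (d : ℝ)) (R := fun i X => ρ i * capR d (j i) (m i) (ν i) X)
      (Q := fun i X => ρ i * capP d (j i) (m i) (ν i) X) ⟨h.1, by linarith [h.2]⟩
      (fun i => ((hode i).1.const_mul (ρ i)).congr_deriv (one_mul _).symm)
      (fun i => ((hode i).2.const_mul (ρ i)).congr_deriv (by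
        simp only [Vp, bet, mul_zero, sub_zero, neg_zero, Real.exp_zero, mul_one]
        ring))
      (by
        filter_upwards [hn] with Y hY
        simpa only [div_eq_mul_inv] using hT0 Y hY)
    have e2 := sum_deriv_zero (x := x) (c := 0)
      (fun i => (((hode i).1.const_mul (ρ i)).pow 2).const_mul (Jd d (j i)))
      (by filter_upwards [hn] with Y hY using hJ' Y hY)
    simp only [Nat.cast_ofNat, Nat.add_one_sub_one, pow_one] at e2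
    rw [hm' X h, e2, mul_zero, zero_div, add_zero] at e1
    refine (HasDerivAt.fun_sum fun i _ =>
      ((hode i).1.pow 2).const_mul (x i * lam i * ρ i ^ 2)).congr_deriv ?_
    rw [← e1]
    refine Finset.sum_congr rfl fun i _ => ?_
    simp only [Nat.cast_ofNat, Nat.add_one_sub_one, pow_one]
    ring

open EM in
theorem master_one (hj : ∀ i, j i ≤ 1) (hal : ContDiff ℝ ∞ al) (hga : ContDiff ℝ ∞ ga)
    (h0 : 0 < X₁) (h1 : X₁ < 1 / 2) (h12 : X₁ < X₂) (hSF : SF al ga X₁)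
    (hR : ∀ i, RadSol 1 (j i) (m i) al ga (lam i) (R i) (P i))
    (hν : ∀ i, NuOK 1 (j i) (m i) (lam i) (ν i))
    (hρ : ∀ i, ∀ X ∈ Ioo (0 : ℝ) X₁, R i X = ρ i * capR 1 (j i) (m i) (ν i) X ∧
      P i X = ρ i * capP 1 (j i) (m i) (ν i) X)
    (hrel : Rel 1 j m x al ga R P (Ioo X₁ X₂)) :
    (∀ X ∈ Ioo (0 : ℝ) (1 / 2),
      ∑ i, x i * lam i ^ 2 * ρ i ^ 2 * capR 1 (j i) (m i) (ν i) X ^ 2 = 0) ∧
    ∃ c : ℝ, ∀ X ∈ Ioo (0 : ℝ) (1 / 2),
      ∑ i, x i * lam i * ρ i ^ 2 * capR 1 (j i) (m i) (ν i) X ^ 2 = c := by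
  have hX : X₁ ∈ Ioo (0 : ℝ) (1 / 2) := ⟨h0, h1⟩
  obtain ⟨κ, T, hκ, hT, hT1, hT2, hfl⟩ := setup h1 h12 hSF
  have hA := fun i => approx hX hSF (hR i) (hν i) (hρ i)
  have hsub : ∀ X ∈ Ioo X₁ (X₁ + T), X ∈ Ioo X₁ X₂ := fun X h => ⟨h.1, h.2.trans_le hT2⟩
  have hI : ∀ X ∈ Ioo X₁ (X₁ + T), X ∈ Ioo (0 : ℝ) 1 := fun X h =>
    ⟨h0.trans h.1, by linarith [h.2]⟩
  have hJ : ∀ i, Jd 1 (j i) = 0 := fun i => by
    rcases Nat.le_one_iff_eq_zero_or_eq_one.1 (hj i) with h | h <;> simp [Jd, h]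
    norm_num
  have hR1 : ∀ X ∈ Ioo X₁ (X₁ + T), ∀ i, HasDerivAt (R i)
      (Real.exp (-(2 * al X)) * (Real.exp (2 * al X) * P i X)) X := fun X h i =>
    ((hR i).d1 X (hI X h)).congr_deriv (by
      rw [← mul_assoc, ← Real.exp_add, neg_add_cancel, Real.exp_zero, one_mul])
  have hQ1 : ∀ X ∈ Ioo X₁ (X₁ + T), ∀ i, HasDerivAt (fun X => Real.exp (2 * al X) * P i X)
      ((((m i : ℝ) ^ 2 * Real.exp (-(2 * al X)) / X + 0 / (1 - X) - lam i) * R i X -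
        (4 - (4 + 2 * 1) * X) * (Real.exp (2 * al X) * P i X)) / (4 * X * (1 - X))) X :=
    fun X h i => ((hR i).d2 X (hI X h)).congr_deriv (by
      simp only [Vp, bet, hJ, (hfl X h).2, mul_zero, sub_zero, zero_mul, mul_neg, Nat.cast_one])
  have e1 : ∀ X ∈ Ioo X₁ (X₁ + T),
      ∑ i, x i * (lam i * (2 * R i X * (Real.exp (2 * al X) * P i X))) = 0 := by
    intro X h
    have := EM.medium (x := x) (J := fun _ => 0) (Q := fun i X => Real.exp (2 * al X) * P i X)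
      (hI X h) (hR1 X h) (hQ1 X h) (by
        filter_upwards [isOpen_Ioo.mem_nhds h] with Y hY
        exact rel_one hrel (hsub _ hY) (hfl _ hY).2)
    simpa using this
  obtain ⟨c, hc⟩ : ∃ c, ∀ X ∈ Ioo X₁ (X₁ + T), ∑ i, x i * (lam i * R i X ^ 2) = c := by
    refine const_of_deriv fun X h => ?_
    refine (HasDerivAt.fun_sum fun i _ =>
      (((hR1 X h i).pow 2).const_mul (lam i)).const_mul (x i)).congr_deriv ?_
    rw [← mul_zero (Real.exp (-(2 * al X))), ← e1 X h, Finset.mul_sum]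
    refine Finset.sum_congr rfl fun i _ => ?_
    simp only [Nat.cast_ofNat, Nat.add_one_sub_one, pow_one]
    ring
  have hc0 := Ap.eq_zero hX ((Ap.sum Finset.univ fun i => (Ap.const (x i)).mul hX
      ((Ap.const (lam i)).mul hX ((hA i).1.sq hX))).sub (Ap.const c)) (by
      filter_upwards [ev_mem (X₁ := X₁) hT] with s hs
      exact sub_eq_zero.2 (hc _ hs))
  have e2 : ∀ X ∈ Ioo X₁ (X₁ + T), ∑ i, x i * (lam i ^ 2 * R i X ^ 2) =
      Real.exp (-(2 * al X)) * ∑ i, x i * (lam i *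
        (4 * X * (1 - X) * (Real.exp (2 * al X) * P i X) ^ 2 +
          (m i : ℝ) ^ 2 * R i X ^ 2 * X⁻¹)) := by
    intro X h
    have n0 := (hI X h).1.ne'
    have n1 := (sub_pos.2 (hI X h).2).ne'
    have e3 := sum_deriv_zero (x := x) (c := 0)
      (fun i => (((hR1 X h i).const_mul 2).mul (hQ1 X h i)).const_mul (lam i))
      (by filter_upwards [isOpen_Ioo.mem_nhds h] with Y hY using e1 Y hY)
    have e4 := congrArg₂ (fun u v => -(2 * X * (1 - X)) * u - (2 - 3 * X) * v) e3 (e1 X h)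
    simp only [mul_zero, sub_zero] at e4
    rw [Finset.mul_sum, Finset.mul_sum, ← Finset.sum_sub_distrib] at e4
    rw [Finset.mul_sum, ← sub_eq_zero, ← Finset.sum_sub_distrib, ← e4]
    refine Finset.sum_congr rfl fun i _ => ?_
    generalize Real.exp (2 * al X) * P i X = q
    field_simp
    ring
  obtain ⟨-, hW⟩ := Ap.split hX
    (Ap.sum Finset.univ fun i => (Ap.const (x i)).mul hX ((Ap.const (lam i)).mul hX
      (((Ap.refl an_quad).mul hX ((hA i).2.sq hX)).add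
        (((Ap.const ((m i : ℝ) ^ 2)).mul hX ((hA i).1.sq hX)).mul hX (Ap.refl an_inv)))))
    (Ap.sum Finset.univ fun i => (Ap.const (x i)).mul hX
      ((Ap.const (lam i ^ 2)).mul hX ((hA i).1.sq hX))) hκ (by
      filter_upwards [ev_mem (X₁ := X₁) hT] with s hs
      have h := e2 _ hs
      rw [h, (hfl _ hs).1, add_sub_cancel_left])
  refine ⟨fun X h => ?_, c, fun X h => ?_⟩
  · rw [← hW X h]
    exact Finset.sum_congr rfl fun i _ => by ring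
  · rw [← sub_eq_zero.1 (hc0 X h)]
    exact Finset.sum_congr rfl fun i _ => by ring

end Crest.Agent.R202
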