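import Crest.Agent.R202.ECtl

/-!
# Row 202, E4: the super-flat function, flatness of analytic functions, Gronwall
-/

set_option autoImplicit false
open scoped ContDiff Topology
open Set Filter Asymptotics

noncomputable section
namespace Crest.Agent.R202

namespace EM

theorem bfl_contDiff : ContDiff ℝ ∞ bfl :=
  expNegInvGlue.contDiff.comp expNegInvGlue.contDiff

theorem bfl_nonneg (s : ℝ) : 0 ≤ bfl s := expNegInvGlue.nonneg _

theorem bfl_pos {s : ℝ} (hs : 0 < s) : 0 < bfl s :=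
  expNegInvGlue.pos_of_pos (expNegInvGlue.pos_of_pos hs)

theorem bfl_of_nonpos {s : ℝ} (hs : s ≤ 0) : bfl s = 0 := by
  unfold bfl
  rw [expNegInvGlue.zero_of_nonpos hs, expNegInvGlue.zero]

theorem glue_of_pos {s : ℝ} (hs : 0 < s) : expNegInvGlue s = Real.exp (-s⁻¹) := by
  simp [expNegInvGlue, not_le.2 hs]

theorem bfl_eq {s : ℝ} (hs : 0 < s) : bfl s = Real.exp (-Real.exp s⁻¹) := by
  unfold bfl
  rw [glue_of_pos hs, glue_of_pos (Real.exp_pos _), Real.exp_neg s⁻¹, inv_inv]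

theorem bfl_hasDerivAt {s : ℝ} (hs : 0 < s) :
    HasDerivAt bfl (bfl s * (Real.exp s⁻¹ / s ^ 2)) s := by
  have h1 : HasDerivAt (fun σ : ℝ => Real.exp (-Real.exp σ⁻¹))
      (Real.exp (-Real.exp s⁻¹) * -(Real.exp s⁻¹ * -(s ^ 2)⁻¹)) s :=
    ((hasDerivAt_inv hs.ne').exp.neg).exp
  have h2 : bfl =ᶠ[𝓝 s] fun σ : ℝ => Real.exp (-Real.exp σ⁻¹) := by
    filter_upwards [Ioi_mem_nhds hs] with σ hσ using bfl_eq hσ
  rw [bfl_eq hs]
  refine (h1.congr_of_eventuallyEq h2).congr_deriv ?_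
  ring

theorem integral_bfl_le {s : ℝ} (hs : 0 < s) :
    ∫ σ in (0 : ℝ)..s, bfl σ ≤ s ^ 2 * Real.exp (-1 / s) * bfl s := by
  have hd : Differentiable ℝ bfl := bfl_contDiff.differentiable (by simp)
  have hc : Continuous (deriv bfl) := bfl_contDiff.continuous_deriv (by simp)
  have h1 : ∫ σ in (0 : ℝ)..s, deriv bfl σ = bfl s - bfl 0 :=
    intervalIntegral.integral_deriv_eq_sub (fun x _ => hd x) (hc.intervalIntegrable _ _)
  rw [bfl_of_nonpos le_rfl, sub_zero] at h1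
  rw [← h1, ← intervalIntegral.integral_const_mul]
  refine intervalIntegral.integral_mono_on_of_le_Ioo hs.le
    (bfl_contDiff.continuous.intervalIntegrable _ _)
    ((continuous_const.mul hc).intervalIntegrable _ _) fun σ hσ => ?_
  rw [(bfl_hasDerivAt hσ.1).deriv]
  have hσ0 := hσ.1
  have h2 : 1 ≤ Real.exp (-1 / s) * Real.exp σ⁻¹ := by
    rw [← Real.exp_add]
    apply Real.one_le_exp
    have := inv_anti₀ hσ.1 hσ.2.le
    rw [neg_div, one_div]
    linarith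
  have h3 : 1 ≤ s ^ 2 / σ ^ 2 := by
    rw [one_le_div (by positivity)]
    exact pow_le_pow_left₀ hσ.1.le hσ.2.le 2
  calc bfl σ = bfl σ * (1 * 1) := by ring
    _ ≤ bfl σ * ((s ^ 2 / σ ^ 2) * (Real.exp (-1 / s) * Real.exp σ⁻¹)) :=
        mul_le_mul_of_nonneg_left (mul_le_mul h3 h2 zero_le_one (by positivity)) (bfl_nonneg _)
    _ = _ := by ring

theorem flat_zero {F : ℝ → ℝ} {a b x₀ C : ℝ} (hF : AnalyticOnNhd ℝ F (Ioo a b))
    (hx : x₀ ∈ Ioo a b)
    (h : ∀ᶠ s in 𝓝[>] (0 : ℝ), |F (x₀ + s)| ≤ C * Real.exp (-1 / s)) :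
    ∀ x ∈ Ioo a b, F x = 0 := by
  by_cases h0 : ∀ᶠ z in 𝓝 x₀, F z = 0
  · exact fun x hx' => hF.eqOn_zero_of_preconnected_of_eventuallyEq_zero isPreconnected_Ioo hx h0 hx'
  · exfalso
    obtain ⟨n, g, hg, hne, hq⟩ := (hF x₀ hx).exists_eventuallyEq_pow_smul_nonzero_iff.2 h0
    have ht : Tendsto (fun s : ℝ => x₀ + s) (𝓝[>] 0) (𝓝 x₀) := by
      have : Tendsto (fun s : ℝ => x₀ + s) (𝓝 0) (𝓝 (x₀ + 0)) :=
        tendsto_const_nhds.add tendsto_id
      rw [add_zero] at this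
      exact this.mono_left nhdsWithin_le_nhds
    have h1 : Tendsto (fun s : ℝ => |g (x₀ + s)|) (𝓝[>] 0) (𝓝 |g x₀|) :=
      (hg.continuousAt.tendsto.comp ht).abs
    have h2 : Tendsto (fun s : ℝ => C * ((s⁻¹) ^ n * Real.exp (-s⁻¹))) (𝓝[>] 0) (𝓝 (C * 0)) :=
      ((Real.tendsto_pow_mul_exp_neg_atTop_nhds_zero n).comp tendsto_inv_nhdsGT_zero).const_mul C
    have h3 : |g x₀| ≤ C * 0 := by
      refine le_of_tendsto_of_tendsto h1 h2 ?_
      filter_upwards [h, ht.eventually hq, self_mem_nhdsWithin] with s hs hs' hs0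
      have hs0' : (0 : ℝ) < s := hs0
      rw [hs', add_sub_cancel_left, smul_eq_mul, abs_mul, abs_of_pos (pow_pos hs0' n), neg_div,
        one_div] at hs
      have h4 : |g (x₀ + s)| = (s⁻¹) ^ n * (s ^ n * |g (x₀ + s)|) := by
        rw [← mul_assoc, ← mul_pow, inv_mul_cancel₀ hs0'.ne', one_pow, one_mul]
      rw [h4]
      calc (s⁻¹) ^ n * (s ^ n * |g (x₀ + s)|) ≤ (s⁻¹) ^ n * (C * Real.exp (-s⁻¹)) :=
            mul_le_mul_of_nonneg_left hs (by positivity)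
        _ = _ := by ring
    rw [mul_zero] at h3
    exact hne (abs_nonpos_iff.1 h3)

theorem bfl_le_one (s : ℝ) : bfl s ≤ 1 := by
  rcases le_or_gt s 0 with h | h
  · rw [bfl_of_nonpos h]; exact zero_le_one
  · rw [bfl_eq h]
    exact Real.exp_le_one_iff.2 (neg_nonpos.2 (Real.exp_pos _).le)

theorem bfl_le_exp {s : ℝ} (hs : 0 < s) : bfl s ≤ Real.exp (-1 / s) := by
  rw [bfl_eq hs, Real.exp_le_exp, neg_div, one_div, neg_le_neg_iff]
  linarith [Real.add_one_le_exp s⁻¹]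

/-- the size of the errors -/
def wfl (s : ℝ) : ℝ := Real.exp (-1 / s) * bfl s

theorem wfl_nonneg (s : ℝ) : 0 ≤ wfl s := mul_nonneg (Real.exp_pos _).le (bfl_nonneg s)

theorem gronwall_flat {E : Type} [NormedAddCommGroup E] [NormedSpace ℝ E] {u u' : ℝ → E}
    {a T K : ℝ} (hT : 0 < T) (hK : 0 ≤ K) (hu : ∀ X ∈ Icc a (a + T), HasDerivAt u (u' X) X)
    (h0 : u a = 0) (hb : ∀ X ∈ Ico a (a + T), ‖u' X‖ ≤ K * ‖u X‖ + K * bfl (X - a)) :
    (fun s => u (a + s)) =O[𝓝[>] 0] wfl := by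
  have hc := bfl_contDiff.continuous
  have hI : ∀ s : ℝ, HasDerivAt (fun s => ∫ σ in (0 : ℝ)..s, bfl σ) (bfl s) s := fun s =>
    intervalIntegral.integral_hasDerivAt_right (hc.intervalIntegrable _ _)
      (hc.stronglyMeasurableAtFilter _ _) hc.continuousAt
  have hIa : ∀ X : ℝ, HasDerivAt (fun X => ∫ σ in (0 : ℝ)..(X - a), bfl σ) (bfl (X - a) * 1) X :=
    fun X => by rw [mul_one]; exact HasDerivAt.comp_sub_const X a (hI (X - a))
  have hI0 : ∀ s : ℝ, 0 ≤ s → 0 ≤ ∫ σ in (0 : ℝ)..s, bfl σ := fun s hs =>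
    intervalIntegral.integral_nonneg hs fun σ _ => bfl_nonneg σ
  have key : ∀ ε > 0, ∀ X ∈ Icc a (a + T), ‖u X‖ ≤
      Real.exp ((K + 1) * (X - a)) * (K * (∫ σ in (0 : ℝ)..(X - a), bfl σ) + ε) := by
    intro ε hε
    have hB : ∀ X : ℝ, HasDerivAt
        (fun X => Real.exp ((K + 1) * (X - a)) * (K * (∫ σ in (0 : ℝ)..(X - a), bfl σ) + ε))
        (Real.exp ((K + 1) * (X - a)) * ((K + 1) * 1) *
          (K * (∫ σ in (0 : ℝ)..(X - a), bfl σ) + ε) +
          Real.exp ((K + 1) * (X - a)) * (K * (bfl (X - a) * 1))) X := fun X =>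
      ((((hasDerivAt_id X).sub_const a).const_mul (K + 1)).exp).mul
        (((hIa X).const_mul K).add_const ε)
    refine image_norm_le_of_norm_deriv_right_lt_deriv_boundary
      (fun X hX => (hu X hX).continuousAt.continuousWithinAt)
      (fun X hX => (hu X (Ico_subset_Icc_self hX)).hasDerivWithinAt) ?_ hB ?_
    · simp [h0, hε.le]
    · intro X hX hE
      have h1 := hb X hX
      have h2 : 1 ≤ Real.exp ((K + 1) * (X - a)) :=
        Real.one_le_exp (mul_nonneg (by linarith) (by linarith [hX.1]))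
      have h3 : 0 < K * (∫ σ in (0 : ℝ)..(X - a), bfl σ) + ε :=
        add_pos_of_nonneg_of_pos (mul_nonneg hK (hI0 _ (by linarith [hX.1]))) hε
      have h4 : K * bfl (X - a) ≤ Real.exp ((K + 1) * (X - a)) * (K * (bfl (X - a) * 1)) := by
        rw [mul_one]
        exact le_mul_of_one_le_left (mul_nonneg hK (bfl_nonneg _)) h2
      have h5 : 0 < Real.exp ((K + 1) * (X - a)) * (K * (∫ σ in (0 : ℝ)..(X - a), bfl σ) + ε) :=
        mul_pos (Real.exp_pos _) h3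
      rw [hE] at h1
      nlinarith
  refine IsBigO.of_bound (Real.exp ((K + 1) * T) * K) ?_
  filter_upwards [Ioo_mem_nhdsGT (lt_min hT one_pos)] with s hs
  have hs0 := hs.1
  have hsT : s ≤ T := (hs.2.trans_le (min_le_left _ _)).le
  have hs1 : s ≤ 1 := (hs.2.trans_le (min_le_right _ _)).le
  have h1 : ‖u (a + s)‖ ≤ Real.exp ((K + 1) * s) * (K * ∫ σ in (0 : ℝ)..s, bfl σ) := by
    refine le_of_forall_pos_le_add fun η hη => ?_
    have := key (η / Real.exp ((K + 1) * s)) (by positivity) (a + s)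
      ⟨by linarith, by linarith⟩
    rw [add_sub_cancel_left, mul_add, mul_div_cancel₀ _ (Real.exp_pos _).ne'] at this
    exact this
  rw [Real.norm_of_nonneg (wfl_nonneg s)]
  have h2 : ∫ σ in (0 : ℝ)..s, bfl σ ≤ wfl s := by
    refine (integral_bfl_le hs0).trans ?_
    rw [mul_assoc]
    exact mul_le_of_le_one_left (wfl_nonneg s) (pow_le_one₀ hs0.le hs1)
  calc ‖u (a + s)‖ ≤ _ := h1
    _ ≤ Real.exp ((K + 1) * T) * (K * wfl s) :=
        mul_le_mul (Real.exp_le_exp.2 (mul_le_mul_of_nonneg_left hsT (by linarith)))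
          (mul_le_mul_of_nonneg_left h2 hK) (mul_nonneg hK (hI0 s hs0.le)) (Real.exp_pos _).le
    _ = _ := by ring

theorem abs_exp_sub_one_le (y : ℝ) : |Real.exp y - 1| ≤ |y| * Real.exp |y| := by
  rcases le_total 0 y with h | h
  · rw [abs_of_nonneg h, abs_of_nonneg (sub_nonneg.2 (Real.one_le_exp h))]
    have h1 := mul_le_mul_of_nonneg_right (Real.add_one_le_exp (-y)) (Real.exp_pos y).le
    rw [← Real.exp_add, neg_add_cancel, Real.exp_zero] at h1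
    linarith
  · rw [abs_of_nonpos h, abs_of_nonpos (sub_nonpos.2 (Real.exp_le_one_iff.2 h))]
    have h1 := Real.add_one_le_exp y
    have h2 : -y ≤ -y * Real.exp (-y) :=
      le_mul_of_one_le_right (by linarith) (Real.one_le_exp (by linarith))
    linarith

theorem le_abs_exp_sub_one (y : ℝ) : |y| * Real.exp (-|y|) ≤ |Real.exp y - 1| := by
  rcases le_total 0 y with h | h
  · rw [abs_of_nonneg h, abs_of_nonneg (sub_nonneg.2 (Real.one_le_exp h))]
    have h1 := Real.add_one_le_exp y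
    have h2 : y * Real.exp (-y) ≤ y :=
      mul_le_of_le_one_right h (Real.exp_le_one_iff.2 (by linarith))
    linarith
  · rw [abs_of_nonpos h, abs_of_nonpos (sub_nonpos.2 (Real.exp_le_one_iff.2 h)), neg_neg]
    have h1 := mul_le_mul_of_nonneg_right (Real.add_one_le_exp (-y)) (Real.exp_pos y).le
    rw [← Real.exp_add, neg_add_cancel, Real.exp_zero] at h1
    linarith

theorem exp_bfl_le (κ s : ℝ) :
    |Real.exp (-(2 * (κ * bfl s))) - 1| ≤ 2 * |κ| * Real.exp (2 * |κ|) * bfl s := by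
  have hb := bfl_nonneg s
  have h1 : |-(2 * (κ * bfl s))| = 2 * |κ| * bfl s := by
    rw [abs_neg, abs_mul, abs_mul, abs_two, abs_of_nonneg hb, mul_assoc]
  refine (abs_exp_sub_one_le _).trans ?_
  rw [h1]
  have h2 : Real.exp (2 * |κ| * bfl s) ≤ Real.exp (2 * |κ|) :=
    Real.exp_le_exp.2 (mul_le_of_le_one_right (by positivity) (bfl_le_one s))
  calc 2 * |κ| * bfl s * Real.exp (2 * |κ| * bfl s) ≤ 2 * |κ| * bfl s * Real.exp (2 * |κ|) :=
        mul_le_mul_of_nonneg_left h2 (by positivity)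
    _ = _ := by ring

theorem le_exp_bfl (κ s : ℝ) :
    2 * |κ| * Real.exp (-(2 * |κ|)) * bfl s ≤ |Real.exp (-(2 * (κ * bfl s))) - 1| := by
  have hb := bfl_nonneg s
  have h1 : |-(2 * (κ * bfl s))| = 2 * |κ| * bfl s := by
    rw [abs_neg, abs_mul, abs_mul, abs_two, abs_of_nonneg hb, mul_assoc]
  refine le_trans ?_ (le_abs_exp_sub_one _)
  rw [h1]
  have h2 : Real.exp (-(2 * |κ|)) ≤ Real.exp (-(2 * |κ| * bfl s)) :=
    Real.exp_le_exp.2 (neg_le_neg (mul_le_of_le_one_right (by positivity) (bfl_le_one s)))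
  calc 2 * |κ| * Real.exp (-(2 * |κ|)) * bfl s = 2 * |κ| * bfl s * Real.exp (-(2 * |κ|)) := by ring
    _ ≤ _ := mul_le_mul_of_nonneg_left h2 (by positivity)

/-- `F` agrees with the analytic function `F0` to the right of `X₁` up to `O(e^{-1/s} bfl s)` -/
def Ap (X₁ : ℝ) (F F0 : ℝ → ℝ) : Prop :=
  AnalyticOnNhd ℝ F0 (Ioo 0 (1 / 2)) ∧ (fun s => F (X₁ + s) - F0 (X₁ + s)) =O[𝓝[>] 0] wfl

variable {X₁ : ℝ} {F F0 G G0 : ℝ → ℝ}

theorem wfl_isBigO_exp : wfl =O[𝓝[>] 0] fun s => Real.exp (-1 / s) := by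
  refine IsBigO.of_bound 1 (Eventually.of_forall fun s => ?_)
  rw [Real.norm_of_nonneg (wfl_nonneg s), Real.norm_of_nonneg (Real.exp_pos _).le, one_mul]
  exact mul_le_of_le_one_right (Real.exp_pos _).le (bfl_le_one s)

theorem exp_isBigO_one : (fun s : ℝ => Real.exp (-1 / s)) =O[𝓝[>] 0] fun _ => (1 : ℝ) := by
  refine IsBigO.of_bound 1 ?_
  filter_upwards [self_mem_nhdsWithin] with s hs
  have hs0 : (0 : ℝ) < s := hs
  rw [Real.norm_of_nonneg (Real.exp_pos _).le, norm_one, one_mul]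
  exact Real.exp_le_one_iff.2 (by rw [neg_div]; exact neg_nonpos.2 (by positivity))

theorem an_isBigO (hX : X₁ ∈ Ioo (0 : ℝ) (1 / 2)) (h : AnalyticOnNhd ℝ F0 (Ioo 0 (1 / 2))) :
    (fun s => F0 (X₁ + s)) =O[𝓝[>] 0] fun _ => (1 : ℝ) := by
  have ht : Tendsto (fun s : ℝ => X₁ + s) (𝓝[>] 0) (𝓝 X₁) := by
    have : Tendsto (fun s : ℝ => X₁ + s) (𝓝 0) (𝓝 (X₁ + 0)) :=
      tendsto_const_nhds.add tendsto_id
    rw [add_zero] at this
    exact this.mono_left nhdsWithin_le_nhds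
  exact ((h X₁ hX).continuousAt.tendsto.comp ht).isBigO_one ℝ

theorem Ap.isBigO (hX : X₁ ∈ Ioo (0 : ℝ) (1 / 2)) (h : Ap X₁ F F0) :
    (fun s => F (X₁ + s)) =O[𝓝[>] 0] fun _ => (1 : ℝ) := by
  have := ((h.2.trans wfl_isBigO_exp).trans exp_isBigO_one).add (an_isBigO hX h.1)
  simpa using this

theorem Ap.refl (h : AnalyticOnNhd ℝ F0 (Ioo 0 (1 / 2))) : Ap X₁ F0 F0 :=
  ⟨h, by simpa using isBigO_zero _ _⟩

theorem Ap.const (c : ℝ) : Ap X₁ (fun _ => c) (fun _ => c) := Ap.refl analyticOnNhd_const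

theorem Ap.add (h : Ap X₁ F F0) (h' : Ap X₁ G G0) :
    Ap X₁ (fun X => F X + G X) (fun X => F0 X + G0 X) :=
  ⟨h.1.add h'.1, (h.2.add h'.2).congr_left fun s => by ring⟩

theorem Ap.sub (h : Ap X₁ F F0) (h' : Ap X₁ G G0) :
    Ap X₁ (fun X => F X - G X) (fun X => F0 X - G0 X) :=
  ⟨h.1.sub h'.1, (h.2.sub h'.2).congr_left fun s => by ring⟩

theorem Ap.mul (hX : X₁ ∈ Ioo (0 : ℝ) (1 / 2)) (h : Ap X₁ F F0) (h' : Ap X₁ G G0) :
    Ap X₁ (fun X => F X * G X) (fun X => F0 X * G0 X) := by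
  refine ⟨h.1.mul h'.1, ?_⟩
  have h1 := h.2.mul (h'.isBigO hX)
  have h2 := (an_isBigO hX h.1).mul h'.2
  simp only [mul_one, one_mul] at h1 h2
  exact (h1.add h2).congr_left fun s => by ring

theorem Ap.sq (hX : X₁ ∈ Ioo (0 : ℝ) (1 / 2)) (h : Ap X₁ F F0) :
    Ap X₁ (fun X => F X ^ 2) (fun X => F0 X ^ 2) := by
  simpa only [pow_two] using h.mul hX h

theorem Ap.sum {ι : Type} (S : Finset ι) {F F0 : ι → ℝ → ℝ} (h : ∀ i, Ap X₁ (F i) (F0 i)) :
    Ap X₁ (fun X => ∑ i ∈ S, F i X) (fun X => ∑ i ∈ S, F0 i X) := by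
  classical
  induction S using Finset.induction_on with
  | empty => simpa using Ap.const (X₁ := X₁) 0
  | insert a S ha ih => simpa only [Finset.sum_insert ha] using (h a).add ih

theorem an_zero (hX : X₁ ∈ Ioo (0 : ℝ) (1 / 2)) (h : AnalyticOnNhd ℝ F0 (Ioo 0 (1 / 2)))
    (hO : (fun s => F0 (X₁ + s)) =O[𝓝[>] 0] fun s => Real.exp (-1 / s)) :
    ∀ X ∈ Ioo (0 : ℝ) (1 / 2), F0 X = 0 := by
  obtain ⟨C, hC⟩ := hO.bound
  refine flat_zero (C := C) h hX ?_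
  filter_upwards [hC] with s hs
  rwa [Real.norm_of_nonneg (Real.exp_pos _).le] at hs

theorem Ap.eq_zero (hX : X₁ ∈ Ioo (0 : ℝ) (1 / 2)) (h : Ap X₁ F F0)
    (hz : ∀ᶠ s in 𝓝[>] (0 : ℝ), F (X₁ + s) = 0) : ∀ X ∈ Ioo (0 : ℝ) (1 / 2), F0 X = 0 := by
  refine an_zero hX h.1 ((h.2.trans wfl_isBigO_exp).neg_left.congr' ?_ EventuallyEq.rfl)
  filter_upwards [hz] with s hs
  simp [hs]

theorem Ap.split (hX : X₁ ∈ Ioo (0 : ℝ) (1 / 2)) (h : Ap X₁ F F0) (h' : Ap X₁ G G0) {κ : ℝ}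
    (hκ : κ ≠ 0)
    (hz : ∀ᶠ s in 𝓝[>] (0 : ℝ), G (X₁ + s) = Real.exp (-(2 * (κ * bfl s))) * F (X₁ + s)) :
    (∀ X ∈ Ioo (0 : ℝ) (1 / 2), F0 X = 0) ∧ ∀ X ∈ Ioo (0 : ℝ) (1 / 2), G0 X = 0 := by
  have he : (fun s => Real.exp (-(2 * (κ * bfl s))) - 1) =O[𝓝[>] 0]
      fun s => Real.exp (-1 / s) := by
    refine IsBigO.of_bound (2 * |κ| * Real.exp (2 * |κ|)) ?_
    filter_upwards [self_mem_nhdsWithin] with s hs
    rw [Real.norm_of_nonneg (Real.exp_pos _).le]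
    exact (exp_bfl_le κ s).trans (mul_le_mul_of_nonneg_left (bfl_le_exp hs) (by positivity))
  have h1 : ∀ X ∈ Ioo (0 : ℝ) (1 / 2), F0 X - G0 X = 0 := by
    refine an_zero hX (h.1.sub h'.1) ?_
    have h2 := he.mul (h.isBigO hX)
    simp only [mul_one] at h2
    refine (((h'.2.sub h.2).trans wfl_isBigO_exp).sub h2).congr' ?_ EventuallyEq.rfl
    filter_upwards [hz] with s hs
    rw [hs]
    ring
  have hI : ∀ᶠ s in 𝓝[>] (0 : ℝ), X₁ + s ∈ Ioo (0 : ℝ) (1 / 2) := by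
    filter_upwards [Ioo_mem_nhdsGT (sub_pos.2 hX.2)] with s hs
    exact ⟨by linarith [hX.1, hs.1], by linarith [hs.2]⟩
  have h3 : (fun s => (Real.exp (-(2 * (κ * bfl s))) - 1) * F0 (X₁ + s)) =O[𝓝[>] 0] wfl := by
    have h4 := (he.trans exp_isBigO_one).mul h.2
    simp only [one_mul] at h4
    refine ((h'.2.sub h.2).sub h4).congr' ?_ EventuallyEq.rfl
    filter_upwards [hz, hI] with s hs hs'
    have := h1 _ hs'
    rw [hs]
    linear_combination this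
  have h5 : ∀ X ∈ Ioo (0 : ℝ) (1 / 2), F0 X = 0 := by
    refine an_zero hX h.1 ?_
    obtain ⟨C, hC⟩ := h3.bound
    have hc : 0 < 2 * |κ| * Real.exp (-(2 * |κ|)) := by positivity
    refine IsBigO.of_bound (C / (2 * |κ| * Real.exp (-(2 * |κ|)))) ?_
    filter_upwards [hC, self_mem_nhdsWithin] with s hs hs0
    have hb := bfl_pos hs0
    rw [norm_mul, Real.norm_of_nonneg (wfl_nonneg s), wfl] at hs
    rw [Real.norm_of_nonneg (Real.exp_pos _).le, div_mul_eq_mul_div, le_div_iff₀ hc]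
    have h6 := mul_le_mul_of_nonneg_right (le_exp_bfl κ s) (norm_nonneg (F0 (X₁ + s)))
    refine le_of_mul_le_mul_right ?_ hb
    rw [Real.norm_eq_abs (_ - 1)] at hs
    nlinarith
  exact ⟨h5, fun X hX' => by have := h1 X hX'; rw [h5 X hX'] at this; linarith⟩

theorem approx {d j m : ℕ} {al ga R P : ℝ → ℝ} {lam ν ρ : ℝ} (hX : X₁ ∈ Ioo (0 : ℝ) (1 / 2))
    (hSF : SF al ga X₁) (hR : RadSol d j m al ga lam R P) (hν : NuOK d j m lam ν)
    (hρ : ∀ X ∈ Ioo (0 : ℝ) X₁, R X = ρ * capR d j m ν X ∧ P X = ρ * capP d j m ν X) :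
    Ap X₁ R (fun X => ρ * capR d j m ν X) ∧
      Ap X₁ (fun X => Real.exp (2 * al X) * P X) (fun X => ρ * capP d j m ν X) := by
  obtain ⟨κ, δ, -, hδ, hfl⟩ := hSF.flat
  obtain ⟨T, hT, hTδ, hT2⟩ : ∃ T : ℝ, 0 < T ∧ T < δ ∧ X₁ + T < 1 / 2 := by
    have h1 : 0 < min δ (1 / 2 - X₁) := lt_min hδ (sub_pos.2 hX.2)
    exact ⟨min δ (1 / 2 - X₁) / 2, by linarith, by linarith [min_le_left δ (1 / 2 - X₁)],
      by linarith [min_le_right δ (1 / 2 - X₁)]⟩
  have hI : ∀ X ∈ Icc X₁ (X₁ + T), X ∈ Ioo (0 : ℝ) (1 / 2) := fun X h =>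
    ⟨hX.1.trans_le h.1, h.2.trans_lt hT2⟩
  have hI1 : ∀ X ∈ Icc X₁ (X₁ + T), X ∈ Ioo (0 : ℝ) 1 := fun X h =>
    ⟨(hI X h).1, by linarith [(hI X h).2]⟩
  have hal : ∀ X ∈ Icc X₁ (X₁ + T), al X = κ * bfl (X - X₁) ∧ ga X = 0 := by
    intro X h
    rcases h.1.eq_or_lt with e | e
    · subst e
      rw [sub_self, bfl_of_nonpos le_rfl, mul_zero]
      exact hSF.cap _ le_rfl
    · exact hfl X ⟨e, by linarith [h.2]⟩
  set Q : ℝ → ℝ := fun X => Real.exp (2 * al X) * P X with hQ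
  have hRc : ContinuousOn R (Icc X₁ (X₁ + T)) := fun X h =>
    (hR.d1 X (hI1 X h)).continuousAt.continuousWithinAt
  have hQc : ContinuousOn Q (Icc X₁ (X₁ + T)) := fun X h =>
    (hR.d2 X (hI1 X h)).continuousAt.continuousWithinAt
  have hn1 : ∀ X ∈ Icc X₁ (X₁ + T), X ≠ 0 := fun X h => (hI1 X h).1.ne'
  have hn2 : ∀ X ∈ Icc X₁ (X₁ + T), 1 - X ≠ 0 := fun X h => (sub_pos.2 (hI1 X h).2).ne'
  have hn3 : ∀ X ∈ Icc X₁ (X₁ + T), 4 * X * (1 - X) ≠ 0 := fun X h =>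
    mul_ne_zero (mul_ne_zero four_ne_zero (hn1 X h)) (hn2 X h)
  obtain ⟨B1, hB1⟩ := isCompact_Icc.exists_bound_of_continuousOn
    (f := fun X : ℝ => ((m : ℝ) ^ 2 / X + Jd d j / (1 - X) - lam) / (4 * X * (1 - X)))
    (s := Icc X₁ (X₁ + T)) (by
      refine ContinuousOn.div (ContinuousOn.sub (ContinuousOn.add ?_ ?_) continuousOn_const)
        (by fun_prop) hn3
      · exact continuousOn_const.div continuousOn_id hn1
      · exact continuousOn_const.div (by fun_prop) hn2)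
  obtain ⟨B2, hB2⟩ := isCompact_Icc.exists_bound_of_continuousOn
    (f := fun X : ℝ => (4 - (4 + 2 * (d : ℝ)) * X) / (4 * X * (1 - X)))
    (s := Icc X₁ (X₁ + T)) (ContinuousOn.div (by fun_prop) (by fun_prop) hn3)
  obtain ⟨B3, hB3⟩ := isCompact_Icc.exists_bound_of_continuousOn
    (f := fun X : ℝ => (m : ℝ) ^ 2 / X * R X / (4 * X * (1 - X)))
    (s := Icc X₁ (X₁ + T))
    (ContinuousOn.div ((continuousOn_const.div continuousOn_id hn1).mul hRc) (by fun_prop) hn3)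
  obtain ⟨B4, hB4⟩ := isCompact_Icc.exists_bound_of_continuousOn hQc
  have hX0 : X₁ ∈ Icc X₁ (X₁ + T) := ⟨le_rfl, by linarith⟩
  have hp1 : 0 ≤ B1 := (norm_nonneg _).trans (hB1 _ hX0)
  have hp2 : 0 ≤ B2 := (norm_nonneg _).trans (hB2 _ hX0)
  have hp3 : 0 ≤ B3 := (norm_nonneg _).trans (hB3 _ hX0)
  have hp4 : 0 ≤ B4 := (norm_nonneg _).trans (hB4 _ hX0)
  set L : ℝ := 2 * |κ| * Real.exp (2 * |κ|) with hL
  have hpL : 0 ≤ L := by positivity
  have hd : ∀ X ∈ Icc X₁ (X₁ + T), HasDerivAt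
      (fun X => ((R X - ρ * capR d j m ν X, Q X - ρ * capP d j m ν X) : ℝ × ℝ))
      (P X - ρ * capP d j m ν X,
        ((Vp d j m al ga X - lam) * R X - (4 - (4 + 2 * (d : ℝ)) * X) * Q X) / (4 * X * (1 - X)) -
        ρ * (((Vp d j m (fun _ => 0) (fun _ => 0) X - lam) * capR d j m ν X -
          (4 - (4 + 2 * (d : ℝ)) * X) * capP d j m ν X) / (4 * X * (1 - X)))) X := fun X h =>
    ((hR.d1 X (hI1 X h)).sub ((capR_ode hν (hI X h)).1.const_mul ρ)).prodMk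
      ((hR.d2 X (hI1 X h)).sub ((capR_ode hν (hI X h)).2.const_mul ρ))
  have hz : ((R X₁ - ρ * capR d j m ν X₁, Q X₁ - ρ * capP d j m ν X₁) : ℝ × ℝ) = 0 := by
    refine tendsto_nhds_unique_of_eventuallyEq (l := 𝓝[<] X₁)
      ((hd X₁ hX0).continuousAt.tendsto.mono_left nhdsWithin_le_nhds) tendsto_const_nhds ?_
    filter_upwards [Ioo_mem_nhdsLT hX.1] with X h
    simp [hQ, (hρ X h).1, (hρ X h).2, (hSF.cap X h.2.le).1]
  have hG := gronwall_flat (K := 1 + B1 + B2 + L * B3 + L * B4) hT (by positivity) hd hz (by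
    intro X h
    have h' := Ico_subset_Icc_self h
    have hb := bfl_nonneg (X - X₁)
    have he := exp_bfl_le κ (X - X₁)
    rw [← hL] at he
    set u1 := R X - ρ * capR d j m ν X with hu1
    set u2 := Q X - ρ * capP d j m ν X with hu2
    have n1 : |u1| ≤ ‖((u1, u2) : ℝ × ℝ)‖ := norm_fst_le ((u1, u2) : ℝ × ℝ)
    have n2 : |u2| ≤ ‖((u1, u2) : ℝ × ℝ)‖ := norm_snd_le ((u1, u2) : ℝ × ℝ)
    set N := ‖((u1, u2) : ℝ × ℝ)‖ with hN
    have hN0 : 0 ≤ N := norm_nonneg _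
    set e := Real.exp (-(2 * (κ * bfl (X - X₁)))) - 1 with he'
    have e1 : P X - ρ * capP d j m ν X = u2 + e * Q X := by
      have : Real.exp (-(2 * (κ * bfl (X - X₁)))) * Real.exp (2 * (κ * bfl (X - X₁))) = 1 := by
        rw [← Real.exp_add, neg_add_cancel, Real.exp_zero]
      simp only [hu2, he', hQ, (hal X h').1]
      linear_combination (-P X) * this
    have e2 : ((Vp d j m al ga X - lam) * R X - (4 - (4 + 2 * (d : ℝ)) * X) * Q X) /
          (4 * X * (1 - X)) -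
        ρ * (((Vp d j m (fun _ => 0) (fun _ => 0) X - lam) * capR d j m ν X -
          (4 - (4 + 2 * (d : ℝ)) * X) * capP d j m ν X) / (4 * X * (1 - X))) =
        ((m : ℝ) ^ 2 / X + Jd d j / (1 - X) - lam) / (4 * X * (1 - X)) * u1 -
          (4 - (4 + 2 * (d : ℝ)) * X) / (4 * X * (1 - X)) * u2 +
          e * ((m : ℝ) ^ 2 / X * R X / (4 * X * (1 - X))) := by
      simp only [Vp, bet, hu1, hu2, he', (hal X h').1, (hal X h').2, mul_zero, sub_zero, neg_zero,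
        Real.exp_zero, mul_one, mul_neg]
      ring
    rw [e1, e2, Prod.norm_def]
    have b1 := hB1 X h'
    have b2 := hB2 X h'
    have b3 := hB3 X h'
    have b4 := hB4 X h'
    simp only [Real.norm_eq_abs] at b1 b2 b3 b4 ⊢
    have c1 : |e * Q X| ≤ L * bfl (X - X₁) * B4 := by
      rw [abs_mul]; exact mul_le_mul he b4 (abs_nonneg _) (by positivity)
    have c2 : |e * ((m : ℝ) ^ 2 / X * R X / (4 * X * (1 - X)))| ≤ L * bfl (X - X₁) * B3 := by
      rw [abs_mul]; exact mul_le_mul he b3 (abs_nonneg _) (by positivity)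
    have c3 : |((m : ℝ) ^ 2 / X + Jd d j / (1 - X) - lam) / (4 * X * (1 - X)) * u1| ≤ B1 * N := by
      rw [abs_mul]; exact mul_le_mul b1 n1 (abs_nonneg _) hp1
    have c4 : |(4 - (4 + 2 * (d : ℝ)) * X) / (4 * X * (1 - X)) * u2| ≤ B2 * N := by
      rw [abs_mul]; exact mul_le_mul b2 n2 (abs_nonneg _) hp2
    have q1 : 0 ≤ B1 * N := by positivity
    have q2 : 0 ≤ B2 * N := by positivity
    have q3 : 0 ≤ L * B3 * N := by positivity
    have q4 : 0 ≤ L * B4 * N := by positivity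
    have q5 : 0 ≤ B1 * bfl (X - X₁) := by positivity
    have q6 : 0 ≤ B2 * bfl (X - X₁) := by positivity
    have q7 : 0 ≤ L * B3 * bfl (X - X₁) := by positivity
    have q8 : 0 ≤ L * B4 * bfl (X - X₁) := by positivity
    refine max_le ?_ ?_
    · have := abs_add_le u2 (e * Q X)
      nlinarith
    · refine (abs_add_le _ _).trans ?_
      have := abs_sub (((m : ℝ) ^ 2 / X + Jd d j / (1 - X) - lam) / (4 * X * (1 - X)) * u1)
        ((4 - (4 + 2 * (d : ℝ)) * X) / (4 * X * (1 - X)) * u2)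
      nlinarith)
  exact ⟨⟨analyticOnNhd_const.mul (capR_analytic hν), hG.prod_left_fst⟩,
    ⟨analyticOnNhd_const.mul (capR_analytic hν).deriv, hG.prod_left_snd⟩⟩

end EM

end Crest.Agent.R202
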