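import Crest.Agent.R202.FLow

/-!
# Row 202, F3: cleaning a crossing, and splitting all coincidences

Choose limit eigenfunctions (`eig_limit`, parity `true`) for the finitely many labels in
`J ×ˢ box N`; `exists_dlam` gives linear functionals `ℓ_i` on `Dir`; `(j, m, λ)` determines the label
(`lamI_strict`), `nuOK`, `rel_of_dlam`, `indep_pair`, `indep_four` (index type: the finite set of labels).
`exists_split`: the functionals `ℓ_i - ℓ_{i'}` for distinct labels with equal eigenvalue are non-zero, take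
`f₀` outside all kernels (`Module.Dual.exists_forall_ne_zero_of_forall_exists`).
`exists_clean` (enlarge `N` so that the box contains `a`, `b`): let `ℓ = ℓ_a - ℓ_b ≠ 0`, `ℓ f₀ = 1`.  For every other coincidence `c ≠ e` inside one block the
functional `ℓ_c - ℓ_e` is not a multiple of `ℓ`, so it is non-zero on `ker ℓ`; take `f ∈ ker ℓ` outside
all these kernels.  For small `σ > 0` the function `r ↦ (λ_a - λ_b)(g + σ f + r f₀) = r + O(σ² + r²)`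
(`lam_taylor`) changes sign on `[-Cσ², Cσ²]` (`continuous_lamI`, IVT), while
`λ_c - λ_e = σ(ℓ_c - ℓ_e) f + O(σ²) ≠ 0`, and pairs that were separated stay separated.
-/

set_option autoImplicit false
open scoped ContDiff RealInnerProductSpace Topology
open MeasureTheory Set Filter Module
open Crest.GeometryTopology.CoordMetric
open Crest.Agent.R230 (E MP sph ev Harm)

noncomputable section
namespace Crest.Agent.R202

variable {d : ℕ} [NeZero d]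

namespace FC

/-- first order expansion in two small parameters -/
def Tay (D : ℝ → ℝ → ℝ) (c u w : ℝ) : Prop := ∃ C ρ : ℝ, 0 ≤ C ∧ 0 < ρ ∧
  ∀ σ r, |σ| ≤ ρ → |r| ≤ ρ → |D σ r - c - (σ * u + r * w)| ≤ C * (|σ| + |r|) ^ 2

theorem Tay.sub {D D' : ℝ → ℝ → ℝ} {c u w c' u' w' : ℝ} (h : Tay D c u w) (h' : Tay D' c' u' w') :
    Tay (fun σ r => D σ r - D' σ r) (c - c') (u - u') (w - w') := by
  obtain ⟨C, ρ, hC, hρ, h⟩ := h
  obtain ⟨C', ρ', hC', hρ', h'⟩ := h'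
  refine ⟨C + C', min ρ ρ', by positivity, lt_min hρ hρ', fun σ r h1 h2 => ?_⟩
  rw [le_min_iff] at h1 h2
  have a1 := abs_le.1 (h σ r h1.1 h2.1)
  have a2 := abs_le.1 (h' σ r h1.2 h2.2)
  rw [abs_le]
  constructor <;> linarith [a1.1, a1.2, a2.1, a2.2]

theorem ev_le {ρ : ℝ} (hρ : 0 < ρ) (K : ℝ) : ∀ᶠ σ in 𝓝[>] (0 : ℝ), K * σ < ρ := by
  have : Tendsto (fun σ : ℝ => K * σ) (𝓝[>] 0) (𝓝 (K * 0)) :=
    ((continuous_const.mul continuous_id).tendsto 0).mono_left nhdsWithin_le_nhds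
  rw [mul_zero] at this
  exact this.eventually_lt_const hρ

theorem Tay.ev {D : ℝ → ℝ → ℝ} {c u w : ℝ} (h : Tay D c u w) (hcu : c ≠ 0 ∨ u ≠ 0) (K : ℝ) :
    ∀ᶠ σ in 𝓝[>] (0 : ℝ), ∀ r, |r| ≤ K * σ ^ 2 → D σ r ≠ 0 := by
  obtain ⟨C, ρ, hC, hρ, h⟩ := h
  have key : ∀ᶠ σ in 𝓝[>] (0 : ℝ), (K * |w| + 4 * C) * σ ^ 2 < |c + σ * u| := by
    by_cases hc : c = 0
    · have hu : 0 < |u| := abs_pos.2 (hcu.resolve_left (not_not.2 hc))
      filter_upwards [ev_le hu (K * |w| + 4 * C), self_mem_nhdsWithin] with σ h1 h2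
      have h2' : 0 < σ := h2
      rw [hc, zero_add, abs_mul, abs_of_pos h2']
      nlinarith
    · have h1 : Tendsto (fun σ : ℝ => |c + σ * u| - (K * |w| + 4 * C) * σ ^ 2) (𝓝[>] 0)
          (𝓝 (|c + 0 * u| - (K * |w| + 4 * C) * 0 ^ 2)) :=
        (Continuous.tendsto (by fun_prop) 0).mono_left nhdsWithin_le_nhds
      refine (h1.eventually_const_lt (u := 0) (by simpa using hc)).mono fun σ hσ => by linarith
  filter_upwards [key, ev_le hρ 1, ev_le one_pos K, self_mem_nhdsWithin] with σ h1 h2 h3 h4 r hr h0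
  have h4' : 0 < σ := h4
  have h5 : |r| ≤ σ := by nlinarith
  have h6 := h σ r (by rw [abs_of_pos h4']; linarith) (by linarith)
  rw [h0, abs_of_pos h4'] at h6
  have h7 : C * (σ + |r|) ^ 2 ≤ C * (2 * σ) ^ 2 := by gcongr; linarith
  have h8 : |r * w| ≤ K * σ ^ 2 * |w| := by rw [abs_mul]; gcongr
  have h9 : |c + σ * u| ≤ |0 - c - (σ * u + r * w)| + |r * w| := by
    rw [← abs_neg (c + σ * u)]
    refine le_trans (le_of_eq ?_) (abs_add_le _ _)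
    congr 1; ring
  nlinarith

theorem exists_root {κ : Type} [Finite κ] {D₀ : ℝ → ℝ → ℝ} (h₀ : Tay D₀ 0 0 1)
    (hc : ∀ σ, Continuous (D₀ σ)) {D : κ → ℝ → ℝ → ℝ} {c u w : κ → ℝ}
    (h : ∀ p, Tay (D p) (c p) (u p) (w p)) (hcu : ∀ p, c p ≠ 0 ∨ u p ≠ 0) {ρ₀ : ℝ} (hρ₀ : 0 < ρ₀) :
    ∃ σ r, |σ| ≤ ρ₀ ∧ |r| ≤ ρ₀ ∧ D₀ σ r = 0 ∧ ∀ p, D p σ r ≠ 0 := by
  obtain ⟨C, ρ, hC, hρ, h₀⟩ := h₀
  obtain ⟨σ, h1, h2, h3, h4, h5⟩ := ((eventually_all.2 fun p => (h p).ev (hcu p) (4 * C + 1)).and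
    ((ev_le hρ 1).and ((ev_le hρ₀ 1).and ((ev_le one_pos (4 * C + 1)).and
      self_mem_nhdsWithin)))).exists
  have hσ : 0 < σ := h5
  obtain ⟨t, ht⟩ : ∃ t, t = (4 * C + 1) * σ ^ 2 := ⟨_, rfl⟩
  have ht0 : 0 < t := by rw [ht]; positivity
  have htσ : t ≤ σ := by rw [ht]; nlinarith
  have key : ∀ r, |r| = t → |D₀ σ r - r| ≤ t := by
    intro r hr
    have h6 := h₀ σ r (by rw [abs_of_pos hσ]; linarith) (by linarith)
    rw [abs_of_pos hσ, sub_zero, mul_zero, zero_add, mul_one, hr] at h6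
    have h7 : C * (σ + t) ^ 2 ≤ C * (2 * σ) ^ 2 := by gcongr; linarith
    nlinarith
  have k1 := abs_le.1 (key t (abs_of_pos ht0))
  have k2 := abs_le.1 (key (-t) (by rw [abs_neg, abs_of_pos ht0]))
  obtain ⟨r, hr, hr0⟩ := intermediate_value_Icc (show -t ≤ t by linarith) (hc σ).continuousOn
    (show (0 : ℝ) ∈ Icc (D₀ σ (-t)) (D₀ σ t) from ⟨by linarith [k2.2], by linarith [k1.1]⟩)
  have hr' : |r| ≤ t := abs_le.2 hr
  exact ⟨σ, r, by rw [abs_of_pos hσ]; linarith, by linarith, hr0, fun p => h1 p r (ht ▸ hr')⟩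

theorem dir_bdd {f : RSt} (hf : f ∈ Dir) : ∃ B : ℝ, 0 < B ∧ ∀ X, |f.1 X| ≤ B ∧ |f.2 X| ≤ B := by
  obtain ⟨h1, h2, a, b, -, -, h⟩ := hf
  obtain ⟨B₁, hB₁⟩ := (isCompact_Icc (a := a) (b := b)).exists_bound_of_continuousOn
    h1.continuous.continuousOn
  obtain ⟨B₂, hB₂⟩ := (isCompact_Icc (a := a) (b := b)).exists_bound_of_continuousOn
    h2.continuous.continuousOn
  refine ⟨|B₁| + |B₂| + 1, by positivity, fun X => ?_⟩
  by_cases hX : X ∈ Icc a b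
  · have e1 : |f.1 X| ≤ B₁ := hB₁ X hX
    have e2 : |f.2 X| ≤ B₂ := hB₂ X hX
    constructor <;> linarith [le_abs_self B₁, le_abs_self B₂, abs_nonneg B₁, abs_nonneg B₂]
  · rw [(h X hX).1, (h X hX).2, abs_zero]
    constructor <;> positivity

variable {ε γ₀ : ℝ} {J : Finset ℕ} {g : RSt}

theorem tay (hP : Par d ε γ₀ J) (hg : Cls d ε γ₀ g) {j : ℕ} (hj : j ∈ J) {x : ℕ × ℕ} {R P : ℝ → ℝ}
    (h : EigLim d g j true x R P) {L : Dir →ₗ[ℝ] ℝ} (hL : ∀ f : Dir, L f = dlam d g j x.1 R P f)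
    (f f₀ : Dir) : Tay (fun σ r => lamI d (toSt (g + (σ • f + r • f₀ : Dir))) j x)
      (lamI d (toSt g) j x) (L f) (L f₀) := by
  obtain ⟨C, r₀, hC, hr₀, H⟩ := lam_taylor (hP.ok j hj) hP.eps hP.gam hg.radm hg.small h
  obtain ⟨B₁, hB₁, b₁⟩ := dir_bdd f.2
  obtain ⟨B₂, hB₂, b₂⟩ := dir_bdd f₀.2
  refine ⟨C * (B₁ + B₂) ^ 2, r₀ / (2 * (B₁ + B₂)), by positivity, by positivity,
    fun σ r h1 h2 => ?_⟩
  have hb : ∀ y y₀ : ℝ, |y| ≤ B₁ → |y₀| ≤ B₂ → |σ * y + r * y₀| ≤ (B₁ + B₂) * (|σ| + |r|) := by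
    intro y y₀ e1 e2
    refine (abs_add_le _ _).trans ?_
    rw [abs_mul, abs_mul]
    nlinarith [abs_nonneg σ, abs_nonneg r, mul_le_mul_of_nonneg_left e1 (abs_nonneg σ),
      mul_le_mul_of_nonneg_left e2 (abs_nonneg r)]
  have h3 := H _ (σ • f + r • f₀ : Dir).2 ((B₁ + B₂) * (|σ| + |r|)) (by positivity) (by
    rw [le_div_iff₀ (by positivity)] at h1 h2
    linarith) fun X => ⟨hb _ _ (b₁ X).1 (b₂ X).1, hb _ _ (b₁ X).2 (b₂ X).2⟩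
  rw [← hL, map_add, map_smul, map_smul, smul_eq_mul, smul_eq_mul] at h3
  exact h3.trans_eq (by ring)

theorem toSt_comb (g : RSt) (f f₀ : Dir) (σ r : ℝ) : toSt (g + (σ • f + r • f₀ : Dir)) =
    toSt g + comb ![toSt f, toSt f₀] ![σ, r] := by
  rw [comb, Fin.sum_univ_two]
  rfl

theorem adm_two (d : ℕ) [NeZero d] (f f₀ : Dir) : ∀ v, Adm d (![toSt f, toSt f₀] v) :=
  Fin.forall_fin_two.2 ⟨(Dir.radm f.2 d).adm, (Dir.radm f₀.2 d).adm⟩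

variable {N : ℕ} {R P : ℕ → ℕ × ℕ → ℝ → ℝ}

theorem inj (hP : Par d ε γ₀ J) (hg : Cls d ε γ₀ g) (i i' : ↥(J ×ˢ box N)) (h1 : i.1.1 = i'.1.1)
    (h2 : i.1.2.1 = i'.1.2.1)
    (h3 : lamI d (toSt g) i.1.1 i.1.2 = lamI d (toSt g) i'.1.1 i'.1.2) : i = i' := by
  obtain ⟨⟨j, m, k⟩, hi⟩ := i
  obtain ⟨⟨j', m', k'⟩, hi'⟩ := i'
  simp only at h1 h2 h3
  subst h1 h2
  obtain rfl := (lamI_strict (hP.ok j (Finset.mem_product.1 hi).1) hP.eps hP.gam hg.radm hg.small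
    m).injective h3
  rfl

theorem pair (hP : Par d ε γ₀ J) (hg : Cls d ε γ₀ g)
    (hR : ∀ j ∈ J, ∀ x, EigLim d g j true x (R j x) (P j x)) {a b : ↥(J ×ˢ box N)}
    (hab : lamI d (toSt g) a.1.1 a.1.2 = lamI d (toSt g) b.1.1 b.1.2)
    (h : ∀ f ∈ Dir, dlam d g a.1.1 a.1.2.1 (R a.1.1 a.1.2) (P a.1.1 a.1.2) f =
      dlam d g b.1.1 b.1.2.1 (R b.1.1 b.1.2) (P b.1.1 b.1.2) f) : a = b := by
  have hJ : ∀ i : ↥(J ×ˢ box N), i.1.1 ∈ J := fun i => (Finset.mem_product.1 i.2).1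
  have hs := fun i : ↥(J ×ˢ box N) => (hR _ (hJ i) i.1.2).sol
  exact indep_pair (j := fun i : ↥(J ×ˢ box N) => i.1.1) (m := fun i => i.1.2.1)
    (Nat.one_le_iff_ne_zero.2 (NeZero.ne d)) (fun h1 i => hP.ok _ (hJ i) h1) hg.radm.s1 hg.radm.s2
    (by norm_num) (by norm_num) (show (1 / 8 : ℝ) < 1 / 4 by norm_num) hg.sf hs
    (fun i => nuOK (hP.ok _ (hJ i)) hP.eps hP.gam (hP.gj _ (hJ i)) hg.small i.1.2) (inj hP hg) hab
    (rel_of_dlam hg.radm hs fun f hf => by rw [EI.sum_pair, h f hf, sub_self])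

theorem four (hP : Par d ε γ₀ J) (hg : Cls d ε γ₀ g)
    (hR : ∀ j ∈ J, ∀ x, EigLim d g j true x (R j x) (P j x)) {a b c e : ↥(J ×ˢ box N)}
    (hab : a ≠ b) (hce : c ≠ e) (jab : a.1.1 = b.1.1) (jce : c.1.1 = e.1.1)
    (lab : lamI d (toSt g) a.1.1 a.1.2 = lamI d (toSt g) b.1.1 b.1.2)
    (lce : lamI d (toSt g) c.1.1 c.1.2 = lamI d (toSt g) e.1.1 e.1.2)
    (ma : 1 ≤ a.1.2.1) (mb : 1 ≤ b.1.2.1) (r : ℝ)
    (h : ∀ f ∈ Dir, r * (dlam d g a.1.1 a.1.2.1 (R a.1.1 a.1.2) (P a.1.1 a.1.2) f -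
      dlam d g b.1.1 b.1.2.1 (R b.1.1 b.1.2) (P b.1.1 b.1.2) f) =
      dlam d g c.1.1 c.1.2.1 (R c.1.1 c.1.2) (P c.1.1 c.1.2) f -
      dlam d g e.1.1 e.1.2.1 (R e.1.1 e.1.2) (P e.1.1 e.1.2) f) :
    (c = a ∧ e = b) ∨ (c = b ∧ e = a) := by
  have hJ : ∀ i : ↥(J ×ˢ box N), i.1.1 ∈ J := fun i => (Finset.mem_product.1 i.2).1
  have hs := fun i : ↥(J ×ˢ box N) => (hR _ (hJ i) i.1.2).sol
  exact indep_four (j := fun i : ↥(J ×ˢ box N) => i.1.1) (m := fun i => i.1.2.1)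
    (Nat.one_le_iff_ne_zero.2 (NeZero.ne d)) (fun h1 i => hP.ok _ (hJ i) h1) hg.radm.s1 hg.radm.s2
    (by norm_num) (by norm_num) (show (1 / 8 : ℝ) < 1 / 4 by norm_num) hg.sf hs
    (fun i => nuOK (hP.ok _ (hJ i)) hP.eps hP.gam (hP.gj _ (hJ i)) hg.small i.1.2) (inj hP hg)
    hab hce jab jce lab lce ma mb r
    (rel_of_dlam hg.radm hs fun f hf => by rw [EI.sum_four, h f hf, sub_self])

theorem clean (hP : Par d ε γ₀ J) {je : ℕ} (hje : je ∈ J)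
    {a b : ℕ × ℕ} (hab : a ≠ b) (ha : 1 ≤ a.1) (hb : 1 ≤ b.1) (h : Crossable d ε γ₀ je a b) (N : ℕ)
    (haN : a ∈ box N) (hbN : b ∈ box N) :
    ∃ g, Cls d ε γ₀ g ∧ lamI d (toSt g) je a = lamI d (toSt g) je b ∧
      ∀ j ∈ J, ∀ x ∈ box N, ∀ x' ∈ box N, x ≠ x' → lamI d (toSt g) j x = lamI d (toSt g) j x' →
        j = je ∧ ((x = a ∧ x' = b) ∨ (x = b ∧ x' = a)) := by
  obtain ⟨g, hg, hl⟩ := h
  choose! R P hR using fun j (hj : j ∈ J) x =>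
    eig_limit (s := true) (x := x) (hP.ok j hj) hP.eps hP.gam hg.radm hg.small (Or.inl rfl)
  have hJ : ∀ i : ↥(J ×ˢ box N), i.1.1 ∈ J := fun i => (Finset.mem_product.1 i.2).1
  choose L hL using fun i : ↥(J ×ˢ box N) => exists_dlam hg.radm (hR _ (hJ i) i.1.2)
  let A : ↥(J ×ˢ box N) := ⟨(je, a), Finset.mem_product.2 ⟨hje, haN⟩⟩
  let B : ↥(J ×ˢ box N) := ⟨(je, b), Finset.mem_product.2 ⟨hje, hbN⟩⟩
  have hAB : A ≠ B := fun e => hab (congrArg (fun i : ↥(J ×ˢ box N) => i.1.2) e)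
  obtain ⟨f₀, hf₀⟩ : ∃ f₀, (L A - L B) f₀ = 1 := by
    obtain ⟨f₁, hf₁⟩ : ∃ f₁, (L A - L B) f₁ ≠ 0 := by
      by_contra hcon
      refine hAB (pair hP hg hR hl fun f hf => ?_)
      rw [← hL A ⟨f, hf⟩, ← hL B ⟨f, hf⟩]
      exact sub_eq_zero.1 (not_not.1 fun h' => hcon ⟨⟨f, hf⟩, h'⟩)
    exact ⟨((L A - L B) f₁)⁻¹ • f₁, by rw [map_smul, smul_eq_mul, inv_mul_cancel₀ hf₁]⟩
  let Q : ↥(J ×ˢ box N) × ↥(J ×ˢ box N) → Prop := fun p => p.1 ≠ p.2 ∧ p.1.1.1 = p.2.1.1 ∧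
    ¬ ((p.1 = A ∧ p.2 = B) ∨ (p.1 = B ∧ p.2 = A))
  obtain ⟨f, hf, hf'⟩ := Module.Dual.exists_forall_mem_ne_zero_of_forall_exists
    (LinearMap.ker (L A - L B))
    (fun p : {p // Q p ∧ lamI d (toSt g) p.1.1.1 p.1.1.2 = lamI d (toSt g) p.2.1.1 p.2.1.2} =>
      L p.1.1 - L p.1.2) (by
      rintro ⟨⟨c, e⟩, ⟨q1, q2, q3⟩, q4⟩
      by_contra hcon
      refine q3 (four hP hg hR hAB q1 rfl q2 hl q4 ha hb ((L c - L e) f₀) fun f hf => ?_)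
      have h1 : (L c - L e) (⟨f, hf⟩ - (L A - L B) ⟨f, hf⟩ • f₀) = 0 :=
        not_not.1 fun h' => hcon ⟨_, by
          rw [LinearMap.mem_ker, map_sub, map_smul, hf₀, smul_eq_mul, mul_one, sub_self], h'⟩
      rw [map_sub, map_smul, smul_eq_mul] at h1
      rw [← hL A ⟨f, hf⟩, ← hL B ⟨f, hf⟩, ← hL c ⟨f, hf⟩, ← hL e ⟨f, hf⟩]
      simp only [LinearMap.sub_apply] at h1 ⊢
      linarith)
  have hT := fun i : ↥(J ×ˢ box N) => tay hP hg (hJ i) (hR _ (hJ i) i.1.2) (hL i) f f₀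
  have hT₀ := (hT A).sub (hT B)
  have e1 : L A f - L B f = 0 := hf
  have e2 : L A f₀ - L B f₀ = 1 := hf₀
  rw [e1, e2, sub_eq_zero.2 (show lamI d (toSt g) A.1.1 A.1.2 = lamI d (toSt g) B.1.1 B.1.2 from hl)]
    at hT₀
  obtain ⟨r₀, hr₀, hsm⟩ := hg.small.open_comb (adm_two d f f₀)
  have hcont : ∀ (σ : ℝ) (j : ℕ) (x : ℕ × ℕ),
      Continuous fun r : ℝ => lamI d (toSt (g + (σ • f + r • f₀ : Dir))) j x := by
    intro σ j x
    simp only [toSt_comb]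
    exact (continuous_lamI hg.radm.adm (adm_two d f f₀) x).comp
      (continuous_pi (Fin.forall_fin_two.2 ⟨continuous_const, continuous_id⟩))
  obtain ⟨σ, r, h1, h2, h3, h4⟩ := exists_root hT₀ (fun σ => (hcont σ _ _).sub (hcont σ _ _))
    (fun p : {p // Q p} => (hT p.1.1).sub (hT p.1.2))
    (fun p => by
      by_cases hc : lamI d (toSt g) p.1.1.1.1 p.1.1.1.2 = lamI d (toSt g) p.1.2.1.1 p.1.2.1.2
      · exact Or.inr (hf' ⟨p.1, p.2, hc⟩)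
      · exact Or.inl (sub_ne_zero.2 hc)) hr₀
  refine ⟨g + (σ • f + r • f₀ : Dir), hg.add_dir (σ • f + r • f₀ : Dir).2 ?_, sub_eq_zero.1 h3,
    fun j hj x hx x' hx' hne hxx => ?_⟩
  · rw [toSt_comb]
    exact hsm _ ((pi_norm_le_iff_of_nonneg hr₀.le).2 (Fin.forall_fin_two.2 ⟨h1, h2⟩))
  · by_contra hcon
    refine h4 ⟨(⟨(j, x), Finset.mem_product.2 ⟨hj, hx⟩⟩, ⟨(j, x'), Finset.mem_product.2 ⟨hj, hx'⟩⟩),
      fun e => hne (congrArg (fun i : ↥(J ×ˢ box N) => i.1.2) e), rfl, fun hq => hcon ?_⟩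
      (sub_eq_zero.2 hxx)
    simp only [A, B, Subtype.mk.injEq, Prod.mk.injEq] at hq
    tauto

end FC

theorem exists_split {ε γ₀ : ℝ} {J : Finset ℕ} (hP : Par d ε γ₀ J) {g : RSt} (hg : Cls d ε γ₀ g)
    (N : ℕ) {R P : ℕ → ℕ × ℕ → ℝ → ℝ} (hR : ∀ j ∈ J, ∀ x, EigLim d g j true x (R j x) (P j x)) :
    ∃ f ∈ Dir, ∀ j ∈ J, ∀ j' ∈ J, ∀ x ∈ box N, ∀ x' ∈ box N, (j, x) ≠ (j', x') →
      lamI d (toSt g) j x = lamI d (toSt g) j' x' →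
      dlam d g j x.1 (R j x) (P j x) f ≠ dlam d g j' x'.1 (R j' x') (P j' x') f := by
  have hJ : ∀ i : ↥(J ×ˢ box N), i.1.1 ∈ J := fun i => (Finset.mem_product.1 i.2).1
  choose L hL using fun i : ↥(J ×ˢ box N) => exists_dlam hg.radm (hR _ (hJ i) i.1.2)
  obtain ⟨f, hf⟩ := Module.Dual.exists_forall_ne_zero_of_forall_exists
    (fun p : {p : ↥(J ×ˢ box N) × ↥(J ×ˢ box N) // p.1 ≠ p.2 ∧
      lamI d (toSt g) p.1.1.1 p.1.1.2 = lamI d (toSt g) p.2.1.1 p.2.1.2} => L p.1.1 - L p.1.2) (by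
      rintro ⟨⟨c, e⟩, q1, q2⟩
      by_contra hcon
      refine q1 (FC.pair hP hg hR q2 fun f hf => ?_)
      rw [← hL c ⟨f, hf⟩, ← hL e ⟨f, hf⟩]
      exact sub_eq_zero.1 (not_not.1 fun h' => hcon ⟨⟨f, hf⟩, h'⟩))
  refine ⟨f, f.2, fun j hj j' hj' x hx x' hx' hne hl => ?_⟩
  have := hf ⟨(⟨(j, x), Finset.mem_product.2 ⟨hj, hx⟩⟩, ⟨(j', x'), Finset.mem_product.2 ⟨hj', hx'⟩⟩),
    fun e => hne (congrArg Subtype.val e), hl⟩
  rw [LinearMap.sub_apply, hL, hL] at this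
  exact sub_ne_zero.1 this

theorem exists_clean {ε γ₀ : ℝ} {J : Finset ℕ} (hP : Par d ε γ₀ J) {je : ℕ} (hje : je ∈ J)
    {a b : ℕ × ℕ} (hab : a ≠ b) (ha : 1 ≤ a.1) (hb : 1 ≤ b.1) (h : Crossable d ε γ₀ je a b) (N : ℕ) :
    ∃ g, Cls d ε γ₀ g ∧ lamI d (toSt g) je a = lamI d (toSt g) je b ∧
      ∀ j ∈ J, ∀ x ∈ box N, ∀ x' ∈ box N, x ≠ x' → lamI d (toSt g) j x = lamI d (toSt g) j x' →
        j = je ∧ ((x = a ∧ x' = b) ∨ (x = b ∧ x' = a)) := by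
  have hm : ∀ {N : ℕ} {x : ℕ × ℕ}, x ∈ box N ↔ x.1 ≤ N ∧ x.2 ≤ N := by
    intro N x
    rw [box, Finset.mem_product, Finset.mem_range, Finset.mem_range]
    omega
  obtain ⟨g, h1, h2, h3⟩ := FC.clean hP hje hab ha hb h (N + a.1 + a.2 + b.1 + b.2)
    (hm.2 (by omega)) (hm.2 (by omega))
  exact ⟨g, h1, h2, fun j hj x hx x' hx' => h3 j hj x (hm.2 (by have := hm.1 hx; omega)) x'
    (hm.2 (by have := hm.1 hx'; omega))⟩

end Crest.Agent.R202
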