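import Crest.Agent.R202.FLow

/-!
# Row 202, F7: crossings inside one degree

`crossable_of_sign`: let `w = (bfl (X - 1/8) · cut X, 0)` with a smooth cut-off `cut = 1` near `1/8`, `= 0` for `X ≥ 1/4`.  By
`continuous_lamI` (with `V = Fin 3`, directions `g₀, g₁, w`) the two inequalities persist for `g₀ + κ w`, `g₁ + κ w` with a small
`κ > 0`, these states are small (`Small.open_dir`), and the intermediate value theorem on the segment between them gives
the crossing (`Small.convex`, `toSt_add`, `toSt_smul`).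
`cross_in`: at `g = 0` (`lamI_round`, `small_zero`, `nuOK` with a smaller `γ₀`) the functional `dlam_a - dlam_b` on `Dir` is not zero
(`eig_limit`, `rel_of_dlam` with `ι = Fin 2` or `Bool`, `indep_round` with `X₁ = 1/8`, `X₂ = 1/4`); take `f₀ ∈ Dir` where it equals
`1` (`exists_dlam`); `lam_taylor` shows that `λ_a - λ_b` has opposite signs at `± r f₀` for small `r`.
-/

set_option autoImplicit false
open scoped ContDiff RealInnerProductSpace Topology
open MeasureTheory Set Filter Module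
open Crest.GeometryTopology.CoordMetric
open Crest.Agent.R230 (E MP sph ev Harm)

noncomputable section
namespace Crest.Agent.R202

variable {d : ℕ} [NeZero d]

theorem Crossable.symm {ε γ₀ : ℝ} {j : ℕ} {a b : ℕ × ℕ} (h : Crossable d ε γ₀ j a b) :
    Crossable d ε γ₀ j b a := by
  obtain ⟨g, hg, h⟩ := h
  exact ⟨g, hg, h.symm⟩

namespace FCI

/-- the super-flat direction -/
def wd : RSt := (fun X => bfl (X - 1 / 8) * Real.smoothTransition (4 - 16 * X), 0)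

theorem bfl_zero {s : ℝ} (hs : s ≤ 0) : bfl s = 0 := by
  unfold bfl
  rw [expNegInvGlue.zero_of_nonpos hs, expNegInvGlue.zero_of_nonpos le_rfl]

theorem wd_cap {X : ℝ} (hX : X ≤ 1 / 8) : wd.1 X = 0 := by
  show bfl (X - 1 / 8) * Real.smoothTransition (4 - 16 * X) = 0
  rw [bfl_zero (by linarith), zero_mul]

theorem wd_flat {X : ℝ} (hX : X ≤ 3 / 16) : wd.1 X = bfl (X - 1 / 8) := by
  show bfl (X - 1 / 8) * Real.smoothTransition (4 - 16 * X) = _
  rw [Real.smoothTransition.one_of_one_le (by linarith), mul_one]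

theorem wd_radm (d : ℕ) : RAdm d wd := by
  have h1 : ContDiff ℝ ∞ fun X : ℝ => bfl (X - 1 / 8) :=
    expNegInvGlue.contDiff.comp (expNegInvGlue.contDiff.comp (contDiff_id.sub contDiff_const))
  have h2 : ContDiff ℝ ∞ fun X : ℝ => Real.smoothTransition (4 - 16 * X) :=
    Real.smoothTransition.contDiff.comp (contDiff_const.sub (contDiff_const.mul contDiff_id))
  refine ⟨h1.mul h2, contDiff_const, fun X hX => ⟨?_, rfl⟩⟩
  by_cases h : X ≤ 1 / 8
  · exact wd_cap h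
  · have h3 : xhi d < X := by
      by_contra h3
      exact hX ⟨by linarith, not_lt.1 h3⟩
    show bfl (X - 1 / 8) * Real.smoothTransition (4 - 16 * X) = 0
    rw [Real.smoothTransition.zero_of_nonpos (by linarith [nine_tenth_le_xhi d]), mul_zero]

theorem cont_dir {j : ℕ} {G F : St} (hG : Adm d G) (hF : Adm d F) (x : ℕ × ℕ) :
    Continuous fun r : ℝ => lamI d (G + r • F) j x := by
  have h := continuous_lamI (j := j) (V := Unit) hG (F := fun _ => F) (fun _ => hF) x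
  refine (h.comp (f := fun (r : ℝ) (_ : Unit) => r) (continuous_pi fun _ => continuous_id)).congr
    fun r => ?_
  show lamI d (G + ∑ _v : Unit, r • F) j x = _
  rw [Fintype.sum_unique]

theorem dir_bdd {f : RSt} (hf : f ∈ Dir) : ∃ B : ℝ, 0 < B ∧ ∀ X, |f.1 X| ≤ B ∧ |f.2 X| ≤ B := by
  obtain ⟨h1, h2, a, b, -, -, h⟩ := hf
  obtain ⟨B₁, hB₁⟩ := (isCompact_Icc (a := a) (b := b)).exists_bound_of_continuousOn
    h1.continuous.continuousOn
  obtain ⟨B₂, hB₂⟩ := (isCompact_Icc (a := a) (b := b)).exists_bound_of_continuousOn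
    h2.continuous.continuousOn
  refine ⟨|B₁| + |B₂| + 1, by positivity, fun X => ?_⟩
  by_cases hX : X ∈ Icc a b
  · have e1 : |f.1 X| ≤ B₁ := hB₁ X hX
    have e2 : |f.2 X| ≤ B₂ := hB₂ X hX
    constructor <;> linarith [le_abs_self B₁, le_abs_self B₂, abs_nonneg B₁, abs_nonneg B₂]
  · rw [(h X hX).1, (h X hX).2, abs_zero]
    constructor <;> positivity

end FCI

theorem crossable_of_sign {ε γ₀ : ℝ} {j : ℕ} {a b : ℕ × ℕ} {g₀ g₁ : RSt} (h₀ : RAdm d g₀)
    (h₁ : RAdm d g₁) (s₀ : Small d ε γ₀ (toSt g₀)) (s₁ : Small d ε γ₀ (toSt g₁)) {δ : ℝ} (hδ : 0 < δ)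
    (hz : ∀ X, X ≤ 1 / 8 + δ → g₀.1 X = 0 ∧ g₀.2 X = 0 ∧ g₁.1 X = 0 ∧ g₁.2 X = 0)
    (hlt : lamI d (toSt g₀) j a < lamI d (toSt g₀) j b)
    (hgt : lamI d (toSt g₁) j b < lamI d (toSt g₁) j a) : Crossable d ε γ₀ j a b := by
  have hw := (FCI.wd_radm d).adm
  obtain ⟨r₀, hr₀, t₀⟩ := s₀.open_dir hw
  obtain ⟨r₁, hr₁, t₁⟩ := s₁.open_dir hw
  have e0 : ∀ᶠ r in 𝓝 (0 : ℝ), lamI d (toSt g₀ + r • toSt FCI.wd) j a <
      lamI d (toSt g₀ + r • toSt FCI.wd) j b :=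
    (FCI.cont_dir h₀.adm hw a).continuousAt.eventually_lt (FCI.cont_dir h₀.adm hw b).continuousAt
      (by simpa only [zero_smul, add_zero] using hlt)
  have e1 : ∀ᶠ r in 𝓝 (0 : ℝ), lamI d (toSt g₁ + r • toSt FCI.wd) j b <
      lamI d (toSt g₁ + r • toSt FCI.wd) j a :=
    (FCI.cont_dir h₁.adm hw b).continuousAt.eventually_lt (FCI.cont_dir h₁.adm hw a).continuousAt
      (by simpa only [zero_smul, add_zero] using hgt)
  have e2 : ∀ᶠ r in 𝓝 (0 : ℝ), r < min r₀ r₁ := eventually_lt_nhds (lt_min hr₀ hr₁)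
  obtain ⟨κ, ⟨k0, k1, k2⟩, hκ⟩ := (((e0.and (e1.and e2)).filter_mono
    (nhdsWithin_le_nhds (s := Ioi 0))).and self_mem_nhdsWithin).exists
  have hκ' : 0 < κ := hκ
  rw [lt_min_iff] at k2
  have u₀ := t₀ κ (by rw [abs_of_pos hκ']; exact k2.1.le)
  have u₁ := t₁ κ (by rw [abs_of_pos hκ']; exact k2.2.le)
  have ca := DSimple.continuous_seg (j := j) u₀.adm u₁.adm a
  have cb := DSimple.continuous_seg (j := j) u₀.adm u₁.adm b
  obtain ⟨τ, hτ, hτ0⟩ := intermediate_value_Icc (zero_le_one' ℝ) (ca.sub cb).continuousOn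
    (show (0 : ℝ) ∈ Icc _ _ from ⟨by
      simp only [Pi.sub_apply, sub_zero, one_smul, zero_smul, add_zero]; linarith, by
      simp only [Pi.sub_apply, sub_self, one_smul, zero_smul, zero_add]; linarith⟩)
  refine ⟨(1 - τ) • (g₀ + κ • FCI.wd) + τ • (g₁ + κ • FCI.wd),
    ⟨((h₀.add ((FCI.wd_radm d).smul κ)).smul _).add ((h₁.add ((FCI.wd_radm d).smul κ)).smul _),
      u₀.convex u₁ hτ, fun X hX => ?_, κ, min δ (1 / 16), hκ', lt_min hδ (by norm_num),
      fun X hX => ?_⟩, sub_eq_zero.1 hτ0⟩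
  · obtain ⟨z1, z2, z3, z4⟩ := hz X (by linarith)
    have z5 := FCI.wd_cap hX
    have z6 : FCI.wd.2 X = 0 := rfl
    simp only [Prod.fst_add, Prod.snd_add, Prod.smul_fst, Prod.smul_snd, Pi.add_apply,
      Pi.smul_apply, smul_eq_mul, z1, z2, z3, z4, z5, z6, mul_zero, add_zero, and_self]
  · obtain ⟨z1, z2, z3, z4⟩ := hz X (by linarith [hX.2, min_le_left δ (1 / 16)])
    have z5 := FCI.wd_flat (X := X) (by linarith [hX.2, min_le_right δ (1 / 16)])
    have z6 : FCI.wd.2 X = 0 := rfl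
    simp only [Prod.fst_add, Prod.snd_add, Prod.smul_fst, Prod.smul_snd, Pi.add_apply,
      Pi.smul_apply, smul_eq_mul, z1, z2, z3, z4, z5, z6, mul_zero, add_zero, and_true]
    ring

theorem cross_in {ε γ₀ : ℝ} (hε : ε ≤ epsU d) (h0 : 0 < γ₀) (hγ : γ₀ ≤ ε) {j : ℕ} (hj : okJ d j)
    {a b : ℕ × ℕ} (ha : 1 ≤ a.1) (hb : 1 ≤ b.1) (hab : a.1 ≠ b.1) (hl : ldeg j a = ldeg j b) :
    Crossable d ε γ₀ j a b := by
  have hs : Small d ε γ₀ (toSt 0) := small_zero (h0.trans_le hγ) h0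
  have hr := radm_zero d
  have hlam : lamI d (toSt 0) j a = lamI d (toSt 0) j b := by
    rw [toSt_zero, lamI_round hj, lamI_round hj, hl]
  obtain ⟨Ra, Pa, ea⟩ := eig_limit (s := true) (x := a) hj hε hγ hr hs (Or.inl rfl)
  obtain ⟨Rb, Pb, eb⟩ := eig_limit (s := true) (x := b) hj hε hγ hr hs (Or.inl rfl)
  obtain ⟨La, hLa⟩ := exists_dlam hr ea
  obtain ⟨Lb, hLb⟩ := exists_dlam hr eb
  have hne : ∃ f : Dir, La f - Lb f ≠ 0 := by
    by_contra! hall
    have hγ1 : 0 < min γ₀ (1 / (2 * ((j : ℝ) + 1))) := lt_min h0 (by positivity)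
    have hs1 : Small d ε (min γ₀ (1 / (2 * ((j : ℝ) + 1)))) (toSt 0) :=
      small_zero (h0.trans_le hγ) hγ1
    have hν := fun x => nuOK hj hε ((min_le_left _ _).trans hγ)
      ((le_div_iff₀ (by positivity)).1 (min_le_right _ _)) hs1 x
    have hsol : ∀ i : Fin 2, RadSol d j (![a.1, b.1] i) (0 : RSt).1 (0 : RSt).2
        (![lamI d (toSt 0) j a, lamI d (toSt 0) j b] i) (![Ra, Rb] i) (![Pa, Pb] i) :=
      Fin.forall_fin_two.2 ⟨ea.sol, eb.sol⟩
    have hrel := rel_of_dlam (jj := fun _ : Fin 2 => j) (x := Pi.single 0 1 - Pi.single 1 1) hr hsol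
      fun f hf => by
        have h1 := hall ⟨f, hf⟩
        rw [hLa, hLb] at h1
        rw [Fin.sum_univ_two]
        simpa [sub_eq_add_neg] using h1
    exact indep_round (j := fun _ : Fin 2 => j) (m := ![a.1, b.1])
      (lam := ![lamI d (toSt 0) j a, lamI d (toSt 0) j b])
      (ν := ![nuOf d (lamI d (toSt 0) j a), nuOf d (lamI d (toSt 0) j b)])
      (R := ![Ra, Rb]) (P := ![Pa, Pb]) (Nat.one_le_iff_ne_zero.2 (NeZero.ne d))
      (fun h _ => hj h) (X₁ := 1 / 8) (X₂ := 1 / 4) (by norm_num) (by norm_num) (by norm_num) hsol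
      (Fin.forall_fin_two.2 ⟨hν a, hν b⟩) (a := 0) (b := 1) rfl hlam ha hb hab hrel
  obtain ⟨f, hf⟩ := hne
  obtain ⟨f₀, hf₀⟩ : ∃ f₀ : Dir, La f₀ - Lb f₀ = 1 :=
    ⟨(La f - Lb f)⁻¹ • f, by
      rw [map_smul, map_smul, smul_eq_mul, smul_eq_mul, ← mul_sub, inv_mul_cancel₀ hf]⟩
  obtain ⟨Ca, ra, hCa, hra, Ha⟩ := lam_taylor hj hε hγ hr hs ea
  obtain ⟨Cb, rb, hCb, hrb, Hb⟩ := lam_taylor hj hε hγ hr hs eb
  obtain ⟨B, hB, hfB⟩ := FCI.dir_bdd f₀.2
  obtain ⟨rs, hrs, Hs⟩ := hs.open_dir (Dir.radm f₀.2 d).adm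
  have ev : ∀ {ρ : ℝ}, 0 < ρ → ∀ K : ℝ, ∀ᶠ σ in 𝓝[>] (0 : ℝ), K * σ < ρ := fun {ρ} hρ K => by
    have : Tendsto (fun σ : ℝ => K * σ) (𝓝[>] 0) (𝓝 (K * 0)) :=
      ((continuous_const.mul continuous_id).tendsto 0).mono_left nhdsWithin_le_nhds
    rw [mul_zero] at this
    exact this.eventually_lt_const hρ
  obtain ⟨r, r1, r2, r3, r4, r5⟩ := ((ev hra B).and ((ev hrb B).and ((ev hrs 1).and
    ((ev one_pos ((Ca + Cb) * B ^ 2)).and self_mem_nhdsWithin)))).exists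
  have hr0 : 0 < r := r5
  have key : ∀ t : ℝ, |t| = r → |lamI d (toSt (0 + (t • f₀ : Dir))) j a -
      lamI d (toSt (0 + (t • f₀ : Dir))) j b - t| < r := fun t ht => by
    have hb : ∀ X, |((t • f₀ : Dir) : RSt).1 X| ≤ B * r ∧ |((t • f₀ : Dir) : RSt).2 X| ≤ B * r :=
      fun X => by
        have q1 : ((t • f₀ : Dir) : RSt).1 X = t * (f₀ : RSt).1 X := rfl
        have q2 : ((t • f₀ : Dir) : RSt).2 X = t * (f₀ : RSt).2 X := rfl
        rw [q1, q2, abs_mul, abs_mul, ht, mul_comm B]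
        exact ⟨mul_le_mul_of_nonneg_left (hfB X).1 hr0.le,
          mul_le_mul_of_nonneg_left (hfB X).2 hr0.le⟩
    have q1 := Ha _ (t • f₀ : Dir).2 (B * r) (by positivity) r1.le hb
    have q2 := Hb _ (t • f₀ : Dir).2 (B * r) (by positivity) r2.le hb
    rw [← hLa, map_smul, smul_eq_mul, abs_le] at q1
    rw [← hLb, map_smul, smul_eq_mul, abs_le] at q2
    have q3 : t * La f₀ - t * Lb f₀ = t := by rw [← mul_sub, hf₀, mul_one]
    have q4 : Ca * (B * r) ^ 2 + Cb * (B * r) ^ 2 < r := by nlinarith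
    rw [abs_lt]
    constructor <;> linarith [q1.1, q1.2, q2.1, q2.2]
  have k1 := abs_lt.1 (key r (abs_of_pos hr0))
  have k2 := abs_lt.1 (key (-r) (by rw [abs_neg, abs_of_pos hr0]))
  obtain ⟨-, -, Xa, Xb, hXa, -, hX0⟩ := f₀.2
  refine crossable_of_sign (g₀ := 0 + ((-r) • f₀ : Dir)) (g₁ := 0 + (r • f₀ : Dir))
    (hr.add (Dir.radm ((-r) • f₀ : Dir).2 d)) (hr.add (Dir.radm (r • f₀ : Dir).2 d))
    (Hs (-r) (by rw [abs_neg, abs_of_pos hr0]; linarith))
    (Hs r (by rw [abs_of_pos hr0]; linarith)) (δ := (Xa - 1 / 8) / 2) (by linarith)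
    (fun X hX => ?_) (by linarith [k2.2]) (by linarith [k1.1])
  obtain ⟨z1, z2⟩ := hX0 X fun h => by linarith [h.1]
  simp only [Submodule.coe_smul, Prod.fst_add, Prod.snd_add, Prod.smul_fst, Prod.smul_snd,
    Pi.add_apply, Pi.smul_apply, smul_eq_mul, z1, z2, mul_zero, add_zero, Prod.fst_zero,
    Prod.snd_zero, Pi.zero_apply, and_self]

end Crest.Agent.R202
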