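import Crest.Agent.R202.FCrossIn
import Crest.Agent.R202.BMom

/-!
# Row 202, F8: crossings between consecutive degrees

For `g = (α, 0)`, `0 ≤ α ≤ r` one has `β = -α`.  `lam_ge_low`: in a sector with `m ≤ 2` (`BSecAux.QG_sec`, `inner_sec`)
`e^{2α} ≥ 1`, `e^{-2α} ≥ 1 - 2α` and `m²/X ≤ 32` where `α ≠ 0`, so `QG 0 u u ≤ QG g u u + 64 r ‖u‖²`; `lamk_le_of_le`, `lamk_round`,
`lamM_tendsto`.  `lam_le_top`: test with `u = secMap true m 1` (`lamI_le_lamM`, `lamk_zero_le`, `BSecAux.sec_mem`;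
`QG 0 u u = N(N+d) ‖u‖²`, `N = m + j`, by `RoundAux.QG_zero_hom`, `lap_Hp`); `e^{2α} - 1 ≤ 4r`,
`e^{-2α} - 1 ≤ -α ≤ -r (1 - (X - x̄)²/ρ²)`; `Im_grad`, `Im_var`, `Im m j ≤ Im (m-1) j`.
`cross_x`: `α = r χ(X)` with a smooth `0 ≤ χ ≤ 1` that vanishes for `X ≤ 3/16`, equals `1` on `[1/4, 17/20]` and vanishes for
`X ≥ 7/8` (`d ≥ 2`), resp. equals `1` on `[1/4, 3/2]` and vanishes for `X ≥ 7/4` (`d = 1`); `r = min (1/2) (ε/(2C))` with `C` from
`Adm.exists_sz`; `ρ = 3/100`; `m = l + 1 - j ≥ 3l/10`.  At `g₀ = 0` the label of degree `l` is lower (`lamI_round`), at `g₁ = (α, 0)`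
the order is reversed for large `l`; `crossable_of_sign`.
-/

set_option autoImplicit false
open scoped ContDiff RealInnerProductSpace Topology
open MeasureTheory Set Filter Module
open Crest.GeometryTopology.CoordMetric
open Crest.Agent.R230 (E MP sph ev Harm)

noncomputable section
namespace Crest.Agent.R202

variable {d : ℕ} [NeZero d]

omit [NeZero d] in
theorem FX_int {f : ℝ → ℝ} (hf : Continuous f) :
    Integrable (fun p => f (XX (zOf p))) (sph (d + 2)) :=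
  Crest.Agent.R230.integrable_of_continuous (hf.comp (continuous_XX.comp (continuous_zOf d)))

theorem FX_mono {f g : ℝ → ℝ} (hf : Continuous f) (hg : Continuous g)
    (h : ∀ X ∈ Ioo (0 : ℝ) 1, f X ≤ g X) : mS d f ≤ mS d g := by
  refine integral_mono_ae (FX_int hf) (FX_int hg) ?_
  filter_upwards [ae_XX (d := d)] with p hp using h _ hp

omit [NeZero d] in
theorem FX_add {f g : ℝ → ℝ} (hf : Continuous f) (hg : Continuous g) :
    mS d (fun X => f X + g X) = mS d f + mS d g := integral_add (FX_int hf) (FX_int hg)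

omit [NeZero d] in
theorem FX_mul (c : ℝ) (f : ℝ → ℝ) : mS d (fun X => c * f X) = c * mS d f :=
  integral_const_mul _ _

/-- the form on a sector element, with continuous integrands -/
theorem FX_QG (j m : ℕ) (p : Polynomial ℝ) : ∃ s w t : ℝ → ℝ, Continuous s ∧ Continuous w ∧
    Continuous t ∧ (∀ X ∈ Ioo (0 : ℝ) 1, SM j m p X = s X ∧
      (m : ℝ) ^ 2 * (RM j m p X * RM j m p X) = t X ^ 2 * X) ∧
    ∀ g : RSt, RAdm d g → (∀ X, g.2 X = 0) →
      QG d j (toSt g) (secMap d j true m p) (secMap d j true m p) = mS d fun X =>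
        (1 + eav 0 (m + m)) / 2 * (Real.exp (2 * g.1 X) * s X ^ 2 + w X) +
          (1 - eav 0 (m + m)) / 2 * (Real.exp (-(2 * g.1 X)) * t X ^ 2) := by
  obtain ⟨s, hs, es⟩ := BSecAux.exists_SM j m p
  obtain ⟨t, ht, et⟩ := BSecAux.exists_RM_left j m p
  obtain ⟨w, hw, ew⟩ := BSecAux.exists_RM_right d j m m p p
  have e1 : ∀ X ∈ Ioo (0 : ℝ) 1, (m : ℝ) ^ 2 * (RM j m p X * RM j m p X) = t X ^ 2 * X :=
    fun X hX => by
      have h1 := Real.sq_sqrt hX.1.le
      calc _ = (m * RM j m p X) ^ 2 := by ring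
        _ = _ := by rw [et X hX, mul_pow, h1]
  refine ⟨s, w, t, hs, hw, ht, fun X hX => ⟨es X hX, e1 X hX⟩, fun g hg h2 => ?_⟩
  rw [BSecAux.QG_sec hg]
  refine mS_congr fun X hX => ?_
  have e2 : (m : ℝ) * m * (RM j m p X * RM j m p X) / X = t X ^ 2 := by
    rw [← sq, e1 X hX, mul_div_cancel_right₀ _ hX.1.ne']
  have e3 : eav 0 (Nat.dist m m) = 1 := by simp [eav]
  have e4 : 2 * bet d (g.1 X) 0 = -(2 * g.1 X) := by
    unfold bet
    ring
  rw [ew X hX, e2, es X hX, e3, h2 X, e4]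
  simp only [sgn, if_true, mul_zero, Real.exp_zero]
  ring

theorem FX_norm (j m : ℕ) (p : Polynomial ℝ) : ‖secMap d j true m p‖ ^ 2 =
    (1 + eav 0 (m + m)) / 2 * mS d fun X => RM j m p X * RM j m p X := by
  have e3 : eav 0 (Nat.dist m m) = 1 := by simp [eav]
  rw [← real_inner_self_eq_norm_sq, inner_sec, e3]
  simp only [sgn, if_true, one_mul]

theorem lam_ge_low {j : ℕ} (hj : okJ d j) {g : RSt} (hg : RAdm d g) {r : ℝ} (h2 : ∀ X, g.2 X = 0)
    (h1 : ∀ X, 0 ≤ g.1 X ∧ g.1 X ≤ r) (h0 : ∀ X, X ≤ 1 / 8 → g.1 X = 0) {x : ℕ × ℕ} (hx : x.1 ≤ 2) :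
    (ldeg j x : ℝ) * (ldeg j x + d) - 64 * r ≤ lamI d (toSt g) j x := by
  obtain ⟨m, k⟩ := x
  have hr : 0 ≤ r := (h1 0).1.trans (h1 0).2
  have hc := hg.s1.continuous
  refine ge_of_tendsto (lamM_tendsto hg.adm (m, k)) ?_
  filter_upwards [ev_rank (d := d) (j := j) (m, k)] with M hM
  have key := lamk_le_of_le (Q := QG d j 0) (Q' := QG d j (toSt g)) (S := Sec d j true m M)
    (c := 1) (b := 64 * r) zero_le_one (fun u hu => by
      obtain ⟨p, rfl⟩ := hu.2
      obtain ⟨s, w, t, hs, hw, ht, e1, e2⟩ := FX_QG (d := d) j m p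
      have hR := BSecAux.continuous_RM j m p
      rw [← toSt_zero, e2 0 (radm_zero d) fun _ => rfl, e2 g hg h2, FX_norm, one_mul,
        ← FX_mul, ← FX_mul, ← FX_add (by fun_prop) (by fun_prop)]
      refine FX_mono (by simp only [Prod.fst_zero, Pi.zero_apply]; fun_prop) (by fun_prop)
        fun X hX => ?_
      simp only [Prod.fst_zero, Pi.zero_apply, mul_zero, neg_zero, Real.exp_zero, one_mul]
      have a1 : 1 ≤ Real.exp (2 * g.1 X) := Real.one_le_exp (by linarith [(h1 X).1])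
      have a2 := Real.add_one_le_exp (-(2 * g.1 X))
      have a3 : s X ^ 2 ≤ Real.exp (2 * g.1 X) * s X ^ 2 := le_mul_of_one_le_left (sq_nonneg _) a1
      have a4 := mul_le_mul_of_nonneg_right a2 (sq_nonneg (t X))
      have a5 := mul_self_nonneg (RM j m p X)
      have a6 : 2 * g.1 X * t X ^ 2 ≤ 64 * r * (RM j m p X * RM j m p X) := by
        rcases le_or_gt X (1 / 8) with hX' | hX'
        · rw [h0 X hX']
          nlinarith [mul_nonneg hr a5]
        · have b1 : (m : ℝ) ≤ 2 := by exact_mod_cast hx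
          have b2 : (m : ℝ) ^ 2 ≤ 4 := by nlinarith [Nat.cast_nonneg (α := ℝ) m]
          have b3 : t X ^ 2 ≤ 32 * (RM j m p X * RM j m p X) := by
            nlinarith [(e1 X hX).2, mul_le_mul_of_nonneg_right b2 a5, sq_nonneg (t X)]
          nlinarith [mul_le_mul (h1 X).2 b3 (sq_nonneg _) hr]
      unfold eav
      split_ifs with c1 c2
      · nlinarith [mul_nonneg hr a5]
      · exact absurd rfl c2
      · nlinarith) hM
  rw [lamk_round hj hM, one_mul] at key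
  exact sub_le_iff_le_add.2 key

theorem lam_le_top {j m : ℕ} (hj : okJ d j) (hm : 1 ≤ m) {g : RSt} (hg : RAdm d g) {r ρ : ℝ}
    (hr : r ≤ 1 / 2) (hρ : 0 < ρ) (hρ' : 2 ≤ ρ ^ 2 * ((m : ℝ) + j)) (h2 : ∀ X, g.2 X = 0)
    (h1 : ∀ X, 0 ≤ g.1 X ∧ g.1 X ≤ r)
    (h3 : ∀ X ∈ Ioo (0 : ℝ) 1, |X - m / ((m : ℝ) + j + d / 2)| ≤ ρ → g.1 X = r) :
    lamI d (toSt g) j (m, 0) ≤
      ((m : ℝ) + j) * ((m : ℝ) + j + d) + 16 * d * r * ((m : ℝ) + j) - r * (m : ℝ) ^ 2 / 2 := by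
  have hr0 : 0 ≤ r := (h1 0).1.trans (h1 0).2
  have hc := hg.s1.continuous
  have hm0 : (0 : ℝ) < m := by exact_mod_cast hm
  have hN : (0 : ℝ) < (m : ℝ) + j := by positivity
  have hP : toP d j (secMap d j true m 1) = Hp true m := by
    rw [BSecAux.toP_secMap, map_one, mul_one]
  have hu : secMap d j true m 1 ∈ Sec d j true m (m + 2) := BSecAux.sec_mem (by omega) (by
    rw [hP]
    exact (RoundAux.Hp_hom true m).totalDegree_le.trans (by omega))
  have hk : 0 < finrank ℝ (Sec d j true m (m + 2)) := lt_finrank_Sec (Or.inl rfl) (by omega)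
  have k1 := lamI_le_lamM (j := j) hg.adm (x := (m, 0)) hk
  have k2 : lamM d (toSt g) j (m, 0) (m + 2) * _ ≤ _ := lamk_zero_le (QG_sym (toSt g)) hu
  have k3 := RoundAux.QG_zero_hom hj (a := m) (u := secMap d j true m 1)
    (by rw [hP]; exact RoundAux.Hp_hom true m) (secMap d j true m 1)
  rw [hP, RoundAux.lap_Hp, map_zero, neg_zero, inner_zero_left, add_zero,
    real_inner_self_eq_norm_sq] at k3
  have e0 : eav 0 (m + m) = 0 := if_neg (by omega)
  have k4 : ‖secMap d j true m 1‖ ^ 2 = 1 / 2 * Im d m j := by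
    rw [FX_norm, e0, add_zero, mS_congr fun X hX => RM_one_sq j m hX]
    rfl
  obtain ⟨s, w, t, hs, hw, ht, e1, e2⟩ := FX_QG (d := d) j m 1
  have et : ∀ X ∈ Ioo (0 : ℝ) 1, t X ^ 2 = (m : ℝ) ^ 2 * (X ^ (m - 1) * (1 - X) ^ j) :=
    fun X hX => by
      refine mul_right_cancel₀ hX.1.ne' ?_
      rw [← (e1 X hX).2, RM_one_sq j m hX, ← pow_sub_one_mul (by omega : m ≠ 0) X]
      ring
  set xb : ℝ := m / ((m : ℝ) + j + d / 2) with hxb
  have k5 : QG d j (toSt g) (secMap d j true m 1) (secMap d j true m 1) ≤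
      QG d j 0 (secMap d j true m 1) (secMap d j true m 1) +
        (2 * r * mS d (fun X => s X ^ 2) +
          (-(r * (m : ℝ) ^ 2 / 2) * mS d (fun X => X ^ (m - 1) * (1 - X) ^ j) +
            r * (m : ℝ) ^ 2 / (2 * ρ ^ 2) *
              mS d (fun X => (X - xb) ^ 2 * (X ^ (m - 1) * (1 - X) ^ j)))) := by
    rw [← toSt_zero, e2 0 (radm_zero d) fun _ => rfl, e2 g hg h2, e0, ← FX_mul, ← FX_mul, ← FX_mul,
      ← FX_add (by fun_prop) (by fun_prop), ← FX_add (by fun_prop) (by fun_prop),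
      ← FX_add (by simp only [Prod.fst_zero, Pi.zero_apply]; fun_prop) (by fun_prop)]
    refine FX_mono (by fun_prop) (by simp only [Prod.fst_zero, Pi.zero_apply]; fun_prop)
      fun X hX => ?_
    simp only [Prod.fst_zero, Pi.zero_apply, mul_zero, neg_zero, Real.exp_zero, one_mul]
    obtain ⟨a0, a0'⟩ := h1 X
    have a1 : Real.exp (2 * g.1 X) ≤ 1 + 4 * r := by
      have := Real.abs_exp_sub_one_le (x := 2 * g.1 X) (abs_le.2 ⟨by linarith, by linarith⟩)
      rw [abs_of_nonneg (by linarith : 0 ≤ 2 * g.1 X)] at this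
      linarith [(abs_le.1 this).2]
    have a2 : Real.exp (-(2 * g.1 X)) ≤ 1 - g.1 X := by
      have b1 := Real.add_one_le_exp (2 * g.1 X)
      rw [Real.exp_neg, inv_le_iff_one_le_mul₀ (Real.exp_pos _)]
      nlinarith [mul_le_mul_of_nonneg_left b1 (show 0 ≤ 1 - g.1 X by linarith)]
    have a3 : -g.1 X ≤ -r + r / ρ ^ 2 * (X - xb) ^ 2 := by
      rcases le_or_gt |X - xb| ρ with b1 | b1
      · rw [h3 X hX b1]
        have : 0 ≤ r / ρ ^ 2 * (X - xb) ^ 2 := by positivity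
        linarith
      · have b2 : ρ ^ 2 ≤ (X - xb) ^ 2 := by
          rw [← sq_abs (X - xb)]
          exact pow_le_pow_left₀ hρ.le b1.le 2
        have b3 := mul_le_mul_of_nonneg_left b2 (show 0 ≤ r / ρ ^ 2 by positivity)
        rw [div_mul_cancel₀ _ (by positivity)] at b3
        linarith
    have a4 := mul_le_mul_of_nonneg_right a1 (sq_nonneg (s X))
    have a5 := mul_le_mul_of_nonneg_right
      (show Real.exp (-(2 * g.1 X)) ≤ 1 - r + r / ρ ^ 2 * (X - xb) ^ 2 by linarith) (sq_nonneg (t X))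
    have a6 : r * (m : ℝ) ^ 2 / (2 * ρ ^ 2) * ((X - xb) ^ 2 * (X ^ (m - 1) * (1 - X) ^ j)) =
        r / ρ ^ 2 * (X - xb) ^ 2 * t X ^ 2 / 2 := by
      rw [et X hX]
      field_simp
    have a7 : -(r * (m : ℝ) ^ 2 / 2) * (X ^ (m - 1) * (1 - X) ^ j) = -(r * t X ^ 2 / 2) := by
      rw [et X hX]
      ring
    rw [a6, a7]
    linarith
  have k6 : mS d (fun X => s X ^ 2) ≤ 4 * d * ((m : ℝ) + j) * Im d m j := by
    rw [← mS_congr (f := fun X => SM j m 1 X * SM j m 1 X) fun X hX => by rw [(e1 X hX).1, sq]]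
    exact Im_grad hj hm
  have k7 := Im_var (d := d) j hm
  have k8 : Im d m j ≤ Im d (m - 1) j := by
    have := Im_split (d := d) (m - 1) j
    rw [Nat.sub_add_cancel hm] at this
    linarith [Im_pos (d := d) (m - 1) (j + 1)]
  have k9 := Im_pos (d := d) m j
  have k10 : r * (m : ℝ) ^ 2 / (2 * ρ ^ 2) *
      mS d (fun X => (X - xb) ^ 2 * (X ^ (m - 1) * (1 - X) ^ j)) ≤
      r * (m : ℝ) ^ 2 / 4 * Im d (m - 1) j := by
    refine (mul_le_mul_of_nonneg_left k7 (by positivity)).trans ?_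
    have b1 : 0 ≤ r * (m : ℝ) ^ 2 * Im d (m - 1) j := mul_nonneg (by positivity) (by linarith)
    rw [div_mul_div_comm, div_mul_eq_mul_div]
    exact div_le_div_of_nonneg_left b1 (by norm_num) (by linarith)
  have k11 : mS d (fun X => X ^ (m - 1) * (1 - X) ^ j) = Im d (m - 1) j := rfl
  rw [k11, k3, k4] at k5
  rw [k4] at k2
  refine k1.trans (le_of_mul_le_mul_right ?_ (show 0 < 1 / 2 * Im d m j by positivity))
  refine (k2.trans k5).trans ?_
  push_cast
  nlinarith [mul_le_mul_of_nonneg_left k6 hr0,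
    mul_le_mul_of_nonneg_left k8 (show 0 ≤ r * (m : ℝ) ^ 2 by positivity)]

theorem cross_x (d : ℕ) [NeZero d] {ε : ℝ} (hε : 0 < ε) : ∃ l₀ : ℕ, ∀ (γ₀ : ℝ) (j l : ℕ) (b : ℕ × ℕ),
    0 < γ₀ → l₀ ≤ l → ((d = 1 ∧ j ≤ 1) ∨ (2 ≤ d ∧ l ≤ 5 * j ∧ 10 * j ≤ 7 * l)) → 1 ≤ b.1 → b.1 ≤ 2 →
    ldeg j b = l → Crossable d ε γ₀ j (l + 1 - j, 0) b := by
  let χ : ℝ → ℝ := fun X =>
    Real.smoothTransition (16 * X - 3) * Real.smoothTransition (20 * (xhi d - X))
  have hχs : ContDiff ℝ ∞ χ :=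
    (Real.smoothTransition.contDiff.comp (by fun_prop)).mul
      (Real.smoothTransition.contDiff.comp (by fun_prop))
  have hχ0 : ∀ X, X ≤ 3 / 16 → χ X = 0 := fun X hX =>
    mul_eq_zero_of_left (Real.smoothTransition.zero_of_nonpos (by linarith)) _
  have hχ1 : ∀ X, 1 / 4 ≤ X → X ≤ xhi d - 1 / 20 → χ X = 1 := fun X h1 h2 => by
    simp only [χ]
    rw [Real.smoothTransition.one_of_one_le (by linarith),
      Real.smoothTransition.one_of_one_le (by linarith), mul_one]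
  have hχ2 : ∀ X, 0 ≤ χ X ∧ χ X ≤ 1 := fun X =>
    ⟨mul_nonneg (Real.smoothTransition.nonneg _) (Real.smoothTransition.nonneg _),
      mul_le_one₀ (Real.smoothTransition.le_one _) (Real.smoothTransition.nonneg _)
        (Real.smoothTransition.le_one _)⟩
  have hf : RAdm d (χ, 0) := ⟨hχs, contDiff_const, fun X hX => ⟨by
    rcases not_and_or.1 hX with h | h
    · exact hχ0 X (by linarith [not_le.1 h])
    · exact mul_eq_zero_of_right _
        (Real.smoothTransition.zero_of_nonpos (by linarith [not_le.1 h])), rfl⟩⟩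
  obtain ⟨C, hC, hsz, -⟩ := hf.adm.exists_sz
  obtain ⟨r, hr0, hr1, hr2⟩ : ∃ r : ℝ, 0 < r ∧ r ≤ 1 / 2 ∧ r * C < ε := by
    refine ⟨min (1 / 2) (ε / (2 * C)), by positivity, min_le_left _ _, ?_⟩
    calc _ ≤ ε / (2 * C) * C := mul_le_mul_of_nonneg_right (min_le_right _ _) hC.le
      _ = ε / 2 := by field_simp
      _ < ε := half_lt_self hε
  have hd : (0 : ℝ) ≤ d := Nat.cast_nonneg d
  obtain ⟨l₁, hl₁⟩ := exists_nat_gt (25 * (35 + 17 * d) / r)
  refine ⟨l₁ + 7 * d + 2300, fun γ₀ j l b hγ hl hcase hb1 hb2 hb => ?_⟩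
  have hj : okJ d j := fun h => by omega
  have hjl : 10 * j ≤ 7 * l := by omega
  obtain ⟨m, hm⟩ : ∃ m, m + j = l + 1 := ⟨l + 1 - j, by omega⟩
  rw [show l + 1 - j = m by omega]
  have hm1 : 1 ≤ m := by omega
  have hmR : (m : ℝ) + j = l + 1 := by exact_mod_cast hm
  have hjR : 10 * (j : ℝ) ≤ 7 * l := by exact_mod_cast hjl
  have hlR : (l₁ : ℝ) + 7 * d + 2300 ≤ l := by exact_mod_cast hl
  have hl1 : (0 : ℝ) ≤ l₁ := Nat.cast_nonneg _
  have hg : RAdm d (r • ((χ, 0) : RSt)) := hf.smul r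
  have g1 : ∀ X, (r • ((χ, 0) : RSt)).1 X = r * χ X := fun _ => rfl
  have g2 : ∀ X, (r • ((χ, 0) : RSt)).2 X = 0 := fun _ => mul_zero r
  have g3 : ∀ X, 0 ≤ (r • ((χ, 0) : RSt)).1 X ∧ (r • ((χ, 0) : RSt)).1 X ≤ r := fun X =>
    ⟨mul_nonneg hr0.le (hχ2 X).1, mul_le_of_le_one_right hr0.le (hχ2 X).2⟩
  have g4 : ∀ X, X ≤ 3 / 16 → (r • ((χ, 0) : RSt)).1 X = 0 := fun X hX => by
    rw [g1, hχ0 X hX, mul_zero]
  have hs : Small d ε γ₀ (toSt (r • ((χ, 0) : RSt))) := by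
    refine ⟨hg.adm, |r| * C, 0, by rwa [abs_of_pos hr0], hγ, hsz.smul hf.adm.s1 r, ?_⟩
    rw [show (toSt (r • ((χ, 0) : RSt))).2 = 0 from funext fun z => g2 _]
    exact sz_zero le_rfl
  have hlo := lam_ge_low hj hg g2 g3 (fun X hX => g4 X (by linarith)) hb2
  have hhi := lam_le_top hj hm1 hg hr1 (show (0 : ℝ) < 3 / 100 by norm_num)
    (by rw [hmR]; linarith) g2 g3 fun X hX h => by
      have hD : (0 : ℝ) < (m : ℝ) + j + d / 2 := by linarith
      obtain ⟨c1, c2⟩ := abs_le.1 h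
      have c3 : 28 / 100 ≤ m / ((m : ℝ) + j + d / 2) := by
        rw [le_div_iff₀ hD]
        linarith
      rw [g1, hχ1 X (by linarith) ?_, mul_one]
      rcases hcase with ⟨c4, -⟩ | ⟨-, c4, -⟩
      · rw [xhi, if_pos c4]
        linarith [hX.2]
      · have c5 : (l : ℝ) ≤ 5 * j := by exact_mod_cast c4
        have c6 : m / ((m : ℝ) + j + d / 2) ≤ 82 / 100 := by
          rw [div_le_iff₀ hD]
          linarith
        linarith [nine_tenth_le_xhi d]
  refine (crossable_of_sign (radm_zero d) hg (toSt_zero ▸ small_zero hε hγ) hs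
    (show (0 : ℝ) < 1 / 16 by norm_num)
    (fun X hX => ⟨rfl, rfl, g4 X (by linarith), g2 X⟩) ?_ ?_).symm
  · have e : ldeg j (m, 0) = l + 1 := by
      simp only [ldeg]
      rw [if_neg (by omega)]
      omega
    rw [toSt_zero, lamI_round hj, lamI_round hj, hb, e]
    push_cast
    nlinarith
  · rw [hb] at hlo
    rw [hmR] at hhi
    refine (hhi.trans_lt ?_).trans_le hlo
    rw [div_lt_iff₀ hr0] at hl₁
    have c1 : 3 / 10 * (l : ℝ) ≤ m := by linarith
    have c2 : (3 / 10 * (l : ℝ)) ^ 2 ≤ (m : ℝ) ^ 2 := pow_le_pow_left₀ (by linarith) c1 2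
    have c3 : 25 * (35 + 17 * (d : ℝ)) < l * r := by nlinarith
    have c4 : 25 * (35 + 17 * (d : ℝ)) * l < l * r * l :=
      mul_lt_mul_of_pos_right c3 (by linarith)
    have c5 : 16 * d * r * ((l : ℝ) + 1) ≤ 16 * d * (1 / 2) * (2 * l) :=
      mul_le_mul (mul_le_mul_of_nonneg_left hr1 (by positivity)) (by linarith) (by linarith)
        (by positivity)
    have c6 : (d : ℝ) ≤ d * l := le_mul_of_one_le_right hd (by linarith)
    nlinarith [mul_le_mul_of_nonneg_left c2 hr0.le, mul_nonneg hr0.le (sq_nonneg (l : ℝ))]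

end Crest.Agent.R202
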