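import Crest.Agent.R202.FLow

/-!
# Row 202, F4: auxiliary lemmas for off-diagonal directions and controls
-/

set_option autoImplicit false
open scoped ContDiff RealInnerProductSpace Topology
open MeasureTheory Set Filter Module
open Crest.GeometryTopology.CoordMetric
open Crest.Agent.R230 (E MP sph ev Harm)

noncomputable section
namespace Crest.Agent.R202
namespace FCtlAux

/-- independent functionals have a finite dual family -/
theorem dual_family {ι T : Type} [Fintype ι] [DecidableEq ι] (Λ : ι → T → ℝ)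
    (h : ∀ y : ι → ℝ, (∀ t, ∑ r, y r * Λ r t = 0) → y = 0) :
    ∃ (n : ℕ) (t : Fin n → T) (c : ι → Fin n → ℝ), ∀ r r',
      ∑ v, c r' v * Λ r (t v) = if r = r' then 1 else 0 := by
  classical
  have htop : Submodule.span ℝ (range fun t : T => fun r => Λ r t) = ⊤ := by
    by_contra hne
    obtain ⟨f, hf, hle⟩ := Submodule.exists_le_ker_of_lt_top _ (lt_top_iff_ne_top.2 hne)
    have hy := h (fun r => f fun j => if r = j then 1 else 0) fun t => by
      have h1 : f (fun r => Λ r t) = 0 := hle (Submodule.subset_span ⟨t, rfl⟩)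
      rw [LinearMap.pi_apply_eq_sum_univ] at h1
      refine Eq.trans (Finset.sum_congr rfl fun r _ => ?_) h1
      rw [smul_eq_mul, mul_comm]
    refine hf (LinearMap.ext fun v => ?_)
    rw [LinearMap.pi_apply_eq_sum_univ]
    exact Finset.sum_eq_zero fun r _ => by rw [congrFun hy r]; simp
  have hc : ∀ r' : ι, ∃ c : T →₀ ℝ, (c.sum fun t a => a • fun r => Λ r t) =
      fun r => if r = r' then 1 else 0 := fun r' =>
    Finsupp.mem_span_range_iff_exists_finsupp.1 (htop ▸ Submodule.mem_top)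
  choose c hc using hc
  set S : Finset T := Finset.univ.biUnion fun r' => (c r').support with hS
  refine ⟨S.card, fun v => (S.equivFin.symm v : T), fun r' v => c r' (S.equivFin.symm v),
    fun r r' => ?_⟩
  rw [S.equivFin.symm.sum_comp fun t : S => c r' t * Λ r t, S.sum_coe_sort fun t => c r' t * Λ r t,
    ← congrFun (hc r') r, Finsupp.sum, Finset.sum_apply]
  symm
  refine Finset.sum_subset (fun t ht => Finset.mem_biUnion.2 ⟨r', Finset.mem_univ _, ht⟩)
    fun t _ ht => ?_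
  simp [Finsupp.notMem_support_iff.1 ht]

/-- `τ ↦ exp (a τ)` as a character -/
def expHom (a : ℝ) : Multiplicative ℝ →* ℝ where
  toFun τ := Real.exp (a * τ.toAdd)
  map_one' := by simp
  map_mul' s t := by simp [mul_add, Real.exp_add]

theorem expHom_inj : Function.Injective expHom := fun a b h => by
  have := DFunLike.congr_fun h (Multiplicative.ofAdd 1)
  simpa [expHom] using this

/-- real exponentials are independent on an interval -/
theorem exp_indep {ι : Type} (S : Finset ι) (a w : ι → ℝ) {u v : ℝ} (huv : u < v)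
    (h : ∀ τ ∈ Ioo u v, ∑ r ∈ S, w r * Real.exp (a r * τ) = 0) (b : ℝ) :
    ∑ r ∈ S with a r = b, w r = 0 := by
  classical
  have han : AnalyticOnNhd ℝ (fun τ => ∑ r ∈ S, w r * Real.exp (a r * τ)) univ := fun τ _ =>
    Finset.analyticAt_fun_sum _ fun r _ => analyticAt_const.mul
      (analyticAt_const.mul analyticAt_id).rexp
  have hall := han.eqOn_zero_of_preconnected_of_eventuallyEq_zero isPreconnected_univ
    (mem_univ ((u + v) / 2))
    (Filter.eventually_of_mem (Ioo_mem_nhds (by linarith) (by linarith)) h)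
  have hli := (linearIndependent_monoidHom (Multiplicative ℝ) ℝ).comp expHom expHom_inj
  by_cases hb : b ∈ S.image a
  · refine linearIndependent_iff'.1 hli (S.image a) (fun b => ∑ r ∈ S with a r = b, w r) ?_ b hb
    funext τ
    have h1 := hall (mem_univ τ.toAdd)
    simp only [Pi.zero_apply] at h1
    rw [Finset.sum_apply, Pi.zero_apply, ← h1,
      ← Finset.sum_fiberwise_of_maps_to (g := a) (t := S.image a)
        fun r hr => Finset.mem_image_of_mem a hr]
    refine Finset.sum_congr rfl fun c _ => ?_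
    simp only [Pi.smul_apply, Function.comp_apply, smul_eq_mul, Finset.sum_mul]
    refine Finset.sum_congr rfl fun r hr => ?_
    rw [← (Finset.mem_filter.1 hr).2]
    rfl
  · refine Finset.sum_eq_zero fun r hr => absurd ?_ hb
    rw [← (Finset.mem_filter.1 hr).2]
    exact Finset.mem_image_of_mem a (Finset.mem_filter.1 hr).1

/-- the time moment of a profile -/
def mom (a : ℝ) (χ : ℝ → ℝ) : ℝ := ∫ τ in (0 : ℝ)..1, Real.exp (a * τ) * χ τ

theorem mom_cont {χ : ℝ → ℝ} (hχ : Continuous χ) : Continuous fun a => mom a χ :=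
  intervalIntegral.continuous_parametric_intervalIntegral_of_continuous'
    (f := fun a τ => Real.exp (a * τ) * χ τ) (by
      have : Continuous fun p : ℝ × ℝ => Real.exp (p.1 * p.2) * χ p.2 := by fun_prop
      exact this) 0 1

/-- a relation between moments for all profiles holds in every class of equal frequency -/
theorem mom_indep {ι : Type} (S : Finset ι) (a w : ι → ℝ)
    (h : ∀ χ, Prof χ → ∑ r ∈ S, w r * mom (a r) χ = 0) (b : ℝ) :
    ∑ r ∈ S with a r = b, w r = 0 := by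
  set f : ℝ → ℝ := fun τ => ∑ r ∈ S, w r * Real.exp (a r * τ) with hf
  have hc : Continuous f := by fun_prop
  have hae := (isOpen_Ioo (a := (1 / 4 : ℝ)) (b := 3 / 4)).ae_eq_zero_of_integral_contDiff_smul_eq_zero
    (μ := volume) (f := f) (hc.locallyIntegrable.locallyIntegrableOn _) fun χ h1 _ h3 => by
      have hp : Prof χ := ⟨h1, fun τ hτ => by
        by_contra hne
        exact hτ (h3 (subset_tsupport _ hne))⟩
      have h4 := h χ hp
      have hχ := h1.continuous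
      have h5 : ∫ τ in (0 : ℝ)..1, χ τ • f τ = ∑ r ∈ S, w r * mom (a r) χ := by
        simp only [mom, ← intervalIntegral.integral_const_mul]
        rw [← intervalIntegral.integral_finsetSum fun r _ =>
          Continuous.intervalIntegrable (by fun_prop) _ _]
        refine intervalIntegral.integral_congr fun τ _ => ?_
        simp only [hf, smul_eq_mul, Finset.mul_sum]
        exact Finset.sum_congr rfl fun r _ => by ring
      rw [← h4, ← h5, intervalIntegral.integral_eq_integral_of_support_subset]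
      intro τ hτ
      have : χ τ ≠ 0 := fun h0 => hτ (by simp [h0])
      have h6 := h3 (subset_tsupport _ this)
      exact ⟨by linarith [h6.1], by linarith [h6.2]⟩
  refine exp_indep S a w (u := 1 / 4) (v := 3 / 4) (by norm_num) ?_ b
  have h7 : f =ᵐ[volume.restrict (Ioo (1 / 4 : ℝ) (3 / 4))] fun _ => 0 :=
    (ae_restrict_iff' measurableSet_Ioo).2 hae
  exact Measure.eqOn_open_of_ae_eq h7 isOpen_Ioo hc.continuousOn continuousOn_const

variable {d : ℕ} [NeZero d]

/-- test functions in the round cap -/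
def Tst (φ : ℝ → ℝ) : Prop :=
  ContDiff ℝ ∞ φ ∧ ∃ Ya Yb : ℝ, 1 / 16 < Ya ∧ Yb < 1 / 8 ∧ ∀ X, X ∉ Icc Ya Yb → φ X = 0

/-- the direction `φ(X) Re z^n` -/
def ang (φ : ℝ → ℝ) (n : ℕ) : St := (fun z => φ (XX z) * ev (Hp true n) z, 0)

omit [NeZero d] in
theorem Tst.adm {φ : ℝ → ℝ} (h : Tst φ) (n : ℕ) : Adm d (ang φ n) := by
  obtain ⟨h1, a, b, ha, hb, h2⟩ := h
  exact adm_ang h1 (fun X hX => h2 X fun hh => hX ⟨by linarith [hh.1], by linarith [hh.2]⟩) n

omit [NeZero d] in
theorem QD_ang {ε γ₀ : ℝ} {g : RSt} (hg : Cls d ε γ₀ g) {φ : ℝ → ℝ} (h : Tst φ) (j n : ℕ) :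
    QD d j (toSt g) (ang φ n) = QF d j (fun z => (fun X => 2 * φ X) (XX z) * ev (Hp true n) z)
      (fun z => (fun X => -2 * φ X) (XX z) * ev (Hp true n) z)
      (fun z => (fun _ => (0 : ℝ)) (XX z) * ev (Hp true n) z) := by
  obtain ⟨-, a, b, -, hb, h2⟩ := h
  have key : ∀ z : E 2, φ (XX z) = 0 ∨ (g.1 (XX z) = 0 ∧ g.2 (XX z) = 0) := fun z => by
    by_cases hz : XX z ∈ Icc a b
    · exact Or.inr (hg.cap _ (by linarith [hz.2]))
    · exact Or.inl (h2 _ hz)
  unfold QD
  congr 1 <;> funext z <;> rcases key z with h | h <;> simp [ang, toSt, bet, h] <;> ring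

/-- the exponent of a label -/
def nu (d : ℕ) [NeZero d] (g : RSt) (j : ℕ) (x : ℕ × ℕ) : ℝ := nuOf d (lamI d (toSt g) j x)

/-- the radial part of the limit density -/
def dA (d : ℕ) [NeZero d] (g : RSt) (j : ℕ) (x x' : ℕ × ℕ) (X : ℝ) : ℝ :=
  4 * X * (1 - X) * (capP d j x.1 (nu d g j x) X * capP d j x'.1 (nu d g j x') X)

/-- the angular part of the limit density -/
def dB (d : ℕ) [NeZero d] (g : RSt) (j : ℕ) (x x' : ℕ × ℕ) (X : ℝ) : ℝ :=
  capR d j x.1 (nu d g j x) X * capR d j x'.1 (nu d g j x') X / X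

/-- the limit density of a constraint in the direction `n` -/
def dens (d : ℕ) [NeZero d] (g : RSt) (r : CT) (n : ℕ) (X : ℝ) : ℝ :=
  (eav n (Nat.dist r.2.2.1.1 r.2.2.2.1) + sgn r.2.1 * eav n (r.2.2.1.1 + r.2.2.2.1)) *
      dA d g r.1 r.2.2.1 r.2.2.2 X -
    (eav n (Nat.dist r.2.2.1.1 r.2.2.2.1) - sgn r.2.1 * eav n (r.2.2.1.1 + r.2.2.2.1)) *
      ((r.2.2.1.1 : ℝ) * r.2.2.2.1 * dB d g r.1 r.2.2.1 r.2.2.2 X)

theorem nu_ok {ε γ₀ : ℝ} {J : Finset ℕ} (hP : Par d ε γ₀ J) {g : RSt} (hg : Cls d ε γ₀ g) {j : ℕ}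
    (hj : j ∈ J) (x : ℕ × ℕ) : NuOK d j x.1 (lamI d (toSt g) j x) (nu d g j x) :=
  nuOK (hP.ok j hj) hP.eps hP.gam (hP.gj j hj) hg.small x

theorem lam_pos {ε γ₀ : ℝ} {J : Finset ℕ} (hP : Par d ε γ₀ J) {g : RSt} (hg : Cls d ε γ₀ g) {j : ℕ}
    (hj : j ∈ J) (x : ℕ × ℕ) : 0 < lamI d (toSt g) j x := by
  have h := nu_ok hP hg hj x
  rw [h.eq]
  have := h.pos
  positivity

theorem dens_cont {ε γ₀ : ℝ} {J : Finset ℕ} (hP : Par d ε γ₀ J) {g : RSt} (hg : Cls d ε γ₀ g)
    {r : CT} (hj : r.1 ∈ J) (n : ℕ) : ContinuousOn (dens d g r n) (Ioo 0 (1 / 2)) := by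
  have h1 := capR_analytic (nu_ok hP hg hj r.2.2.1)
  have h2 := capR_analytic (nu_ok hP hg hj r.2.2.2)
  have hA : ContinuousOn (dA d g r.1 r.2.2.1 r.2.2.2) (Ioo 0 (1 / 2)) :=
    (Continuous.continuousOn (by fun_prop)).mul (h1.deriv.continuousOn.mul h2.deriv.continuousOn)
  have hB : ContinuousOn (dB d g r.1 r.2.2.1 r.2.2.2) (Ioo 0 (1 / 2)) :=
    (h1.continuousOn.mul h2.continuousOn).div continuousOn_id fun X hX => hX.1.ne'
  exact (continuousOn_const.mul hA).sub (continuousOn_const.mul (continuousOn_const.mul hB))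

/-- the limit of the derivative of the form in the direction `ang φ n` -/
theorem lim_QD {ε γ₀ : ℝ} {J : Finset ℕ} (hP : Par d ε γ₀ J) {g : RSt} (hg : Cls d ε γ₀ g)
    {r : CT} (hj : r.1 ∈ J) (hx : okS r.2.1 r.2.2.1.1) (hx' : okS r.2.1 r.2.2.2.1) :
    ∃ ρ : ℝ, ρ ≠ 0 ∧ ∀ φ, Tst φ → ∀ n, Tendsto (fun M => QD d r.1 (toSt g) (ang φ n)
      (psi d (toSt g) r.1 r.2.1 r.2.2.1 M) (psi d (toSt g) r.1 r.2.1 r.2.2.2 M)) UU
      (𝓝 (ρ * mS d fun X => φ X * (Real.sqrt X ^ n * dens d g r n X))) := by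
  obtain ⟨j, s, x, x'⟩ := r
  obtain ⟨R, P, h⟩ := eig_limit (hP.ok j hj) hP.eps hP.gam hg.radm hg.small hx
  obtain ⟨R', P', h'⟩ := eig_limit (hP.ok j hj) hP.eps hP.gam hg.radm hg.small hx'
  have hcap : ∀ X ∈ Ioo (0 : ℝ) (1 / 8), g.1 X = 0 ∧ g.2 X = 0 := fun X hX => hg.cap X hX.2.le
  obtain ⟨ρ, hρ, e⟩ := cap_ident (nu_ok hP hg hj x) hg.radm.s1.continuous hg.radm.s2.continuous
    (by norm_num) (by norm_num) hcap h.sol
  obtain ⟨ρ', hρ', e'⟩ := cap_ident (nu_ok hP hg hj x') hg.radm.s1.continuous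
    hg.radm.s2.continuous (by norm_num) (by norm_num) hcap h'.sol
  have c1 := Real.sqrt_pos.2 (cm_pos hx)
  have c2 := Real.sqrt_pos.2 (cm_pos hx')
  refine ⟨(Real.sqrt (cm s x.1) * Real.sqrt (cm s x'.1))⁻¹ * (ρ * ρ'),
    mul_ne_zero (inv_ne_zero (mul_pos c1 c2).ne') (mul_ne_zero hρ hρ'), fun φ hφ n => ?_⟩
  simp only [QD_ang hg hφ]
  obtain ⟨h1, a, b, ha, hb, h2⟩ := hφ
  have hc := h1.continuous
  have := qf_limit hx hx' h h' (A := fun X => 2 * φ X) (B := fun X => -2 * φ X)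
    (C := fun _ => 0) (by fun_prop) (by fun_prop) continuous_const (Xa := a) (Xb := b)
    (by linarith) (by linarith) (fun X hX => by simp [h2 X hX]) n
  convert this using 2
  rw [mul_assoc, ← DLimAux.mS_const_mul]
  congr 2
  funext X
  by_cases hX : X ∈ Icc a b
  · have hX' : X ∈ Ioo (0 : ℝ) (1 / 8) := ⟨by linarith [hX.1], by linarith [hX.2]⟩
    rw [(e X hX').1, (e X hX').2, (e' X hX').1, (e' X hX').2]
    simp only [dens, dA, dB]
    ring
  · simp [h2 X hX]

theorem integrable_tst {φ F : ℝ → ℝ} (hφ : Tst φ) (hF : ContinuousOn F (Ioo 0 (1 / 2))) :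
    Integrable (fun p : E (d + 2) => φ (XX (zOf p)) * F (XX (zOf p))) (sph (d + 2)) := by
  obtain ⟨h1, a, b, ha, hb, h2⟩ := hφ
  have hc : ContinuousOn (fun X => φ X * F X) (Ioo 0 1) := fun X hX => by
    by_cases hX' : X < 1 / 2
    · exact ((h1.continuous.continuousOn.mul hF).continuousAt
        (Ioo_mem_nhds hX.1 hX')).continuousWithinAt
    · refine (continuousAt_const (y := (0 : ℝ))).congr ?_ |>.continuousWithinAt
      filter_upwards [Ioi_mem_nhds (show b < X by linarith)] with Y hY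
      rw [h2 Y fun hh => not_lt.2 hh.2 hY, zero_mul]
  obtain ⟨C, hC⟩ := DLimAux.bdd_of_supp hc (Xa := a) (Xb := b) (by linarith) (by linarith)
    fun X hX => by rw [h2 X hX, zero_mul]
  exact DLimAux.integrable_mS hc hC

/-- a relation for all test functions holds pointwise -/
theorem pointwise {ι : Type} (S : Finset ι) (w : ι → ℝ) {F : ι → ℝ → ℝ}
    (hF : ∀ r ∈ S, ContinuousOn (F r) (Ioo 0 (1 / 2))) (n : ℕ)
    (h : ∀ φ, Tst φ → ∑ r ∈ S, w r * mS d (fun X => φ X * (Real.sqrt X ^ n * F r X)) = 0) :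
    ∀ X ∈ Ioo (1 / 16 : ℝ) (1 / 8), ∑ r ∈ S, w r * F r X = 0 := by
  have hsub : Ioo (1 / 16 : ℝ) (1 / 8) ⊆ Ioo 0 (1 / 2) := Ioo_subset_Ioo (by norm_num) (by norm_num)
  have hF' : ∀ r ∈ S, ContinuousOn (fun X => Real.sqrt X ^ n * F r X) (Ioo 0 (1 / 2)) :=
    fun r hr => (Continuous.continuousOn (by fun_prop)).mul (hF r hr)
  have z := eq_zero_of_mS (d := d) (F := fun X => ∑ r ∈ S, w r * (Real.sqrt X ^ n * F r X))
    (Xa := 1 / 16) (Xb := 1 / 8) (by norm_num) (by norm_num)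
    (continuousOn_finsetSum _ fun r hr => continuousOn_const.mul ((hF' r hr).mono hsub))
    fun φ h1 h2 => by
      rw [← h φ ⟨h1, h2⟩]
      simp only [mS, ← integral_const_mul]
      rw [← integral_finsetSum _ fun r hr => (integrable_tst ⟨h1, h2⟩ (hF' r hr)).const_mul (w r)]
      congr 1
      funext p
      rw [Finset.mul_sum]
      exact Finset.sum_congr rfl fun r _ => by ring
  intro X hX
  have h1 : Real.sqrt X ^ n * ∑ r ∈ S, w r * F r X = 0 := by
    rw [← z X hX, Finset.mul_sum]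
    exact Finset.sum_congr rfl fun r _ => by ring
  exact (mul_eq_zero.1 h1).resolve_left (pow_ne_zero _ (Real.sqrt_pos.2 (hsub hX).1).ne')

theorem eav_ne {n a : ℕ} (h : eav n a ≠ 0) : n = a := by
  by_contra hn
  exact h (if_neg hn)

theorem eav_pos (a : ℕ) : 0 < eav a a := by
  unfold eav
  rw [if_pos rfl]
  split_ifs <;> norm_num

/-- block, tracked label, other label -/
abbrev Key : Type := ℕ × (ℕ × ℕ) × (ℕ × ℕ)

/-- the constraint with a key and a parity -/
def mk (k : Key) (s : Bool) : CT := (k.1, s, k.2.1, k.2.2)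

/-- independence of the densities, the two parities merged -/
theorem dens_indep {ε γ₀ : ℝ} {J : Finset ℕ} (hP : Par d ε γ₀ J) {g : RSt} (hg : Cls d ε γ₀ g)
    (K : Finset Key) (hK : ∀ k ∈ K, k.1 ∈ J ∧ 1 ≤ k.2.1.1)
    (hinj : ∀ k ∈ K, ∀ k' ∈ K, nu d g k.1 k.2.1 + nu d g k.1 k.2.2 =
      nu d g k'.1 k'.2.1 + nu d g k'.1 k'.2.2 → k = k')
    (u : CT → ℝ) (n : ℕ) (h : ∀ X ∈ Ioo (1 / 16 : ℝ) (1 / 8),
      ∑ k ∈ K, ∑ s, u (mk k s) * dens d g (mk k s) n X = 0) : ∀ k ∈ K,
    eav n (Nat.dist k.2.1.1 k.2.2.1) * (u (mk k true) + u (mk k false)) +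
      eav n (k.2.1.1 + k.2.2.1) * (u (mk k true) - u (mk k false)) = 0 := by
  classical
  intro k hk
  have := indep_ctl (d := d) (ι := K) (j := fun k => k.1.1) (m := fun k => k.1.2.1.1)
    (j' := fun k => k.1.1) (m' := fun k => k.1.2.2.1)
    (lam := fun k => lamI d (toSt g) k.1.1 k.1.2.1) (ν := fun k => nu d g k.1.1 k.1.2.1)
    (lam' := fun k => lamI d (toSt g) k.1.1 k.1.2.2) (ν' := fun k => nu d g k.1.1 k.1.2.2)
    (σ := fun k => if n = Nat.dist k.1.2.1.1 k.1.2.2.1 then -((k.1.2.1.1 : ℝ) * k.1.2.2.1)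
      else (k.1.2.1.1 : ℝ) * k.1.2.2.1)
    (x := fun k => eav n (Nat.dist k.1.2.1.1 k.1.2.2.1) * (u (mk k true) + u (mk k false)) +
      eav n (k.1.2.1.1 + k.1.2.2.1) * (u (mk k true) - u (mk k false)))
    (fun k => nu_ok hP hg (hK _ k.2).1 _) (fun k => nu_ok hP hg (hK _ k.2).1 _)
    (fun k k' _ _ e => Subtype.ext (hinj _ k.2 _ k'.2 e)) n (fun k hk => ?_)
    (Xa := 1 / 16) (Xb := 1 / 8) (by norm_num) (by norm_num) (by norm_num) fun X hX => ?_
  · exact congrFun this ⟨k, hk⟩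
  · by_cases h1 : eav n (Nat.dist k.1.2.1.1 k.1.2.2.1) = 0
    · have h2 : eav n (k.1.2.1.1 + k.1.2.2.1) ≠ 0 := fun h2 => hk (by simp [h1, h2])
      have := eav_ne h2
      omega
    · have := eav_ne h1
      unfold Nat.dist at this
      omega
  · rw [← h X hX, ← K.sum_coe_sort]
    refine Finset.sum_congr rfl fun k _ => ?_
    have h0 := (hK _ k.2).2
    simp only [Fintype.sum_bool, dens, mk, sgn, dA, dB, if_true, Bool.false_eq_true, if_false]
    split_ifs with h1
    · by_cases h2 : eav n (k.1.2.1.1 + k.1.2.2.1) = 0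
      · rw [h2]; ring
      · have h3 := eav_ne h2
        have h4 : k.1.2.2.1 = 0 := by
          unfold Nat.dist at h1
          omega
        have h5 : ((k.1.2.2.1 : ℕ) : ℝ) = 0 := by exact_mod_cast h4
        rw [h5]; ring
    · rw [show eav n (Nat.dist k.1.2.1.1 k.1.2.2.1) = 0 from if_neg h1]
      ring

theorem dens_indep' {ε γ₀ : ℝ} {J : Finset ℕ} (hP : Par d ε γ₀ J) {g : RSt} (hg : Cls d ε γ₀ g)
    (K : Finset Key) (hK : ∀ k ∈ K, k.1 ∈ J ∧ 1 ≤ k.2.1.1)
    (hinj : ∀ k ∈ K, ∀ k' ∈ K, nu d g k.1 k.2.1 + nu d g k.1 k.2.2 =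
      nu d g k'.1 k'.2.1 + nu d g k'.1 k'.2.2 → k = k')
    (u : CT → ℝ) (hu : ∀ k ∈ K, k.2.2.1 = 0 → u (mk k false) = 0)
    (h : ∀ n, ∀ X ∈ Ioo (1 / 16 : ℝ) (1 / 8),
      ∑ k ∈ K, ∑ s, u (mk k s) * dens d g (mk k s) n X = 0) : ∀ k ∈ K, ∀ s, u (mk k s) = 0 := by
  intro k hk
  have h0 := (hK k hk).2
  have h1 := dens_indep hP hg K hK hinj u _ (h (k.2.1.1 + k.2.2.1)) k hk
  have h2 := dens_indep hP hg K hK hinj u _ (h (Nat.dist k.2.1.1 k.2.2.1)) k hk
  have p1 := eav_pos (k.2.1.1 + k.2.2.1)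
  have p2 := eav_pos (Nat.dist k.2.1.1 k.2.2.1)
  have key : u (mk k true) = 0 ∧ u (mk k false) = 0 := by
    by_cases hm : k.2.2.1 = 0
    · have h3 := hu k hk hm
      have e : Nat.dist k.2.1.1 k.2.2.1 = k.2.1.1 + k.2.2.1 := by
        unfold Nat.dist
        omega
      rw [e, h3, add_zero, sub_zero, ← add_mul] at h1
      exact ⟨(mul_eq_zero.1 h1).resolve_left (by positivity), h3⟩
    · have e : k.2.1.1 + k.2.2.1 ≠ Nat.dist k.2.1.1 k.2.2.1 := by
        unfold Nat.dist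
        omega
      rw [show eav (k.2.1.1 + k.2.2.1) (Nat.dist k.2.1.1 k.2.2.1) = 0 from if_neg e, zero_mul,
        zero_add] at h1
      rw [show eav (Nat.dist k.2.1.1 k.2.2.1) (k.2.1.1 + k.2.2.1) = 0 from if_neg e.symm, zero_mul,
        add_zero] at h2
      have h3 := (mul_eq_zero.1 h1).resolve_left p1.ne'
      have h4 := (mul_eq_zero.1 h2).resolve_left p2.ne'
      constructor <;> linarith
  intro s
  cases s
  · exact key.2
  · exact key.1

/-- equal frequency differences and equal exponent sums force equal eigenvalues -/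
theorem freq_eq (d : ℕ) {q a a' b b' : ℝ} (hq : 0 < q) (ha : 0 < a) (ha' : 0 < a') (hb : 0 < b)
    (hb' : 0 < b') (h1 : Real.sqrt (a + q) - Real.sqrt (a' + q) = Real.sqrt (b + q) - Real.sqrt (b' + q))
    (h2 : nuOf d a + nuOf d a' = nuOf d b + nuOf d b') : a = b ∧ a' = b' := by
  have key : ∀ {a a' b b' : ℝ}, 0 < a → 0 < a' → 0 < b' →
      Real.sqrt (a + q) - Real.sqrt (a' + q) = Real.sqrt (b + q) - Real.sqrt (b' + q) →
      nuOf d a + nuOf d a' = nuOf d b + nuOf d b' → ¬ a < b := by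
    intro a a' b b' ha ha' hb' h1 h2 hab
    have h3 : Real.sqrt (a + q) < Real.sqrt (b + q) := Real.sqrt_lt_sqrt (by linarith) (by linarith)
    have h4 : a' + q < b' + q := (Real.sqrt_lt_sqrt_iff (by linarith)).1 (by linarith)
    have h5 := nuOf_strictMono d ha.le hab
    have h6 := nuOf_strictMono d ha'.le (show a' < b' by linarith)
    linarith
  have e : a = b := le_antisymm (not_lt.1 (key hb hb' ha' h1.symm h2.symm))
    (not_lt.1 (key ha ha' hb' h1 h2))
  subst e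
  have h3 : Real.sqrt (a' + q) = Real.sqrt (b' + q) := by linarith
  have h4 := (Real.sqrt_inj (by linarith) (by linarith)).1 h3
  exact ⟨rfl, by linarith⟩

end FCtlAux
end Crest.Agent.R202
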