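import Crest.Agent.R202.FLow
import Crest.Agent.R202.FCtlAux

/-!
# Row 202, F4: off-diagonal directions and controls

Directions `(φ(X) Re z^r, 0)` with `φ` supported in `(1/16, 1/8)`, inside the round cap (`adm_ang`); there
`QD g F = QF (2φ H_r) (-2φ H_r) 0` (`bet d f 0 = -f`), so `qf_limit` gives the limit of
`QD g F (psi x) (psi x')` as `mS (φ · √X^r · Φ)`, with
`Φ = c [ (e₁ + σ e₂) 4X(1-X) P P' - (e₁ - σ e₂) m m' R R'/X ]`, `e₁ = eav r (dist m m')`, `e₂ = eav r (m+m')`,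
`σ = sgn s`, and `R, P` multiples of `capR, capP` (`cap_ident`, `nuOK`).
`exists_offdiag`: `r = m + m'`; `Φ` is not identically zero on `(1/16, 1/8)` (`indep_ctl` with one term,
`eq_zero_of_mS`); for the other parity the radial functions agree up to sign (`RadSol.prop`, `norm`);
the diagonal entries vanish by `QF_sec` (`eav r 0 = eav r (2m) = 0`).
`exists_ctl`: the limit functionals `Λ_r (χ, φ, n) = (2κ)⁻¹ ∫ χ e^{(κ-κ')τ} · lim QD` on the free vector
space over triples `(χ, φ, n)` are linearly independent: a relation holds for all `χ`, so it holds in each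
class of equal frequency `κ - κ'` (independence of real exponentials on an interval); inside a class
`λ_x + ` monotonicity: `κ_x - κ_{x'} = κ_y - κ_{y'}` and `ν_x + ν_{x'} = ν_y + ν_{y'}` force `λ_x = λ_y`,
`λ_{x'} = λ_{y'}` (`nuOf_strictMono`), i.e. the same `(j, x, x')` (`LowOK.inj`); merge the two parities of one
`(j, x, x')` into one term of `indep_ctl`: at `n = m + m'` its coefficient is `y₊ - y₋`, at `n = |m - m'|` it
is `y₊ + y₋` (up to non-zero factors; for `m' = 0` only `+` exists, and for terms with `n = m + m'` resp.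
`n = |m - m'|` use `σ = ± m m'`).  Independent functionals have a dual family (finitely many triples);
continuity in `(M, q)` at `(UU, q₀)` gives the tolerance.
-/

set_option autoImplicit false
open scoped ContDiff RealInnerProductSpace Topology
open MeasureTheory Set Filter Module
open Crest.GeometryTopology.CoordMetric
open Crest.Agent.R230 (E MP sph ev Harm)

noncomputable section
namespace Crest.Agent.R202

variable {d : ℕ} [NeZero d]

open FCtlAux

theorem exists_offdiag {ε γ₀ : ℝ} {J : Finset ℕ} (hP : Par d ε γ₀ J) {g : RSt} (hg : Cls d ε γ₀ g)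
    {j : ℕ} (hj : j ∈ J) {a b : ℕ × ℕ} (ha : 1 ≤ a.1) (hb : 1 ≤ b.1) (hab : a.1 ≠ b.1) :
    ∃ (F : St) (c : ℝ), Adm d F ∧ 0 < c ∧ ∀ᶠ M in UU, ∀ s : Bool,
      c ≤ |QD d j (toSt g) F (psi d (toSt g) j s a M) (psi d (toSt g) j s b M)| ∧
      QD d j (toSt g) F (psi d (toSt g) j s a M) (psi d (toSt g) j s a M) = 0 ∧
      QD d j (toSt g) F (psi d (toSt g) j s b M) (psi d (toSt g) j s b M) = 0 := by
  classical
  set n := a.1 + b.1 with hn
  have e1 : eav n (Nat.dist a.1 b.1) = 0 := if_neg (by unfold Nat.dist; omega)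
  have e2 : 0 < eav n n := eav_pos n
  have hneg : ∀ X, dens d g (j, false, a, b) n X = -dens d g (j, true, a, b) n X := fun X => by
    simp only [dens, sgn, e1, if_true, Bool.false_eq_true, if_false]
    ring
  -- a test function that sees the density
  obtain ⟨φ, hφ, hI⟩ : ∃ φ, Tst φ ∧
      mS d (fun X => φ X * (Real.sqrt X ^ n * dens d g (j, true, a, b) n X)) ≠ 0 := by
    by_contra hc
    push Not at hc
    have h1 := pointwise (d := d) (ι := Unit) Finset.univ (fun _ => 1)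
      (F := fun _ => dens d g (j, true, a, b) n) (fun _ _ => dens_cont hP hg hj n) n
      fun φ hφ => by simp [hc φ hφ]
    have h2 := dens_indep hP hg {(j, a, b)} (by simpa using ⟨hj, ha⟩) (by simp)
      (fun r => if r.2.1 = true then 1 else 0) n (fun X hX => by simpa [FCtlAux.mk] using h1 X hX)
      (j, a, b) (Finset.mem_singleton_self _)
    simp only [FCtlAux.mk, ← hn, e1, if_true, Bool.false_eq_true, if_false] at h2
    linarith
  have hlim : ∀ s : Bool, ∃ l : ℝ, l ≠ 0 ∧ Tendsto (fun M => QD d j (toSt g) (ang φ n)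
      (psi d (toSt g) j s a M) (psi d (toSt g) j s b M)) UU (𝓝 l) := fun s => by
    obtain ⟨ρ, hρ, h⟩ := lim_QD hP hg (r := (j, s, a, b)) hj (Or.inr ha) (Or.inr hb)
    refine ⟨_, mul_ne_zero hρ ?_, h φ hφ n⟩
    cases s
    · have : (fun X => φ X * (Real.sqrt X ^ n * dens d g (j, false, a, b) n X)) =
          fun X => -1 * (φ X * (Real.sqrt X ^ n * dens d g (j, true, a, b) n X)) := by
        funext X
        rw [hneg]
        ring
      rw [this, DLimAux.mS_const_mul]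
      simpa using hI
    · exact hI
  choose l hl0 hl using hlim
  have hdiag : ∀ (s : Bool) (x : ℕ × ℕ) (M : ℕ), n ≠ 0 → n ≠ x.1 + x.1 →
      QD d j (toSt g) (ang φ n) (psi d (toSt g) j s x M) (psi d (toSt g) j s x M) = 0 := by
    intro s x M h0 h1
    obtain ⟨p, hp⟩ := (psi_mem_Sec d (toSt g) j s x M).2
    have hc := hφ.1.continuous
    rw [QD_ang hg hφ, ← hp, QF_sec (A := fun X => 2 * φ X) (B := fun X => -2 * φ X) (C := fun _ => 0)
      (by fun_prop) (by fun_prop) continuous_const, Nat.dist_self,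
      show eav n 0 = 0 from if_neg h0, show eav n (x.1 + x.1) = 0 from if_neg h1]
    simp [mS]
  refine ⟨ang φ n, min |l true| |l false| / 2, hφ.adm n,
    half_pos (lt_min (abs_pos.2 (hl0 _)) (abs_pos.2 (hl0 _))), eventually_all.2 fun s => ?_⟩
  have hlt : min |l true| |l false| / 2 < |l s| := by
    have h1 : min |l true| |l false| ≤ |l s| := by
      cases s
      · exact min_le_right _ _
      · exact min_le_left _ _
    linarith [abs_pos.2 (hl0 s)]
  filter_upwards [(hl s).abs.eventually (lt_mem_nhds hlt)] with M hM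
  exact ⟨hM.le, hdiag s a M (by omega) (by omega), hdiag s b M (by omega) (by omega)⟩

namespace FCtlAux

/-- limit of `kap` -/
def kapI (d : ℕ) [NeZero d] (g : RSt) (q : ℝ) (j : ℕ) (x : ℕ × ℕ) : ℝ :=
  Real.sqrt (lamI d (toSt g) j x + q)

/-- the limit frequency of a constraint -/
def frq (d : ℕ) [NeZero d] (g : RSt) (q : ℝ) (r : CT) : ℝ :=
  kapI d g q r.1 r.2.2.1 - kapI d g q r.1 r.2.2.2

/-- independence of the limit functionals -/
theorem lim_indep {ε γ₀ Θ q₀ : ℝ} {J : Finset ℕ} (hP : Par d ε γ₀ J) {L Low : ℕ → Finset (ℕ × ℕ)}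
    {g : RSt} (hg : Cls d ε γ₀ g) (hLow : LowOK d J g Low Θ)
    (hL : ∀ j ∈ J, ∀ x ∈ L j, 1 ≤ x.1 ∧ x ∈ Low j) (hq : 0 < q₀) (T : Finset CT)
    (hT : ∀ r, r ∈ T ↔ IsCon J L Low r) (w : CT → ℝ)
    (h : ∀ χ, Prof χ → ∀ φ, Tst φ → ∀ n, ∑ r ∈ T, w r * (mom (frq d g q₀ r) χ *
      mS d fun X => φ X * (Real.sqrt X ^ n * dens d g r n X)) = 0) : ∀ r ∈ T, w r = 0 := by
  classical
  intro r₀ hr₀
  set b := frq d g q₀ r₀ with hb
  set S := T.filter fun r => frq d g q₀ r = b with hS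
  have h1 : ∀ n, ∀ X ∈ Ioo (1 / 16 : ℝ) (1 / 8), ∑ r ∈ S, w r * dens d g r n X = 0 := fun n =>
    pointwise (d := d) S w (F := fun r => dens d g r n)
      (fun r hr => dens_cont hP hg ((hT r).1 (Finset.mem_filter.1 hr).1).1 n) n fun φ hφ =>
      mom_indep T (frq d g q₀)
        (fun r => w r * mS d fun X => φ X * (Real.sqrt X ^ n * dens d g r n X)) (fun χ hχ => by
          rw [← h χ hχ φ hφ n]
          exact Finset.sum_congr rfl fun r _ => by ring) b
  set key : CT → Key := fun r => (r.1, r.2.2.1, r.2.2.2) with hkey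
  set K := S.image key with hK
  set u : CT → ℝ := fun r => if r ∈ S then w r else 0 with hu
  have hKm : ∀ k ∈ K, k.1 ∈ J ∧ k.2.1 ∈ L k.1 ∧ k.2.2 ∈ Low k.1 ∧
      kapI d g q₀ k.1 k.2.1 - kapI d g q₀ k.1 k.2.2 = b := fun k hk => by
    obtain ⟨r, hr, rfl⟩ := Finset.mem_image.1 hk
    obtain ⟨h2, h3⟩ := Finset.mem_filter.1 hr
    obtain ⟨h4, h5, h6, -⟩ := (hT r).1 h2
    exact ⟨h4, h5, (Finset.mem_filter.1 h6).1, h3⟩
  have h2 := dens_indep' hP hg K (fun k hk => ⟨(hKm k hk).1, (hL _ (hKm k hk).1 _ (hKm k hk).2.1).1⟩)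
    (fun k hk k' hk' e => by
      obtain ⟨a1, a2, a3, a4⟩ := hKm k hk
      obtain ⟨b1, b2, b3, b4⟩ := hKm k' hk'
      obtain ⟨e1, e2⟩ := freq_eq d hq (lam_pos hP hg a1 k.2.1) (lam_pos hP hg a1 k.2.2)
        (lam_pos hP hg b1 k'.2.1) (lam_pos hP hg b1 k'.2.2) (a4.trans b4.symm) e
      obtain ⟨f1, f2⟩ := hLow.inj _ a1 _ b1 _ (hL _ a1 _ a2).2 _ (hL _ b1 _ b2).2 e1
      obtain ⟨-, f3⟩ := hLow.inj _ a1 _ b1 _ a3 _ b3 e2
      exact Prod.ext f1 (Prod.ext f2 f3))
    u (fun k _ h0 => by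
      refine if_neg fun hk => ?_
      have h3 := (Finset.mem_filter.1 ((hT _).1 (Finset.mem_filter.1 hk).1).2.2.1).2
      rcases h3 with h3 | h3
      · exact absurd h3 (by simp [mk])
      · simp only [mk] at h3
        omega)
    (fun n X hX => by
      rw [← h1 n X hX, ← Finset.sum_product' (f := fun k s => u (mk k s) * dens d g (mk k s) n X)]
      symm
      refine Finset.sum_bij_ne_zero (fun r _ _ => (key r, r.2.1)) (fun r hr _ => ?_)
        (fun r _ _ r' _ _ e => ?_) (fun p _ hp => ?_) fun r hr _ => ?_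
      · exact Finset.mem_product.2 ⟨Finset.mem_image_of_mem key hr, Finset.mem_univ _⟩
      · exact congrArg (fun p : Key × Bool => mk p.1 p.2) e
      · have h3 : mk p.1 p.2 ∈ S := by
          by_contra hc
          exact hp (by simp [hu, hc])
        exact ⟨mk p.1 p.2, h3, by simpa [hu, h3] using hp, rfl⟩
      · show _ = u r * dens d g r n X
        simp [hu, hr])
  have hr₀' : r₀ ∈ S := Finset.mem_filter.2 ⟨hr₀, rfl⟩
  have h3 : u r₀ = 0 := h2 (key r₀) (Finset.mem_image_of_mem key hr₀') r₀.2.1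
  simpa [hu, hr₀'] using h3

theorem kap_tendsto {g : RSt} (hg : RAdm d g) (j : ℕ) (x : ℕ × ℕ) (q₀ : ℝ) :
    Tendsto (fun p : ℕ × ℝ => kap d g j p.1 p.2 x) (UU ×ˢ 𝓝 q₀) (𝓝 (kapI d g q₀ j x)) :=
  ((((lamM_tendsto (j := j) hg.adm x).mono_left UU_le).comp tendsto_fst).add tendsto_snd).sqrt

theorem cmat_eq (g : RSt) {V : Type} [Fintype V] (F : V → St) {χ : V → ℝ → ℝ}
    (hχ : ∀ v, Continuous (χ v)) (c : V → ℝ) (M : ℕ) (q : ℝ) (r : CT) :
    cmat d g F (fun v τ => c v * χ v τ) M q r = ∑ v, c v * ((2 * kap d g r.1 M q r.2.2.1)⁻¹ *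
      (mom (kap d g r.1 M q r.2.2.1 - kap d g r.1 M q r.2.2.2) (χ v) *
        QD d r.1 (toSt g) (F v) (psi d (toSt g) r.1 r.2.1 r.2.2.1 M)
          (psi d (toSt g) r.1 r.2.1 r.2.2.2 M))) := by
  unfold cmat
  simp only [Finset.mul_sum]
  rw [intervalIntegral.integral_finsetSum fun v _ => Continuous.intervalIntegrable
    (by have := hχ v; fun_prop) _ _, Finset.mul_sum]
  refine Finset.sum_congr rfl fun v _ => ?_
  rw [mul_left_comm (c v), mom, ← intervalIntegral.integral_mul_const,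
    ← intervalIntegral.integral_const_mul (c v)]
  congr 2
  funext τ
  ring

end FCtlAux

theorem exists_ctl {ε γ₀ Θ q₀ : ℝ} {J : Finset ℕ} (hP : Par d ε γ₀ J) {L Low : ℕ → Finset (ℕ × ℕ)}
    {g : RSt} (hg : Cls d ε γ₀ g) (hLow : LowOK d J g Low Θ)
    (hL : ∀ j ∈ J, ∀ x ∈ L j, 1 ≤ x.1 ∧ x ∈ Low j) (hq : 0 < q₀) :
    ∃ (n : ℕ) (F : Fin n → St) (χ : CT → Fin n → ℝ → ℝ), CtlOK d J L Low g q₀ F χ := by
  classical
  set T : Finset CT := (J ×ˢ Finset.univ ×ˢ J.biUnion L ×ˢ J.biUnion Low).filter (IsCon J L Low)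
    with hTdef
  have hT : ∀ r, r ∈ T ↔ IsCon J L Low r := fun r => by
    refine ⟨fun h => (Finset.mem_filter.1 h).2, fun h => Finset.mem_filter.2 ⟨?_, h⟩⟩
    simp only [Finset.mem_product, Finset.mem_univ, Finset.mem_biUnion, true_and]
    exact ⟨h.1, ⟨_, h.1, h.2.1⟩, _, h.1, (Finset.mem_filter.1 h.2.2.1).1⟩
  have hlim := fun r : T => lim_QD hP hg (r := r.1) ((hT _).1 r.2).1
    (Or.inr (hL _ ((hT _).1 r.2).1 _ ((hT _).1 r.2).2.1).1)
    (Finset.mem_filter.1 ((hT _).1 r.2).2.2.1).2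
  choose ρ hρ hlim using hlim
  have hκ : ∀ r : T, 0 < kapI d g q₀ r.1.1 r.1.2.2.1 := fun r =>
    Real.sqrt_pos.2 (add_pos (lam_pos hP hg ((hT _).1 r.2).1 _) hq)
  obtain ⟨n, t, c, hc⟩ := dual_family
    (T := {t : (ℝ → ℝ) × (ℝ → ℝ) × ℕ // Prof t.1 ∧ Tst t.2.1})
    (fun (r : T) t => (2 * kapI d g q₀ r.1.1 r.1.2.2.1)⁻¹ * (mom (frq d g q₀ r.1) t.1.1 *
      (ρ r * mS d fun X => t.1.2.1 X * (Real.sqrt X ^ t.1.2.2 * dens d g r.1 t.1.2.2 X))))
    fun y hy => by
      have h1 := lim_indep hP hg hLow hL hq T hT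
        (fun r => if h : r ∈ T then y ⟨r, h⟩ * ((2 * kapI d g q₀ r.1 r.2.2.1)⁻¹ * ρ ⟨r, h⟩) else 0)
        fun χ hχ φ hφ n => by
          rw [← hy ⟨(χ, φ, n), hχ, hφ⟩, ← T.sum_coe_sort]
          refine Finset.sum_congr rfl fun r _ => ?_
          rw [dif_pos r.2]
          ring
      funext r
      have h2 := h1 r.1 r.2
      rw [dif_pos r.2] at h2
      exact (mul_eq_zero.1 h2).resolve_right
        (mul_ne_zero (inv_ne_zero (mul_pos two_pos (hκ r)).ne') (hρ r))
  set c' : CT → Fin n → ℝ := fun r v => if h : r ∈ T then c ⟨r, h⟩ v else 0 with hc'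
  refine ⟨n, fun v => ang (t v).1.2.1 (t v).1.2.2, fun r v τ => c' r v * (t v).1.1 τ,
    fun v => (t v).2.2.adm _, fun r v => ⟨contDiff_const.mul (t v).2.1.1, fun τ hτ => ?_⟩,
    fun tol htol => ?_⟩
  · exact mul_eq_zero_of_right _ ((t v).2.1.2 τ hτ)
  have hev : ∀ᶠ p : ℕ × ℝ in UU ×ˢ 𝓝 q₀, ∀ r r' : T,
      |cmat d g (fun v => ang (t v).1.2.1 (t v).1.2.2) (fun v τ => c' r' v * (t v).1.1 τ) p.1 p.2 r -
        if r = r' then 1 else 0| ≤ tol := by
    refine eventually_all.2 fun r => eventually_all.2 fun r' => ?_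
    have k1 := kap_tendsto hg.radm r.1.1 r.1.2.2.1 q₀
    have k2 := kap_tendsto hg.radm r.1.1 r.1.2.2.2 q₀
    have h1 : Tendsto (fun p : ℕ × ℝ => cmat d g (fun v => ang (t v).1.2.1 (t v).1.2.2)
        (fun v τ => c' r' v * (t v).1.1 τ) p.1 p.2 r) (UU ×ˢ 𝓝 q₀) (𝓝 (if r = r' then 1 else 0)) := by
      rw [← hc r r']
      simp only [cmat_eq g _ fun v => (t v).2.1.1.continuous, hc', dif_pos r'.2]
      refine tendsto_finsetSum _ fun v _ => tendsto_const_nhds.mul
        (((tendsto_const_nhds.mul k1).inv₀ (mul_pos two_pos (hκ r)).ne').mul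
          ((((mom_cont (t v).2.1.1.continuous).tendsto _).comp (k1.sub k2)).mul
            ((hlim r _ (t v).2.2 _).comp tendsto_fst)))
    filter_upwards [Metric.tendsto_nhds.1 h1 tol htol] with p hp
    exact hp.le
  obtain ⟨pa, ha, pb, hb, hab⟩ := eventually_prod_iff.1 hev
  obtain ⟨δ, hδ, hb'⟩ := Metric.eventually_nhds_iff.1 hb
  refine ⟨δ / 2, half_pos hδ, ha.mono fun M hM q hq' r r' hr hr' => ?_⟩
  have := hab hM (hb' (y := q) (by
    rw [Real.dist_eq, abs_of_nonneg (by linarith [hq'.1])]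
    linarith [hq'.2])) ⟨r, (hT _).2 hr⟩ ⟨r', (hT _).2 hr'⟩
  simpa only [Subtype.mk.injEq] using this

end Crest.Agent.R202
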