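import Crest.Agent.R202.DSimple
import Crest.Agent.R202.APhase
import Crest.Agent.R202.AMatch

/-!
# Row 202: crossings, low labels, phases, controls (definitions)

Labels inside the block `j` are pairs `x = (m, k)`.  `J` is the finite set of blocks, `L j` the tracked
labels (`m ≥ 1`), `Low j` the labels below the threshold `Θ` at an event state.
-/

set_option autoImplicit false
open scoped ContDiff RealInnerProductSpace Topology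
open MeasureTheory Set Filter Module
open Crest.GeometryTopology.CoordMetric
open Crest.Agent.R230 (E MP sph ev Harm)

noncomputable section
namespace Crest.Agent.R202

/-- small symmetric states with a round cap `X ≤ 1/8` that they leave super-flatly -/
structure Cls (d : ℕ) (ε γ₀ : ℝ) (g : RSt) : Prop where
  radm : RAdm d g
  small : Small d ε γ₀ (toSt g)
  cap : ∀ X, X ≤ 1 / 8 → g.1 X = 0 ∧ g.2 X = 0
  flat : ∃ κ δ : ℝ, 0 < κ ∧ 0 < δ ∧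
    ∀ X ∈ Ioo (1 / 8 : ℝ) (1 / 8 + δ), g.1 X = κ * bfl (X - 1 / 8) ∧ g.2 X = 0

/-- the standing assumptions on the smallness parameters and the blocks -/
structure Par (d : ℕ) (ε γ₀ : ℝ) (J : Finset ℕ) : Prop where
  epos : 0 < ε
  eps : ε ≤ epsU d
  gpos : 0 < γ₀
  gam : γ₀ ≤ ε
  ok : ∀ j ∈ J, okJ d j
  gj : ∀ j ∈ J, γ₀ * (2 * ((j : ℝ) + 1)) ≤ 1

/-- the eigenvalues with labels `a`, `b` cross at some state of the class -/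
def Crossable (d : ℕ) [NeZero d] (ε γ₀ : ℝ) (j : ℕ) (a b : ℕ × ℕ) : Prop :=
  ∃ g, Cls d ε γ₀ g ∧ lamI d (toSt g) j a = lamI d (toSt g) j b

/-- the low labels that exist in the parity `s` -/
def lowS (Low : ℕ → Finset (ℕ × ℕ)) (j : ℕ) (s : Bool) : Finset (ℕ × ℕ) :=
  (Low j).filter fun x => okS s x.1

/-- `Low` is the set of labels below `Θ`, and their eigenvalues are all distinct -/
structure LowOK (d : ℕ) [NeZero d] (J : Finset ℕ) (g : RSt) (Low : ℕ → Finset (ℕ × ℕ)) (Θ : ℝ) :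
    Prop where
  lt : ∀ j ∈ J, ∀ x, x ∈ Low j ↔ lamI d (toSt g) j x < Θ
  inj : ∀ j ∈ J, ∀ j' ∈ J, ∀ x ∈ Low j, ∀ x' ∈ Low j',
    lamI d (toSt g) j x = lamI d (toSt g) j' x' → j = j' ∧ x = x'

/-- position of a low label in the natural order of its super-sector -/
def posI (d : ℕ) [NeZero d] (g : RSt) (Low : ℕ → Finset (ℕ × ℕ)) (j : ℕ) (s : Bool) (x : ℕ × ℕ) : ℕ :=
  ((lowS Low j s).filter fun x' => lamI d (toSt g) j x' < lamI d (toSt g) j x).card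

/-- the transposition of the labels `a, b` of the block `je` -/
def swp (je : ℕ) (a b : ℕ × ℕ) (j : ℕ) (x : ℕ × ℕ) : ℕ × ℕ := if j = je then Equiv.swap a b x else x

/-- a path `gp → G₀ → gm` with simple low spectrum in every super-sector that exchanges `a, b` -/
structure EdgeOK (d : ℕ) [NeZero d] (J : Finset ℕ) (ε γ₀ Θ₀ : ℝ) (je : ℕ) (a b : ℕ × ℕ)
    (gp gm : RSt) (G₀ : St) (Θ : ℝ) (Low : ℕ → Finset (ℕ × ℕ)) : Prop where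
  cp : Cls d ε γ₀ gp
  cm : Cls d ε γ₀ gm
  c0 : Small d ε γ₀ G₀
  lo : Θ₀ ≤ Θ
  lp : LowOK d J gp Low Θ
  lm : LowOK d J gm Low Θ
  gap : ∃ γ : ℝ, 0 < γ ∧ ∀ᶠ M in UU, ∀ j ∈ J, ∀ (s : Bool), ∀ τ ∈ Icc (0 : ℝ) 1, ∀ G : St,
    (G = (1 - τ) • toSt gp + τ • G₀ ∨ G = (1 - τ) • G₀ + τ • toSt gm) →
    ∀ n, 1 ≤ n → n ≤ (lowS Low j s).card →
      lamk (QG d j G) (WS d j s M) (n - 1) + γ ≤ lamk (QG d j G) (WS d j s M) n
  pos : ∀ j ∈ J, ∀ (s : Bool), ∀ x ∈ lowS Low j s,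
    swp je a b j x ∈ lowS Low j s ∧ posI d gp Low j s x = posI d gm Low j s (swp je a b j x)

/-- a time parametrisation of the path `Gl → Gm → Gr` on `[a, b]` with holds -/
structure TPath (Gl Gm Gr : St) (a u v b H δ η qlo qhi : ℝ) (G : ℝ → St) (q : ℝ → ℝ) : Prop where
  len : a + 2 * H ≤ b
  au : a ≤ u
  uv : u ≤ v
  vb : v ≤ b
  H0 : 0 ≤ H
  seg : ∀ t ∈ Icc a b, ∃ τ ∈ Icc (0 : ℝ) 1,
    G t = (1 - τ) • Gl + τ • Gm ∨ G t = (1 - τ) • Gm + τ • Gr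
  left : ∀ t ∈ Icc a (a + H), G t = Gl ∧ q t = q a
  mid : ∀ t ∈ Icc u v, G t = Gm
  right : ∀ t ∈ Icc (b - H) b, G t = Gr ∧ |q t - q b| ≤ η
  lip : ∀ s ∈ Icc a b, ∀ t ∈ Icc a b,
    (∀ z, |(G t).1 z - (G s).1 z| ≤ δ * |t - s| ∧ |(G t).2 z - (G s).2 z| ≤ δ * |t - s|) ∧
      |q t - q s| ≤ δ * |t - s|
  qr : ∀ t ∈ Icc a b, qlo ≤ q t ∧ q t ≤ qhi

/-- slopes of the growth majorant: `μs` outside the middle hold, `sl` on it -/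
structure TOm (a u v b μs sl : ℝ) (om : ℝ → ℝ) : Prop where
  out : ∀ s t, a ≤ s → s ≤ t → t ≤ b → (t ≤ u ∨ v ≤ s) → μs * (t - s) ≤ om t - om s
  mid : ∀ s t, u ≤ s → s ≤ t → t ≤ v → sl * (t - s) ≤ om t - om s

/-- the hypotheses of `phase_out` hold for some cell structure -/
def PhaseEx {W : Type} [NormedAddCommGroup W] [InnerProductSpace ℝ W] [FiniteDimensional ℝ W]
    {ι : Type} [Fintype ι] (κ₀ g μs μm δ η H : ℝ) (K : ℝ → W →L[ℝ] W) (a b : ℝ) (ψ : ι → W) (i₀ : ι)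
    (eL : W) (om : ℝ → ℝ) : Prop :=
  ∃ (γ : Type) (_ : Fintype γ) (_ : DecidableEq γ) (Cl : γ → Submodule ℝ W) (n : γ → ℕ)
    (cell : ι → γ) (m : ℕ), PhaseIn κ₀ g μs μm δ η H K a b Cl n ψ cell i₀ m eL om

/-- the low eigenvectors at the event state `g` -/
def psiL (d : ℕ) [NeZero d] (g : RSt) (Low : ℕ → Finset (ℕ × ℕ)) (j : ℕ) (s : Bool) (M : ℕ)
    (i : lowS Low j s) : WS d j s M := psiW d (toSt g) j s M i

/-- `√(λ + q)` -/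
def kap (d : ℕ) [NeZero d] (g : RSt) (j : ℕ) (M : ℕ) (q : ℝ) (x : ℕ × ℕ) : ℝ :=
  Real.sqrt (lamM d (toSt g) j x M + q)

/-- the tracked labels and the two levels `μs`, `Θ₀` -/
structure Lev (d : ℕ) (J : Finset ℕ) (L : ℕ → Finset (ℕ × ℕ)) (μs Θ₀ : ℝ) : Prop where
  one : ∀ j ∈ J, ∀ x ∈ L j, 1 ≤ x.1
  mu : ∀ j ∈ J, ∀ x ∈ L j,
    Real.sqrt (4 * ((ldeg j x : ℝ) * (ldeg j x + d)) + ((d : ℝ) / 2) ^ 2) + 2 ≤ μs
  mupos : 1 ≤ μs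
  th : 2 * (μs + 1) ^ 2 ≤ Θ₀

/-- index of a constraint: block, parity, tracked label, other low label -/
abbrev CT : Type := ℕ × Bool × (ℕ × ℕ) × (ℕ × ℕ)

/-- the constraints at an event -/
def IsCon (J : Finset ℕ) (L Low : ℕ → Finset (ℕ × ℕ)) (r : CT) : Prop :=
  r.1 ∈ J ∧ r.2.2.1 ∈ L r.1 ∧ r.2.2.2 ∈ lowS Low r.1 r.2.1 ∧ r.2.2.2 ≠ r.2.2.1

/-- first-order effect of the control `Σ_v χ v τ • F v` on the constraint `r` -/
def cmat (d : ℕ) [NeZero d] (g : RSt) {V : Type} [Fintype V] (F : V → St) (χ : V → ℝ → ℝ) (M : ℕ)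
    (q : ℝ) (r : CT) : ℝ :=
  (2 * kap d g r.1 M q r.2.2.1)⁻¹ * ∫ τ in (0 : ℝ)..1,
    Real.exp ((kap d g r.1 M q r.2.2.1 - kap d g r.1 M q r.2.2.2) * τ) *
      ∑ v, χ v τ * QD d r.1 (toSt g) (F v) (psi d (toSt g) r.1 r.2.1 r.2.2.1 M)
        (psi d (toSt g) r.1 r.2.1 r.2.2.2 M)

/-- time profiles supported in the middle of the event window -/
def Prof (χ : ℝ → ℝ) : Prop := ContDiff ℝ ∞ χ ∧ ∀ τ, τ ∉ Ioo (1 / 4 : ℝ) (3 / 4) → χ τ = 0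

/-- controls dual to the constraints -/
structure CtlOK (d : ℕ) [NeZero d] (J : Finset ℕ) (L Low : ℕ → Finset (ℕ × ℕ)) (g : RSt) (q₀ : ℝ)
    {V : Type} [Fintype V] (F : V → St) (χ : CT → V → ℝ → ℝ) : Prop where
  adm : ∀ v, Adm d (F v)
  prof : ∀ r v, Prof (χ r v)
  dual : ∀ tol : ℝ, 0 < tol → ∃ η₀ : ℝ, 0 < η₀ ∧ ∀ᶠ M in UU, ∀ q ∈ Icc q₀ (q₀ + η₀), ∀ r r',
    IsCon J L Low r → IsCon J L Low r' →
      |cmat d g F (χ r') M q r - if r = r' then 1 else 0| ≤ tol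

/-- the incoming eigenvector of the phase `p` -/
def eIn (d : ℕ) [NeZero d] (gs : ℕ → RSt) (lab : ℕ → ℕ × ℕ → ℕ → ℕ × ℕ) (j : ℕ) (s : Bool) (M : ℕ)
    (x : ℕ × ℕ) (e₀ : WS d j s M) : ℕ → WS d j s M
  | 0 => e₀
  | p + 1 => psiW d (toSt (gs p)) j s M (lab j x p)

/-- The spectral plan: vertices `F`, phases `lf p → md p → st p`, event states `gs p` with low sets
`Low p`, the label `lab j x p` at the event `p` of the trajectory that starts at `x`, controls `χ p`. -/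
structure PlanOK (d : ℕ) [NeZero d] (J : Finset ℕ) (L : ℕ → Finset (ℕ × ℕ))
    (ε γ₀ κ₀ μs θ₀ g₀ μ₀ η₀ : ℝ) {V R : Type} [Fintype V] [Fintype R] [DecidableEq R]
    (F : V → St) (lf md st : ℕ → V) (gs : ℕ → RSt) (Low : ℕ → ℕ → Finset (ℕ × ℕ))
    (lab : ℕ → ℕ × ℕ → ℕ → ℕ × ℕ) (χ : ℕ → R → V → ℝ → ℝ) (idx : ℕ → CT → R) (P : ℕ)
    (lg : ℕ → Bool) : Prop where
  g0 : 0 < g₀
  e0 : 0 < η₀
  adm : ∀ v, Adm d (F v)
  small : ∀ p, Small d ε γ₀ (F (lf p)) ∧ Small d ε γ₀ (F (md p)) ∧ Small d ε γ₀ (F (st p))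
  zero : F (lf 0) = 0
  md0 : md 0 = lf 0
  next : ∀ p, lf (p + 1) = st p
  ev : ∀ p, F (st p) = toSt (gs p) ∧ RAdm d (gs p)
  prof : ∀ p r v, Prof (χ p r v)
  bd : ∀ k : ℕ, ∃ B : ℝ, ∀ p r v τ, |iteratedDeriv k (χ p r v) τ| ≤ B
  labL : ∀ j ∈ J, ∀ x ∈ L j, ∀ p, lab j x p ∈ L j
  labinj : ∀ j ∈ J, ∀ x ∈ L j, ∀ x' ∈ L j, ∀ p, lab j x p = lab j x' p → x = x'
  labLow : ∀ j ∈ J, ∀ x ∈ L j, ∀ p s, x ∈ lowS (Low p) j s
  idxinj : ∀ p r r', IsCon J L (Low p) r → IsCon J L (Low p) r' → idx p r = idx p r' → r = r'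
  Ppos : 1 ≤ P
  per : ∀ p, lg (p + P) = lg p
  some : ∃ p, lg p = true
  avg : ∀ j ∈ J, ∀ x ∈ L j, ∀ r : ℕ,
    ∑ p ∈ (Finset.range P).filter (fun p => lg p = true), (ldeg j (lab j x (r * P + p)) : ℝ) ≤
      θ₀ * ((Finset.range P).filter fun p => lg p = true).card
  sec : ∃ c : ℝ, 0 < c ∧ ∀ p, lg p = true → F (md p) = 0 ∧ ∃ z : E 2, 0 < XX z ∧ XX z < 1 ∧
    bet d ((F (st p)).1 z) ((F (st p)).2 z) ≤ -c
  phase : ∀ᶠ M in UU, ∀ g μm : ℝ, 0 < g → g ≤ g₀ → μ₀ ≤ μm → ∀ p, ∀ j (hj : j ∈ J), ∀ (s : Bool),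
    ∀ x (hx : x ∈ L j), ∀ (e₀ : WS d j s M) (a u v b H δ η sl : ℝ) (G : ℝ → St) (q om : ℝ → ℝ),
    ‖e₀‖ = 1 → (e₀ : RP d j) ∈ Sec d j s x.1 M →
    EigF (QG d j 0) (WS d j s M) e₀ ((ldeg j x : ℝ) * (ldeg j x + d)) → 0 ≤ δ →
    TPath (F (lf p)) (F (md p)) (F (st p)) a u v b H δ η (κ₀ ^ 2) (((d : ℝ) / 2) ^ 2) G q →
    (Continuous fun t => KG d j s M (G t) (q t)) → TOm a u v b μs sl om →
    (lg p = false → u = v) → (lg p = true → (ldeg j (lab j x p) : ℝ) + d / 2 + 2 * g ≤ sl) →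
    PhaseEx κ₀ g μs μm (δ * (4 * d + 1 / κ₀ ^ 2)) η H (fun t => KG d j s M (G t) (q t)) a b
      (psiL d (gs p) (Low p) j s M) ⟨lab j x p, labLow j hj _ (labL j hj x hx p) p s⟩
      (eIn d gs lab j s M x e₀ p) om
  event : ∀ᶠ M in UU, ∀ p, ∀ j ∈ J, ∀ (s : Bool), Orthonormal ℝ (psiL d (gs p) (Low p) j s M) ∧
    ∀ x ∈ lowS (Low p) j s,
      EigF (QG d j (toSt (gs p))) (WS d j s M) (psi d (toSt (gs p)) j s x M)
        (lamM d (toSt (gs p)) j x M) ∧ kap d (gs p) j M (((d : ℝ) / 2) ^ 2) x ≤ μ₀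
  ctl : ∀ᶠ M in UU, ∀ p, ∀ q ∈ Icc (κ₀ ^ 2) (κ₀ ^ 2 + η₀), ∀ r, IsCon J L (Low p) r → ∀ r' : R,
    |cmat d (gs p) F (χ p r') M q r - if idx p r = r' then 1 else 0| ≤ 1 / (4 * Fintype.card R)

end Crest.Agent.R202
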