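import Crest.Agent.R202.ACluster

/-!
# Row 202, F5 (auxiliary): the abstract gap estimate round a double eigenvalue, and signs of
functions with a given first-order expansion
-/

set_option autoImplicit false
open scoped RealInnerProductSpace Topology
open Module Set Filter

noncomputable section
namespace Crest.Agent.R202.FEdgeAux

theorem pos_of_deriv {w : ℝ → ℝ} {w' : ℝ} (h : HasDerivAt w w' 0)
    (h0 : 0 < w 0 ∨ (w 0 = 0 ∧ 0 < w')) : ∀ᶠ σ in 𝓝[>] (0 : ℝ), 0 < w σ := by
  rcases h0 with h0 | ⟨h0, h1⟩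
  · exact nhdsWithin_le_nhds (h.continuousAt.eventually (lt_mem_nhds h0))
  · have h2 := (hasDerivAt_iff_tendsto_slope_zero.1 h).mono_left
      (nhdsWithin_mono (0 : ℝ) fun t (ht : t ∈ Ioi (0 : ℝ)) => (ne_of_gt ht : t ≠ 0))
    filter_upwards [h2.eventually (lt_mem_nhds h1), self_mem_nhdsWithin] with t ht ht0
    simp only [zero_add, h0, sub_zero, smul_eq_mul] at ht
    exact (mul_pos_iff_of_pos_left (inv_pos.2 ht0)).1 ht

theorem lt_iff_of_deriv {u v : ℝ → ℝ} {u' v' : ℝ} (hu : HasDerivAt u u' 0) (hv : HasDerivAt v v' 0)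
    (h : u 0 = v 0 → u' ≠ v') :
    ∀ᶠ σ in 𝓝[>] (0 : ℝ), (u σ < v σ ↔ (u 0 < v 0 ∨ (u 0 = v 0 ∧ u' < v'))) := by
  by_cases h1 : u 0 < v 0 ∨ (u 0 = v 0 ∧ u' < v')
  · filter_upwards [pos_of_deriv (hv.sub hu) (by
      rcases h1 with h1 | ⟨h1, h2⟩
      · left; simpa using h1
      · right; exact ⟨by simp [h1], by linarith⟩)] with σ hσ
    simp only [Pi.sub_apply, sub_pos] at hσ
    exact ⟨fun _ => h1, fun _ => hσ⟩
  · filter_upwards [pos_of_deriv (hu.sub hv) (by
      push Not at h1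
      rcases h1.1.eq_or_lt with h2 | h2
      · right
        exact ⟨by simp [h2], sub_pos.2 (lt_of_le_of_ne (h1.2 h2.symm) (h h2.symm).symm)⟩
      · left; simpa using h2)] with σ hσ
    simp only [Pi.sub_apply, sub_pos] at hσ
    exact ⟨fun h2 => absurd h2 hσ.not_gt, fun h2 => absurd h2 h1⟩

/-- a finite set of reals is uniformly separated -/
theorem exists_sep {ι : Type} (T : Finset ι) (f : ι → ℝ) (Θ : ℝ) : ∃ γ : ℝ, 0 < γ ∧
    (∀ i ∈ T, ∀ i' ∈ T, f i ≠ f i' → γ ≤ |f i - f i'|) ∧ ∀ i ∈ T, f i < Θ → f i + γ ≤ Θ := by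
  have h1 : ∀ c : ℝ, 0 < c → ∀ᶠ γ in 𝓝[>] (0 : ℝ), γ ≤ c := fun c hc =>
    nhdsWithin_le_nhds (ge_mem_nhds hc)
  have h2 : ∀ᶠ γ in 𝓝[>] (0 : ℝ), ∀ i ∈ T, ∀ i' ∈ T, f i ≠ f i' → γ ≤ |f i - f i'| := by
    rw [eventually_all_finset]
    intro i _
    rw [eventually_all_finset]
    intro i' _
    by_cases h : f i = f i'
    · exact Eventually.of_forall fun _ h' => absurd h h'
    · filter_upwards [h1 _ (abs_pos.2 (sub_ne_zero.2 h))] with γ hγ _ using hγ
  have h3 : ∀ᶠ γ in 𝓝[>] (0 : ℝ), ∀ i ∈ T, f i < Θ → f i + γ ≤ Θ := by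
    rw [eventually_all_finset]
    intro i _
    by_cases h : f i < Θ
    · filter_upwards [h1 _ (sub_pos.2 h)] with γ hγ _ using by linarith
    · exact Eventually.of_forall fun _ h' => absurd h' h
  obtain ⟨γ, ⟨a, b⟩, c⟩ := ((h2.and h3).and self_mem_nhdsWithin).exists
  exact ⟨γ, c, a, b⟩

/-- every position is either at the top of a level or in the middle of a double level -/
theorem exists_level {ι : Type} [Fintype ι] (lam : ι → ℝ) {n : ℕ} (h1 : 1 ≤ n)
    (h2 : n ≤ Fintype.card ι)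
    (h : ∀ i i', i ≠ i' → lam i = lam i' → ∀ i'', lam i'' = lam i → i'' = i ∨ i'' = i') :
    (∃ i, (Finset.univ.filter fun i' => lam i' ≤ lam i).card = n) ∨
      ∃ i i', i ≠ i' ∧ lam i = lam i' ∧ (Finset.univ.filter fun i' => lam i' < lam i).card + 1 = n := by
  classical
  have hne : (Finset.univ : Finset ι).Nonempty := Finset.card_pos.1 (by simpa using by omega)
  obtain ⟨j, -, hj⟩ := Finset.exists_max_image Finset.univ lam hne
  obtain ⟨i, hi, hmin⟩ := Finset.exists_min_image (Finset.univ.filter fun i =>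
    n ≤ (Finset.univ.filter fun i' => lam i' ≤ lam i).card) lam ⟨j, by
      simpa [Finset.filter_true_of_mem hj] using h2⟩
  have hi' := (Finset.mem_filter.1 hi).2
  have hlt : (Finset.univ.filter fun i' => lam i' < lam i).card < n := by
    refine not_le.1 fun hle => ?_
    obtain ⟨l, hl, hmax⟩ := Finset.exists_max_image (Finset.univ.filter fun i' => lam i' < lam i) lam
      (Finset.card_pos.1 (by omega))
    refine (hmin l (Finset.mem_filter.2 ⟨Finset.mem_univ _, hle.trans (Finset.card_le_card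
      fun a ha => Finset.mem_filter.2 ⟨Finset.mem_univ _, hmax a ha⟩)⟩)).not_gt
      (Finset.mem_filter.1 hl).2
  by_cases he : (Finset.univ.filter fun i' => lam i' ≤ lam i).card = n
  · exact Or.inl ⟨i, he⟩
  right
  by_cases hd : ∃ i', i ≠ i' ∧ lam i = lam i'
  · obtain ⟨i', hne, heq⟩ := hd
    refine ⟨i, i', hne, heq, ?_⟩
    have hsub : (Finset.univ.filter fun i' => lam i' ≤ lam i) ⊆
        insert i (insert i' (Finset.univ.filter fun i' => lam i' < lam i)) := by
      intro l hl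
      simp only [Finset.mem_filter, Finset.mem_univ, true_and, Finset.mem_insert] at hl ⊢
      rcases hl.eq_or_lt with h3 | h3
      · rcases h i i' hne heq l h3 with h4 | h4
        · exact Or.inl h4
        · exact Or.inr (Or.inl h4)
      · exact Or.inr (Or.inr h3)
    have := (Finset.card_le_card hsub).trans ((Finset.card_insert_le _ _).trans
      (Nat.add_le_add_right (Finset.card_insert_le _ _) 1))
    omega
  · exfalso
    push Not at hd
    have hsub : (Finset.univ.filter fun i' => lam i' ≤ lam i) ⊆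
        insert i (Finset.univ.filter fun i' => lam i' < lam i) := by
      intro l hl
      simp only [Finset.mem_filter, Finset.mem_univ, true_and, Finset.mem_insert] at hl ⊢
      rcases hl.eq_or_lt with h3 | h3
      · left
        by_contra h4
        exact hd l (Ne.symm h4) h3.symm
      · exact Or.inr h3
    have := (Finset.card_le_card hsub).trans (Finset.card_insert_le _ _)
    omega

section
variable {X : Type} [NormedAddCommGroup X] [InnerProductSpace ℝ X]
  {Q : X →ₗ[ℝ] X →ₗ[ℝ] ℝ} {S : Submodule ℝ X} {ι : Type} [Fintype ι] {ψ : ι → X} {μ : ι → ℝ}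

omit [Fintype ι] in
theorem span_le_S (heig : ∀ i, EigF Q S (ψ i) (μ i)) (p : ι → Prop) :
    Submodule.span ℝ (range fun j : Subtype p => ψ j) ≤ S :=
  Submodule.span_le.2 (by rintro _ ⟨j, rfl⟩; exact (heig j).1)

theorem finrank_span (hψ : Orthonormal ℝ ψ) (p : ι → Prop) [DecidablePred p] :
    finrank ℝ (Submodule.span ℝ (range fun j : Subtype p => ψ j)) =
      (Finset.univ.filter p).card := by
  rw [finrank_span_eq_card (b := fun j : Subtype p => ψ j)
    (hψ.linearIndependent.comp _ Subtype.val_injective), Fintype.card_subtype]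

theorem span_upper (hψ : Orthonormal ℝ ψ) (heig : ∀ i, EigF Q S (ψ i) (μ i)) {p : ι → Prop}
    {r : ℝ} (h : ∀ i, p i → μ i ≤ r) {u : X}
    (hu : u ∈ Submodule.span ℝ (range fun j : Subtype p => ψ j)) : Q u u ≤ r * ‖u‖ ^ 2 := by
  classical
  obtain ⟨c, h0, a1, a2⟩ := ASpec_expand
    (fun a b h => hψ.2 fun h' => h (Subtype.ext h')) (fun j : Subtype p => heig j) hu
  rw [a1, a2, Finset.mul_sum]
  exact Finset.sum_le_sum fun j _ => mul_le_mul_of_nonneg_right (h j j.2) (h0 j)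

theorem span_lower (hψ : Orthonormal ℝ ψ) (heig : ∀ i, EigF Q S (ψ i) (μ i)) {p : ι → Prop}
    {r : ℝ} (h : ∀ i, p i → r ≤ μ i) {u : X}
    (hu : u ∈ Submodule.span ℝ (range fun j : Subtype p => ψ j)) : r * ‖u‖ ^ 2 ≤ Q u u := by
  classical
  obtain ⟨c, h0, a1, a2⟩ := ASpec_expand
    (fun a b h => hψ.2 fun h' => h (Subtype.ext h')) (fun j : Subtype p => heig j) hu
  rw [a1, a2, Finset.mul_sum]
  exact Finset.sum_le_sum fun j _ => mul_le_mul_of_nonneg_right (h j j.2) (h0 j)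

omit [Fintype ι] in
theorem span_zero (heig : ∀ i, EigF Q S (ψ i) (μ i)) {p : ι → Prop} {u w : X}
    (hu : u ∈ Submodule.span ℝ (range fun j : Subtype p => ψ j)) (hw : w ∈ S)
    (ho : ∀ v ∈ Submodule.span ℝ (range fun j : Subtype p => ψ j), ⟪v, w⟫ = 0) : Q u w = 0 := by
  induction hu using Submodule.span_induction with
  | mem v hv =>
    obtain ⟨i, rfl⟩ := hv
    rw [(heig i).2 w hw, ho _ (Submodule.subset_span ⟨i, rfl⟩), mul_zero]
  | zero => simp
  | add v v' _ _ h1 h2 => simp [h1, h2]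
  | smul c v _ h1 => simp [h1]

end

/-- the gap estimate along the exchange path -/
theorem gap_abs {C γ Λ c : ℝ} (hC : 0 ≤ C) (hγ : 0 < γ) (hΛ : 0 ≤ Λ) (hc : 0 < c) :
    ∃ σ₁ : ℝ, 0 < σ₁ ∧ ∀ σ, 0 < σ → σ ≤ σ₁ → ∃ ζ γ' : ℝ, 0 < ζ ∧ 0 < γ' ∧
    ∀ {X : Type} [NormedAddCommGroup X] [InnerProductSpace ℝ X] (Q₀ Q₁ Q : X →ₗ[ℝ] X →ₗ[ℝ] ℝ)
      (S : Submodule ℝ X) [FiniteDimensional ℝ S] {ι : Type} [Fintype ι] (ψ : ι → X)
      (μ lam : ι → ℝ) (Θ : ℝ), SymF Q₀ → SymF Q₁ → SymF Q → Θ ≤ Λ → Orthonormal ℝ ψ →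
      (∀ i, EigF Q₀ S (ψ i) (μ i)) → (∀ i, |μ i - lam i| ≤ ζ) → (∀ i, lam i + γ ≤ Θ) →
      (∀ u ∈ S, (∀ i, ⟪ψ i, u⟫ = 0) → Θ * ‖u‖ ^ 2 ≤ Q₀ u u) → Fintype.card ι < finrank ℝ S →
      (∀ u ∈ S, 0 ≤ Q₀ u u) → (∀ u ∈ S, |Q₁ u u| ≤ C * Q₀ u u) →
      (∀ u ∈ S, |Q u u - Q₀ u u - σ * Q₁ u u| ≤ C * σ ^ 2 * Q₀ u u) →
      (∀ i i', lam i ≠ lam i' → γ ≤ |lam i - lam i'|) →
      (∀ i i', i ≠ i' → lam i = lam i' →
        c ≤ Real.sqrt ((Q₁ (ψ i) (ψ i) - Q₁ (ψ i') (ψ i')) ^ 2 + 4 * Q₁ (ψ i) (ψ i') ^ 2) ∧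
        ∀ i'', lam i'' = lam i → i'' = i ∨ i'' = i') →
      ∀ n, 1 ≤ n → n ≤ Fintype.card ι → lamk Q S (n - 1) + γ' ≤ lamk Q S n := by
  obtain ⟨ε₁, C', hε₁, hC', H⟩ := lamk_cluster (C := C) (γ := γ / 2) (Λ := Λ) hC (by positivity) hΛ
  refine ⟨min (min ε₁ 1) (min (c / (8 * (C' + 1))) (γ / (8 * (C + 1) * (2 * Λ + γ)))),
    by positivity, fun σ hσ hσ₁ => ⟨min (γ / 8) (σ * c / 8), min (γ / 2) (σ * c / 2),
      by positivity, by positivity, ?_⟩⟩
  intro X _ _ Q₀ Q₁ Q S _ ι _ ψ μ lam Θ s0 s1 s2 hΘΛ hψ heig hμ hlam hΘ hcard hpos hQ₁ hQ hsep hdbl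
    n hn1 hn2
  classical
  have σ1 : σ ≤ ε₁ := hσ₁.trans ((min_le_left _ _).trans (min_le_left _ _))
  have σ2 : σ ≤ 1 := hσ₁.trans ((min_le_left _ _).trans (min_le_right _ _))
  have σ3 : σ ≤ c / (8 * (C' + 1)) := hσ₁.trans ((min_le_right _ _).trans (min_le_left _ _))
  have σ4 : σ ≤ γ / (8 * (C + 1) * (2 * Λ + γ)) :=
    hσ₁.trans ((min_le_right _ _).trans (min_le_right _ _))
  rw [le_div_iff₀ (by positivity)] at σ3 σ4
  set ζ := min (γ / 8) (σ * c / 8) with hζ
  have ζ0 : 0 ≤ ζ := by positivity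
  have ζ1 : ζ ≤ γ / 8 := min_le_left _ _
  have ζ2 : ζ ≤ σ * c / 8 := min_le_right _ _
  have hμ1 : ∀ i, μ i ≤ lam i + ζ := fun i => by linarith [(abs_le.1 (hμ i)).2]
  have hμ2 : ∀ i, lam i - ζ ≤ μ i := fun i => by linarith [(abs_le.1 (hμ i)).1]
  have hsep' : ∀ i i', lam i < lam i' → lam i + γ ≤ lam i' := fun i i' h => by
    have := hsep i i' h.ne
    rw [abs_of_neg (sub_neg.2 h)] at this
    linarith
  rcases exists_level lam hn1 hn2 (fun i i' h1 h2 => (hdbl i i' h1 h2).2) with ⟨i, hi⟩ |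
    ⟨i, i', hne, heq, hn⟩
  · -- a gap of the unperturbed form
    set η := 2 * C * σ with hη
    have η0 : 0 ≤ η := by positivity
    have η1 : η * (2 * Λ + γ) ≤ γ / 4 := by
      have : 0 ≤ σ * (2 * Λ + γ) := by positivity
      rw [hη]; nlinarith
    have η2 : η ≤ 1 := by nlinarith
    have hcl : ∀ u ∈ S, |Q u u - Q₀ u u| ≤ η * Q₀ u u := fun u hu => by
      have a1 := hQ u hu
      have a2 := hQ₁ u hu
      have a3 := hpos u hu
      have a4 : |σ * Q₁ u u| ≤ σ * (C * Q₀ u u) := by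
        rw [abs_mul, abs_of_pos hσ]; exact mul_le_mul_of_nonneg_left a2 hσ.le
      have a5 : C * σ ^ 2 * Q₀ u u ≤ C * σ * Q₀ u u :=
        mul_le_mul_of_nonneg_right (mul_le_mul_of_nonneg_left (by nlinarith) hC) a3
      have a6 := abs_add_le (Q u u - Q₀ u u - σ * Q₁ u u) (σ * Q₁ u u)
      rw [sub_add_cancel] at a6
      rw [hη]; linarith
    have hrk := finrank_span hψ fun i' => lam i' ≤ lam i
    rw [hi] at hrk
    have hTS := span_le_S heig fun i' => lam i' ≤ lam i
    have up : lamk Q S (n - 1) ≤ (1 + η) * (lam i + ζ) := by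
      refine lamk_le hTS (by omega) fun u hu => ?_
      have b1 := span_upper hψ heig (r := lam i + ζ) (fun l hl => by linarith [hμ1 l]) hu
      have b2 := (abs_le.1 (hcl u (hTS hu))).2
      nlinarith
    have lo : (1 - η) * (lam i + γ - ζ) ≤ lamk Q S n := by
      have h4 := Submodule.finrank_add_inf_finrank_orthogonal hTS
      rw [hrk] at h4
      refine le_lamk (U := (Submodule.span ℝ (range fun j : {l // lam l ≤ lam i} => ψ j))ᗮ ⊓ S)
        inf_le_right (by omega) (by omega) fun u hu => ?_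
      have b1 := ASpec_decomp s0 hψ heig hΘ hu.2 (r := lam i + γ - ζ) (by linarith [hlam i])
        fun l hl => by
          have : lam i < lam l := not_le.1 fun hp => hl (Submodule.inner_right_of_mem_orthogonal
            (Submodule.subset_span (mem_range_self
              (f := fun j : {l // lam l ≤ lam i} => ψ j) ⟨l, hp⟩)) hu.1)
          linarith [hsep' i l this, hμ2 l]
      have b2 := (abs_le.1 (hcl u hu.2)).1
      nlinarith
    have t1 : lam i ≤ Λ := by linarith [hlam i]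
    have : min (γ / 2) (σ * c / 2) ≤ γ / 2 := min_le_left _ _
    nlinarith
  · -- the double level
    obtain ⟨hsq, hthird⟩ := hdbl i i' hne heq
    set A : Submodule ℝ X := Submodule.span ℝ (range fun j : {l // lam l < lam i} => ψ j) with hA
    set Z : Submodule ℝ X := Submodule.span ℝ (range fun j : {l // lam l = lam i} => ψ j) with hZ
    have hZ' : Z = Submodule.span ℝ {ψ i, ψ i'} := by
      rw [hZ]
      congr 1
      ext v
      simp only [mem_range, mem_insert_iff, mem_singleton_iff]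
      constructor
      · rintro ⟨l, rfl⟩
        rcases hthird l l.2 with h | h
        · left; rw [h]
        · right; rw [h]
      · rintro (rfl | rfl)
        · exact ⟨⟨i, rfl⟩, rfl⟩
        · exact ⟨⟨i', heq.symm⟩, rfl⟩
    have hAS : A ≤ S := span_le_S heig _
    have hZS : Z ≤ S := span_le_S heig _
    have : FiniteDimensional ℝ (A ⊔ Z : Submodule ℝ X) :=
      Submodule.finiteDimensional_of_le (sup_le hAS hZS)
    set B : Submodule ℝ X := (A ⊔ Z)ᗮ ⊓ S with hB
    have hsum : A ⊔ Z ⊔ B = S :=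
      Submodule.sup_orthogonal_inf_of_hasOrthogonalProjection (sup_le hAS hZS)
    have hAZ : A ⟂ Z := by
      rw [hA, hZ, Submodule.isOrtho_span]
      rintro _ ⟨l, rfl⟩ _ ⟨l', rfl⟩
      exact hψ.2 fun h => by
        have h1 := l.2
        have h2 := l'.2
        rw [← h] at h2
        exact h1.ne h2
    have hB' : (A ⊔ Z) ⟂ B := (Submodule.isOrtho_orthogonal_right _).mono_right inf_le_left
    have hAB : A ⟂ B := hB'.mono_left le_sup_left
    have hZB : Z ⟂ B := hB'.mono_left le_sup_right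
    have hfA : finrank ℝ A = n - 1 := by
      rw [hA, finrank_span hψ]; omega
    have hfZ : finrank ℝ Z = 2 := by
      rw [hZ, finrank_span hψ]
      have : (Finset.univ.filter fun l => lam l = lam i) = {i, i'} := by
        ext l
        simp only [Finset.mem_filter, Finset.mem_univ, true_and, Finset.mem_insert,
          Finset.mem_singleton]
        exact ⟨hthird l, by rintro (rfl | rfl); exacts [rfl, heq.symm]⟩
      rw [this, Finset.card_pair hne]
    have main := H Q₀ Q₁ Q S A Z B σ (lam i) ζ s0 s1 s2 hσ.le σ1 ζ0 (by linarith)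
      (by linarith [hlam i]) hsum hAZ hAB hZB
      (fun u hu w hw => span_zero heig hu (hZS hw) fun v hv => hAZ.inner_eq hv hw)
      (fun u hu w hw => span_zero heig hu hw.2 fun v hv => hAB.inner_eq hv hw)
      (fun u hu w hw => span_zero heig hu hw.2 fun v hv => hZB.inner_eq hv hw)
      hpos
      (fun u hu => span_upper hψ heig (fun l hl => by linarith [hsep' l i hl, hμ1 l]) hu)
      (fun u hu => by
        have b1 := span_upper hψ heig (r := lam i + ζ) (fun l hl => by linarith [hμ1 l]) hu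
        have b2 := span_lower hψ heig (r := lam i - ζ) (fun l hl => by linarith [hμ2 l]) hu
        rw [abs_le]; constructor <;> linarith)
      (fun u hu => ASpec_decomp s0 hψ heig hΘ hu.2 (by linarith [hlam i]) fun l hl => by
        have : lam i < lam l := by
          rcases lt_trichotomy (lam l) (lam i) with h | h | h
          · exact absurd (hAB.inner_eq (Submodule.subset_span ⟨⟨l, h⟩, rfl⟩) hu) hl
          · exact absurd (hZB.inner_eq (Submodule.subset_span ⟨⟨l, h⟩, rfl⟩) hu) hl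
          · exact h
        linarith [hsep' i l this, hμ2 l])
      hQ₁ hQ
    have m0 := (abs_le.1 (main 0 (by omega))).2
    have m1 := (abs_le.1 (main 1 (by omega))).1
    rw [hfA] at m0 m1
    rw [add_zero] at m0
    rw [show n - 1 + 1 = n by omega] at m1
    have m2 := lamk_two_dim s1 (hψ.1 i) (hψ.1 i') (hψ.2 hne)
    rw [← hZ'] at m2
    have m3 : σ * c ≤ σ * (lamk Q₁ Z 1 - lamk Q₁ Z 0) := by
      rw [m2]; exact mul_le_mul_of_nonneg_left hsq hσ.le
    have m4 : C' * σ ^ 2 ≤ σ * c / 8 := by nlinarith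
    have : min (γ / 2) (σ * c / 2) ≤ σ * c / 2 := min_le_right _ _
    nlinarith

end Crest.Agent.R202.FEdgeAux
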