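import Crest.Agent.R202.FClean
import Crest.Agent.R202.FCtl
import Crest.Agent.R202.FEdgeAux

/-!
# Row 202, F5: the exchange path round a clean crossing

Take `N` from `exists_box` for `Θ₀ + 2`, a clean crossing `g` (`exists_clean`), `Θ ∈ [Θ₀, Θ₀+1]` different from
the finitely many values `lamI g j x` (`j ∈ J`, `x ∈ box N`), `Low j = {x ∈ box N | lamI g j x < Θ}`, `f₀` from
`exists_split`, `F₁` from `exists_offdiag`, and put `gp = g + σ f₀`, `gm = g - σ f₀`, `G₀ = toSt g + σ F₁` for a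
small `σ > 0`.  `LowOK`: `lam_taylor` (coincident values split at first order, the others stay apart and on
their side of `Θ`; outside the box everything is `≥ Θ₀ + 2`).  `pos`: the order of two low labels of one block is
the same at `gp`, `gm` and `g` unless they are `a, b`, whose order is reversed and which are adjacent.
`gap`: a point of the path is `toSt g + σ D` with `D = ±(1-τ) f₀ + τ F₁`-type direction; use `lamk_cluster`
at `Q₀ = QG (toSt g)` in `WS d j s M` (`low_gal`) with `Z` the span of one low `psi`, or of `psi a, psi b`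
(`ζ → 0` as `M → ∞`), `Q₁ = QD D`; for the pair `lamk_two_dim` gives the gap
`σ √((1-τ)² (d_a - d_b)² + 4τ² e²) - 2ζ - 2C σ²` since `QD f₀` is diagonal in the sectors (`QF_sec`, or
`QG_sec_orth` differentiated: `QD (toSt f₀)` is a `QF` with radial weights) and the diagonal entries of
`QD F₁` vanish (`exists_offdiag`; `a.1 ≠ b.1` by `lamI_strict` at the crossing).  The gap to the first high value
comes from the margin around `Θ` (`lamk_count`, `QG_lip`, `lamk_le_of_le`).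
-/

set_option autoImplicit false
open scoped ContDiff RealInnerProductSpace Topology
open MeasureTheory Set Filter Module
open Crest.GeometryTopology.CoordMetric
open Crest.Agent.R230 (E MP sph ev Harm)

noncomputable section
namespace Crest.Agent.R202

variable {d : ℕ} [NeZero d]

namespace FEdgeAux

theorem QD_sec_orth {j : ℕ} {g f : RSt} (hg : RAdm d g) (hf : RAdm d f) (s : Bool) (M : ℕ) {m m' : ℕ}
    (h : m ≠ m') {u w : RP d j} (hu : u ∈ Sec d j s m M) (hw : w ∈ Sec d j s m' M) :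
    QD d j (toSt g) (toSt f) u w = 0 := by
  obtain ⟨-, p, rfl⟩ := hu
  obtain ⟨-, p', rfl⟩ := hw
  have h1 := hg.s1.continuous
  have h2 := hg.s2.continuous
  have h3 := hf.s1.continuous
  have h4 := hf.s2.continuous
  have key := QF_sec (d := d) (j := j) (A := fun X => 2 * f.1 X * Real.exp (2 * g.1 X))
    (B := fun X => 2 * bet d (f.1 X) (f.2 X) * Real.exp (2 * bet d (g.1 X) (g.2 X)))
    (C := fun X => 2 * f.2 X * Real.exp (2 * g.2 X))
    (by fun_prop) (by unfold bet; fun_prop) (by fun_prop) 0 s m m' p p'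
  simp only [BSecAux.Hp_true_zero, R230.ev_one, mul_one, (BSecAux.eav_ne h).1,
    (BSecAux.eav_ne h).2] at key
  refine Eq.trans key ?_
  simp [mS]

theorem dir_bdd {f : RSt} (hf : f ∈ Dir) : ∃ K : ℝ, 0 < K ∧ ∀ X, |f.1 X| ≤ K ∧ |f.2 X| ≤ K := by
  obtain ⟨h1, h2, a, b, -, -, h⟩ := hf
  obtain ⟨K₁, hK₁⟩ := (isCompact_Icc (a := a) (b := b)).exists_bound_of_continuousOn
    h1.continuous.continuousOn
  obtain ⟨K₂, hK₂⟩ := (isCompact_Icc (a := a) (b := b)).exists_bound_of_continuousOn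
    h2.continuous.continuousOn
  refine ⟨|K₁| + |K₂| + 1, by positivity, fun X => ?_⟩
  have a1 := abs_nonneg K₁
  have a2 := abs_nonneg K₂
  by_cases hX : X ∈ Icc a b
  · have b1 := (hK₁ X hX).trans (le_abs_self _)
    have b2 := (hK₂ X hX).trans (le_abs_self _)
    rw [Real.norm_eq_abs] at b1 b2
    constructor <;> linarith
  · rw [(h X hX).1, (h X hX).2, abs_zero]
    constructor <;> linarith

theorem hasDerivAt_lamI {j : ℕ} (hj : okJ d j) {ε γ₀ : ℝ} (hε : ε ≤ epsU d) (hγ : γ₀ ≤ ε) {g : RSt}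
    (hg : RAdm d g) (hs : Small d ε γ₀ (toSt g)) {x : ℕ × ℕ} {R P : ℝ → ℝ}
    (h : EigLim d g j true x R P) {f : RSt} (hf : f ∈ Dir) :
    HasDerivAt (fun σ : ℝ => lamI d (toSt (g + σ • f)) j x) (dlam d g j x.1 R P f) 0 := by
  obtain ⟨C, r₀, hC, hr₀, H⟩ := lam_taylor hj hε hγ hg hs h
  obtain ⟨L, hL⟩ := exists_dlam hg h
  obtain ⟨K, hK, hb⟩ := dir_bdd hf
  have hlin : ∀ σ : ℝ, dlam d g j x.1 R P (σ • f) = σ * dlam d g j x.1 R P f := fun σ => by
    have e1 := hL (σ • ⟨f, hf⟩)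
    rw [map_smul, hL] at e1
    exact e1.symm
  rw [hasDerivAt_iff_isLittleO_nhds_zero]
  refine Asymptotics.IsBigO.trans_isLittleO (g := fun σ : ℝ => σ ^ 2) ?_
    (Asymptotics.isLittleO_pow_id (by norm_num))
  refine Asymptotics.IsBigO.of_bound (C * K ^ 2) ?_
  have ev : ∀ᶠ σ : ℝ in 𝓝 0, K * |σ| ≤ r₀ := by
    have : Continuous fun σ : ℝ => K * |σ| := by fun_prop
    exact this.continuousAt.eventually (ge_mem_nhds (by simpa using hr₀))
  filter_upwards [ev] with σ hσ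
  have := H (σ • f) (Dir.smul_mem σ hf) (K * |σ|) (by positivity) hσ fun X => by
    simp only [Prod.smul_fst, Prod.smul_snd, Pi.smul_apply, smul_eq_mul, abs_mul, mul_comm K]
    exact ⟨mul_le_mul_of_nonneg_left (hb X).1 (abs_nonneg _),
      mul_le_mul_of_nonneg_left (hb X).2 (abs_nonneg _)⟩
  rw [hlin] at this
  simp only [zero_add, zero_smul, add_zero, smul_eq_mul, Real.norm_eq_abs, abs_pow, sq_abs]
  refine this.trans (le_of_eq ?_)
  rw [mul_pow, sq_abs]; ring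

theorem sqrt_lower {α β δ e c δ₀ : ℝ} (h : |α| + |β| = 1) (h1 : δ₀ / 2 ≤ |δ|) (h2 : c ≤ |e|)
    (h3 : 0 ≤ δ₀) (h4 : 0 ≤ c) :
    min (δ₀ / 4) c ≤ Real.sqrt ((α * δ) ^ 2 + 4 * (β * e) ^ 2) := by
  refine Real.le_sqrt_of_sq_le ?_
  have m0 : 0 ≤ min (δ₀ / 4) c := by positivity
  rcases le_total (1 / 2) |α| with h5 | h5
  · have : min (δ₀ / 4) c ≤ |α * δ| := by
      rw [abs_mul]
      nlinarith [min_le_left (δ₀ / 4) c]
    have := pow_le_pow_left₀ m0 this 2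
    rw [sq_abs] at this
    nlinarith [sq_nonneg (β * e)]
  · have : min (δ₀ / 4) c ≤ 2 * |β * e| := by
      rw [abs_mul]
      nlinarith [min_le_right (δ₀ / 4) c]
    have := pow_le_pow_left₀ m0 this 2
    rw [mul_pow, sq_abs] at this
    nlinarith [sq_nonneg (α * δ)]

theorem gap_path {ε γ₀ : ℝ} {J : Finset ℕ} (hP : Par d ε γ₀ J) {g : RSt} (hg : Cls d ε γ₀ g)
    {je : ℕ} (hje : je ∈ J) {a b : ℕ × ℕ} (ha : 1 ≤ a.1) (hb : 1 ≤ b.1) (hab : a.1 ≠ b.1)
    {f : RSt} (hf : f ∈ Dir) {F : St} {c : ℝ} (hF : Adm d F) (hc : 0 < c)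
    (hoff : ∀ᶠ M in UU, ∀ s : Bool,
      c ≤ |QD d je (toSt g) F (psi d (toSt g) je s a M) (psi d (toSt g) je s b M)| ∧
      QD d je (toSt g) F (psi d (toSt g) je s a M) (psi d (toSt g) je s a M) = 0 ∧
      QD d je (toSt g) F (psi d (toSt g) je s b M) (psi d (toSt g) je s b M) = 0)
    {Ra Pa Rb Pb : ℝ → ℝ} (hRa : EigLim d g je true a Ra Pa) (hRb : EigLim d g je true b Rb Pb)
    (hD : dlam d g je a.1 Ra Pa f ≠ dlam d g je b.1 Rb Pb f) {Θ : ℝ} {Low : ℕ → Finset (ℕ × ℕ)}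
    (hlt : ∀ j ∈ J, ∀ x, x ∈ Low j ↔ lamI d (toSt g) j x < Θ)
    (hcl : ∀ j ∈ J, ∀ x ∈ Low j, ∀ x' ∈ Low j, x ≠ x' →
      lamI d (toSt g) j x = lamI d (toSt g) j x' → j = je ∧ ((x = a ∧ x' = b) ∨ (x = b ∧ x' = a))) :
    ∀ᶠ σ in 𝓝[>] (0 : ℝ), ∃ γ : ℝ, 0 < γ ∧ ∀ᶠ M in UU, ∀ j ∈ J, ∀ (s : Bool) (α β : ℝ),
      |α| + |β| = 1 → ∀ n, 1 ≤ n → n ≤ (lowS Low j s).card →
        lamk (QG d j (toSt g + σ • (α • toSt f + β • F))) (WS d j s M) (n - 1) + γ ≤
          lamk (QG d j (toSt g + σ • (α • toSt f + β • F))) (WS d j s M) n := by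
  classical
  have hfa := Dir.radm hf d
  have hne : a ≠ b := fun h => hab (by rw [h])
  obtain ⟨K₁, hK₁, hb₁⟩ := dir_bdd hf
  obtain ⟨K₂, hK₂, hb₂, hb₃⟩ := hF.exists_sz
  set K := K₁ + K₂ with hK
  have K0 : 0 < K := by positivity
  have hd0 : (0 : ℝ) < d := by exact_mod_cast Nat.pos_of_ne_zero (NeZero.ne d)
  obtain ⟨γ, hγ, hsep, hth⟩ := exists_sep (J ×ˢ J.biUnion Low)
    (fun y => lamI d (toSt g) y.1 y.2) Θ
  set δ₀ := |dlam d g je a.1 Ra Pa f - dlam d g je b.1 Rb Pb f| with hδ₀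
  have δ0 : 0 < δ₀ := abs_pos.2 (sub_ne_zero.2 hD)
  obtain ⟨σ₁, hσ₁, H⟩ := gap_abs (C := 2 * d * K + (2 * d * K) ^ 2) (γ := γ) (Λ := |Θ|)
    (c := min (δ₀ / 4) c) (by positivity) hγ (abs_nonneg _) (by positivity)
  have ev1 : ∀ᶠ σ in 𝓝[>] (0 : ℝ), σ ≤ min σ₁ (1 / (2 * d * K)) :=
    nhdsWithin_le_nhds (ge_mem_nhds (by positivity))
  filter_upwards [ev1, self_mem_nhdsWithin] with σ hσ hσ0
  have hσ0 : 0 < σ := hσ0
  obtain ⟨ζ, γ', hζ, hγ', H⟩ := H σ hσ0 (hσ.trans (min_le_left _ _))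
  have σ2 : 2 * d * (σ * K) ≤ 1 := by
    have := hσ.trans (min_le_right _ _)
    rw [le_div_iff₀ (by positivity)] at this
    linarith
  refine ⟨γ', hγ', ?_⟩
  have E1 := (eventually_all_finset J).2 fun j hj => UU_le (low_gal hg.radm (hlt j hj))
  have E2 : ∀ᶠ M in UU, ∀ j ∈ J, ∀ x ∈ Low j,
      |lamM d (toSt g) j x M - lamI d (toSt g) j x| ≤ ζ := by
    rw [eventually_all_finset]
    intro j _
    rw [eventually_all_finset]
    intro x _
    have := (Metric.tendsto_nhds.1 (lamM_tendsto (j := j) hg.radm.adm x)) ζ hζ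
    filter_upwards [UU_le this] with M hM
    rw [Real.dist_eq] at hM
    exact hM.le
  have E4 : ∀ᶠ M in UU, ∀ s : Bool, δ₀ / 2 ≤
      |QD d je (toSt g) (toSt f) (psi d (toSt g) je s a M) (psi d (toSt g) je s a M) -
        QD d je (toSt g) (toSt f) (psi d (toSt g) je s b M) (psi d (toSt g) je s b M)| := by
    rw [eventually_all]
    intro s
    obtain ⟨Ra', Pa', ha'⟩ := eig_limit (hP.ok je hje) hP.eps hP.gam hg.radm hg.small (s := s)
      (x := a) (Or.inr ha)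
    obtain ⟨Rb', Pb', hb'⟩ := eig_limit (hP.ok je hje) hP.eps hP.gam hg.radm hg.small (s := s)
      (x := b) (Or.inr hb)
    have t := ((QD_tendsto hg.radm (Or.inr ha) ha' hf).sub
      (QD_tendsto hg.radm (Or.inr hb) hb' hf)).abs
    rw [dlam_parity hg.radm ha' hRa, dlam_parity hg.radm hb' hRb] at t
    exact t.eventually (le_mem_nhds (by linarith))
  filter_upwards [E1, E2, hoff, E4] with M e1 e2 e3 e4 j hj s α β hαβ n hn1 hn2
  obtain ⟨g1, g2, g3, g4⟩ := e1 j hj s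
  have α1 : |α| ≤ 1 := by linarith [abs_nonneg β]
  have β1 : |β| ≤ 1 := by linarith [abs_nonneg α]
  set D : St := α • toSt f + β • F with hDdef
  have hDa : Adm d D := (hfa.adm.smul α).add (hF.smul β)
  have hmul : ∀ {t u k : ℝ}, |t| ≤ 1 → |u| ≤ k → |t * u| ≤ k := fun {t u k} h1 h2 => by
    rw [abs_mul]
    nlinarith [abs_nonneg t, abs_nonneg u]
  have hDb : ∀ z, |D.1 z| ≤ K ∧ |D.2 z| ≤ K := fun z =>
    ⟨(abs_add_le _ _).trans (add_le_add (hmul α1 (hb₁ _).1) (hmul β1 (hb₂.abs_le z))),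
      (abs_add_le _ _).trans (add_le_add (hmul α1 (hb₁ _).2) (hmul β1 (hb₃.abs_le z)))⟩
  have hmem : ∀ i : lowS Low j s, (i : ℕ × ℕ) ∈ Low j := fun i => (Finset.mem_filter.1 i.2).1
  have hmem' : ∀ i : lowS Low j s, (j, (i : ℕ × ℕ)) ∈ J ×ˢ J.biUnion Low := fun i =>
    Finset.mem_product.2 ⟨hj, Finset.mem_biUnion.2 ⟨j, hj, hmem i⟩⟩
  have hon : Orthonormal ℝ fun i : lowS Low j s => psi d (toSt g) j s i M :=
    ⟨fun i => g1.1 i, fun i i' h => g1.2 h⟩
  refine H (QG d j (toSt g)) (QD d j (toSt g) D) (QG d j (toSt g + σ • D)) (WS d j s M)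
    (fun i : lowS Low j s => psi d (toSt g) j s i M) (fun i => lamM d (toSt g) j i M)
    (fun i => lamI d (toSt g) j i) Θ (QG_sym _) (QD_sym _ _) (QG_sym _) (le_abs_self _) hon
    (fun i => (g2 i i.2).2.1) (fun i => e2 j hj i (hmem i))
    (fun i => hth (j, i.1) (hmem' i) ((hlt j hj i).1 (hmem i)))
    (fun u hu ho => g3 u hu fun x hx => ho ⟨x, hx⟩) (by rw [Fintype.card_coe]; omega)
    (fun u _ => QG_nonneg hg.radm.adm u) (fun u _ => ?_) (fun u _ => ?_)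
    (fun i i' h => hsep (j, i.1) (hmem' i) (j, i'.1) (hmem' i') h) (fun i i' h1 h2 => ⟨?_, fun i'' h3 => ?_⟩)
    n hn1 (by rw [Fintype.card_coe]; exact hn2)
  · refine (QD_le hg.radm.adm hDa hDb u).trans
      (mul_le_mul_of_nonneg_right ?_ (QG_nonneg hg.radm.adm u))
    nlinarith [sq_nonneg (2 * d * K)]
  · have := QG_taylor (j := j) hg.radm.adm (hDa.smul σ) σ2 (fun z => by
      simp only [Prod.smul_fst, Prod.smul_snd, Pi.smul_apply, smul_eq_mul, abs_mul, abs_of_pos hσ0]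
      exact ⟨mul_le_mul_of_nonneg_left (hDb z).1 hσ0.le,
        mul_le_mul_of_nonneg_left (hDb z).2 hσ0.le⟩) u
    rw [QD_smul] at this
    refine this.trans (mul_le_mul_of_nonneg_right ?_ (QG_nonneg hg.radm.adm u))
    have : 0 ≤ 2 * d * K * σ ^ 2 := by positivity
    nlinarith
  · obtain ⟨rfl, h4⟩ := hcl j hj i (hmem i) i' (hmem i') (fun h => h1 (Subtype.ext h)) h2
    obtain ⟨o1, o2, o3⟩ := e3 s
    have o4 := QD_sec_orth hg.radm hfa s M hab (psi_mem_Sec d (toSt g) j s a M)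
      (psi_mem_Sec d (toSt g) j s b M)
    have hQD : ∀ u w, QD d j (toSt g) D u w =
        α * QD d j (toSt g) (toSt f) u w + β * QD d j (toSt g) F u w := fun u w => by
      rw [hDdef, QD_add hg.radm.adm (hfa.adm.smul α) (hF.smul β), QD_smul, QD_smul]
      simp
    have key := sqrt_lower hαβ (e4 s) o1 δ0.le hc.le
    rcases h4 with ⟨h5, h6⟩ | ⟨h5, h6⟩
    · simp only [h5, h6, hQD, o2, o3, o4]
      convert key using 2
      ring
    · simp only [h5, h6]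
      rw [QD_sym _ _ (psi d (toSt g) j s b M) (psi d (toSt g) j s a M)]
      simp only [hQD, o2, o3, o4]
      convert key using 2
      ring
  · by_cases h4 : i'' = i
    · exact Or.inl h4
    right
    obtain ⟨-, h5⟩ := hcl j hj i (hmem i) i' (hmem i') (fun h => h1 (Subtype.ext h)) h2
    obtain ⟨-, h6⟩ := hcl j hj i'' (hmem i'') i (hmem i) (fun h => h4 (Subtype.ext h)) h3
    apply Subtype.ext
    rcases h5 with ⟨a1, a2⟩ | ⟨a1, a2⟩ <;> rcases h6 with ⟨b1, b2⟩ | ⟨b1, b2⟩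
    · exact absurd (a1.symm.trans b2) hne
    · exact b1.trans a2.symm
    · exact b1.trans a2.symm
    · exact absurd (b2.symm.trans a1) hne

theorem order_ev {ι : Type} (T : Finset ι) {u : ι → ℝ → ℝ} {D : ι → ℝ} {Θ : ℝ}
    (hu : ∀ i ∈ T, HasDerivAt (u i) (D i) 0)
    (h : ∀ i ∈ T, ∀ i' ∈ T, i ≠ i' → u i 0 = u i' 0 → D i ≠ D i') (hΘ : ∀ i ∈ T, u i 0 ≠ Θ) :
    ∀ᶠ σ in 𝓝[>] (0 : ℝ), (∀ i ∈ T, ∀ i' ∈ T,
      (u i σ < u i' σ ↔ (u i 0 < u i' 0 ∨ (u i 0 = u i' 0 ∧ D i < D i')))) ∧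
      (∀ i ∈ T, ∀ i' ∈ T, u i σ = u i' σ → i = i') ∧ ∀ i ∈ T, (u i σ < Θ ↔ u i 0 < Θ) := by
  have h1 : ∀ᶠ σ in 𝓝[>] (0 : ℝ), ∀ i ∈ T, ∀ i' ∈ T,
      (u i σ < u i' σ ↔ (u i 0 < u i' 0 ∨ (u i 0 = u i' 0 ∧ D i < D i'))) := by
    rw [eventually_all_finset]
    intro i hi
    rw [eventually_all_finset]
    intro i' hi'
    by_cases e : i = i'
    · subst e
      exact Eventually.of_forall fun σ => by simp
    · exact lt_iff_of_deriv (hu i hi) (hu i' hi') (h i hi i' hi' e)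
  have h2 : ∀ᶠ σ in 𝓝[>] (0 : ℝ), ∀ i ∈ T, (u i σ < Θ ↔ u i 0 < Θ) := by
    rw [eventually_all_finset]
    intro i hi
    filter_upwards [lt_iff_of_deriv (hu i hi) (hasDerivAt_const (0 : ℝ) Θ)
      fun e => absurd e (hΘ i hi)] with σ hσ
    simpa [hΘ i hi] using hσ
  filter_upwards [h1, h2] with σ a1 a2
  refine ⟨a1, fun i hi i' hi' e => ?_, a2⟩
  by_contra hne
  have b1 := (a1 i hi i' hi').not.1 e.not_lt
  have b2 := (a1 i' hi' i hi).not.1 e.not_gt
  push Not at b1 b2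
  have e0 := le_antisymm b2.1 b1.1
  exact h i hi i' hi' hne e0 (le_antisymm (b2.2 e0.symm) (b1.2 e0))

end FEdgeAux

theorem exists_edge {ε γ₀ : ℝ} {J : Finset ℕ} (hP : Par d ε γ₀ J) {je : ℕ} (hje : je ∈ J)
    {a b : ℕ × ℕ} (hab : a ≠ b) (ha : 1 ≤ a.1) (hb : 1 ≤ b.1) (h : Crossable d ε γ₀ je a b) {Θ₀ : ℝ}
    (hΘ : ∀ G, Small d ε γ₀ G → lamI d G je a < Θ₀) :
    ∃ gp gm G₀ Θ Low, EdgeOK d J ε γ₀ Θ₀ je a b gp gm G₀ Θ Low := by
  classical
  obtain ⟨N, hN⟩ := exists_box hP (Θ₀ + 2)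
  obtain ⟨g, hg, hcross, hclean⟩ := exists_clean hP hje hab ha hb h N
  obtain ⟨Θ, ⟨hΘ1, hΘ2⟩, hΘ3⟩ := (Set.Icc_infinite (show Θ₀ < Θ₀ + 1 by linarith)).exists_notMem_finset
    ((J ×ˢ box N).image fun y => lamI d (toSt g) y.1 y.2)
  have hex : ∀ j x, ∃ R P, j ∈ J → EigLim d g j true x R P := fun j x => by
    by_cases hj : j ∈ J
    · obtain ⟨R, P, hRP⟩ := eig_limit (hP.ok j hj) hP.eps hP.gam hg.radm hg.small (s := true)
        (x := x) (Or.inl rfl)
      exact ⟨R, P, fun _ => hRP⟩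
    · exact ⟨0, 0, fun h' => absurd h' hj⟩
  choose R P hR using hex
  obtain ⟨f, hf, hsplit⟩ := exists_split hP hg N (R := R) (P := P) fun j hj x => hR j x hj
  have hab1 : a.1 ≠ b.1 := fun e => hab <| by
    obtain ⟨m, k⟩ := a
    obtain ⟨m', k'⟩ := b
    obtain rfl : m = m' := e
    rw [(lamI_strict (hP.ok je hje) hP.eps hP.gam hg.radm hg.small m).injective hcross]
  obtain ⟨F, c, hF, hc, hoff⟩ := exists_offdiag hP hg hje ha hb hab1
  have hfa := Dir.radm hf d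
  set Low : ℕ → Finset (ℕ × ℕ) := fun j => (box N).filter fun x => lamI d (toSt g) j x < Θ with hLow
  have hLb : ∀ j, ∀ x ∈ Low j, x ∈ box N := fun j x hx => (Finset.mem_filter.1 hx).1
  have hout : ∀ G, Small d ε γ₀ G → ∀ j ∈ J, ∀ x, lamI d G j x < Θ → x ∈ box N :=
    fun G hG j hj x hx => by
      by_contra hn
      linarith [hN G hG j hj x hn]
  have hlt : ∀ j ∈ J, ∀ x, x ∈ Low j ↔ lamI d (toSt g) j x < Θ := fun j hj x =>
    ⟨fun hx => (Finset.mem_filter.1 hx).2,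
      fun hx => Finset.mem_filter.2 ⟨hout _ hg.small j hj x hx, hx⟩⟩
  have haL : a ∈ Low je := (hlt je hje a).2 ((hΘ _ hg.small).trans_le hΘ1)
  have hbL : b ∈ Low je := (hlt je hje b).2 (hcross ▸ (hΘ _ hg.small).trans_le hΘ1)
  have hgap := FEdgeAux.gap_path hP hg hje ha hb hab1 hf hF hc hoff (hR je a hje) (hR je b hje)
    (hsplit je hje je hje a (hLb _ _ haL) b (hLb _ _ hbL) (fun e => hab (Prod.mk.inj e).2) hcross)
    hlt fun j hj x hx x' hx' => hclean j hj x (hLb _ _ hx) x' (hLb _ _ hx')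
  -- first-order behaviour of the eigenvalues
  set D : ℕ × ℕ × ℕ → ℝ := fun y => dlam d g y.1 y.2.1 (R y.1 y.2) (P y.1 y.2) f with hD
  set u : ℕ × ℕ × ℕ → ℝ → ℝ := fun y σ => lamI d (toSt (g + σ • f)) y.1 y.2 with hu
  have u0 : ∀ y, u y 0 = lamI d (toSt g) y.1 y.2 := fun y => by simp only [hu, zero_smul, add_zero]
  have hder : ∀ y ∈ J ×ˢ box N, HasDerivAt (u y) (D y) 0 := fun y hy =>
    FEdgeAux.hasDerivAt_lamI (hP.ok _ (Finset.mem_product.1 hy).1) hP.eps hP.gam hg.radm hg.small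
      (hR y.1 y.2 (Finset.mem_product.1 hy).1) hf
  have hsp : ∀ y ∈ J ×ˢ box N, ∀ y' ∈ J ×ˢ box N, y ≠ y' → u y 0 = u y' 0 → D y ≠ D y' :=
    fun y hy y' hy' hne e => by
      rw [u0, u0] at e
      exact hsplit y.1 (Finset.mem_product.1 hy).1 y'.1 (Finset.mem_product.1 hy').1 y.2
        (Finset.mem_product.1 hy).2 y'.2 (Finset.mem_product.1 hy').2 hne e
  have hth : ∀ y ∈ J ×ˢ box N, u y 0 ≠ Θ := fun y hy e => by
    rw [u0] at e
    exact hΘ3 (Finset.mem_image.2 ⟨y, hy, e⟩)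
  have evp := FEdgeAux.order_ev (J ×ˢ box N) hder hsp hth
  have evm := FEdgeAux.order_ev (J ×ˢ box N) (u := fun y σ => u y (-σ)) (D := fun y => -D y) (Θ := Θ)
    (fun y hy => by
      have h1 : HasDerivAt (u y) (D y) (-0) := by rw [neg_zero]; exact hder y hy
      have h2 := h1.comp (0 : ℝ) (hasDerivAt_neg (0 : ℝ))
      rw [mul_neg_one] at h2
      exact h2)
    (fun y hy y' hy' hne e e' => hsp y hy y' hy' hne (by simpa using e) (neg_injective e'))
    (fun y hy => by simpa using hth y hy)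
  obtain ⟨r₁, hr₁, hs₁⟩ := hg.small.open_dir hfa.adm
  obtain ⟨r₂, hr₂, hs₂⟩ := hg.small.open_dir hF
  have evs : ∀ᶠ σ in 𝓝[>] (0 : ℝ), σ ≤ min r₁ r₂ :=
    nhdsWithin_le_nhds (ge_mem_nhds (lt_min hr₁ hr₂))
  obtain ⟨σ, ⟨⟨⟨⟨γ, hγ, hgap⟩, ⟨p1, p2, p3⟩⟩, ⟨m1, m2, m3⟩⟩, hσ⟩, hσ0⟩ :=
    ((((hgap.and evp).and evm).and evs).and self_mem_nhdsWithin).exists
  have hσ0 : 0 < σ := hσ0
  simp only [neg_zero, u0] at p1 p3 m1 m3
  have hcls : ∀ t : ℝ, |t| ≤ r₁ → Cls d ε γ₀ (g + t • f) := fun t ht =>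
    hg.add_dir (Dir.smul_mem t hf) (by rw [toSt_add, toSt_smul]; exact hs₁ t ht)
  have cp := hcls σ (by rw [abs_of_pos hσ0]; exact hσ.trans (min_le_left _ _))
  have cm := hcls (-σ) (by rw [abs_neg, abs_of_pos hσ0]; exact hσ.trans (min_le_left _ _))
  have hlow : ∀ t : ℝ, Cls d ε γ₀ (g + t • f) →
      (∀ y ∈ J ×ˢ box N, ∀ y' ∈ J ×ˢ box N, u y t = u y' t → y = y') →
      (∀ y ∈ J ×ˢ box N, u y t < Θ ↔ lamI d (toSt g) y.1 y.2 < Θ) →
      LowOK d J (g + t • f) Low Θ := fun t ht q2 q3 =>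
    ⟨fun j hj x => ⟨fun hx => (q3 (j, x) (Finset.mem_product.2 ⟨hj, hLb _ _ hx⟩)).2
        ((hlt j hj x).1 hx), fun hx => (hlt j hj x).2 ((q3 (j, x)
          (Finset.mem_product.2 ⟨hj, hout _ ht.small j hj x hx⟩)).1 hx)⟩,
      fun j hj j' hj' x hx x' hx' e => Prod.mk.inj (q2 (j, x)
        (Finset.mem_product.2 ⟨hj, hLb _ _ hx⟩) (j', x')
        (Finset.mem_product.2 ⟨hj', hLb _ _ hx'⟩) e)⟩
  refine ⟨g + σ • f, g + (-σ) • f, toSt g + σ • F, Θ, Low, cp, cm,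
    hs₂ σ (by rw [abs_of_pos hσ0]; exact hσ.trans (min_le_right _ _)), hΘ1, hlow σ cp p2 p3,
    hlow (-σ) cm m2 m3, ⟨γ, hγ, ?_⟩, fun j hj s => ?_⟩
  · filter_upwards [hgap] with M hM j hj s τ hτ G hG
    rcases hG with rfl | rfl
    · have e : (1 - τ) • toSt (g + σ • f) + τ • (toSt g + σ • F) =
          toSt g + σ • ((1 - τ) • toSt f + τ • F) := by
        rw [toSt_add, toSt_smul]; module
      rw [e]
      exact hM j hj s (1 - τ) τ (by
        rw [abs_of_nonneg (sub_nonneg.2 hτ.2), abs_of_nonneg hτ.1]; ring)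
    · have e : (1 - τ) • (toSt g + σ • F) + τ • toSt (g + (-σ) • f) =
          toSt g + σ • ((-τ) • toSt f + (1 - τ) • F) := by
        rw [toSt_add, toSt_smul]; module
      rw [e]
      exact hM j hj s (-τ) (1 - τ) (by
        rw [abs_neg, abs_of_nonneg (sub_nonneg.2 hτ.2), abs_of_nonneg hτ.1]; ring)
  · have hsw : ∀ x ∈ lowS Low j s, swp je a b j x ∈ lowS Low j s := fun x hx => by
      unfold swp
      split_ifs with e
      · subst e
        rw [Equiv.swap_apply_def]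
        split_ifs
        · exact Finset.mem_filter.2 ⟨hbL, Or.inr hb⟩
        · exact Finset.mem_filter.2 ⟨haL, Or.inr ha⟩
        · exact hx
      · exact hx
    have hinv : ∀ x, swp je a b j (swp je a b j x) = x := fun x => by
      unfold swp
      split_ifs
      · exact Equiv.swap_apply_self _ _ _
      · rfl
    have hval : ∀ x, lamI d (toSt g) j (swp je a b j x) = lamI d (toSt g) j x := fun x => by
      unfold swp
      split_ifs with e
      · subst e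
        rw [Equiv.swap_apply_def]
        split_ifs with e1 e2
        · rw [e1, hcross]
        · rw [e2, hcross]
        · rfl
      · rfl
    have hmem : ∀ x ∈ lowS Low j s, (j, x) ∈ J ×ˢ box N := fun x hx =>
      Finset.mem_product.2 ⟨hj, hLb _ _ (Finset.mem_filter.1 hx).1⟩
    have hiff : ∀ x ∈ lowS Low j s, ∀ x' ∈ lowS Low j s, u (j, x') σ < u (j, x) σ ↔
        u (j, swp je a b j x') (-σ) < u (j, swp je a b j x) (-σ) := fun x hx x' hx' => by
      rw [p1 _ (hmem x' hx') _ (hmem x hx), m1 _ (hmem _ (hsw x' hx')) _ (hmem _ (hsw x hx))]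
      simp only [hval]
      refine or_congr_right (and_congr_right fun e => ?_)
      by_cases hxx : x' = x
      · subst hxx; simp
      · obtain ⟨rfl, h4⟩ := hclean j hj x' (hLb _ _ (Finset.mem_filter.1 hx').1) x
          (hLb _ _ (Finset.mem_filter.1 hx).1) hxx e
        rcases h4 with ⟨rfl, rfl⟩ | ⟨rfl, rfl⟩ <;> simp [swp]
    intro x hx
    refine ⟨hsw x hx, ?_⟩
    unfold posI
    refine Finset.card_bij' (fun x' _ => swp je a b j x') (fun x' _ => swp je a b j x')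
      (fun x' hx' => ?_) (fun x' hx' => ?_) (fun x' _ => hinv x') (fun x' _ => hinv x')
    · obtain ⟨q1, q2⟩ := Finset.mem_filter.1 hx'
      exact Finset.mem_filter.2 ⟨hsw x' q1, (hiff x hx x' q1).1 q2⟩
    · obtain ⟨q1, q2⟩ := Finset.mem_filter.1 hx'
      refine Finset.mem_filter.2 ⟨hsw x' q1, (hiff x hx _ (hsw x' q1)).2 ?_⟩
      rw [hinv]
      exact q2

end Crest.Agent.R202
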