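import Crest.Agent.R202.FDefs

/-!
# Row 202, F1: the low labels at a symmetric state, at the Galerkin level

`low_gal`: for a sector `m` the low labels are an initial segment `k < n_m` (`lamI_mono`); a vector of
`WS` orthogonal to all low `psi` splits into sector components (`iSup_Sec`, `Sec_orth`, `QG_sec_orth`),
each orthogonal to the first `n_m` chosen eigenvectors, so `psi_compl` (or `psi_span` if the sector has
dimension `≤ n_m`) and `lamI_le_lamM` apply.  `low_pos`: `lamk_count`.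
-/

set_option autoImplicit false
set_option linter.unusedSectionVars false
open scoped ContDiff RealInnerProductSpace Topology
open MeasureTheory Set Filter Module
open Crest.GeometryTopology.CoordMetric
open Crest.Agent.R230 (E MP sph ev Harm)

noncomputable section
namespace Crest.Agent.R202

variable {d : ℕ} [NeZero d]

theorem Cls.sf {ε γ₀ : ℝ} {g : RSt} (h : Cls d ε γ₀ g) : SF g.1 g.2 (1 / 8) := by
  obtain ⟨κ, δ, h1, h2, h3⟩ := h.flat
  exact ⟨h.cap, κ, δ, h1.ne', h2, h3⟩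

theorem Cls.add_dir {ε γ₀ : ℝ} {g f : RSt} (h : Cls d ε γ₀ g) (hf : f ∈ Dir)
    (hs : Small d ε γ₀ (toSt (g + f))) : Cls d ε γ₀ (g + f) := by
  have hr := h.radm.add (Dir.radm hf d)
  obtain ⟨-, -, a, b, ha, -, h0⟩ := hf
  obtain ⟨κ, δ, h1, h2, h3⟩ := h.flat
  refine ⟨hr, hs, fun X hX => ?_, κ, min δ (a - 1 / 8), h1, lt_min h2 (by linarith), fun X hX => ?_⟩
  · have h4 := h0 X fun h5 => by linarith [h5.1]
    simp [h4, h.cap X hX]
  · have h4 := h0 X fun h5 => by linarith [h5.1, hX.2, min_le_right δ (a - 1 / 8)]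
    have h5 := h3 X ⟨hX.1, by linarith [hX.2, min_le_left δ (a - 1 / 8)]⟩
    simp only [Prod.fst_add, Prod.snd_add, Pi.add_apply, h4, h5, add_zero, and_self]

theorem Cls.neg_bet {ε γ₀ : ℝ} {g : RSt} (h : Cls d ε γ₀ g) :
    ∃ z : E 2, 0 < XX z ∧ XX z < 1 ∧ bet d ((toSt g).1 z) ((toSt g).2 z) < 0 := by
  obtain ⟨κ, δ, h1, h2, h3⟩ := h.flat
  obtain ⟨X, h4, h5⟩ := exists_between (show (1 / 8 : ℝ) < min (1 / 8 + δ) 1 from
    lt_min (by linarith) (by norm_num))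
  obtain ⟨h5, h6⟩ := lt_min_iff.1 h5
  have h7 : XX (WithLp.toLp 2 ![√X, 0]) = X := by
    simp [XX, Real.sq_sqrt (show 0 ≤ X by linarith)]
  have h8 : 0 < bfl (X - 1 / 8) :=
    expNegInvGlue.pos_of_pos (expNegInvGlue.pos_of_pos (by linarith))
  refine ⟨WithLp.toLp 2 ![√X, 0], by linarith, by linarith, ?_⟩
  simp only [toSt, h7, h3 X ⟨h4, h5⟩, bet, mul_zero, sub_zero, neg_lt_zero]
  positivity

/-- all labels of degree `≤ N` -/
def box (N : ℕ) : Finset (ℕ × ℕ) := Finset.range (N + 1) ×ˢ Finset.range (N + 1)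

/-- labels outside a large box are high for every small state -/
theorem exists_box {ε γ₀ : ℝ} {J : Finset ℕ} (hP : Par d ε γ₀ J) (Θ : ℝ) : ∃ N : ℕ, ∀ G,
    Small d ε γ₀ G → ∀ j ∈ J, ∀ x, x ∉ box N → Θ ≤ lamI d G j x := by
  refine ⟨⌈2 * Θ⌉₊, fun G hG j hj x hx => le_trans ?_ (lamI_bounds (hP.ok j hj) hP.eps hP.gam hG x).1⟩
  have h1 : ⌈2 * Θ⌉₊ + 1 ≤ ldeg j x := by
    simp only [box, Finset.mem_product, Finset.mem_range] at hx
    unfold ldeg
    omega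
  have h2 : (⌈2 * Θ⌉₊ : ℝ) + 1 ≤ ldeg j x := by exact_mod_cast h1
  have h3 := Nat.le_ceil (2 * Θ)
  have h4 : (0 : ℝ) ≤ ⌈2 * Θ⌉₊ := Nat.cast_nonneg _
  have h5 : (0 : ℝ) ≤ d := Nat.cast_nonneg _
  nlinarith

theorem tracked_lt {ε γ₀ μs Θ₀ : ℝ} {J : Finset ℕ} {L : ℕ → Finset (ℕ × ℕ)} (hP : Par d ε γ₀ J)
    (hL : Lev d J L μs Θ₀) {G : St} (hG : Small d ε γ₀ G) {j : ℕ} (hj : j ∈ J) {x : ℕ × ℕ}
    (hx : x ∈ L j) : lamI d G j x < Θ₀ := by
  refine (lamI_bounds (hP.ok j hj) hP.eps hP.gam hG x).2.trans_lt ?_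
  have h1 := hL.mu j hj x hx
  have h2 := Real.sq_sqrt (show 0 ≤ 4 * ((ldeg j x : ℝ) * (ldeg j x + d)) + ((d : ℝ) / 2) ^ 2 by
    positivity)
  have h3 := Real.sqrt_nonneg (4 * ((ldeg j x : ℝ) * (ldeg j x + d)) + ((d : ℝ) / 2) ^ 2)
  have h4 := pow_le_pow_left₀ h3 (le_sub_iff_add_le.2 h1) 2
  nlinarith [hL.th, sq_nonneg ((d : ℝ) / 2)]

theorem FLow.compl {g : RSt} (hg : RAdm d g) {j : ℕ} {Low : ℕ → Finset (ℕ × ℕ)} {Θ : ℝ}
    (hlt : ∀ x, x ∈ Low j ↔ lamI d (toSt g) j x < Θ) {s : Bool} {m M : ℕ} {u : RP d j}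
    (hu : u ∈ Sec d j s m M)
    (ho : ∀ k, (m, k) ∈ lowS Low j s → ⟪psi d (toSt g) j s (m, k) M, u⟫ = 0) :
    Θ * ‖u‖ ^ 2 ≤ QG d j (toSt g) u u := by
  classical
  by_cases hs : okS s m
  swap
  · rw [Sec_eq_bot (.inl hs), Submodule.mem_bot] at hu
    simp [hu]
  have h1 : ∃ k, (m, k) ∉ Low j := by
    by_contra! h
    exact (Low j).finite_toSet.not_infinite
      (infinite_of_injective_forall_mem (Prod.mk_right_injective m) h)
  have h2 : ∀ k < Nat.find h1, ⟪psi d (toSt g) j s (m, k) M, u⟫ = 0 := fun k hk =>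
    ho k (Finset.mem_filter.2 ⟨of_not_not (Nat.find_min h1 hk), hs⟩)
  by_cases h3 : Nat.find h1 < finrank ℝ (Sec d j s m M)
  · refine le_trans (mul_le_mul_of_nonneg_right ?_ (sq_nonneg _)) (psi_compl hg hs h3 hu h2)
    exact (not_lt.1 (mt (hlt _).2 (Nat.find_spec h1))).trans
      (lamI_le_lamM hg.adm (by rwa [finrank_Sec_eq hs] at h3))
  · simp [psi_span (toSt g) hu fun k hk => h2 k (by omega)]

theorem FLow.compl_WS {g : RSt} (hg : RAdm d g) {j : ℕ} {Low : ℕ → Finset (ℕ × ℕ)} {Θ : ℝ}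
    (hlt : ∀ x, x ∈ Low j ↔ lamI d (toSt g) j x < Θ) {s : Bool} {M : ℕ} {u : RP d j}
    (hu : u ∈ WS d j s M) (ho : ∀ x ∈ lowS Low j s, ⟪psi d (toSt g) j s x M, u⟫ = 0) :
    Θ * ‖u‖ ^ 2 ≤ QG d j (toSt g) u u := by
  rw [← iSup_Sec] at hu
  obtain ⟨f, h1, h2⟩ := (Submodule.mem_iSup_iff_exists_finsupp _ _).1 hu
  rw [Finsupp.sum_fintype _ _ fun _ => rfl] at h2
  have h3 : ∀ m : Fin (M + 1), ∀ w ∈ Sec d j s m M, ⟪w, u⟫ = ⟪w, f m⟫ ∧
      QG d j (toSt g) w u = QG d j (toSt g) w (f m) := fun m w hw => by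
    rw [← h2, inner_sum, map_sum]
    exact ⟨Finset.sum_eq_single m (fun m' _ hm => (Sec_orth s M fun h => hm (Fin.ext h.symm)).inner_eq
        hw (h1 m')) (by simp),
      Finset.sum_eq_single m (fun m' _ hm => QG_sec_orth hg s M (fun h => hm (Fin.ext h.symm))
        hw (h1 m')) (by simp)⟩
  have h4 : Θ * ⟪∑ m, f m, u⟫ ≤ QG d j (toSt g) (∑ m, f m) u := by
    rw [sum_inner, map_sum, LinearMap.sum_apply, Finset.mul_sum]
    refine Finset.sum_le_sum fun m _ => ?_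
    rw [(h3 m _ (h1 m)).1, (h3 m _ (h1 m)).2, real_inner_self_eq_norm_sq]
    exact FLow.compl hg hlt (h1 m) fun k hk =>
      (h3 m _ (psi_mem_Sec d _ j s (m, k) M)).1.symm.trans (ho _ hk)
  rwa [h2, real_inner_self_eq_norm_sq] at h4

theorem low_gal {g : RSt} (hg : RAdm d g) {j : ℕ} {Low : ℕ → Finset (ℕ × ℕ)} {Θ : ℝ}
    (hlt : ∀ x, x ∈ Low j ↔ lamI d (toSt g) j x < Θ) :
    ∀ᶠ M in atTop, ∀ s : Bool, Orthonormal ℝ (psiL d g Low j s M) ∧
      (∀ x ∈ lowS Low j s, x.1 + 2 * x.2 + 4 ≤ M ∧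
        EigF (QG d j (toSt g)) (WS d j s M) (psi d (toSt g) j s x M) (lamM d (toSt g) j x M) ∧
        lamM d (toSt g) j x M < Θ) ∧
      (∀ u ∈ WS d j s M, (∀ x ∈ lowS Low j s, ⟪psi d (toSt g) j s x M, u⟫ = 0) →
        Θ * ‖u‖ ^ 2 ≤ QG d j (toSt g) u u) ∧
      (lowS Low j s).card + 1 < finrank ℝ (WS d j s M) := by
  have h1 : ∀ᶠ M in atTop, ∀ x ∈ Low j, x.1 + 2 * x.2 + 4 ≤ M ∧ lamM d (toSt g) j x M < Θ :=
    (Finset.eventually_all _).2 fun x hx => (eventually_ge_atTop _).and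
      ((lamM_tendsto hg.adm x).eventually_lt_const ((hlt x).1 hx))
  filter_upwards [h1, eventually_ge_atTop (1 + 2 * ((Low j).card + 1) + 2)] with M h2 h3 s
  have h4 := fun x (hx : x ∈ lowS Low j s) => psi_spec (j := j) hg (Finset.mem_filter.1 hx).2
    (M := M) (by linarith [(h2 x (Finset.mem_filter.1 hx).1).1])
  refine ⟨⟨fun i => (h4 i i.2).1, fun i i' h => (h4 i i.2).2.2 i' fun h' => h (Subtype.ext h'.symm)⟩,
    fun x hx => ⟨(h2 x (Finset.mem_filter.1 hx).1).1, (h4 x hx).2.1,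
      (h2 x (Finset.mem_filter.1 hx).1).2⟩, fun u hu ho => FLow.compl_WS hg hlt hu ho, ?_⟩
  have h5 := lt_finrank_Sec (d := d) (j := j) (s := s) (.inr le_rfl) h3
  have h6 : finrank ℝ (Sec d j s 1 M) ≤ finrank ℝ (WS d j s M) := Submodule.finrank_mono inf_le_left
  have h7 : (lowS Low j s).card ≤ (Low j).card := Finset.card_filter_le _ _
  omega

theorem low_pos {g : RSt} (hg : RAdm d g) {j : ℕ} {Low : ℕ → Finset (ℕ × ℕ)} {Θ : ℝ}
    (hlt : ∀ x, x ∈ Low j ↔ lamI d (toSt g) j x < Θ)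
    (hinj : ∀ x ∈ Low j, ∀ x' ∈ Low j, lamI d (toSt g) j x = lamI d (toSt g) j x' → x = x') :
    ∀ᶠ M in atTop, ∀ s : Bool, (∀ x ∈ lowS Low j s, posI d g Low j s x < (lowS Low j s).card ∧
      lamk (QG d j (toSt g)) (WS d j s M) (posI d g Low j s x) = lamM d (toSt g) j x M) ∧
      Θ ≤ lamk (QG d j (toSt g)) (WS d j s M) (lowS Low j s).card := by
  have h1 : ∀ᶠ M in atTop, ∀ x ∈ Low j, ∀ x' ∈ Low j, lamI d (toSt g) j x' < lamI d (toSt g) j x →
      lamM d (toSt g) j x' M < lamM d (toSt g) j x M :=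
    (Finset.eventually_all _).2 fun x _ => (Finset.eventually_all _).2 fun x' _ =>
      eventually_imp_distrib_left.2 fun h =>
        (lamM_tendsto hg.adm x').eventually_lt (lamM_tendsto hg.adm x) h
  filter_upwards [h1, low_gal hg hlt] with M h2 h3 s
  obtain ⟨h4, h5, h6, h7⟩ := h3 s
  obtain ⟨h8, h9, -⟩ := lamk_count (S := WS d j s M) (QG_sym (toSt g))
    (fun i : lowS Low j s => psi d (toSt g) j s i M) (fun i => lamM d (toSt g) j i M) h4
    (fun i => (h5 i i.2).2.1) (fun i => (h5 i i.2).2.2.le)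
    fun u hu ho => h6 u hu fun x hx => ho ⟨x, hx⟩
  rw [Fintype.card_coe] at h9
  refine ⟨fun x hx => ⟨Finset.card_lt_card (Finset.filter_ssubset.2 ⟨x, hx, lt_irrefl _⟩), ?_⟩,
    h9 (by omega)⟩
  rw [← h8 ⟨x, hx⟩, posI]
  congr 1
  refine Finset.card_bij (fun x' hx' => ⟨x', (Finset.mem_filter.1 hx').1⟩) (fun x' hx' => ?_)
    (fun _ _ _ _ h => congrArg Subtype.val h) fun x' hx' => ⟨x', ?_, rfl⟩
  · obtain ⟨h10, h11⟩ := Finset.mem_filter.1 hx'
    simpa using h2 x (Finset.mem_filter.1 hx).1 x' (Finset.mem_filter.1 h10).1 h11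
  · have h10 := (Finset.mem_filter.1 hx').2
    have h11 := (Finset.mem_filter.1 hx).1
    have h12 := (Finset.mem_filter.1 x'.2).1
    refine Finset.mem_filter.2 ⟨x'.2, lt_of_le_of_ne (not_lt.1 fun h => ?_) fun h => ?_⟩
    · exact h10.not_gt (h2 _ h12 _ h11 h)
    · simp [hinj _ h12 _ h11 h] at h10

/-- min-max values of the super-sector are bounded uniformly in `M` -/
theorem lamk_WS_bdd {ε γ₀ : ℝ} (hε : ε ≤ epsU d) (hγ : γ₀ ≤ ε) (j n : ℕ) : ∃ B : ℝ, ∀ᶠ M in atTop,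
    ∀ (s : Bool) G, Small d ε γ₀ G → n < finrank ℝ (WS d j s M) ∧
      lamk (QG d j G) (WS d j s M) n ≤ B := by
  refine ⟨∑ s : Bool, |2 * lamk (QG d j 0) (Sec d j s 1 (1 + 2 * n + 2)) n + 0|, ?_⟩
  filter_upwards [eventually_ge_atTop (1 + 2 * n + 2)] with M hM s G hG
  have h1 := lt_finrank_Sec (d := d) (j := j) (s := s) (k := n) (.inr le_rfl) le_rfl
  have h2 : Sec d j s 1 (1 + 2 * n + 2) ≤ WS d j s M := inf_le_left.trans (WS_mono s hM)
  obtain ⟨ε', γ', h3, h4, h5, h6⟩ := hG.sz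
  have h7 : Small d ε γ₀ 0 := small_zero (((abs_nonneg _).trans (h5.abs_le 0)).trans_lt h3)
    (((abs_nonneg _).trans (h6.abs_le 0)).trans_lt h4)
  refine ⟨h1.trans_le (Submodule.finrank_mono h2), (lamk_anti h2 h1).trans ((lamk_le_of_le
    (Q' := QG d j 0) (b := 0) zero_le_two
    (fun u _ => by simpa using QG_le_two hε hγ h7 hG u) h1).trans ((le_abs_self _).trans ?_))⟩
  exact Finset.single_le_sum (f := fun s : Bool =>
    |2 * lamk (QG d j 0) (Sec d j s 1 (1 + 2 * n + 2)) n + 0|) (fun _ _ => abs_nonneg _)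
    (Finset.mem_univ s)

theorem FLow.eig_self {j : ℕ} {G : St} {S : Submodule ℝ (RP d j)} {e : RP d j} {r : ℝ}
    (h : EigF (QG d j G) S e r) (he : ‖e‖ = 1) : QG d j G e e = r := by
  rw [h.2 e h.1, real_inner_self_eq_norm_sq, he, one_pow, mul_one]

theorem event_ok {κ₀ μm r b : ℝ} {g : RSt} (hg : RAdm d g) {j : ℕ} {s : Bool} {M : ℕ}
    {Low : ℕ → Finset (ℕ × ℕ)} (hon : Orthonormal ℝ (psiL d g Low j s M))
    {G : ℝ → St} {q : ℝ → ℝ}
    (heig : ∀ x ∈ lowS Low j s, EigF (QG d j (toSt g)) (WS d j s M) (psi d (toSt g) j s x M)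
      (lamM d (toSt g) j x M) ∧ kap d g j M (q b) x ≤ μm)
    (hc : Continuous fun t => KG d j s M (G t) (q t)) (hq : κ₀ ^ 2 ≤ q b) (hr : 2 * d * r ≤ 1)
    (hr0 : 0 ≤ r)
    (h : ∀ t ∈ Icc b (b + 1), q t = q b ∧ Adm d (G t) ∧
      (∀ z, |(G t).1 z - (toSt g).1 z| ≤ r ∧ |(G t).2 z - (toSt g).2 z| ≤ r) ∧
      (t ∉ Ioo (b + 1 / 4) (b + 3 / 4) → G t = toSt g)) :
    EventOK κ₀ μm (4 * d * r) (fun t => KG d j s M (G t) (q t)) b (psiL d g Low j s M)
      fun i => kap d g j M (q b) i := by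
  have hb : G b = toSt g := (h b ⟨le_rfl, by linarith⟩).2.2.2 fun h => by linarith [h.1]
  have hq0 : 0 ≤ q b := (sq_nonneg κ₀).trans hq
  refine ⟨hc, posOp_KG (hb ▸ hg.adm) s M hq, fun t u w => ?_, hon, fun i => ?_,
    fun i => Real.sqrt_nonneg _, fun i => (heig i i.2).2, fun t ht ht' => ?_, fun t ht u => ?_⟩
  · rw [real_inner_comm _ u, inner_KG, inner_KG, QG_sym, real_inner_comm]
  · have h1 := QG_nonneg hg.adm (psi d (toSt g) j s i M)
    rw [FLow.eig_self (heig i i.2).1 (hon.1 i)] at h1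
    rw [kap, Real.sq_sqrt (add_nonneg h1 hq0), hb]
    exact KG_eig s M _ _ (heig i i.2).1
  · rw [(h t ht).1, (h t ht).2.2.2 ht', hb]
  · rw [inner_KG, inner_KG, (h t ht).1, hb, add_sub_add_right_eq_sub]
    refine (QG_lip hg.adm (h t ht).2.1 hr (h t ht).2.2.1 _).trans ?_
    have h1 : 0 ≤ q b * ⟪u, u⟫ := mul_nonneg hq0 real_inner_self_nonneg
    gcongr
    linarith

theorem FLow.continuous_QG {j : ℕ} {V : Type} [Fintype V] {G : St} (hG : Adm d G) {F : V → St}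
    (hF : ∀ v, Adm d (F v)) {c : V → ℝ → ℝ} (hc : ∀ v, Continuous (c v)) (u w : RP d j) :
    Continuous fun τ => QG d j (G + comb F fun v => c v τ) u w := by
  have h1 := (contDiff_QG (j := j) (F := fun o : Option V => o.elim G F)
    (fun o => by cases o; exacts [hG, hF _]) u w).continuous.comp
    (f := fun τ (o : Option V) => o.elim 1 fun v => c v τ)
    (continuous_pi fun o => by cases o; exacts [continuous_const, hc _])
  simpa [Function.comp_def, comb, Fintype.sum_option] using h1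

/-- the first-order effect of an event up to a quadratic error (`QG_taylor`, `abs_form_le`, `QD_comb`) -/
theorem mm_expand {κ₀ μm : ℝ} (hκ : 0 < κ₀) : ∃ C : ℝ, 0 ≤ C ∧ ∀ {g : RSt} (_ : RAdm d g) {j : ℕ}
    {s : Bool} {M : ℕ} {V : Type} [Fintype V] {F : V → St} (_ : ∀ v, Adm d (F v)) {G : ℝ → St}
    {q : ℝ → ℝ} {b r : ℝ} {c : V → ℝ → ℝ} {x x' : ℕ × ℕ}, (∀ v, Continuous (c v)) →
    κ₀ ^ 2 ≤ q b → 0 ≤ r → 2 * d * r ≤ 1 → G b = toSt g →
    (∀ τ ∈ Icc (0 : ℝ) 1, q (b + τ) = q b ∧ G (b + τ) = toSt g + comb F (fun v => c v τ) ∧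
      ∀ z, |(comb F fun v => c v τ).1 z| ≤ r ∧ |(comb F fun v => c v τ).2 z| ≤ r) →
    (∀ y ∈ ({x, x'} : Set (ℕ × ℕ)), ‖psi d (toSt g) j s y M‖ = 1 ∧
      EigF (QG d j (toSt g)) (WS d j s M) (psi d (toSt g) j s y M) (lamM d (toSt g) j y M) ∧
      kap d g j M (q b) y ≤ μm) →
    |mm (fun t => KG d j s M (G t) (q t)) b (psiW d (toSt g) j s M x) (psiW d (toSt g) j s M x')
        (kap d g j M (q b) x) (kap d g j M (q b) x') - cmat d g F c M (q b) (j, s, x, x')| ≤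
      C * r ^ 2 := by
  refine ⟨(2 * κ₀)⁻¹ * (Real.exp μm * ((2 * d) ^ 2 * μm ^ 2)), by positivity, ?_⟩
  intro g hg j s M V _ F hF G q b r c x x' hc hq hr hr' hb h1 h2
  obtain ⟨a1, a2, a3⟩ := h2 x (by simp)
  obtain ⟨b1, b2, b3⟩ := h2 x' (by simp)
  have hq0 : 0 ≤ q b := (sq_nonneg κ₀).trans hq
  have a4 := FLow.eig_self a2 a1
  have b4 := FLow.eig_self b2 b1
  have a5 : κ₀ ≤ kap d g j M (q b) x :=
    Real.le_sqrt_of_sq_le (by linarith [QG_nonneg hg.adm (psi d (toSt g) j s x M)])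
  have b5 : 0 ≤ kap d g j M (q b) x' := Real.sqrt_nonneg _
  have a6 : √(lamM d (toSt g) j x M) ≤ μm := (Real.sqrt_le_sqrt (by linarith)).trans a3
  have b6 : √(lamM d (toSt g) j x' M) ≤ μm := (Real.sqrt_le_sqrt (by linarith)).trans b3
  have hμ : 0 ≤ μm := b5.trans b3
  have h3 := FLow.continuous_QG hg.adm hF hc (psi d (toSt g) j s x M) (psi d (toSt g) j s x' M)
  simp only [mm, cmat]
  rw [intervalIntegral.integral_congr (g := fun τ =>
    Real.exp ((kap d g j M (q b) x - kap d g j M (q b) x') * τ) *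
      (QG d j (toSt g + comb F fun v => c v τ) (psi d (toSt g) j s x M) (psi d (toSt g) j s x' M) -
        QG d j (toSt g) (psi d (toSt g) j s x M) (psi d (toSt g) j s x' M))) (fun τ hτ => by
      rw [uIcc_of_le zero_le_one] at hτ
      simp only [sub_apply, inner_sub_left, inner_KG, (h1 τ hτ).1,
        (h1 τ hτ).2.1, hb, add_sub_add_right_eq_sub, psiW]), ← mul_sub,
    ← intervalIntegral.integral_sub (Continuous.intervalIntegrable (by fun_prop) _ _)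
      (Continuous.intervalIntegrable (by fun_prop) _ _), abs_mul, abs_of_pos (by
        have := hκ.trans_le a5
        positivity), mul_assoc (2 * κ₀)⁻¹, ← Real.norm_eq_abs]
  refine mul_le_mul (by gcongr) ((intervalIntegral.norm_integral_le_of_norm_le_const
    (C := Real.exp μm * ((2 * d) ^ 2 * μm ^ 2) * r ^ 2) fun τ hτ => ?_).trans
      (by rw [sub_zero, abs_one, mul_one]))
    (norm_nonneg _) (by positivity)
  rw [uIoc_of_le zero_le_one] at hτ
  have h4 := abs_form_le (S := ⊤) (Q := QG d j (toSt g + comb F fun v => c v τ) - QG d j (toSt g) -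
    QD d j (toSt g) (comb F fun v => c v τ)) (fun u w => by
      simp only [LinearMap.sub_apply, QG_sym _ u w, QD_sym _ _ u w]) (QG_sym (toSt g))
    (sq_nonneg (2 * d * r)) (fun u _ => QG_nonneg hg.adm u)
    (fun u _ => QG_taylor hg.adm (adm_comb hF _) hr' (h1 τ ⟨hτ.1.le, hτ.2⟩).2.2 u)
    (u := psi d (toSt g) j s x M) (w := psi d (toSt g) j s x' M) trivial trivial
  simp only [LinearMap.sub_apply, QD_comb hg.adm hF, LinearMap.sum_apply, LinearMap.smul_apply,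
    smul_eq_mul, a4, b4] at h4
  rw [← mul_sub, norm_mul, Real.norm_of_nonneg (Real.exp_pos _).le, mul_assoc (Real.exp μm)]
  refine mul_le_mul (Real.exp_le_exp.2 (by nlinarith [hτ.1, hτ.2])) (h4.trans ?_) (norm_nonneg _)
    (Real.exp_pos _).le
  calc _ ≤ (2 * d * r) ^ 2 * μm * μm := by gcongr
    _ = _ := by ring

end Crest.Agent.R202
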