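import Crest.Agent.R202.FPhaseAux

/-!
# Row 202, F2: the two types of phases satisfy `PhaseIn`

`K t = KG (G t) (q t)`; min-max values by `lamk_KG`.  Slowness: all `G t` are small (`Small.convex`), so
`r = min (δ|t-s|) (2ε)` is admissible in `QG_lip`; `‖u‖² ≤ ⟪K u,u⟫/κ₀²`.  A gap `γ` between values
`λ + q ≤ B` gives a gap `γ/(2√B)` between the square roots.  High values: `λ(G t) ≥ λ(Gr)/2 ≥ Θ/2`
(`QG_le_two`, `lamk_le_of_le`).
Type I: cells `Sec d j s m M` (`m : Fin (M+1)`, pulled back to `WS`), invariant because the states are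
symmetric (`toSt_add`, `toSt_smul`, `QG_sec_orth`); `n m = #{k | (m,k) ∈ lowS}`; gaps from `gap_segment`
for the finitely many labels concerned (both segments `gl → 0`, `0 → gr`), `lamk_Sec_eq`.  On the
middle hold `√(l(l+d) + q) ≤ l + d/2` (`lamk_round`).
Type II: one cell `⊤`, `n = card (lowS)`, tracked position `posI gp x = posI gm (swp x)` (`low_pos`).
-/

set_option autoImplicit false
open scoped ContDiff RealInnerProductSpace Topology
open MeasureTheory Set Filter Module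
open Crest.GeometryTopology.CoordMetric
open Crest.Agent.R230 (E MP sph ev Harm)

noncomputable section
namespace Crest.Agent.R202

variable {d : ℕ} [NeZero d]

set_option maxHeartbeats 400000 in
theorem phaseI_in {ε γ₀ κ₀ μs Θ₀ Θ : ℝ} {J : Finset ℕ} {L : ℕ → Finset (ℕ × ℕ)} (hP : Par d ε γ₀ J)
    (hL : Lev d J L μs Θ₀) (hκ : 0 < κ₀) {gl gr : RSt} (hgl : RAdm d gl)
    (hsl : Small d ε γ₀ (toSt gl)) (hgr : RAdm d gr) (hsr : Small d ε γ₀ (toSt gr))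
    {Low : ℕ → Finset (ℕ × ℕ)} (hLow : LowOK d J gr Low Θ) (hΘ : Θ₀ ≤ Θ) :
    ∃ g₀ μ₀ : ℝ, 0 < g₀ ∧ ∀ᶠ M in UU, ∀ g μm : ℝ, 0 < g → g ≤ g₀ → μ₀ ≤ μm → ∀ j ∈ J, ∀ (s : Bool),
      ∀ x ∈ L j, ∀ (hx : x ∈ lowS Low j s) (eL : WS d j s M) (a u v b H δ η sl : ℝ) (G : ℝ → St)
        (q om : ℝ → ℝ), ‖eL‖ = 1 → (eL : RP d j) ∈ Sec d j s x.1 M →
      EigF (QG d j (toSt gl)) (WS d j s M) eL (lamM d (toSt gl) j x M) → 0 ≤ δ →
      TPath (toSt gl) 0 (toSt gr) a u v b H δ η (κ₀ ^ 2) (((d : ℝ) / 2) ^ 2) G q →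
      (Continuous fun t => KG d j s M (G t) (q t)) → TOm a u v b μs sl om →
      (u = v ∨ (ldeg j x : ℝ) + d / 2 + 2 * g ≤ sl) →
      PhaseEx κ₀ g μs μm (δ * (4 * d + 1 / κ₀ ^ 2)) η H (fun t => KG d j s M (G t) (q t)) a b
        (psiL d gr Low j s M) ⟨x, hx⟩ eL om := by
  classical
  have hε := hP.eps
  have hγ := hP.gam
  have h0 : Small d ε γ₀ (toSt 0) := by rw [toSt_zero]; exact small_zero hP.epos hP.gpos
  have h0' : Small d ε γ₀ 0 := small_zero hP.epos hP.gpos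
  obtain ⟨γ', hγ', hgap⟩ := FPh.exists_pos_ev (l := atTop)
    ((J ×ˢ J.biUnion Low) ×ˢ (Finset.univ : Finset Bool))
    (P := fun y γ' M => ∀ τ ∈ Icc (0 : ℝ) 1, ∀ G : St,
      G = (1 - τ) • toSt (if y.2 then gl else 0) + τ • toSt (if y.2 then 0 else gr) →
        lamM d G y.1.1 (y.1.2.1, y.1.2.2) M + γ' ≤ lamM d G y.1.1 (y.1.2.1, y.1.2.2 + 1) M)
    (fun y γ₁ γ₂ M h H τ hτ G hG => by linarith [H τ hτ G hG])
    (fun y hy => by
      have hj := hP.ok _ (Finset.mem_product.1 (Finset.mem_product.1 hy).1).1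
      obtain ⟨γ', h1, h2⟩ := gap_segment hj hε hγ (g₀ := if y.2 then gl else 0)
        (g₁ := if y.2 then 0 else gr) (by split_ifs; exacts [hgl, radm_zero d])
        (by split_ifs; exacts [hsl, h0]) (by split_ifs; exacts [radm_zero d, hgr])
        (by split_ifs; exacts [h0, hsr]) y.1.2.1 y.1.2.2
      exact ⟨γ', h1, h2.mono fun M h τ hτ G hG => hG ▸ h τ hτ⟩)
  obtain ⟨B, hB⟩ : ∃ B : ℝ, ∀ j ∈ J, ∀ y ∈ Low j,
      2 * ((ldeg j (y.1, y.2 + 1) : ℝ) * (ldeg j (y.1, y.2 + 1) + d)) ≤ B := by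
    obtain ⟨B, hB⟩ := ((J ×ˢ J.biUnion Low).image fun y : ℕ × ℕ × ℕ =>
      2 * ((ldeg y.1 (y.2.1, y.2.2 + 1) : ℝ) * (ldeg y.1 (y.2.1, y.2.2 + 1) + d))).bddAbove
    exact ⟨B, fun j hj y hy => hB (Finset.mem_coe.2 (Finset.mem_image.2 ⟨(j, y),
      Finset.mem_product.2 ⟨hj, Finset.mem_biUnion.2 ⟨j, hj, hy⟩⟩, rfl⟩))⟩
  obtain ⟨g₀, μ₀, hg₀, hμ₀, hBμ, hgg⟩ := FPh.consts d hγ' B
  refine ⟨g₀, μ₀, hg₀, UU_le ?_⟩
  have hgal := (eventually_all_finset J).2 fun j hj => low_gal hgr (hLow.lt j hj)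
  filter_upwards [hgap, hgal] with M hgap hgal
  intro g μm hg hgg₀ hμm j hj s x hxL hx eL a u v b H δ η sl G q om hn hmem heig hδ hT hc hom hmid
  obtain ⟨hon, hlab, -, -⟩ := hgal j hj s
  have hokJ := hP.ok j hj
  have hok : ∀ y ∈ lowS Low j s, okS s y.1 := fun y hy => (Finset.mem_filter.1 hy).2
  have hlw : ∀ y ∈ lowS Low j s, y ∈ Low j := fun y hy => (Finset.mem_filter.1 hy).1
  have hdown : ∀ m k k', k' ≤ k → (m, k) ∈ lowS Low j s → (m, k') ∈ lowS Low j s :=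
    fun m k k' hk hy => Finset.mem_filter.2 ⟨(hLow.lt j hj _).2
      ((lamI_mono hsr.adm m hk).trans_lt ((hLow.lt j hj _).1 (hlw _ hy))), hok (m, k) hy⟩
  have hinit := fun m k => FPh.init_seg (hdown m) k
  have hsm : ∀ t ∈ Icc a b, Small d ε γ₀ (G t) := fun t ht => FPh.path_small hsl h0' hsr hT ht
  have hseg : ∀ t ∈ Icc a b, ∃ τ ∈ Icc (0 : ℝ) 1, ∃ i : Bool,
      G t = (1 - τ) • toSt (if i then gl else 0) + τ • toSt (if i then 0 else gr) := by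
    intro t ht
    obtain ⟨τ, hτ, h | h⟩ := hT.seg t ht
    · exact ⟨τ, hτ, true, by rw [h, ← toSt_zero]; rfl⟩
    · exact ⟨τ, hτ, false, by rw [h, ← toSt_zero]; rfl⟩
  have hrad : ∀ t ∈ Icc a b, ∃ g', RAdm d g' ∧ G t = toSt g' := by
    intro t ht
    obtain ⟨τ, -, i, h⟩ := hseg t ht
    refine ⟨(1 - τ) • (if i then gl else 0) + τ • (if i then 0 else gr),
      (RAdm.smul ?_ _).add (RAdm.smul ?_ _), by rw [h, toSt_add, toSt_smul, toSt_smul]⟩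
    · split_ifs; exacts [hgl, radm_zero d]
    · split_ifs; exacts [radm_zero d, hgr]
  have hlam : ∀ t ∈ Icc a b, ∀ m k, okS s m →
      lamk (QG d j (G t)) (Sec d j s m M) k = lamM d (G t) j (m, k) M := by
    intro t ht m k hm
    obtain ⟨g', h1, h2⟩ := hrad t ht
    rw [h2]; exact lamk_Sec_eq h1 hm M k
  have hbd : ∀ t ∈ Icc a b, ∀ m k, k < finrank ℝ (Sec d j s m M) →
      lamk (QG d j (G t)) (Sec d j s m M) k ≤
        2 * ((ldeg j (m, k) : ℝ) * (ldeg j (m, k) + d)) := by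
    intro t ht m k hk
    rw [← lamk_round hokJ hk]
    exact FPh.lamk_le_two hε hγ h0' (hsm t ht) hk
  have hkey : ∀ t ∈ Icc a b, ∀ m k, (m, k) ∈ lowS Low j s →
      k + 1 < finrank ℝ (Sec d j s m M) ∧ lamk (QG d j (G t)) (Sec d j s m M) k + γ' ≤
        lamk (QG d j (G t)) (Sec d j s m M) (k + 1) ∧
      lamk (QG d j (G t)) (Sec d j s m M) (k + 1) ≤ B := by
    intro t ht m k hy
    have e1 : k + 1 < finrank ℝ (Sec d j s m M) :=
      lt_finrank_Sec (hok (m, k) hy) (by have := (hlab (m, k) hy).1; dsimp only at this ⊢; omega)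
    have e2 := hB j hj (m, k) (hlw _ hy)
    dsimp only at e2
    refine ⟨e1, ?_, (hbd t ht m (k + 1) e1).trans e2⟩
    rw [hlam t ht m k (hok (m, k) hy), hlam t ht m (k + 1) (hok (m, k) hy)]
    obtain ⟨τ, hτ, i, h⟩ := hseg t ht
    exact hgap ((j, (m, k)), i) (Finset.mem_product.2 ⟨Finset.mem_product.2
      ⟨hj, Finset.mem_biUnion.2 ⟨j, hj, hlw _ hy⟩⟩, Finset.mem_univ _⟩) τ hτ _ h
  have hab : a ≤ b := hT.au.trans (hT.uv.trans hT.vb)
  have hcl : ∀ i : lowS Low j s, i.1.1 < M + 1 := fun i => by have := (hlab _ i.2).1; omega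
  have hx' := hkey a ⟨le_rfl, hab⟩ x.1 x.2 hx
  refine ⟨Fin (M + 1), inferInstance, inferInstance, _,
    fun c : Fin (M + 1) => ((lowS Low j s).filter fun y => y.1 = (c : ℕ)).card,
    fun i => ⟨i.1.1, hcl i⟩, x.2,
    FPh.phaseIn (S := fun c : Fin (M + 1) => Sec d j s c M) hε hγ hκ (hL.th.trans hΘ) hL.mupos hg
      (hgg g hgg₀).1 hμ₀ (hgg g hgg₀).2 hBμ hμm hsl h0' hsr hδ hT hc hom (iSup_Sec s M)
      (fun c c' h => Sec_orth s M (Fin.val_ne_of_ne h)) (fun t ht c c' h y hy y' hy' => ?_)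
      (fun t ht c hc => ?_) (fun c hc => ?_) hon (fun i => psi_mem_Sec d _ j s i M)
      (fun i => ⟨_, (hlab _ i.2).2.1, (hlab _ i.2).2.2⟩) (fun c => ?_) hx'.1
      (fun t ht h => ?_) (fun t ht => (hkey t ht x.1 x.2 hx).2) (fun t ht => ?_) hmem hn ?_ ?_
      (hmid.imp id fun h => ?_)⟩
  · obtain ⟨g', h1, h2⟩ := hrad t ht
    rw [h2]
    exact QG_sec_orth h1 s M (Fin.val_ne_of_ne h) hy hy'
  · have := hkey t ht c _ ((hinit c _).2 (Nat.sub_one_lt hc.ne'))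
    rwa [Nat.sub_add_cancel hc] at this
  · have hs : okS s c := by
      by_contra hs
      rw [Sec_eq_bot (Or.inl hs), finrank_bot] at hc
      exact Nat.not_lt_zero _ hc
    rw [lamk_Sec_eq hgr hs]
    refine le_trans (not_lt.1 fun h => ?_) (lamI_le_lamM hsr.adm (by rwa [finrank_Sec_eq hs] at hc))
    exact lt_irrefl _ ((hinit c _).1 (Finset.mem_filter.2 ⟨(hLow.lt j hj _).2 h, hs⟩))
  · refine Finset.card_bij (fun i _ => i.1) (fun i hi => Finset.mem_filter.2 ⟨i.2, ?_⟩)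
      (fun i _ i' _ h => Subtype.ext h) fun y hy => ?_
    · exact congrArg Fin.val (Finset.mem_filter.1 hi).2
    · exact ⟨⟨y, (Finset.mem_filter.1 hy).1⟩, Finset.mem_filter.2
        ⟨Finset.mem_univ _, Fin.ext (Finset.mem_filter.1 hy).2⟩, rfl⟩
  · have := (hkey t ht x.1 (x.2 - 1) (hdown _ _ _ (Nat.sub_le _ _) hx)).2.1
    rwa [Nat.sub_add_cancel h] at this
  · refine le_trans (add_le_add (Real.sqrt_le_sqrt ?_) le_rfl) (hL.mu j hj x hxL)
    have e1 := hbd t ht x.1 x.2 (by omega)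
    have e2 : (0 : ℝ) ≤ (ldeg j x : ℝ) * (ldeg j x + d) := by positivity
    have e3 : ldeg j (x.1, x.2) = ldeg j x := rfl
    rw [e3] at e1
    exact add_le_add (e1.trans (by linarith)) le_rfl
  · exact (lamk_Sec_eq hgl (hok _ hx) M x.2).symm ▸ heig
  · exact (lamk_Sec_eq hgr (hok _ hx) M x.2).symm ▸ (hlab _ hx).2.1
  · refine le_trans (add_le_add (Real.sqrt_le_iff.2 ⟨by positivity, le_of_eq ?_⟩) le_rfl) h
    rw [lamk_round hokJ (show x.2 < finrank ℝ (Sec d j s x.1 M) by omega)]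
    ring

theorem phaseII_in {ε γ₀ κ₀ μs Θ₀ Θ : ℝ} {J : Finset ℕ} {L : ℕ → Finset (ℕ × ℕ)} (hP : Par d ε γ₀ J)
    (hL : Lev d J L μs Θ₀) (hκ : 0 < κ₀) {je : ℕ} {xa xb : ℕ × ℕ} {gp gm : RSt} {G₀ : St}
    {Low : ℕ → Finset (ℕ × ℕ)} (hE : EdgeOK d J ε γ₀ Θ₀ je xa xb gp gm G₀ Θ Low) :
    ∃ g₀ μ₀ : ℝ, 0 < g₀ ∧ ∀ᶠ M in UU, ∀ g μm : ℝ, 0 < g → g ≤ g₀ → μ₀ ≤ μm → ∀ j ∈ J, ∀ (s : Bool),
      ∀ x ∈ L j, ∀ (hx : swp je xa xb j x ∈ lowS Low j s) (a u v b H δ η sl : ℝ) (G : ℝ → St)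
        (q om : ℝ → ℝ), 0 ≤ δ →
      TPath (toSt gp) G₀ (toSt gm) a u v b H δ η (κ₀ ^ 2) (((d : ℝ) / 2) ^ 2) G q →
      (Continuous fun t => KG d j s M (G t) (q t)) → TOm a u v b μs sl om → u = v →
      PhaseEx κ₀ g μs μm (δ * (4 * d + 1 / κ₀ ^ 2)) η H (fun t => KG d j s M (G t) (q t)) a b
        (psiL d gm Low j s M) ⟨swp je xa xb j x, hx⟩ (psiW d (toSt gp) j s M x) om := by
  classical
  have hε := hP.eps
  have hγ := hP.gam
  have h0' : Small d ε γ₀ 0 := small_zero hP.epos hP.gpos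
  obtain ⟨γ', hγ', hgap⟩ := hE.gap
  choose B₀ hB₀ using fun j n => lamk_WS_bdd (d := d) hε hγ j n
  obtain ⟨B, hB⟩ : ∃ B : ℝ, ∀ j ∈ J, ∀ s : Bool, B₀ j (lowS Low j s).card ≤ B := by
    obtain ⟨B, hB⟩ := ((J ×ˢ (Finset.univ : Finset Bool)).image fun y =>
      B₀ y.1 (lowS Low y.1 y.2).card).bddAbove
    exact ⟨B, fun j hj s => hB (Finset.mem_coe.2 (Finset.mem_image.2 ⟨(j, s),
      Finset.mem_product.2 ⟨hj, Finset.mem_univ _⟩, rfl⟩))⟩
  obtain ⟨g₀, μ₀, hg₀, hμ₀, hBμ, hgg⟩ := FPh.consts d hγ' B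
  refine ⟨g₀, μ₀, hg₀, ?_⟩
  have e1 := (eventually_all_finset J).2 fun j hj => low_gal hE.cp.radm (hE.lp.lt j hj)
  have e2 := (eventually_all_finset J).2 fun j hj => low_gal hE.cm.radm (hE.lm.lt j hj)
  have e3 := (eventually_all_finset J).2 fun j hj => low_pos hE.cp.radm (hE.lp.lt j hj)
    fun y hy y' hy' h => (hE.lp.inj j hj j hj y hy y' hy' h).2
  have e4 := (eventually_all_finset J).2 fun j hj => low_pos hE.cm.radm (hE.lm.lt j hj)
    fun y hy y' hy' h => (hE.lm.inj j hj j hj y hy y' hy' h).2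
  have e5 := (eventually_all_finset J).2 fun j (_ : j ∈ J) =>
    eventually_all.2 fun s : Bool => hB₀ j (lowS Low j s).card
  filter_upwards [hgap, UU_le e1, UU_le e2, UU_le e3, UU_le e4, UU_le e5] with M hgap e1 e2 e3 e4 e5
  intro g μm hg hgg₀ hμm j hj s x hxL hx a u v b H δ η sl G q om hδ hT hc hom huv
  have hsp := hE.cp.small
  have hsm' := hE.cm.small
  have hx0 : x ∈ lowS Low j s := Finset.mem_filter.2 ⟨(hE.lp.lt j hj x).2
    ((tracked_lt hP hL hsp hj hxL).trans_le hE.lo), Or.inr (hL.one j hj x hxL)⟩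
  obtain ⟨honp, hlabp, -, -⟩ := e1 j hj s
  obtain ⟨hon, hlab, -, -⟩ := e2 j hj s
  obtain ⟨hp1, hp2⟩ := (e3 j hj s).1 x hx0
  obtain ⟨hm1, hm2⟩ := e4 j hj s
  have hpos := (hE.pos j hj s x hx0).2
  have hsm : ∀ t ∈ Icc a b, Small d ε γ₀ (G t) := fun t ht => FPh.path_small hsp hE.c0 hsm' hT ht
  have hrk := (e5 j hj s s 0 h0').1
  have hgp : ∀ t ∈ Icc a b, ∀ n, 1 ≤ n → n ≤ (lowS Low j s).card →
      lamk (QG d j (G t)) (WS d j s M) (n - 1) + γ' ≤ lamk (QG d j (G t)) (WS d j s M) n ∧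
        lamk (QG d j (G t)) (WS d j s M) n ≤ B := by
    intro t ht n h1 h2
    obtain ⟨τ, hτ, h⟩ := hT.seg t ht
    exact ⟨hgap j hj s τ hτ _ h n h1 h2,
      (lamk_mono h2 hrk).trans ((e5 j hj s s _ (hsm t ht)).2.trans (hB j hj s))⟩
  refine ⟨Unit, inferInstance, inferInstance, _, fun _ => (lowS Low j s).card, fun _ => (),
    posI d gp Low j s x,
    FPh.phaseIn (S := fun _ : Unit => WS d j s M) hε hγ hκ (hL.th.trans hE.lo) hL.mupos hg
      (hgg g hgg₀).1 hμ₀ (hgg g hgg₀).2 hBμ hμm hsp hE.c0 hsm' hδ hT hc hom iSup_const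
      (fun c c' h => absurd rfl h) (fun t ht c c' h => absurd rfl h)
      (fun t ht c hc => ⟨hrk, hgp t ht _ hc le_rfl⟩) (fun _ _ => hm2) hon (fun i => (psiL d gm Low j s M i).2)
      (fun i => ⟨_, (hlab _ i.2).2.1, (hlab _ i.2).2.2⟩) (fun c => by simp) (by omega)
      (fun t ht h => (hgp t ht _ h hp1.le).1) (fun t ht => hgp t ht _ (Nat.succ_pos _) hp1)
      (fun t ht => ?_) (psiW d (toSt gp) j s M x).2 (honp.1 ⟨x, hx0⟩) ?_ ?_ (Or.inl huv)⟩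
  · refine le_trans (add_le_add (Real.sqrt_le_sqrt (add_le_add ?_ le_rfl)) le_rfl)
      (hL.mu j hj x hxL)
    have f1 := FPh.lamk_le_two hε hγ hsp (hsm t ht) (hp1.trans hrk)
    have f2 : x.2 < finrank ℝ (Sec d j true x.1 M) :=
      lt_finrank_Sec (Or.inl rfl) (by have := (hlabp x hx0).1; omega)
    have f3 := FPh.lamk_le_two hε hγ h0' hsp f2
    rw [lamk_round (hP.ok j hj) f2] at f3
    rw [hp2] at f1
    have f4 : lamM d (toSt gp) j x M ≤ 2 * ((ldeg j x : ℝ) * (ldeg j x + d)) := f3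
    linarith
  · rw [hp2]; exact (hlabp x hx0).2.1
  · rw [hpos, (hm1 _ hx).2]; exact (hlab _ hx).2.1

end Crest.Agent.R202
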