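import Crest.Agent.R202.FLow

/-!
# Row 202, F2 (auxiliary): a criterion for `PhaseIn` in terms of min-max values of `QG`
-/

set_option autoImplicit false
open scoped ContDiff RealInnerProductSpace Topology
open MeasureTheory Set Filter Module
open Crest.GeometryTopology.CoordMetric
open Crest.Agent.R230 (E MP sph ev Harm)

noncomputable section
namespace Crest.Agent.R202.FPh

variable {d : ℕ} [NeZero d]

theorem sqrt_gap {x y γ g μ : ℝ} (hx : 0 ≤ x) (hxy : x + γ ≤ y) (hy : y ≤ μ ^ 2) (hμ : 0 < μ)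
    (hg : 0 < g) (h : 4 * g * μ ≤ γ) : Real.sqrt x + 2 * g ≤ Real.sqrt y := by
  have h0 : 0 < 4 * g * μ := by positivity
  have hy0 : 0 ≤ y := by linarith
  have a1 := Real.sq_sqrt hx
  have a2 := Real.sq_sqrt hy0
  have a3 : Real.sqrt y ≤ μ := Real.sqrt_le_iff.2 ⟨hμ.le, hy⟩
  have a4 : Real.sqrt x ≤ Real.sqrt y := Real.sqrt_le_sqrt (by linarith)
  have a5 := Real.sqrt_nonneg x
  by_contra hc
  have a6 : Real.sqrt y - Real.sqrt x < 2 * g := by linarith [not_le.1 hc]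
  nlinarith [mul_le_mul_of_nonneg_left (show Real.sqrt y + Real.sqrt x ≤ 2 * μ by linarith)
    (sub_nonneg.2 a4), mul_lt_mul_of_pos_right a6 hμ]

theorem omg_int {a u v b μs sl : ℝ} {om f : ℝ → ℝ} (h : TOm a u v b μs sl om) (hau : a ≤ u)
    (huv : u ≤ v) (hvb : v ≤ b) (h1 : ∀ s ∈ Icc a b, f s ≤ μs)
    (h2 : u = v ∨ ∀ s ∈ Icc u v, f s ≤ sl) {t : ℝ} (ht : t ∈ Icc a b)
    (hI : IntervalIntegrable f volume a t) : ∫ s in a..t, f s ≤ om t - om a := by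
  have sub : ∀ s₁ s₂, a ≤ s₁ → s₁ ≤ s₂ → s₂ ≤ t → IntervalIntegrable f volume s₁ s₂ :=
    fun s₁ s₂ e1 e2 e3 => hI.mono_set (by
      rw [uIcc_of_le e2, uIcc_of_le ht.1]; exact Icc_subset_Icc e1 e3)
  have piece : ∀ s₁ s₂ c, a ≤ s₁ → s₁ ≤ s₂ → s₂ ≤ t → (∀ s ∈ Icc s₁ s₂, f s ≤ c) →
      ∫ s in s₁..s₂, f s ≤ c * (s₂ - s₁) := by
    intro s₁ s₂ c e1 e2 e3 hc
    refine (intervalIntegral.integral_mono_on e2 (sub _ _ e1 e2 e3) intervalIntegrable_const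
      hc).trans_eq ?_
    rw [intervalIntegral.integral_const, smul_eq_mul, mul_comm]
  have p1 : ∀ s₁ s₂, a ≤ s₁ → s₁ ≤ s₂ → s₂ ≤ t → (s₂ ≤ u ∨ v ≤ s₁) →
      ∫ s in s₁..s₂, f s ≤ om s₂ - om s₁ := fun s₁ s₂ e1 e2 e3 e4 =>
    (piece s₁ s₂ μs e1 e2 e3 fun s hs => h1 s ⟨e1.trans hs.1, hs.2.trans (e3.trans ht.2)⟩).trans
      (h.out s₁ s₂ e1 e2 (e3.trans ht.2) e4)
  have p2 : ∀ s₂, u ≤ s₂ → s₂ ≤ v → s₂ ≤ t → ∫ s in u..s₂, f s ≤ om s₂ - om u := by
    intro s₂ e1 e2 e3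
    rcases h2 with rfl | h2
    · obtain rfl : s₂ = u := le_antisymm e2 e1
      simp
    · exact (piece u s₂ sl hau e1 e3 fun s hs => h2 s ⟨hs.1, hs.2.trans e2⟩).trans
        (h.mid u s₂ le_rfl e1 e2)
  rcases le_total t u with e | e
  · exact p1 a t le_rfl ht.1 le_rfl (Or.inl e)
  have q1 := p1 a u le_rfl hau e (Or.inl le_rfl)
  rcases le_total t v with e' | e'
  · rw [← intervalIntegral.integral_add_adjacent_intervals (sub a u le_rfl hau e)
      (sub u t hau e le_rfl)]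
    linarith [p2 t e e' le_rfl]
  · rw [← intervalIntegral.integral_add_adjacent_intervals (sub a u le_rfl hau e)
      (sub u t hau e le_rfl), ← intervalIntegral.integral_add_adjacent_intervals
      (sub u v hau huv e') (sub v t (hau.trans huv) e' le_rfl)]
    linarith [p2 v huv le_rfl e', p1 v t (hau.trans huv) e' le_rfl (Or.inr le_rfl)]

theorem omg {a u v b μs sl : ℝ} {om f : ℝ → ℝ} (h : TOm a u v b μs sl om) (hau : a ≤ u)
    (huv : u ≤ v) (hvb : v ≤ b) (h0 : ∀ s, 0 ≤ f s) (h1 : ∀ s ∈ Icc a b, f s ≤ μs)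
    (h2 : u = v ∨ ∀ s ∈ Icc u v, f s ≤ sl) {t : ℝ} (ht : t ∈ Icc a b) :
    ∫ s in a..t, f s ≤ om t - om a := by
  by_cases hI : IntervalIntegrable f volume a t
  · exact omg_int h hau huv hvb h1 h2 ht hI
  · rw [intervalIntegral.integral_undef hI]
    have := omg_int (f := fun _ => 0) h hau huv hvb (fun s hs => (h0 s).trans (h1 s hs))
      (h2.imp id fun h2 s hs => (h0 s).trans (h2 s hs)) ht intervalIntegrable_const
    simpa using this

theorem mem_cell {W γ : Type} [NormedAddCommGroup W] [InnerProductSpace ℝ W]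
    [FiniteDimensional ℝ W] {Cl : γ → Submodule ℝ W} (ho : ∀ c c', c ≠ c' → Cl c ⟂ Cl c')
    (ht : ⨆ c, Cl c = ⊤) {c : γ} {w : W} (hw : ∀ c', c' ≠ c → ∀ y ∈ Cl c', ⟪w, y⟫ = 0) :
    w ∈ Cl c := by
  have h1 : w - (Cl c).starProjection w ∈ (⨆ c, Cl c)ᗮ := by
    rw [← Submodule.iInf_orthogonal, Submodule.mem_iInf]
    intro c'
    by_cases hc : c' = c
    · subst hc
      exact Submodule.sub_starProjection_mem_orthogonal w
    · refine Submodule.sub_mem _ ((Submodule.mem_orthogonal' _ _).2 (hw c' hc)) ?_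
      exact (ho c c' (Ne.symm hc)) (Submodule.starProjection_apply_mem _ w)
  rw [ht, Submodule.top_orthogonal_eq_bot, Submodule.mem_bot, sub_eq_zero] at h1
  rw [h1]
  exact Submodule.starProjection_apply_mem _ w

omit [NeZero d] in
theorem path_small {ε γ₀ : ℝ} {Gl Gm Gr : St} (hl : Small d ε γ₀ Gl) (hm : Small d ε γ₀ Gm)
    (hr : Small d ε γ₀ Gr) {a u v b H δ η qlo qhi : ℝ} {G : ℝ → St} {q : ℝ → ℝ}
    (hT : TPath Gl Gm Gr a u v b H δ η qlo qhi G q) {t : ℝ} (ht : t ∈ Icc a b) :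
    Small d ε γ₀ (G t) := by
  obtain ⟨τ, hτ, h | h⟩ := hT.seg t ht
  · rw [h]; exact hl.convex hm hτ
  · rw [h]; exact hm.convex hr hτ

theorem path_left {Gl Gm Gr : St} {a u v b H δ η qlo qhi : ℝ} {G : ℝ → St} {q : ℝ → ℝ}
    (hT : TPath Gl Gm Gr a u v b H δ η qlo qhi G q) : G a = Gl :=
  (hT.left a ⟨le_rfl, by linarith [hT.H0]⟩).1

theorem path_right {Gl Gm Gr : St} {a u v b H δ η qlo qhi : ℝ} {G : ℝ → St} {q : ℝ → ℝ}
    (hT : TPath Gl Gm Gr a u v b H δ η qlo qhi G q) : G b = Gr :=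
  (hT.right b ⟨by linarith [hT.H0], le_rfl⟩).1

theorem slow {ε γ₀ κ₀ δ r : ℝ} (hε : ε ≤ epsU d) (hγ : γ₀ ≤ ε) (hκ : 0 < κ₀) {j M : ℕ} {s : Bool}
    {G G' : St} (hG : Small d ε γ₀ G) (hG' : Small d ε γ₀ G') {q q' : ℝ} (hq : κ₀ ^ 2 ≤ q)
    (hδ : 0 ≤ δ) (hr : 0 ≤ r)
    (h1 : ∀ z, |G'.1 z - G.1 z| ≤ δ * r ∧ |G'.2 z - G.2 z| ≤ δ * r) (h2 : |q' - q| ≤ δ * r)
    (w : WS d j s M) : |⟪KG d j s M G' q' w, w⟫ - ⟪KG d j s M G q w, w⟫| ≤
      δ * (4 * d + 1 / κ₀ ^ 2) * r * ⟪KG d j s M G q w, w⟫ := by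
  have hd : (0 : ℝ) ≤ d := Nat.cast_nonneg d
  have e1 : 2 * d * min (δ * r) (2 * ε) ≤ 1 := by
    have a1 : ε * (1000 * ((d : ℝ) + 1)) ≤ 1 := by
      rwa [epsU, le_div_iff₀ (by positivity)] at hε
    have a2 : 0 ≤ ε := (abs_nonneg _).trans (hG.abs_le 0).1
    nlinarith [mul_le_mul_of_nonneg_left (min_le_right (δ * r) (2 * ε)) hd, mul_nonneg hd a2]
  have e2 := QG_lip (j := j) hG.adm hG'.adm e1 (fun z =>
    ⟨le_min (h1 z).1 (small_sub hγ hG hG' z).1, le_min (h1 z).2 (small_sub hγ hG hG' z).2⟩) w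
  have e3 := QG_nonneg (j := j) hG.adm (w : RP d j)
  have e4 : 4 * d * min (δ * r) (2 * ε) * QG d j G w w ≤ 4 * d * (δ * r) * QG d j G w w := by
    gcongr; exact min_le_left _ _
  have e5 : (0 : ℝ) ≤ ⟪w, w⟫ := real_inner_self_nonneg
  have hκ2 : 0 < κ₀ ^ 2 := by positivity
  have e6 : ⟪w, w⟫ ≤ 1 / κ₀ ^ 2 * (QG d j G w w + q * ⟪w, w⟫) := by
    rw [one_div, le_inv_mul_iff₀ hκ2]
    nlinarith [mul_le_mul_of_nonneg_right hq e5]
  rw [inner_KG, inner_KG]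
  have e7 : |(q' - q) * ⟪w, w⟫| ≤ δ * r * ⟪w, w⟫ := by
    rw [abs_mul, abs_of_nonneg e5]; gcongr
  have e8 : 0 ≤ δ * r := mul_nonneg hδ hr
  have e9 : 0 ≤ q * ⟪w, w⟫ := mul_nonneg (hκ2.le.trans hq) e5
  calc _ = |(QG d j G' w w - QG d j G w w) + (q' - q) * ⟪w, w⟫| := by congr 1; ring
    _ ≤ 4 * d * (δ * r) * QG d j G w w + δ * r * ⟪w, w⟫ :=
        (abs_add_le _ _).trans (add_le_add (e2.trans e4) e7)
    _ ≤ 4 * d * (δ * r) * (QG d j G w w + q * ⟪w, w⟫) +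
        δ * r * (1 / κ₀ ^ 2 * (QG d j G w w + q * ⟪w, w⟫)) := by
        gcongr; linarith
    _ = _ := by ring

theorem lamk_le_two {ε γ₀ : ℝ} (hε : ε ≤ epsU d) (hγ : γ₀ ≤ ε) {j : ℕ} {G G' : St}
    (hG : Small d ε γ₀ G) (hG' : Small d ε γ₀ G') {S : Submodule ℝ (RP d j)}
    [FiniteDimensional ℝ S] {k : ℕ} (hk : k < finrank ℝ S) :
    lamk (QG d j G') S k ≤ 2 * lamk (QG d j G) S k := by
  simpa using lamk_le_of_le (S := S) (Q := QG d j G') (Q' := QG d j G) (b := 0) zero_le_two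
    (fun u _ => by simpa using QG_le_two hε hγ hG hG' u) hk

theorem phaseIn {ε γ₀ κ₀ μs Θ γ' B μ₀ g μm : ℝ} (hε : ε ≤ epsU d) (hγ : γ₀ ≤ ε) (hκ : 0 < κ₀)
    (hΘ : 2 * (μs + 1) ^ 2 ≤ Θ) (hμs : 1 ≤ μs) (hg : 0 < g) (hg1 : g ≤ 1) (hμ₀ : 0 < μ₀)
    (hgγ : 4 * g * μ₀ ≤ γ') (hB : B + ((d : ℝ) / 2) ^ 2 ≤ μ₀ ^ 2) (hμm : μ₀ ≤ μm)
    {j M : ℕ} {s : Bool} {Gl Gm Gr : St} (hl : Small d ε γ₀ Gl) (hm : Small d ε γ₀ Gm)
    (hr : Small d ε γ₀ Gr) {a u v b H δ η sl : ℝ} {G : ℝ → St} {q om : ℝ → ℝ} (hδ : 0 ≤ δ)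
    (hT : TPath Gl Gm Gr a u v b H δ η (κ₀ ^ 2) (((d : ℝ) / 2) ^ 2) G q)
    (hc : Continuous fun t => KG d j s M (G t) (q t)) (hom : TOm a u v b μs sl om)
    {γ ι : Type} [Fintype γ] [Fintype ι] [DecidableEq γ] {S : γ → Submodule ℝ (RP d j)}
    (htop : ⨆ c, S c = WS d j s M) (ho : ∀ c c', c ≠ c' → S c ⟂ S c')
    (hQo : ∀ t ∈ Icc a b, ∀ c c', c ≠ c' → ∀ x ∈ S c, ∀ y ∈ S c', QG d j (G t) x y = 0)
    {n : γ → ℕ} {ψ : ι → WS d j s M} {cell : ι → γ} {i₀ : ι} {m : ℕ} {eL : WS d j s M}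
    (hgap : ∀ t ∈ Icc a b, ∀ c, 0 < n c → n c < finrank ℝ (S c) ∧
      lamk (QG d j (G t)) (S c) (n c - 1) + γ' ≤ lamk (QG d j (G t)) (S c) (n c) ∧
      lamk (QG d j (G t)) (S c) (n c) ≤ B)
    (hhigh : ∀ c, n c < finrank ℝ (S c) → Θ ≤ lamk (QG d j Gr) (S c) (n c))
    (hon : Orthonormal ℝ ψ) (hmem : ∀ i, (ψ i : RP d j) ∈ S (cell i))
    (heig : ∀ i, ∃ r, EigF (QG d j Gr) (WS d j s M) (ψ i) r ∧ r < Θ)
    (hcard : ∀ c, (Finset.univ.filter fun i => cell i = c).card = n c)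
    (htdim : m + 1 < finrank ℝ (S (cell i₀)))
    (htlo : ∀ t ∈ Icc a b, 0 < m →
      lamk (QG d j (G t)) (S (cell i₀)) (m - 1) + γ' ≤ lamk (QG d j (G t)) (S (cell i₀)) m)
    (hthi : ∀ t ∈ Icc a b,
      lamk (QG d j (G t)) (S (cell i₀)) m + γ' ≤ lamk (QG d j (G t)) (S (cell i₀)) (m + 1) ∧
      lamk (QG d j (G t)) (S (cell i₀)) (m + 1) ≤ B)
    (htle : ∀ t ∈ Icc a b,
      Real.sqrt (lamk (QG d j (G t)) (S (cell i₀)) m + ((d : ℝ) / 2) ^ 2) + 2 ≤ μs)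
    (hLm : (eL : RP d j) ∈ S (cell i₀)) (hLn : ‖eL‖ = 1)
    (hLe : EigF (QG d j Gl) (WS d j s M) eL (lamk (QG d j Gl) (S (cell i₀)) m))
    (hRe : EigF (QG d j Gr) (WS d j s M) (ψ i₀) (lamk (QG d j Gr) (S (cell i₀)) m))
    (hmid : u = v ∨
      Real.sqrt (lamk (QG d j Gm) (S (cell i₀)) m + ((d : ℝ) / 2) ^ 2) + 2 * g ≤ sl) :
    PhaseIn κ₀ g μs μm (δ * (4 * d + 1 / κ₀ ^ 2)) η H (fun t => KG d j s M (G t) (q t)) a b
      (fun c => (S c).comap (WS d j s M).subtype) n ψ cell i₀ m eL om := by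
  have hS : ∀ c, S c ≤ WS d j s M := fun c => htop ▸ le_iSup S c
  have : ∀ c, FiniteDimensional ℝ (S c) := fun c => Submodule.finiteDimensional_of_le (hS c)
  have hfr : ∀ c, finrank ℝ ((S c).comap (WS d j s M).subtype) = finrank ℝ (S c) := fun c =>
    (Submodule.comapSubtypeEquivOfLe (hS c)).finrank_eq
  have hsm : ∀ t ∈ Icc a b, Small d ε γ₀ (G t) := fun t ht => path_small hl hm hr hT ht
  have hab : a ≤ b := hT.au.trans (hT.uv.trans hT.vb)
  have ha : a ∈ Icc a b := ⟨le_rfl, hab⟩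
  have hb : b ∈ Icc a b := ⟨hab, le_rfl⟩
  have hq0 : ∀ t ∈ Icc a b, 0 ≤ q t := fun t ht => (sq_nonneg κ₀).trans (hT.qr t ht).1
  have hL : ∀ t c k, k < finrank ℝ (S c) →
      lamk (fK (KG d j s M (G t) (q t))) ((S c).comap (WS d j s M).subtype) k =
        lamk (QG d j (G t)) (S c) k + q t := fun t c k hk => (lamk_KG s M _ _ (hS c) hk).1
  have hnn : ∀ t ∈ Icc a b, ∀ c k, k < finrank ℝ (S c) → 0 ≤ lamk (QG d j (G t)) (S c) k + q t :=
    fun t ht c k hk => add_nonneg (le_lamk_of_all (fun w _ => by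
      simpa using QG_nonneg (hsm t ht).adm w) hk) (hq0 t ht)
  have hgp : ∀ t ∈ Icc a b, ∀ c k k', k < finrank ℝ (S c) → k' < finrank ℝ (S c) →
      lamk (QG d j (G t)) (S c) k + γ' ≤ lamk (QG d j (G t)) (S c) k' →
      lamk (QG d j (G t)) (S c) k' ≤ B →
      Real.sqrt (lamk (fK (KG d j s M (G t) (q t))) ((S c).comap (WS d j s M).subtype) k) + 2 * g ≤
        Real.sqrt (lamk (fK (KG d j s M (G t) (q t))) ((S c).comap (WS d j s M).subtype) k') := by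
    intro t ht c k k' hk hk' e1 e2
    rw [hL t c k hk, hL t c k' hk']
    exact sqrt_gap (hnn t ht c k hk) (by linarith) (by linarith [(hT.qr t ht).2]) hμ₀ hg hgγ
  have hγ0 : 0 < γ' := lt_of_lt_of_le (by positivity) hgγ
  have hm0 : m < finrank ℝ (S (cell i₀)) := by omega
  have horth : ∀ c c', c ≠ c' →
      (S c).comap (WS d j s M).subtype ⟂ (S c').comap (WS d j s M).subtype := by
    intro c c' hcc
    rw [Submodule.isOrtho_iff_inner_eq]
    intro x hx y hy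
    exact Submodule.isOrtho_iff_inner_eq.1 (ho c c' hcc) _ hx _ hy
  have htop' : ⨆ c, (S c).comap (WS d j s M).subtype = ⊤ := by
    refine Submodule.map_injective_of_injective (WS d j s M).injective_subtype ?_
    rw [Submodule.map_iSup, Submodule.map_subtype_top, ← htop]
    refine iSup_congr fun c => ?_
    rw [Submodule.map_comap_subtype, inf_eq_right]
    exact le_iSup S c
  have htle' : ∀ t ∈ Icc a b, Real.sqrt (lamk (fK (KG d j s M (G t) (q t)))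
      ((S (cell i₀)).comap (WS d j s M).subtype) m) + 2 * g ≤ μs := by
    intro t ht
    rw [hL t _ m hm0]
    have := Real.sqrt_le_sqrt (add_le_add (le_refl (lamk (QG d j (G t)) (S (cell i₀)) m))
      (hT.qr t ht).2)
    linarith [htle t ht]
  refine
    { cont := hc
      pos := fun t ht => posOp_KG (hsm t ht).adm s M (hT.qr t ht).1
      slow := fun t ht t' ht' w => slow hε hγ hκ (hsm t ht) (hsm t' ht') (hT.qr t ht).1 hδ
        (abs_nonneg _) (hT.lip t ht t' ht').1 (hT.lip t ht t' ht').2 w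
      holds := ⟨hT.len, fun t ht => ?_, fun t ht => ⟨q t - q b, (hT.right t ht).2, ?_⟩⟩
      orth := horth
      top := htop'
      inv := fun t ht c w hw => mem_cell horth htop' fun c' hc' y hy => ?_
      gap := fun t ht c hc => ?_
      high := fun t ht c hc => ?_
      on := hon
      mem := hmem
      eig := fun i => ?_
      card := hcard
      tdim := by rw [hfr]; exact htdim
      tlo := fun t ht h0 => hgp t ht _ _ _ (by omega) hm0 (htlo t ht h0)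
        (by linarith [(hthi t ht).1, (hthi t ht).2])
      thi := fun t ht => hgp t ht _ _ _ hm0 htdim (hthi t ht).1 (hthi t ht).2
      tle := htle'
      Lmem := hLm
      Lnorm := hLn
      Leig := ?_
      Reig := ?_
      omg := fun t ht => omg hom hT.au hT.uv hT.vb (fun _ => by positivity) htle'
        (hmid.imp id fun h t' ht' => ?_) ht }
  · rw [(hT.left t ht).1, (hT.left t ht).2, path_left hT]
  · rw [(hT.right t ht).1, path_right hT]
    refine ContinuousLinearMap.ext fun w => ?_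
    simp only [KG, add_apply, smul_apply,
      ContinuousLinearMap.id_apply]
    module
  · rw [inner_KG, hQo t ht c c' (Ne.symm hc') (w : RP d j) hw (y : RP d j) hy,
      Submodule.isOrtho_iff_inner_eq.1 (horth c c' (Ne.symm hc')) _ hw _ hy, mul_zero, add_zero]
  · obtain ⟨e1, e2, e3⟩ := hgap t ht c hc
    refine ⟨by rw [hfr]; exact e1, hgp t ht c _ _ (by omega) e1 e2 e3, ?_⟩
    rw [hL t c _ e1]
    exact (Real.sqrt_le_iff.2 ⟨hμ₀.le, by linarith [(hT.qr t ht).2]⟩).trans hμm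
  · rw [hfr] at hc
    rw [hL t c _ hc]
    have e1 := (hhigh c hc).trans (lamk_le_two hε hγ (hsm t ht) hr hc)
    refine le_trans (show μs + g ≤ μs + 1 by linarith) (Real.le_sqrt_of_sq_le ?_)
    linarith [hq0 t ht]
  · obtain ⟨r, e1, e2⟩ := heig i
    have e3 : 0 < n (cell i) := by
      rw [← hcard]
      exact Finset.card_pos.2 ⟨i, by simp⟩
    have e4 := (hgap b hb _ e3).1
    refine ⟨r + q b, ?_, ?_⟩
    · rw [path_right hT]; exact KG_eig s M _ _ e1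
    · rw [hL b _ _ e4, path_right hT]
      linarith [hhigh _ e4]
  · rw [hL a _ _ hm0, path_left hT]
    exact KG_eig s M _ _ hLe
  · rw [hL b _ _ hm0, path_right hT]
    exact KG_eig s M _ _ hRe
  · have ht'' : t' ∈ Icc a b := ⟨hT.au.trans ht'.1, ht'.2.trans hT.vb⟩
    rw [hL t' _ m hm0, hT.mid t' ht']
    have := Real.sqrt_le_sqrt (add_le_add (le_refl (lamk (QG d j Gm) (S (cell i₀)) m))
      (hT.qr t' ht'').2)
    linarith

/-- the constants `g₀`, `μ₀` -/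
theorem consts (d : ℕ) {γ' : ℝ} (hγ : 0 < γ') (B : ℝ) : ∃ g₀ μ₀ : ℝ, 0 < g₀ ∧ 0 < μ₀ ∧
    B + ((d : ℝ) / 2) ^ 2 ≤ μ₀ ^ 2 ∧ ∀ g, g ≤ g₀ → g ≤ 1 ∧ 4 * g * μ₀ ≤ γ' := by
  have h1 : 1 ≤ |B| + ((d : ℝ) / 2) ^ 2 + 1 := by
    have : 0 ≤ |B| + ((d : ℝ) / 2) ^ 2 := by positivity
    linarith
  refine ⟨min 1 (γ' / (4 * (|B| + ((d : ℝ) / 2) ^ 2 + 1))), |B| + ((d : ℝ) / 2) ^ 2 + 1,
    by positivity, by positivity, by nlinarith [le_abs_self B], fun g hg =>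
      ⟨hg.trans (min_le_left _ _), ?_⟩⟩
  have := hg.trans (min_le_right _ _)
  rw [le_div_iff₀ (by positivity)] at this
  linarith

theorem exists_pos_ev {α : Type} (T : Finset α) {l : Filter ℕ} {P : α → ℝ → ℕ → Prop}
    (hm : ∀ a γ γ' M, γ' ≤ γ → P a γ M → P a γ' M)
    (h : ∀ a ∈ T, ∃ γ, 0 < γ ∧ ∀ᶠ M in l, P a γ M) :
    ∃ γ, 0 < γ ∧ ∀ᶠ M in l, ∀ a ∈ T, P a γ M := by
  classical
  induction T using Finset.induction_on with
  | empty => exact ⟨1, one_pos, by simp⟩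
  | insert a T _ ih =>
    obtain ⟨γ₁, h₁, e₁⟩ := h a (Finset.mem_insert_self _ _)
    obtain ⟨γ₂, h₂, e₂⟩ := ih fun b hb => h b (Finset.mem_insert_of_mem hb)
    refine ⟨min γ₁ γ₂, lt_min h₁ h₂, ?_⟩
    filter_upwards [e₁, e₂] with M f₁ f₂ b hb
    rcases Finset.mem_insert.1 hb with rfl | hb
    · exact hm _ _ _ _ (min_le_left _ _) f₁
    · exact hm _ _ _ _ (min_le_right _ _) (f₂ b hb)

/-- a finite set of labels which is a lower set in each column -/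
theorem init_seg {T : Finset (ℕ × ℕ)} {m : ℕ} (h : ∀ k k', k' ≤ k → (m, k) ∈ T → (m, k') ∈ T)
    (k : ℕ) : (m, k) ∈ T ↔ k < (T.filter fun y => y.1 = m).card := by
  have e : (T.filter fun y => y.1 = m).card = ((T.filter fun y => y.1 = m).image Prod.snd).card := by
    refine (Finset.card_image_of_injOn fun y hy y' hy' hh => ?_).symm
    exact Prod.ext ((Finset.mem_filter.1 hy).2.trans (Finset.mem_filter.1 hy').2.symm) hh
  have e2 : ∀ i, i ∈ (T.filter fun y => y.1 = m).image Prod.snd ↔ (m, i) ∈ T := by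
    intro i
    simp only [Finset.mem_image, Finset.mem_filter]
    constructor
    · rintro ⟨⟨a, b⟩, ⟨h1, rfl⟩, rfl⟩; exact h1
    · intro h1; exact ⟨(m, i), ⟨h1, rfl⟩, rfl⟩
  rw [e]
  constructor
  · intro hk
    have : Finset.range (k + 1) ⊆ (T.filter fun y => y.1 = m).image Prod.snd := fun i hi =>
      (e2 i).2 (h k i (Nat.lt_succ_iff.1 (Finset.mem_range.1 hi)) hk)
    simpa using Finset.card_le_card this
  · intro hk
    by_contra hn
    have : (T.filter fun y => y.1 = m).image Prod.snd ⊆ Finset.range k := fun i hi =>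
      Finset.mem_range.2 (lt_of_not_ge fun hki => hn (h i k hki ((e2 i).1 hi)))
    have := Finset.card_le_card this
    rw [Finset.card_range] at this
    omega

end Crest.Agent.R202.FPh
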