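import Crest.Agent.R202.HComb
import Crest.Agent.R202.FEdge
import Crest.Agent.R202.FPhase

/-!
# Row 202, F6: the spectral plan

Choose for every edge `e ∈ Ed` the data `gp e, gm e, G₀ e, Θ e, Low e` of `exists_edge` (`tracked_lt` gives the
hypothesis on `Θ₀` and shows that the tracked labels are low) and, for both end states, controls by `exists_ctl`
(`q₀ = κ₀²`).  Take the word `e i`, `lg i`, period `P'` of `mix_word`.  Vertices:
`V = Option (Ed × Fin 3) ⊕ Σ (e : Ed × Bool), Fin (n e)` (round state, `gp/G₀/gm`, control directions).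
`R = Option` of the finite set of all `r : CT` that are constraints for some edge; `χ p r v` is the control of
`exists_ctl` for the event state of `p` if `r` is a constraint there and `v` belongs to its control directions, else `0`.
Phase `p = 2i`: `lf = round` (`i = 0`) or `gm (e (i-1))`, `md = round`, `st = gp (e i)`, label `labI e j x i`
(`phaseI_in`; for `i = 0` use `toSt_zero`, `lamk_round`; otherwise `psi_spec`, `psi_mem_Sec`).  Phase `p = 2i+1`:
`lf = gp (e i)`, `md = G₀ (e i)`, `st = gm (e i)`, label `labI e j x (i+1)` (`phaseII_in`).  `P = 2P'`, and `lg p` holds iff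
`p` is even and `lg (p/2)`.  `sec`: `Cls.neg_bet`; `event`: `low_gal`; `g₀, η₀` are minima and `μ₀` a maximum over
finitely many edges / pairs of edges.  It is convenient to prove first the statements for *all* edges (pairs of edges)
and to specialise to the word afterwards.
-/

set_option autoImplicit false
open scoped ContDiff RealInnerProductSpace Topology
open MeasureTheory Set Filter Module
open Crest.GeometryTopology.CoordMetric
open Crest.Agent.R230 (E MP sph ev Harm)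

noncomputable section
namespace Crest.Agent.R202

namespace FPlanAux

theorem exists_pos_le {ι : Type} [Finite ι] (f : ι → ℝ) (h : ∀ i, 0 < f i) :
    ∃ c : ℝ, 0 < c ∧ ∀ i, c ≤ f i := by
  rcases isEmpty_or_nonempty ι with h0 | h0
  · exact ⟨1, one_pos, fun i => h0.elim i⟩
  · obtain ⟨i, hi⟩ := Finite.exists_min f
    exact ⟨f i, h i, hi⟩

theorem prof_zero : Prof fun _ => 0 := ⟨contDiff_const, fun _ _ => rfl⟩

theorem prof_bd {χ : ℝ → ℝ} (h : Prof χ) (k : ℕ) : ∃ B : ℝ, ∀ τ, |iteratedDeriv k χ τ| ≤ B := by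
  have h1 : HasCompactSupport χ :=
    HasCompactSupport.intro (isCompact_Icc (a := (1 / 4 : ℝ)) (b := 3 / 4)) fun τ hτ =>
      h.2 τ fun hh => hτ (Ioo_subset_Icc_self hh)
  have h2 : ∀ n : ℕ, HasCompactSupport (iteratedDeriv n χ) := fun n => by
    induction n with
    | zero => rwa [iteratedDeriv_zero]
    | succ n ih => rw [iteratedDeriv_succ]; exact ih.deriv
  exact (h.1.continuous_iteratedDeriv k (by exact_mod_cast le_top)).bounded_above_of_compact_support
    (h2 k)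

theorem con_finite {A : Type} [Finite A] (J : Finset ℕ) (L : ℕ → Finset (ℕ × ℕ))
    (Low : A → ℕ → Finset (ℕ × ℕ)) : ∃ C : Finset CT, ∀ a r, IsCon J L (Low a) r → r ∈ C := by
  classical
  have := Fintype.ofFinite A
  refine ⟨Finset.univ.biUnion fun a => J.biUnion fun j =>
    {j} ×ˢ (Finset.univ ×ˢ (L j ×ˢ Low a j)), fun a r h => ?_⟩
  simp only [Finset.mem_biUnion, Finset.mem_univ, true_and, Finset.mem_product,
    Finset.mem_singleton]
  exact ⟨a, r.1, h.1, rfl, h.2.1, (Finset.mem_filter.1 h.2.2.1).1⟩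

open Classical in
/-- the controls of the event state `σ` on the big vertex set -/
def chi {S U : Type} {n : S → ℕ} {C : Finset CT} (con : S → CT → Prop)
    (χ : ∀ σ, CT → Fin (n σ) → ℝ → ℝ) (σ : S) : Option C → U ⊕ (Σ σ, Fin (n σ)) → ℝ → ℝ
  | some r, .inr v => if v.1 = σ ∧ con σ r.1 then χ v.1 r.1 v.2 else fun _ => 0
  | some _, .inl _ => fun _ => 0
  | none, _ => fun _ => 0

section chi
variable {S U : Type} {n : S → ℕ} {C : Finset CT} {con : S → CT → Prop}
  {χ : ∀ σ, CT → Fin (n σ) → ℝ → ℝ}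

theorem chi_prof (h : ∀ σ r v, Prof (χ σ r v)) (σ : S) (r : Option C) (v : U ⊕ (Σ σ, Fin (n σ))) :
    Prof (chi con χ σ r v) := by
  rcases r with _ | r
  · exact prof_zero
  rcases v with u | v
  · exact prof_zero
  · simp only [chi]
    split_ifs
    · exact h _ _ _
    · exact prof_zero

variable {d : ℕ} [NeZero d] [Fintype S] [Fintype U]

theorem cmat_zero {V : Type} [Fintype V] (g : RSt) (F : V → St) {c : V → ℝ → ℝ}
    (hc : ∀ v τ, c v τ = 0) (M : ℕ) (q : ℝ) (r : CT) : cmat d g F c M q r = 0 := by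
  show _ * ∫ τ in (0 : ℝ)..1, _ * ∑ v, c v τ * _ = 0
  simp [hc]

theorem cmat_con (g : RSt) (FU : U → St) (Fc : ∀ σ, Fin (n σ) → St) {σ : S} {r' : C}
    (h : con σ r'.1) (M : ℕ) (q : ℝ) (r : CT) :
    cmat d g (Sum.elim FU fun v : Σ σ, Fin (n σ) => Fc v.1 v.2) (chi con χ σ (some r')) M q r =
      cmat d g (Fc σ) (χ σ r'.1) M q r := by
  show _ * ∫ τ in (0 : ℝ)..1, _ * ∑ v, chi con χ σ (some r') v τ * _ =
    _ * ∫ τ in (0 : ℝ)..1, _ * ∑ v, χ σ r'.1 v τ * _
  congr 2
  funext τ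
  congr 1
  rw [Fintype.sum_sum_type, Fintype.sum_sigma, Finset.sum_eq_single σ]
  · simp [chi, h]
  · intro σ' _ hσ
    simp [chi, hσ]
  · simp

omit [Fintype S] [Fintype U] in
theorem chi_not {σ : S} {r' : C} (h : ¬ con σ r'.1) (v : U ⊕ (Σ σ, Fin (n σ))) (τ : ℝ) :
    chi con χ σ (some r') v τ = 0 := by
  rcases v with u | v
  · rfl
  · simp [chi, h]

end chi

theorem filter_even (P : ℕ) (lg : ℕ → Bool) :
    (Finset.range (2 * P)).filter (fun p => (decide (p % 2 = 0) && lg (p / 2)) = true) =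
      ((Finset.range P).filter fun i => lg i = true).map
        ⟨fun i => 2 * i, fun _ _ h => Nat.eq_of_mul_eq_mul_left two_pos h⟩ := by
  ext p
  simp only [Finset.mem_filter, Finset.mem_range, Bool.and_eq_true, decide_eq_true_eq,
    Finset.mem_map, Function.Embedding.coeFn_mk]
  constructor
  · rintro ⟨h1, h2, h3⟩
    exact ⟨p / 2, ⟨by omega, h3⟩, by omega⟩
  · rintro ⟨i, ⟨h1, h2⟩, rfl⟩
    exact ⟨by omega, by omega, by rwa [Nat.mul_div_cancel_left _ two_pos]⟩

end FPlanAux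

open FPlanAux in
theorem plan_ex {d : ℕ} [NeZero d] {ε γ₀ κ₀ μs Θ₀ θ₀ : ℝ} {J : Finset ℕ} {L O : ℕ → Finset (ℕ × ℕ)}
    {Ed : Finset Edge} (hP : Par d ε γ₀ J) (hL : Lev d J L μs Θ₀) (hM : Mix J L O Ed θ₀) (hκ : 0 < κ₀)
    (hc : ∀ e ∈ Ed, Crossable d ε γ₀ e.1 e.2.1 e.2.2) :
    ∃ (V R : Type) (_ : Fintype V) (_ : DecidableEq V) (_ : Fintype R) (_ : DecidableEq R)
      (F : V → St) (lf md st : ℕ → V) (gs : ℕ → RSt) (Low : ℕ → ℕ → Finset (ℕ × ℕ))
      (lab : ℕ → ℕ × ℕ → ℕ → ℕ × ℕ) (χ : ℕ → R → V → ℝ → ℝ) (idx : ℕ → CT → R) (P : ℕ)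
      (lg : ℕ → Bool) (g₀ μ₀ η₀ : ℝ),
      PlanOK d J L ε γ₀ κ₀ μs θ₀ g₀ μ₀ η₀ F lf md st gs Low lab χ idx P lg := by
  classical
  have hO : ∀ a : Ed, a.1.1 ∈ J ∧ a.1.2.1 ∈ L a.1.1 ∧ a.1.2.2 ∈ L a.1.1 ∧ a.1.2.1 ≠ a.1.2.2 :=
    fun a => by
      obtain ⟨h1, h2, h3, h4⟩ := hM.edge a.1 a.2
      exact ⟨h1, hM.sub _ h1 h2, hM.sub _ h1 h3, h4⟩
  choose gp gm G₀ Θ Low hE using fun a : Ed =>
    exists_edge (Θ₀ := Θ₀) hP (hO a).1 (hO a).2.2.2 (hM.one _ (hO a).1 _ (hO a).2.1)
      (hM.one _ (hO a).1 _ (hO a).2.2.1) (hc a.1 a.2)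
      fun G hG => tracked_lt hP hL hG (hO a).1 (hO a).2.1
  obtain ⟨gS, hS0, hS1⟩ : ∃ gS : Ed × Bool → RSt, (∀ a, gS (a, false) = gp a) ∧
      ∀ a, gS (a, true) = gm a := ⟨fun σ => cond σ.2 (gm σ.1) (gp σ.1), fun _ => rfl, fun _ => rfl⟩
  have hcls : ∀ σ, Cls d ε γ₀ (gS σ) := by
    rintro ⟨a, _ | _⟩
    · rw [hS0]; exact (hE a).cp
    · rw [hS1]; exact (hE a).cm
  have hlow : ∀ σ, LowOK d J (gS σ) (Low σ.1) (Θ σ.1) := by
    rintro ⟨a, _ | _⟩
    · rw [hS0]; exact (hE a).lp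
    · rw [hS1]; exact (hE a).lm
  have hLL : ∀ a, ∀ j ∈ J, ∀ x ∈ L j, 1 ≤ x.1 ∧ x ∈ Low a j := fun a j hj x hx =>
    ⟨hL.one j hj x hx, ((hE a).lp.lt j hj x).2
      ((tracked_lt hP hL (hE a).cp.small hj hx).trans_le (hE a).lo)⟩
  have hLS : ∀ a, ∀ j ∈ J, ∀ x ∈ L j, ∀ s, x ∈ lowS (Low a) j s := fun a j hj x hx s =>
    Finset.mem_filter.2 ⟨(hLL a j hj x hx).2, Or.inr (hLL a j hj x hx).1⟩
  choose n Fc χc hC using fun σ : Ed × Bool =>
    exists_ctl (q₀ := κ₀ ^ 2) hP (hcls σ) (hlow σ) (hLL σ.1) (by positivity)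
  obtain ⟨C, hCm⟩ := con_finite J L Low
  obtain ⟨P, e', lg, hP1, he, hper, hsome, havg⟩ := mix_word hM
  obtain ⟨e, he'⟩ : ∃ e : ℕ → Ed, ∀ i, (e i).1 = e' i := ⟨fun i => ⟨e' i, he i⟩, fun _ => rfl⟩
  let gO : Option (Ed × Bool) → RSt := fun o => o.elim 0 gS
  have hgO : ∀ o, RAdm d (gO o) ∧ Small d ε γ₀ (toSt (gO o)) := by
    rintro (_ | σ)
    · exact ⟨radm_zero d, small_zero hP.epos hP.gpos⟩
    · exact ⟨(hcls σ).radm, (hcls σ).small⟩
  choose g1 μ1 hg1 hI using fun i : Option (Ed × Bool) × Ed =>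
    phaseI_in hP hL hκ (hgO i.1).1 (hgO i.1).2 (hE i.2).cp.radm (hE i.2).cp.small (hE i.2).lp
      (hE i.2).lo
  choose g2 μ2 hg2 hII using fun a : Ed => phaseII_in hP hL hκ (hE a)
  choose η hη hD using fun σ : Ed × Bool =>
    (hC σ).dual (1 / (4 * Fintype.card (Option C))) (by
      have : (0 : ℝ) < Fintype.card (Option C) := by exact_mod_cast Fintype.card_pos
      positivity)
  choose z hz0 hz1 hz using fun a : Ed => (hE a).cp.neg_bet
  obtain ⟨ga, hga, hga'⟩ := exists_pos_le g1 hg1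
  obtain ⟨gb, hgb, hgb'⟩ := exists_pos_le g2 hg2
  obtain ⟨η₀, hη₀, hη'⟩ := exists_pos_le η hη
  obtain ⟨c, hc0, hc'⟩ := exists_pos_le _ fun a => neg_pos.2 (hz a)
  obtain ⟨μa, hμa⟩ := Finite.exists_le μ1
  obtain ⟨μb, hμb⟩ := Finite.exists_le μ2
  obtain ⟨μc, hμc⟩ := Finite.exists_le fun a : Ed => Real.sqrt (Θ a + ((d : ℝ) / 2) ^ 2)
  let σ : ℕ → Ed × Bool := fun p => (e (p / 2), decide (p % 2 = 1))
  have hσ0 : ∀ p, p % 2 = 0 → gS (σ p) = gp (e (p / 2)) := fun p hp => by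
    rw [← hS0]; exact congrArg gS (Prod.ext rfl (decide_eq_false (by omega)))
  have hσ1 : ∀ p, p % 2 = 1 → gS (σ p) = gm (e (p / 2)) := fun p hp => by
    rw [← hS1]; exact congrArg gS (Prod.ext rfl (decide_eq_true hp))
  let oL : ℕ → Option (Ed × Bool) := fun p => Nat.casesOn p none fun p => some (σ p)
  let F : (Option (Ed × Bool) ⊕ Ed) ⊕ (Σ σ, Fin (n σ)) → St :=
    Sum.elim (Sum.elim (fun o => toSt (gO o)) G₀) fun v => Fc v.1 v.2
  let md : ℕ → (Option (Ed × Bool) ⊕ Ed) ⊕ (Σ σ, Fin (n σ)) := fun p =>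
    if p % 2 = 0 then .inl (.inl none) else .inl (.inr (e (p / 2)))
  have hmd0 : ∀ p, p % 2 = 0 → F (md p) = 0 := fun p hp => by
    simp only [md, if_pos hp]; rfl
  have hmd1 : ∀ p, p % 2 = 1 → F (md p) = G₀ (e (p / 2)) := fun p hp => by
    simp only [md, if_neg (show ¬ p % 2 = 0 by omega)]; rfl
  have hlabL : ∀ j ∈ J, ∀ x ∈ L j, ∀ i, labI e' j x i ∈ L j := fun j hj x hx i =>
    labI_mem hM he hj hx i
  refine ⟨(Option (Ed × Bool) ⊕ Ed) ⊕ (Σ σ, Fin (n σ)), Option C, inferInstance, inferInstance,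
    inferInstance, inferInstance, F, fun p => .inl (.inl (oL p)), md,
    fun p => .inl (.inl (some (σ p))), fun p => gS (σ p), fun p => Low (e (p / 2)),
    fun j x p => labI e' j x ((p + 1) / 2),
    fun p => chi (fun σ r => IsCon J L (Low σ.1) r) χc (σ p),
    fun _ r => if h : r ∈ C then some ⟨r, h⟩ else none, 2 * P,
    fun p => decide (p % 2 = 0) && lg (p / 2), min ga gb, max μa (max μb μc), η₀, ?_⟩
  refine
    { g0 := lt_min hga hgb
      e0 := hη₀
      adm := ?_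
      small := fun p => ⟨(hgO _).2, ?_, (hcls _).small⟩
      zero := rfl
      md0 := rfl
      next := fun _ => rfl
      ev := fun p => ⟨rfl, (hcls _).radm⟩
      prof := fun p r v => chi_prof (fun σ => (hC σ).prof) _ r v
      bd := fun k => ?_
      labL := fun j hj x hx p => hlabL j hj x hx _
      labinj := fun j _ x _ x' _ p h => labI_inj e' j _ h
      labLow := fun j hj x hx p s => hLS _ j hj x hx s
      idxinj := fun p r r' hr hr' h => ?_
      Ppos := by omega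
      per := fun p => ?_
      some := ?_
      avg := fun j hj x hx r => ?_
      sec := ⟨c, hc0, fun p hp => ?_⟩
      phase := ?_
      event := ?_
      ctl := ?_ }
  · rintro ((o | a) | v)
    · exact (hgO o).2.adm
    · exact (hE a).c0.adm
    · exact (hC v.1).adm v.2
  · rcases Nat.mod_two_eq_zero_or_one p with hp | hp
    · rw [hmd0 p hp]; exact small_zero hP.epos hP.gpos
    · rw [hmd1 p hp]; exact (hE _).c0
  · choose B hB using fun i : (Ed × Bool) × Option C × ((Option (Ed × Bool) ⊕ Ed) ⊕ (Σ σ, Fin (n σ))) =>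
      prof_bd (chi_prof (con := fun σ r => IsCon J L (Low σ.1) r) (fun σ => (hC σ).prof)
        i.1 i.2.1 i.2.2) k
    obtain ⟨B₀, hB₀⟩ := Finite.exists_le B
    exact ⟨B₀, fun p r v τ => (hB (σ p, r, v) τ).trans (hB₀ _)⟩
  · rw [dif_pos (hCm _ r hr), dif_pos (hCm _ r' hr')] at h
    exact congrArg Subtype.val (Option.some.inj h)
  · rw [show (p + 2 * P) % 2 = p % 2 by omega, show (p + 2 * P) / 2 = p / 2 + P by omega, hper]
  · obtain ⟨i, hi⟩ := hsome
    exact ⟨2 * i, by simp [hi]⟩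
  · rw [filter_even, Finset.sum_map, Finset.card_map]
    refine le_trans (le_of_eq (Finset.sum_congr rfl fun i _ => ?_)) (havg j hj x hx r)
    have : (r * (2 * P) + 2 * i + 1) / 2 = r * P + i := by
      rw [show r * (2 * P) = 2 * (r * P) by ring]; omega
    show ((ldeg j (labI e' j x ((r * (2 * P) + 2 * i + 1) / 2)) : ℕ) : ℝ) = _
    rw [this]
  · have hp0 : p % 2 = 0 := by
      simp only [Bool.and_eq_true, decide_eq_true_eq] at hp
      exact hp.1
    refine ⟨hmd0 p hp0, z (e (p / 2)), hz0 _, hz1 _, ?_⟩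
    show bet d ((toSt (gS (σ p))).1 _) ((toSt (gS (σ p))).2 _) ≤ -c
    rw [hσ0 p hp0]
    linarith [hc' (e (p / 2))]
  · have hM2 : ∀ᶠ M in UU, ∀ j ∈ J, ∀ x ∈ L j, x.1 + 2 * x.2 + 2 ≤ M :=
      (eventually_all_finset J).2 fun j _ => (eventually_all_finset (L j)).2 fun x _ =>
        DLimAux.ev_atTop _
    filter_upwards [eventually_all.2 hI, eventually_all.2 hII, hM2] with M h1 h2 h3
    intro g μm hg hgg hμ p j hj s x hx e₀ a u v b H δ η' sl G q om he1 he2 he3 hδ hT hK hom hl0 hl1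
    have hx' := hlabL j hj x hx ((p + 1) / 2)
    change TPath (toSt (gO (oL p))) (F (md p)) (toSt (gS (σ p))) a u v b H δ η' _ _ G q at hT
    rcases Nat.mod_two_eq_zero_or_one p with hp | hp
    · rw [hmd0 p hp, hσ0 p hp] at hT
      rw [hσ0 p hp]
      refine h1 (oL p, e (p / 2)) g μm hg (hgg.trans ((min_le_left _ _).trans (hga' _)))
        ((hμa _).trans ((le_max_left _ _).trans hμ)) j hj s _ hx' _ _ a u v b H δ η' sl G q om
        ?_ ?_ ?_ hδ hT hK hom ?_
      · rcases p with _ | p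
        · exact he1
        · exact (psi_spec (hcls _).radm (Or.inr (hL.one j hj _ (hlabL j hj x hx _)))
            (h3 j hj _ (hlabL j hj x hx _))).1
      · rcases p with _ | p
        · exact he2
        · rw [show (p + 1 + 1) / 2 = (p + 1) / 2 by omega]
          exact psi_mem_Sec _ _ _ _ _ _
      · rcases p with _ | p
        · have := lamk_round (hP.ok j hj) (lt_finrank_Sec (d := d) (j := j) (s := true) (Or.inl rfl)
            (h3 j hj x hx))
          show EigF (QG d j 0) _ _ (lamk (QG d j 0) (Sec d j true x.1 M) x.2)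
          rw [this]
          exact he3
        · rw [show (p + 1 + 1) / 2 = (p + 1) / 2 by omega]
          exact (psi_spec (hcls _).radm (Or.inr (hL.one j hj _ (hlabL j hj x hx _)))
            (h3 j hj _ (hlabL j hj x hx _))).2.1
      · rcases Bool.eq_false_or_eq_true (decide (p % 2 = 0) && lg (p / 2)) with h | h
        · exact Or.inr (hl1 h)
        · exact Or.inl (hl0 h)
    · obtain ⟨p, rfl⟩ : ∃ k, p = k + 1 := ⟨p - 1, by omega⟩
      have hg0 : gS (σ p) = gp (e ((p + 1) / 2)) := by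
        rw [hσ0 p (by omega), show p / 2 = (p + 1) / 2 by omega]
      change TPath (toSt (gS (σ p))) _ _ a u v b H δ η' _ _ G q at hT
      rw [hmd1 _ hp, hσ1 _ hp, hg0] at hT
      have hlab : labI e' j x ((p + 1 + 1) / 2) = swp (e ((p + 1) / 2)).1.1 (e ((p + 1) / 2)).1.2.1
          (e ((p + 1) / 2)).1.2.2 j (labI e' j x ((p + 1) / 2)) := by
        rw [show (p + 1 + 1) / 2 = (p + 1) / 2 + 1 by omega, he']
        rfl
      have := h2 (e ((p + 1) / 2)) g μm hg (hgg.trans ((min_le_right _ _).trans (hgb' _)))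
        ((hμb _).trans (((le_max_left _ _).trans (le_max_right _ _)).trans hμ)) j hj s _
        (hlabL j hj x hx ((p + 1) / 2)) (hlab ▸ hLS _ j hj _ hx' s) a u v b H δ η' sl G q om hδ hT hK
        hom (hl0 (by simp [hp]))
      rw [← hg0, ← hσ1 _ hp] at this
      convert this using 2
      rfl
  · have h1 : ∀ᶠ M in UU, ∀ σ' : Ed × Bool, ∀ j ∈ J, _ :=
      eventually_all.2 fun σ' => (eventually_all_finset J).2 fun j hj =>
        (low_gal (hcls σ').radm ((hlow σ').lt j hj)).filter_mono UU_le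
    filter_upwards [h1] with M h1 p j hj s
    obtain ⟨a1, a2, -⟩ := h1 (σ p) j hj s
    refine ⟨a1, fun x hx => ⟨(a2 x hx).2.1, ?_⟩⟩
    refine le_trans ?_ ((hμc (e (p / 2))).trans ((le_max_right _ _).trans (le_max_right _ _)))
    exact Real.sqrt_le_sqrt (add_le_add_left (a2 x hx).2.2.le _)
  · filter_upwards [eventually_all.2 hD] with M h1 p q hq r hr r'
    have htol : (0 : ℝ) ≤ 1 / (4 * Fintype.card (Option C)) := by positivity
    rw [dif_pos (hCm _ r hr)]
    rcases r' with _ | r'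
    · rw [cmat_zero, if_neg (by simp), sub_zero, abs_zero]
      · exact htol
      · exact fun _ _ => rfl
    by_cases hr' : IsCon J L (Low (σ p).1) r'.1
    · rw [cmat_con (con := fun σ r => IsCon J L (Low σ.1) r) _ _ Fc hr']
      have := h1 (σ p) q ⟨hq.1, hq.2.trans (add_le_add_right (hη' _) _)⟩ r r'.1 hr hr'
      simpa only [Option.some.injEq, Subtype.ext_iff] using this
    · rw [cmat_zero, if_neg, sub_zero, abs_zero]
      · exact htol
      · intro h
        exact hr' ((congrArg Subtype.val (Option.some.inj h) : r = r'.1) ▸ hr)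
      · exact chi_not hr'

end Crest.Agent.R202
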