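import Crest.Agent.R202.GDefs
import Crest.Agent.R244.CalcA
import Crest.Agent.R230.Sphere

/-!
# Row 202, G1: the warped metric is Riemannian; distance from the origin; completeness

`g = gmet φ N`.  Since `N x x = x` and `N` is symmetric positive definite, `N⁻¹ = x̂ x̂ᵀ + (psd)`,
so `g(v,v) ≥ (φ/|x|)² ⟨x̂, v⟩²`: the function `ρ(x) = rfun φ (log |x|)` (`ρ 0 = 0`, `ρ x = |x|` for
`|x| ≤ 1`) is 1-Lipschitz for the length (for a `C¹` curve use the smooth approximations
`ρ_δ(x) = rfun φ (½ log (|x|² + δ))`, or split the curve), and the radial segment has length `ρ`.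
Completeness: `|ρ x - ρ y| ≤ d(x,y)`, `ρ → ∞`, so Cauchy sequences are bounded; on a closed ball
`c|v|² ≤ g(v,v) ≤ C|v|²` (`R244.exists_bil_bounds`), whence `d(x,y) ≤ √C |x-y|` (segments) and
`d(x,y) ≥ √c min(|x-y|, 1)` for `x, y` in the ball of radius one less.
-/

set_option autoImplicit false
open scoped ContDiff Topology
open Filter Set MeasureTheory
open Crest.GeometryTopology.CoordMetric
open Crest.Agent.R230 (E MP sph ev Harm)

noncomputable section
namespace Crest.Agent.R202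

variable {n : ℕ} {φ ϱ ϱ₁ : ℝ → ℝ} {a : ℝ} {N : MetricField n}

theorem gmet_one (hφ : Warp n φ ϱ ϱ₁ a) (hN : NField N) (x : E n) (hx : ‖x‖ ≤ 1) :
    gmet φ N x = 1 := by
  unfold gmet
  split_ifs with h
  · rfl
  · have h0 : 0 < ‖x‖ := norm_pos_iff.2 h
    rw [hN.one x h hx, hφ.init _ (Real.log_nonpos h0.le hx), Real.exp_log h0, div_self h0.ne',
      inv_one, one_pow, one_smul]

theorem GBasic_riemN (hN : NField N) : IsRiemannianOn N {0}ᶜ :=
  ⟨isOpen_compl_singleton, hN.smooth, fun x hx => hN.posDef x hx⟩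

theorem GBasic_fac_pos (hφ : Warp n φ ϱ ϱ₁ a) {x : E n} (hx : x ≠ 0) :
    0 < φ (Real.log ‖x‖) / ‖x‖ := div_pos (hφ.pos _) (norm_pos_iff.2 hx)

theorem gmet_riem (hφ : Warp n φ ϱ ϱ₁ a) (hN : NField N) : IsRiemannianOn (gmet φ N) univ := by
  refine ⟨isOpen_univ, fun i j x _ => ContDiffAt.contDiffWithinAt ?_, fun x _ => ?_⟩
  · by_cases hx : x = 0
    · subst hx
      refine (contDiffAt_const (c := (1 : Matrix (Fin n) (Fin n) ℝ) i j)).congr_of_eventuallyEq ?_
      filter_upwards [Metric.closedBall_mem_nhds (0 : E n) one_pos] with y hy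
      rw [gmet_one hφ hN y (by simpa using hy)]
    · have hn : ContDiffAt ℝ ∞ (fun y : E n => ‖y‖) x := contDiffAt_norm ℝ hx
      have h0 : ‖x‖ ≠ 0 := norm_ne_zero_iff.2 hx
      have h1 : ContDiffAt ℝ ∞ (fun y : E n => (φ (Real.log ‖y‖) / ‖y‖) ^ 2) x :=
        ((hφ.smooth.contDiffAt.comp x (hn.log h0)).div hn h0).pow 2
      have h2 : ContDiffAt ℝ ∞ (fun y : E n => (N y)⁻¹ i j) x :=
        (R244.contDiffOn_inverseField (GBasic_riemN hN) i j).contDiffAt (isOpen_compl_singleton.mem_nhds hx)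
      refine (h1.mul h2).congr_of_eventuallyEq ?_
      filter_upwards [isOpen_compl_singleton.mem_nhds hx] with y hy
      rw [gmet, if_neg (show ¬ y = 0 from hy), Matrix.smul_apply, smul_eq_mul]
  · unfold gmet
    split_ifs with hx
    · exact Matrix.PosDef.one
    · exact (hN.posDef x hx).inv.smul (pow_pos (GBasic_fac_pos hφ hx) 2)

theorem gmet_inv (hφ : Warp n φ ϱ ϱ₁ a) (hN : NField N) {x : E n} (hx : x ≠ 0) :
    (gmet φ N x)⁻¹ = (‖x‖ / φ (Real.log ‖x‖)) ^ 2 • N x := by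
  have hd : IsUnit (N x).det := by rw [hN.det x hx]; exact isUnit_one
  have h0 : ‖x‖ ≠ 0 := norm_ne_zero_iff.2 hx
  have h1 := (hφ.pos (Real.log ‖x‖)).ne'
  refine Matrix.inv_eq_right_inv ?_
  rw [gmet, if_neg hx, Matrix.smul_mul, Matrix.mul_smul, Matrix.nonsing_inv_mul _ hd, smul_smul,
    ← mul_pow, div_mul_div_cancel₀ h0, div_self h1, one_pow, one_smul]

theorem gmet_sqrt_det (hφ : Warp n φ ϱ ϱ₁ a) (hN : NField N) {x : E n} (hx : x ≠ 0) :
    Real.sqrt (gmet φ N x).det = (φ (Real.log ‖x‖) / ‖x‖) ^ n := by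
  rw [gmet, if_neg hx, Matrix.det_smul, Matrix.det_nonsing_inv, hN.det x hx, Ring.inverse_one,
    mul_one, Fintype.card_fin, ← pow_mul, mul_comm, pow_mul,
    Real.sqrt_sq (pow_pos (GBasic_fac_pos hφ hx) n).le]

end Crest.Agent.R202
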