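import Crest.Prelude.Def_CoordVolume
import Crest.Prelude.Def_ChartCurvature
import Crest.Agent.R230.Defs

/-!
# Row 202: definitions for the geometry (warped metrics with a moving cross-section)

`g = (φ(t)/|x|)² N⁻¹`, `t = log |x|`, where `N x` is positive definite, `N x x = x`, `det N = 1`.
`D0 = x·∂ = ∂_t` is the Euler field, `Lf i k = x_i ∂_k - x_k ∂_i` the rotation fields.
-/

set_option autoImplicit false
open scoped ContDiff
open Crest.GeometryTopology.CoordMetric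
open Crest.Agent.R230 (E MP sph ev Harm)

noncomputable section
namespace Crest.Agent.R202

variable {n : ℕ}

/-- the Euler field `x·∂` applied to `f` -/
def D0 (f : E n → ℝ) (x : E n) : ℝ := fderiv ℝ f x x

/-- the rotation field `x_i ∂_k - x_k ∂_i` applied to `f` -/
def Lf (i k : Fin n) (f : E n → ℝ) (x : E n) : ℝ := x i * pderiv k f x - x k * pderiv i f x

/-- `a`-th component of the rotation field `x_i ∂_k - x_k ∂_i` at `x` -/
def rotv (i k : Fin n) (x : E n) (a : Fin n) : ℝ :=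
  (if a = k then x i else 0) - (if a = i then x k else 0)

/-- the inverse cross-section field built from coefficients `c i k`:
`N = 1 + ½ Σ_{i,k} (c i k - 1) ℓ_{ik} ℓ_{ik}ᵀ / |x|²` -/
def Nc (c : Fin n → Fin n → E n → ℝ) : MetricField n := fun x =>
  Matrix.of fun a b => (1 : Matrix (Fin n) (Fin n) ℝ) a b +
    (1 / 2) * ∑ i, ∑ k, (c i k x - 1) * rotv i k x a * rotv i k x b / ‖x‖ ^ 2

/-- the metric `(φ(log|x|)/|x|)² N⁻¹` -/
def gmet (φ : ℝ → ℝ) (N : MetricField n) : MetricField n := fun x =>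
  if x = 0 then 1 else (φ (Real.log ‖x‖) / ‖x‖) ^ 2 • (N x)⁻¹

/-- warping function `φ` with `ϱ = φ'/φ`, `ϱ' = ϱ₁` -/
structure Warp (n : ℕ) (φ ϱ ϱ₁ : ℝ → ℝ) (a : ℝ) : Prop where
  smooth : ContDiff ℝ ∞ φ
  pos : ∀ t, 0 < φ t
  init : ∀ t, t ≤ 0 → φ t = Real.exp t
  d1 : ∀ t, HasDerivAt φ (ϱ t * φ t) t
  d2 : ∀ t, HasDerivAt ϱ (ϱ₁ t) t
  apos : 0 < a
  lo : ∀ t, a ≤ ϱ t
  hi : ∀ t, ϱ t ≤ 1
  dlo : ∀ t, -(n : ℝ) ≤ ϱ₁ t
  dhi : ∀ t, ϱ₁ t ≤ 0

/-- admissible inverse cross-section fields -/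
structure NField (N : MetricField n) : Prop where
  smooth : ∀ i j, ContDiffOn ℝ ∞ (fun x => N x i j) {0}ᶜ
  posDef : ∀ x, x ≠ 0 → (N x).PosDef
  rad : ∀ x : E n, x ≠ 0 → (N x).mulVec (fun i => x i) = fun i => x i
  det : ∀ x, x ≠ 0 → (N x).det = 1
  one : ∀ x : E n, x ≠ 0 → ‖x‖ ≤ 1 → N x = 1

/-- scale invariant bound for the 1-jet of `f` at `x` -/
def Jet1Le (f : E n → ℝ) (x : E n) (ε : ℝ) : Prop :=
  |f x| ≤ ε ∧ ∀ i, ‖x‖ * |pderiv i f x| ≤ ε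

/-- scale invariant bound for the 2-jet of `f` at `x` -/
def Jet2Le (f : E n → ℝ) (x : E n) (ε : ℝ) : Prop :=
  |f x| ≤ ε ∧ (∀ i, ‖x‖ * |pderiv i f x| ≤ ε) ∧
    ∀ i j, ‖x‖ ^ 2 * |pderiv i (pderiv j f) x| ≤ ε

/-- the distance from the origin as a function of `t = log |x|` -/
def rfun (φ : ℝ → ℝ) (t : ℝ) : ℝ := 1 + ∫ s in (0 : ℝ)..t, φ s

/-- the Ricci tensor as a function of the 2-jet `(G, G₁ l = ∂_l g, G₂ m l = ∂_m ∂_l g)` -/
def chJ (G : Matrix (Fin n) (Fin n) ℝ) (G₁ : Fin n → Matrix (Fin n) (Fin n) ℝ) (k i j : Fin n) : ℝ :=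
  (1 / 2) * ∑ l, G⁻¹ k l * (G₁ i j l + G₁ j i l - G₁ l i j)

/-- `∂_m Γ^k_{ij}` as a function of the 2-jet -/
def dchJ (G : Matrix (Fin n) (Fin n) ℝ) (G₁ : Fin n → Matrix (Fin n) (Fin n) ℝ)
    (G₂ : Fin n → Fin n → Matrix (Fin n) (Fin n) ℝ) (m k i j : Fin n) : ℝ :=
  (1 / 2) * ∑ l, ((-(G⁻¹ * G₁ m * G⁻¹)) k l * (G₁ i j l + G₁ j i l - G₁ l i j) +
    G⁻¹ k l * (G₂ m i j l + G₂ m j i l - G₂ m l i j))

/-- the Ricci tensor as a function of the 2-jet -/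
def ricJ (G : Matrix (Fin n) (Fin n) ℝ) (G₁ : Fin n → Matrix (Fin n) (Fin n) ℝ)
    (G₂ : Fin n → Fin n → Matrix (Fin n) (Fin n) ℝ) (i j : Fin n) : ℝ :=
  (∑ k, dchJ G G₁ G₂ k k i j) - (∑ k, dchJ G G₁ G₂ j k k i)
    + (∑ k, ∑ l, chJ G G₁ k k l * chJ G G₁ l i j) - (∑ k, ∑ l, chJ G G₁ k j l * chJ G G₁ l k i)

/-- first jet of a metric field -/
def jet1 (g : MetricField n) (x : E n) (l : Fin n) : Matrix (Fin n) (Fin n) ℝ :=
  Matrix.of fun i j => pderiv l (fun y => g y i j) x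

/-- second jet of a metric field -/
def jet2 (g : MetricField n) (x : E n) (m l : Fin n) : Matrix (Fin n) (Fin n) ℝ :=
  Matrix.of fun i j => pderiv m (pderiv l fun y => g y i j) x

/-- `P = -½ (D0 N) N⁻¹`, the trace-free part of the shape operator of the spheres -/
def Pten (N : MetricField n) : MetricField n := fun x =>
  (-(1 / 2) : ℝ) • ((Matrix.of fun i j => D0 (fun y => N y i j) x) * (N x)⁻¹)

end Crest.Agent.R202
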