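import Crest.Agent.R202.GBasic

/-!
# Row 202, G1: the warped metric is Riemannian; distance from the origin; completeness

`g = gmet φ N`.  Since `N x x = x` and `N` is symmetric positive definite, `N⁻¹ = x̂ x̂ᵀ + (psd)`,
so `g(v,v) ≥ (φ/|x|)² ⟨x̂, v⟩²`: the function `ρ(x) = rfun φ (log |x|)` (`ρ 0 = 0`, `ρ x = |x|` for
`|x| ≤ 1`) is 1-Lipschitz for the length (for a `C¹` curve use the smooth approximations
`ρ_δ(x) = rfun φ (½ log (|x|² + δ))`, or split the curve), and the radial segment has length `ρ`.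
Completeness: `|ρ x - ρ y| ≤ d(x,y)`, `ρ → ∞`, so Cauchy sequences are bounded; on a closed ball
`c|v|² ≤ g(v,v) ≤ C|v|²` (`R244.exists_bil_bounds`), whence `d(x,y) ≤ √C |x-y|` (segments) and
`d(x,y) ≥ √c min(|x-y|, 1)` for `x, y` in the ball of radius one less.
-/

set_option autoImplicit false
open scoped ContDiff Topology
open Filter Set MeasureTheory
open Crest.GeometryTopology.CoordMetric
open Crest.Agent.R230 (E MP sph ev Harm)

noncomputable section
namespace Crest.Agent.R202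

variable {n : ℕ} {φ ϱ ϱ₁ : ℝ → ℝ} {a : ℝ} {N : MetricField n}

theorem GDist_quad (g : MetricField n) (x v : E n) : quadForm g x v = R244.bil g x v v :=
  (R244.bil_apply g x v v).symm

theorem GDist_length_nonneg (g : MetricField n) (γ : ℝ → E n) : 0 ≤ curveLength g γ :=
  intervalIntegral.integral_nonneg zero_le_one fun _ _ => Real.sqrt_nonneg _

/-- the segment as an admissible path -/
def GDist_seg (x y : E n) : AdmissiblePath univ x y :=
  ⟨fun t => x + t • (y - x), by fun_prop, by simp, by simp, fun _ _ => mem_univ _⟩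

theorem GDist_seg_deriv (x y : E n) (t : ℝ) :
    HasDerivAt (fun s : ℝ => x + s • (y - x)) (y - x) t := by
  simpa using ((hasDerivAt_id t).smul_const (y - x)).const_add x

theorem GDist_dist_le (g : MetricField n) {x y : E n} (γ : AdmissiblePath univ x y) :
    riemDist g univ x y ≤ curveLength g γ.1 := by
  refine ciInf_le ⟨0, ?_⟩ γ
  rintro _ ⟨γ, rfl⟩
  exact GDist_length_nonneg _ _

theorem GDist_speed {g : MetricField n} (hg : IsRiemannianOn g univ) {γ : ℝ → E n}
    (hγ : ContDiff ℝ 1 γ) : Continuous fun t => Real.sqrt (quadForm g (γ t) (deriv γ t)) := by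
  have h1 : Continuous (deriv γ) := hγ.continuous_deriv_one
  have h2 : Continuous (R244.bil g) := continuousOn_univ.1 (R244.contDiffOn_bil hg).continuousOn
  simp only [GDist_quad]
  exact (((h2.comp hγ.continuous).clm_apply h1).clm_apply h1).sqrt

theorem GDist_bil_rad (hN : NField N) {x : E n} (hx : x ≠ 0) (u : E n) :
    R244.bil (gmet φ N) x u x = (φ (Real.log ‖x‖) / ‖x‖) ^ 2 * inner ℝ x u := by
  have h1 : (N x)⁻¹.mulVec (fun i => x i) = fun i => x i := by
    have h2 := hN.rad x hx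
    conv_lhs => rw [← h2]
    rw [Matrix.mulVec_mulVec, Matrix.nonsing_inv_mul _ (by rw [hN.det x hx]; exact isUnit_one),
      Matrix.one_mulVec]
  have h3 : (N x)⁻¹.mulVec (x : Fin n → ℝ) = (x : Fin n → ℝ) := h1
  rw [R244.bil_eq_dot, gmet, if_neg hx, Matrix.smul_mulVec, h3, dotProduct_smul, smul_eq_mul]
  congr 1

theorem GDist_quad_ge (hφ : Warp n φ ϱ ϱ₁ a) (hN : NField N) {x : E n} (hx : x ≠ 0) (v : E n) :
    |φ (Real.log ‖x‖) * inner ℝ x v / ‖x‖ ^ 2| ≤ Real.sqrt (quadForm (gmet φ N) x v) := by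
  have h0 : 0 < ‖x‖ := norm_pos_iff.2 hx
  have hp := hφ.pos (Real.log ‖x‖)
  have h1 := R244.bil_sq_le (gmet_riem hφ hN) (mem_univ x) v x
  rw [GDist_bil_rad hN hx, GDist_bil_rad hN hx, real_inner_self_eq_norm_sq, ← GDist_quad] at h1
  refine Real.abs_le_sqrt (le_of_mul_le_mul_right ?_ (pow_pos hp 2))
  refine le_trans (le_of_eq ?_) (h1.trans (le_of_eq ?_))
  · field_simp
  · field_simp

theorem GDist_rfun_deriv (hφ : Warp n φ ϱ ϱ₁ a) (t : ℝ) : HasDerivAt (rfun φ) (φ t) t :=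
  (hφ.smooth.continuous.integral_hasStrictDerivAt 0 t).hasDerivAt.const_add 1

theorem GDist_rfun_init (hφ : Warp n φ ϱ ϱ₁ a) {t : ℝ} (ht : t ≤ 0) : rfun φ t = Real.exp t := by
  rw [rfun, intervalIntegral.integral_congr (g := Real.exp) fun s hs => hφ.init s ?_, integral_exp,
    Real.exp_zero, add_sub_cancel]
  rw [uIcc_of_ge ht] at hs
  exact hs.2

open Classical in
/-- the distance from the origin -/
def GDist_rho (φ : ℝ → ℝ) (x : E n) : ℝ := if x = 0 then 0 else rfun φ (Real.log ‖x‖)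

theorem GDist_rho_small (hφ : Warp n φ ϱ ϱ₁ a) {x : E n} (hx : ‖x‖ ≤ 1) : GDist_rho φ x = ‖x‖ := by
  rcases eq_or_ne x 0 with rfl | h
  · simp [GDist_rho]
  · rw [GDist_rho, if_neg h, GDist_rfun_init hφ (Real.log_nonpos (norm_nonneg _) hx),
      Real.exp_log (norm_pos_iff.2 h)]

theorem GDist_rho_deriv (hφ : Warp n φ ϱ ϱ₁ a) {γ : ℝ → E n} {v : E n} {t : ℝ}
    (hγ : HasDerivAt γ v t) (h0 : γ t ≠ 0) : HasDerivAt (fun s => GDist_rho φ (γ s))
      (φ (Real.log ‖γ t‖) * inner ℝ (γ t) v / ‖γ t‖ ^ 2) t := by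
  have h1 : ‖γ t‖ ≠ 0 := norm_ne_zero_iff.2 h0
  have h2 : HasDerivAt (fun s => Real.log ‖γ s‖) (inner ℝ (γ t) v / ‖γ t‖ ^ 2) t := by
    have h3 := (hγ.norm_sq.log (pow_ne_zero 2 h1)).const_mul (1 / 2 : ℝ)
    have e : (fun s => Real.log ‖γ s‖) = fun s => (1 / 2 : ℝ) * Real.log (‖γ s‖ ^ 2) := by
      funext s
      rw [Real.log_pow]
      push_cast
      ring
    rw [e]
    exact h3.congr_deriv (by ring)
  have h4 := (GDist_rfun_deriv hφ (Real.log ‖γ t‖)).comp t h2
  rw [mul_div_assoc]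
  refine h4.congr_of_eventuallyEq ?_
  filter_upwards [hγ.continuousAt.eventually_ne h0] with s hs
  rw [GDist_rho, if_neg hs]
  rfl

theorem GDist_norm_deriv {γ : ℝ → E n} {v : E n} {t : ℝ} (hγ : HasDerivAt γ v t) (h0 : γ t = 0) :
    HasDerivWithinAt (fun s => ‖γ s‖) ‖v‖ (Ioi t) t := by
  have h1 := (hasDerivWithinAt_iff_tendsto_slope' (s := Ioi t) self_notMem_Ioi).1
    hγ.hasDerivWithinAt
  rw [hasDerivWithinAt_iff_tendsto_slope' self_notMem_Ioi]
  refine h1.norm.congr' ?_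
  filter_upwards [self_mem_nhdsWithin] with s hs
  have h2 : 0 < s - t := sub_pos.2 hs
  rw [slope_def_module, slope_def_field, h0, norm_zero, sub_zero, sub_zero, norm_smul, norm_inv,
    Real.norm_of_nonneg h2.le, div_eq_inv_mul]

theorem GDist_rho_right (hφ : Warp n φ ϱ ϱ₁ a) (hN : NField N) {γ : ℝ → E n} {v : E n} {t : ℝ}
    (hγ : HasDerivAt γ v t) : ContinuousAt (fun s => GDist_rho φ (γ s)) t ∧
      ∃ d, HasDerivWithinAt (fun s => GDist_rho φ (γ s)) d (Ioi t) t ∧
        |d| ≤ Real.sqrt (quadForm (gmet φ N) (γ t) v) := by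
  by_cases h0 : γ t = 0
  · have h1 : (fun s => GDist_rho φ (γ s)) =ᶠ[𝓝 t] fun s => ‖γ s‖ := by
      have h2 : ∀ᶠ s in 𝓝 t, ‖γ s‖ < 1 :=
        hγ.continuousAt.norm.eventually_lt continuousAt_const (by rw [h0, norm_zero]; exact one_pos)
      filter_upwards [h2] with s hs
      exact GDist_rho_small hφ hs.le
    refine ⟨hγ.continuousAt.norm.congr h1.symm, ‖v‖,
      (GDist_norm_deriv hγ h0).congr_of_eventuallyEq (h1.filter_mono nhdsWithin_le_nhds)
        h1.eq_of_nhds, ?_⟩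
    refine Real.abs_le_sqrt (le_of_eq ?_)
    rw [h0, EuclideanSpace.real_norm_sq_eq]
    simp [quadForm, gmet, Matrix.one_apply, sq]
  · have h1 := GDist_rho_deriv hφ hγ h0
    exact ⟨h1.continuousAt, _, h1.hasDerivWithinAt, GDist_quad_ge hφ hN h0 v⟩

theorem GDist_rho_lip (hφ : Warp n φ ϱ ϱ₁ a) (hN : NField N) {γ : ℝ → E n} (hγ : ContDiff ℝ 1 γ)
    {t : ℝ} (ht : t ∈ Icc (0 : ℝ) 1) :
    GDist_rho φ (γ t) - GDist_rho φ (γ 0) ≤ curveLength (gmet φ N) γ := by
  have h1 := fun s => GDist_rho_right hφ hN (hγ.differentiable_one s).hasDerivAt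
  choose hc d hd hle using h1
  have h2 := GDist_speed (gmet_riem hφ hN) hγ
  refine (intervalIntegral.sub_le_integral_of_hasDeriv_right_of_le ht.1
    (fun s _ => (hc s).continuousWithinAt) (fun s _ => hd s) h2.integrableOn_Icc
    fun s _ => (le_abs_self _).trans (hle s)).trans ?_
  exact intervalIntegral.integral_mono_interval le_rfl ht.1 ht.2
    (Eventually.of_forall fun _ => Real.sqrt_nonneg _) (h2.intervalIntegrable _ _)

theorem gmet_dist (hφ : Warp n φ ϱ ϱ₁ a) (hN : NField N) {x : E n} (hx : x ≠ 0) :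
    riemDist (gmet φ N) univ 0 x = rfun φ (Real.log ‖x‖) := by
  have e : GDist_rho φ x - GDist_rho φ (0 : E n) = rfun φ (Real.log ‖x‖) := by
    rw [GDist_rho, GDist_rho, if_neg hx, if_pos rfl, sub_zero]
  have h0 : 0 < ‖x‖ := norm_pos_iff.2 hx
  refine le_antisymm ((GDist_dist_le _ (GDist_seg 0 x)).trans (le_of_eq ?_)) ?_
  · have h1 := intervalIntegral.integral_eq_sub_of_hasDerivAt_of_le zero_le_one
      (f := fun s : ℝ => GDist_rho φ ((0 : E n) + s • (x - 0)))
      (f' := fun t => Real.sqrt (quadForm (gmet φ N) ((GDist_seg 0 x).1 t)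
        (deriv (GDist_seg 0 x).1 t)))
      (fun s _ => (GDist_rho_right hφ hN (GDist_seg_deriv 0 x s)).1.continuousWithinAt)
      (fun s hs => ?_) ((GDist_speed (gmet_riem hφ hN) (GDist_seg 0 x).2.1).intervalIntegrable _ _)
    · refine h1.trans ?_
      simpa using e
    · have hs0 := hs.1
      have h2 : (0 : E n) + s • (x - 0) ≠ 0 := by simp [hx, hs0.ne']
      refine (GDist_rho_deriv hφ (GDist_seg_deriv 0 x s) h2).congr_deriv ?_
      change _ = Real.sqrt (quadForm (gmet φ N) (0 + s • (x - 0))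
        (deriv (fun s : ℝ => (0 : E n) + s • (x - 0)) s))
      have h3 := GDist_bil_rad (φ := φ) hN h2 x
      rw [(GDist_seg_deriv 0 x s).deriv, GDist_quad]
      simp only [zero_add, sub_zero] at h3 ⊢
      have hp := hφ.pos (Real.log ‖s • x‖)
      rw [map_smul, smul_eq_mul] at h3
      rw [real_inner_smul_left, real_inner_self_eq_norm_sq] at h3 ⊢
      generalize φ (Real.log ‖s • x‖) = c at h3 hp
      rw [norm_smul, Real.norm_of_nonneg hs0.le] at h3 ⊢
      have h4 : R244.bil (gmet φ N) (s • x) x x = (c / s) ^ 2 := by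
        refine mul_left_cancel₀ hs0.ne' (h3.trans ?_)
        field_simp
      rw [h4, Real.sqrt_sq (by positivity)]
      field_simp
  · have : Nonempty (AdmissiblePath univ 0 x) := ⟨GDist_seg 0 x⟩
    refine le_ciInf ?_
    rintro ⟨γ, hγ, h1, h2, -⟩
    have h3 := GDist_rho_lip hφ hN hγ (t := 1) ⟨zero_le_one, le_rfl⟩
    rwa [h1, h2, e] at h3

theorem riemDist_nonneg (g : MetricField n) (x y : E n) : 0 ≤ riemDist g univ x y :=
  Real.iInf_nonneg fun γ => GDist_length_nonneg g γ.1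

theorem GDist_dist_self (g : MetricField n) (x : E n) : riemDist g univ x x = 0 := by
  refine le_antisymm ((GDist_dist_le _ (GDist_seg x x)).trans (le_of_eq ?_)) (riemDist_nonneg _ _ _)
  simp [curveLength, GDist_seg, quadForm]

theorem gmet_dist_zero (hφ : Warp n φ ϱ ϱ₁ a) (hN : NField N) :
    riemDist (gmet φ N) univ 0 0 = 0 :=
  GDist_dist_self _ _

/-- `φ t ≥ e^{a t}` for `t ≥ 0` -/
theorem warp_ge (hφ : Warp n φ ϱ ϱ₁ a) {t : ℝ} (ht : 0 ≤ t) : Real.exp (a * t) ≤ φ t := by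
  have h1 : ∀ s, HasDerivAt (fun s => Real.log (φ s) - a * s) (ϱ s - a) s := fun s => by
    have h2 := ((hφ.d1 s).log (hφ.pos s).ne').sub ((hasDerivAt_id s).const_mul a)
    rw [mul_div_cancel_right₀ _ (hφ.pos s).ne', mul_one] at h2
    exact h2
  have h2 := monotone_of_hasDerivAt_nonneg h1 (fun s => sub_nonneg.2 (hφ.lo s)) ht
  simp only [hφ.init 0 le_rfl, Real.log_exp, mul_zero, sub_zero] at h2
  rw [← Real.le_log_iff_exp_le (hφ.pos t)]
  linarith

theorem GDist_rfun_ge (hφ : Warp n φ ϱ ϱ₁ a) {t : ℝ} (ht : 0 ≤ t) : Real.exp (a * t) ≤ rfun φ t := by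
  have h1 : ∀ s, HasDerivAt (fun s => Real.exp (a * s)) (Real.exp (a * s) * a) s := fun s => by
    simpa using ((hasDerivAt_id s).const_mul a).exp
  have h2 := intervalIntegral.sub_le_integral_of_hasDeriv_right_of_le ht
    (fun s _ => (h1 s).continuousAt.continuousWithinAt) (fun s _ => (h1 s).hasDerivWithinAt)
    hφ.smooth.continuous.integrableOn_Icc fun s hs =>
      (mul_le_of_le_one_right (Real.exp_pos _).le ((hφ.lo 0).trans (hφ.hi 0))).trans
        (warp_ge hφ hs.1.le)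
  rw [mul_zero, Real.exp_zero] at h2
  rw [rfun]
  linarith

/-- `e^{a t} ≤ 1 + d(0,x)` (`rfun φ t ≥ 1 + ∫₀ᵗ e^{as} ds ≥ e^{a t}` since `a ≤ 1`) -/
theorem gmet_growth (hφ : Warp n φ ϱ ϱ₁ a) (hN : NField N) {x : E n} (hx : 1 ≤ ‖x‖) :
    Real.exp (a * Real.log ‖x‖) ≤ 1 + riemDist (gmet φ N) univ 0 x := by
  rw [gmet_dist hφ hN (norm_pos_iff.1 (one_pos.trans_le hx))]
  linarith [GDist_rfun_ge hφ (Real.log_nonneg hx)]

theorem GDist_bound (hφ : Warp n φ ϱ ϱ₁ a) (M : ℝ) :
    ∃ R : ℝ, ∀ x : E n, GDist_rho φ x ≤ M → ‖x‖ ≤ R := by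
  refine ⟨max 1 (Real.exp (M / a)), fun x hx => ?_⟩
  rcases le_total ‖x‖ 1 with h | h
  · exact h.trans (le_max_left _ _)
  · have h0 : 0 < ‖x‖ := one_pos.trans_le h
    rw [GDist_rho, if_neg (norm_pos_iff.1 h0)] at hx
    have h1 := GDist_rfun_ge hφ (Real.log_nonneg h)
    have h2 := Real.add_one_le_exp (a * Real.log ‖x‖)
    refine le_trans ?_ (le_max_right _ _)
    rw [← Real.log_le_iff_le_exp h0, le_div_iff₀ hφ.apos]
    linarith

theorem GDist_exists {g : MetricField n} {x y : E n} {ε : ℝ} (h : riemDist g univ x y < ε) :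
    ∃ γ : AdmissiblePath univ x y, curveLength g γ.1 < ε := by
  have : Nonempty (AdmissiblePath univ x y) := ⟨GDist_seg x y⟩
  exact exists_lt_of_ciInf_lt h

theorem gmet_complete (hφ : Warp n φ ϱ ϱ₁ a) (hN : NField N) : IsCompleteOn (gmet φ N) univ := by
  intro x _ hx
  have hg := gmet_riem hφ hN
  obtain ⟨k₀, hk₀⟩ := hx 1 one_pos
  obtain ⟨R, hR⟩ := GDist_bound hφ (GDist_rho φ (x k₀) + 2)
  have h1 : ∀ k ≥ k₀, GDist_rho φ (x k) ≤ GDist_rho φ (x k₀) + 1 := fun k hk => by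
    obtain ⟨⟨γ, hγ, e0, e1, hm⟩, hl⟩ := GDist_exists (hk₀ k₀ le_rfl k hk)
    have h2 := GDist_rho_lip hφ hN hγ (t := 1) ⟨zero_le_one, le_rfl⟩
    rw [e0, e1] at h2
    have h3 : curveLength (gmet φ N) γ < 1 := hl
    linarith
  obtain ⟨c, C, hc, hC, hb⟩ := R244.exists_bil_bounds hg (isCompact_closedBall (0 : E n) R)
    (subset_univ _)
  have hsc : 0 < Real.sqrt c := Real.sqrt_pos.2 hc
  have hcau : CauchySeq x := by
    refine Metric.cauchySeq_iff.2 fun ε hε => ?_
    obtain ⟨k₁, hk₁⟩ := hx (min 1 (Real.sqrt c * ε)) (by positivity)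
    refine ⟨max k₀ k₁, fun k hk l hl => ?_⟩
    obtain ⟨⟨γ, hγ, e0, e1, hm⟩, hlen⟩ :=
      GDist_exists (hk₁ l (le_of_max_le_right hl) k (le_of_max_le_right hk))
    have h3 : curveLength (gmet φ N) γ < min 1 (Real.sqrt c * ε) := hlen
    have h4 : ∀ t ∈ Icc (0 : ℝ) 1, γ t ∈ Metric.closedBall (0 : E n) R := fun t ht => by
      have h5 := GDist_rho_lip hφ hN hγ ht
      have h6 := h1 l (le_of_max_le_left hl)
      have h7 := min_le_left 1 (Real.sqrt c * ε)
      rw [e0] at h5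
      exact mem_closedBall_zero_iff.2 (hR _ (by linarith))
    have h5 : Continuous (deriv γ) := hγ.continuous_deriv_one
    have h6 : ‖Real.sqrt c • (x k - x l)‖ ≤ curveLength (gmet φ N) γ := by
      rw [← e0, ← e1, ← intervalIntegral.integral_deriv_eq_sub
        (fun t _ => hγ.differentiable_one t) (h5.intervalIntegrable 0 1),
        ← intervalIntegral.integral_smul]
      refine intervalIntegral.norm_integral_le_of_norm_le zero_le_one
        (Eventually.of_forall fun t ht => ?_) ((GDist_speed hg hγ).intervalIntegrable _ _)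
      refine Real.le_sqrt_of_sq_le ?_
      rw [norm_smul, mul_pow, Real.norm_of_nonneg hsc.le, Real.sq_sqrt hc.le, GDist_quad]
      exact (hb _ (h4 t (Ioc_subset_Icc_self ht)) _).1
    rw [norm_smul, Real.norm_of_nonneg hsc.le] at h6
    rw [dist_eq_norm]
    exact lt_of_mul_lt_mul_left (h6.trans_lt (h3.trans_le (min_le_right _ _))) hsc.le
  obtain ⟨p, hp⟩ := cauchySeq_tendsto_of_complete hcau
  have h2 : ∀ᶠ k in atTop, x k ∈ Metric.closedBall (0 : E n) R := by
    filter_upwards [eventually_ge_atTop k₀] with k hk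
    exact mem_closedBall_zero_iff.2 (hR _ (by linarith [h1 k hk]))
  have h3 : p ∈ Metric.closedBall (0 : E n) R := Metric.isClosed_closedBall.mem_of_tendsto hp h2
  refine ⟨p, mem_univ _, ?_⟩
  have h4 : Tendsto (fun k => Real.sqrt C * ‖p - x k‖) atTop (𝓝 0) := by
    have := ((hp.const_sub p).norm).const_mul (Real.sqrt C)
    simpa using this
  refine squeeze_zero' (Eventually.of_forall fun k => riemDist_nonneg _ _ _) ?_ h4
  filter_upwards [h2] with k hk
  refine (GDist_dist_le _ (GDist_seg (x k) p)).trans ?_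
  refine (intervalIntegral.integral_mono_on zero_le_one
    ((GDist_speed hg (GDist_seg (x k) p).2.1).intervalIntegrable _ _)
    (g := fun _ => Real.sqrt C * ‖p - x k‖) intervalIntegrable_const fun t ht => ?_).trans
    (by simp)
  change Real.sqrt (quadForm (gmet φ N) (x k + t • (p - x k))
    (deriv (fun s : ℝ => x k + s • (p - x k)) t)) ≤ _
  rw [(GDist_seg_deriv (x k) p t).deriv, GDist_quad]
  refine Real.sqrt_le_iff.2 ⟨by positivity, ?_⟩
  rw [mul_pow, Real.sq_sqrt hC.le]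
  exact (hb _ ((convex_closedBall (0 : E n) R).add_smul_sub_mem hk h3 ht) _).2

end Crest.Agent.R202
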