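import Crest.Agent.R202.GBasic

/-!
# Row 202, G2: asymptotic volume ratio, and the Laplacian

AVR: the ball of radius `R = rfun φ T` is the Euclidean ball of radius `e^T` (`gmet_dist`, `rfun φ` is
strictly increasing onto `(0,∞)`), its volume is `n ω ∫_{-∞}^T φ^n dt` (`R230.lintegral_polar`,
`gmet_sqrt_det`).  With `r = rfun φ`: `r' = φ`, `φ' = ϱ φ`, `ϱ → a`, so `φ / r → a` and
`(∫ φ^n) / r^n → a^{n-1}/n` (prove a small `∞/∞` l'Hôpital lemma: if `f' / h' → L`, `h' > 0`,
`h → ∞` then `f/h → L`, by monotonicity of `f - (L ± ε) h`).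

Laplacian: `√g g⁻¹ = (φ/|x|)^{n-2} N`, and `N ∇u = x D0 u/|x|² + ½ Σ c_{ik} ℓ_{ik} L_{ik} u / |x|²`
(because `½ Σ ℓ ℓᵀ = |x|² - x xᵀ`); `div (f x) = D0 f + n f`, `div (f ℓ_{ik}) = L_{ik} f`,
`L_{ik}` kills functions of `|x|`.  Hence
`div(√g g⁻¹ ∇u) = |x|^{-n} [D0(φ^d D0 u) + φ^d ½ Σ L(c L u)]`, and with `u = V/y`, `y² = φ^d`:
`D0(y² D0(V/y)) = y D0 D0 V - y'' V`.
-/

set_option autoImplicit false
open scoped ContDiff Topology
open Filter Set MeasureTheory
open Crest.GeometryTopology.CoordMetric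
open Crest.Agent.R230 (E MP sph ev Harm)

noncomputable section
namespace Crest.Agent.R202

variable {n : ℕ} {φ ϱ ϱ₁ : ℝ → ℝ} {a : ℝ} {N : MetricField n}

theorem GLap_fderiv_eq_sum (f : E n → ℝ) (x v : E n) :
    fderiv ℝ f x v = ∑ a, v a * pderiv a f x := by
  conv_lhs => rw [R244.eq_sum_single v, map_sum]
  exact Finset.sum_congr rfl fun a _ => by rw [map_smul, smul_eq_mul, pderiv]

theorem GLap_D0_eq_sum (f : E n → ℝ) (x : E n) : D0 f x = ∑ a, x a * pderiv a f x :=
  GLap_fderiv_eq_sum f x x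

theorem GLap_sum_rotv (i k : Fin n) (x : E n) (v : Fin n → ℝ) :
    ∑ b, rotv i k x b * v b = x i * v k - x k * v i := by
  simp only [rotv, sub_mul, Finset.sum_sub_distrib, ite_mul, zero_mul, Finset.sum_ite_eq',
    Finset.mem_univ, if_true]

theorem GLap_pderiv_congr (a : Fin n) {f g : E n → ℝ} {x : E n} (h : f =ᶠ[𝓝 x] g) :
    pderiv a f x = pderiv a g x := by
  rw [pderiv, pderiv, h.fderiv_eq]

theorem GLap_pderiv_mul (a : Fin n) {f g : E n → ℝ} {x : E n} (hf : DifferentiableAt ℝ f x)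
    (hg : DifferentiableAt ℝ g x) :
    pderiv a (fun z => f z * g z) x = pderiv a f x * g x + f x * pderiv a g x := by
  simp only [pderiv]
  rw [fderiv_fun_mul hf hg]
  simp only [add_apply, smul_apply, smul_eq_mul]
  ring

theorem GLap_D0_mul {f g : E n → ℝ} {x : E n} (hf : DifferentiableAt ℝ f x)
    (hg : DifferentiableAt ℝ g x) :
    D0 (fun z => f z * g z) x = D0 f x * g x + f x * D0 g x := by
  simp only [D0]
  rw [fderiv_fun_mul hf hg]
  simp only [add_apply, smul_apply, smul_eq_mul]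
  ring

theorem GLap_D0_sub {f g : E n → ℝ} {x : E n} (hf : DifferentiableAt ℝ f x)
    (hg : DifferentiableAt ℝ g x) : D0 (fun z => f z - g z) x = D0 f x - D0 g x := by
  simp only [D0]
  rw [fderiv_fun_sub hf hg]
  rfl

theorem GLap_Lf_mul (i k : Fin n) {f g : E n → ℝ} {x : E n} (hf : DifferentiableAt ℝ f x)
    (hg : DifferentiableAt ℝ g x) :
    Lf i k (fun z => f z * g z) x = Lf i k f x * g x + f x * Lf i k g x := by
  simp only [Lf, GLap_pderiv_mul _ hf hg]
  ring

theorem GLap_rad {h : ℝ → ℝ} {h' : ℝ} {x : E n} (hx : x ≠ 0) (hh : HasDerivAt h h' (Real.log ‖x‖)) :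
    HasFDerivAt (fun z : E n => h (Real.log ‖z‖)) ((h' / ‖x‖ ^ 2) • innerSL ℝ x) x := by
  have h0 : ‖x‖ ^ 2 ≠ 0 := pow_ne_zero 2 (norm_ne_zero_iff.2 hx)
  have h1 := ((hasStrictFDerivAt_norm_sq x).hasFDerivAt.log h0).const_mul (1 / 2 : ℝ)
  have e : (fun z : E n => 1 / 2 * Real.log (‖z‖ ^ 2)) = fun z => Real.log ‖z‖ := by
    funext z
    rw [Real.log_pow]; push_cast; ring
  rw [e] at h1
  refine (hh.comp_hasFDerivAt x h1).congr_fderiv ?_
  ext v
  simp only [smul_apply, smul_eq_mul, nsmul_eq_mul]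
  push_cast
  ring

theorem GLap_D0_rad {h : ℝ → ℝ} {h' : ℝ} {x : E n} (hx : x ≠ 0)
    (hh : HasDerivAt h h' (Real.log ‖x‖)) : D0 (fun z : E n => h (Real.log ‖z‖)) x = h' := by
  have h0 : ‖x‖ ^ 2 ≠ 0 := pow_ne_zero 2 (norm_ne_zero_iff.2 hx)
  rw [D0, (GLap_rad hx hh).fderiv, smul_apply, innerSL_apply_apply, real_inner_self_eq_norm_sq,
    smul_eq_mul, div_mul_cancel₀ _ h0]

theorem GLap_Lf_rad (i k : Fin n) {h : ℝ → ℝ} {h' : ℝ} {x : E n} (hx : x ≠ 0)
    (hh : HasDerivAt h h' (Real.log ‖x‖)) : Lf i k (fun z : E n => h (Real.log ‖z‖)) x = 0 := by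
  simp only [Lf, pderiv, (GLap_rad hx hh).fderiv, smul_apply, innerSL_apply_apply,
    EuclideanSpace.inner_single_right, smul_eq_mul]
  simp
  ring

theorem GLap_coord (a : Fin n) (x : E n) :
    HasFDerivAt (fun z : E n => z a) (EuclideanSpace.proj a : E n →L[ℝ] ℝ) x :=
  (EuclideanSpace.proj a : E n →L[ℝ] ℝ).hasFDerivAt

theorem GLap_pderiv_coord (a b : Fin n) (x : E n) :
    pderiv a (fun z : E n => z b) x = if b = a then 1 else 0 := by
  rw [pderiv, (GLap_coord b x).fderiv]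
  simp

theorem GLap_diff_rotv (i k a : Fin n) (x : E n) :
    DifferentiableAt ℝ (fun z : E n => rotv i k z a) x := by
  unfold rotv
  have := (GLap_coord i x).differentiableAt
  have := (GLap_coord k x).differentiableAt
  split_ifs <;> fun_prop

theorem GLap_div_rotv (i k : Fin n) (x : E n) :
    ∑ a, pderiv a (fun z : E n => rotv i k z a) x = 0 := by
  have e : ∀ a, pderiv a (fun z : E n => rotv i k z a) x =
      (if a = k then (if i = a then 1 else 0) else 0) -
        (if a = i then (if k = a then 1 else 0) else 0) := by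
    intro a
    have h1 : DifferentiableAt ℝ (fun z : E n => if a = k then z i else 0) x := by
      have := (GLap_coord i x).differentiableAt
      split_ifs <;> fun_prop
    have h2 : DifferentiableAt ℝ (fun z : E n => if a = i then z k else 0) x := by
      have := (GLap_coord k x).differentiableAt
      split_ifs <;> fun_prop
    simp only [rotv, pderiv]
    rw [fderiv_fun_sub h1 h2, sub_apply]
    congr 1
    · split_ifs with a1
      · exact (GLap_pderiv_coord a i x).trans (if_pos ‹_›)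
      · exact (GLap_pderiv_coord a i x).trans (if_neg ‹_›)
      · simp
    · split_ifs with a1
      · exact (GLap_pderiv_coord a k x).trans (if_pos ‹_›)
      · exact (GLap_pderiv_coord a k x).trans (if_neg ‹_›)
      · simp
  simp only [e, Finset.sum_sub_distrib, Finset.sum_ite_eq', Finset.mem_univ, if_true]
  rw [if_congr (eq_comm (a := k)) rfl rfl, sub_self]

/-- the divergence of `x A + ½ Σ ℓ_{ik} B_{ik}` -/
theorem GLap_div {A : E n → ℝ} {B : Fin n → Fin n → E n → ℝ} {x : E n}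
    (hA : DifferentiableAt ℝ A x) (hB : ∀ i k, DifferentiableAt ℝ (B i k) x) :
    ∑ a, pderiv a (fun z : E n => z a * A z + (1 / 2) * ∑ i, ∑ k, rotv i k z a * B i k z) x =
      n * A x + D0 A x + (1 / 2) * ∑ i, ∑ k, Lf i k (B i k) x := by
  have e : ∀ a, pderiv a (fun z : E n => z a * A z + (1 / 2) * ∑ i, ∑ k, rotv i k z a * B i k z) x =
      A x + x a * pderiv a A x + (1 / 2) * ∑ i, ∑ k,
        (pderiv a (fun z : E n => rotv i k z a) x * B i k x + rotv i k x a * pderiv a (B i k) x) := by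
    intro a
    have h1 := ((GLap_coord a x).differentiableAt.fun_mul hA).hasFDerivAt
    have h2 := (HasFDerivAt.fun_sum (u := Finset.univ) fun i _ =>
      HasFDerivAt.fun_sum (u := Finset.univ) fun k _ =>
        ((GLap_diff_rotv i k a x).fun_mul (hB i k)).hasFDerivAt).const_mul (1 / 2 : ℝ)
    have h3 := GLap_pderiv_mul a (GLap_coord a x).differentiableAt hA
    rw [GLap_pderiv_coord, if_pos rfl, one_mul] at h3
    simp only [← GLap_pderiv_mul a (GLap_diff_rotv _ _ a x) (hB _ _)]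
    rw [← h3, pderiv, (h1.fun_add h2).fderiv]
    simp only [add_apply, smul_apply, smul_eq_mul, sum_apply]
    rfl
  simp only [e, Finset.sum_add_distrib, ← Finset.mul_sum, ← GLap_D0_eq_sum, Finset.sum_const,
    Finset.card_univ, Fintype.card_fin, nsmul_eq_mul]
  congr 2
  rw [Finset.sum_comm (s := Finset.univ), Finset.sum_comm (s := Finset.univ)
    (f := fun a i => ∑ k, rotv i k x a * pderiv a (B i k) x), ← Finset.sum_add_distrib]
  refine Finset.sum_congr rfl fun i _ => ?_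
  rw [Finset.sum_comm (s := Finset.univ), Finset.sum_comm (s := Finset.univ)
    (f := fun a k => rotv i k x a * pderiv a (B i k) x), ← Finset.sum_add_distrib]
  refine Finset.sum_congr rfl fun k _ => ?_
  rw [← Finset.sum_mul, GLap_div_rotv, zero_mul, zero_add, GLap_sum_rotv, Lf]

/-- `N ∇u` in terms of the fields -/
theorem GLap_Nc (c : Fin n → Fin n → E n → ℝ) (u : E n → ℝ) {z : E n} (hz : z ≠ 0) (a : Fin n) :
    ∑ j, Nc c z a j * pderiv j u z =
      (z a * D0 u z + (1 / 2) * ∑ i, ∑ k, rotv i k z a * (c i k z * Lf i k u z)) / ‖z‖ ^ 2 := by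
  have h0 : ‖z‖ ^ 2 ≠ 0 := pow_ne_zero 2 (norm_ne_zero_iff.2 hz)
  have e1 : ∑ j, Nc c z a j * pderiv j u z = pderiv a u z +
      (1 / 2) * ∑ i, ∑ k, (c i k z - 1) * rotv i k z a * Lf i k u z / ‖z‖ ^ 2 := by
    simp only [Nc, Matrix.of_apply, add_mul, Finset.sum_add_distrib, Matrix.one_apply, ite_mul,
      one_mul, zero_mul, Finset.sum_ite_eq, Finset.mem_univ, if_true, mul_assoc, ← Finset.mul_sum]
    congr 2
    simp only [Finset.sum_mul]
    rw [Finset.sum_comm]
    refine Finset.sum_congr rfl fun i _ => ?_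
    rw [Finset.sum_comm]
    refine Finset.sum_congr rfl fun k _ => ?_
    rw [Lf, ← GLap_sum_rotv i k z fun b => pderiv b u z, Finset.mul_sum, Finset.mul_sum,
      Finset.sum_div]
    exact Finset.sum_congr rfl fun b _ => by ring
  have e2 : ∑ i, ∑ k, rotv i k z a * Lf i k u z = 2 * (‖z‖ ^ 2 * pderiv a u z - z a * D0 u z) := by
    simp only [rotv, sub_mul, Finset.sum_sub_distrib, ite_mul, zero_mul, Finset.sum_ite_eq,
      Finset.mem_univ, if_true, Finset.sum_ite_irrel, Finset.sum_const_zero]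
    rw [GLap_D0_eq_sum, EuclideanSpace.real_norm_sq_eq, Finset.sum_mul, Finset.mul_sum,
      ← Finset.sum_sub_distrib, ← Finset.sum_sub_distrib, Finset.mul_sum]
    exact Finset.sum_congr rfl fun i _ => by simp only [Lf]; ring
  have e3 : ∑ i, ∑ k, (c i k z - 1) * rotv i k z a * Lf i k u z / ‖z‖ ^ 2 =
      (∑ i, ∑ k, rotv i k z a * (c i k z * Lf i k u z) -
        ∑ i, ∑ k, rotv i k z a * Lf i k u z) / ‖z‖ ^ 2 := by
    rw [← Finset.sum_sub_distrib, Finset.sum_div]
    refine Finset.sum_congr rfl fun i _ => ?_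
    rw [← Finset.sum_sub_distrib, Finset.sum_div]
    exact Finset.sum_congr rfl fun k _ => by ring
  rw [e1, e3, e2]
  field_simp
  ring

theorem GLap_diff_pderiv {f : E n → ℝ} (hf : ContDiffOn ℝ ∞ f {0}ᶜ) {x : E n} (hx : x ≠ 0)
    (i : Fin n) : DifferentiableAt ℝ (pderiv i f) x :=
  ((R244.contDiffOn_pderiv isOpen_compl_singleton hf i).contDiffAt
    (isOpen_compl_singleton.mem_nhds hx)).differentiableAt (by simp)

theorem GLap_diff {f : E n → ℝ} (hf : ContDiffOn ℝ ∞ f {0}ᶜ) {x : E n} (hx : x ≠ 0) :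
    DifferentiableAt ℝ f x :=
  (hf.contDiffAt (isOpen_compl_singleton.mem_nhds hx)).differentiableAt (by simp)

theorem GLap_diff_D0 {f : E n → ℝ} (hf : ContDiffOn ℝ ∞ f {0}ᶜ) {x : E n} (hx : x ≠ 0) :
    DifferentiableAt ℝ (D0 f) x := by
  rw [show D0 f = fun z => ∑ a, z a * pderiv a f z from funext (GLap_D0_eq_sum f)]
  exact DifferentiableAt.fun_sum fun a _ =>
    (GLap_coord a x).differentiableAt.mul (GLap_diff_pderiv hf hx a)

theorem GLap_diff_Lf (i k : Fin n) {f : E n → ℝ} (hf : ContDiffOn ℝ ∞ f {0}ᶜ) {x : E n}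
    (hx : x ≠ 0) : DifferentiableAt ℝ (Lf i k f) x :=
  ((GLap_coord i x).differentiableAt.mul (GLap_diff_pderiv hf hx k)).sub
    ((GLap_coord k x).differentiableAt.mul (GLap_diff_pderiv hf hx i))

theorem gmet_lap {d : ℕ} {φ ϱ ϱ₁ : ℝ → ℝ} (hφ : Warp (d + 2) φ ϱ ϱ₁ a)
    {c : Fin (d + 2) → Fin (d + 2) → E (d + 2) → ℝ}
    (hc : ∀ i k, ContDiffOn ℝ ∞ (c i k) {0}ᶜ) (hN : NField (Nc c))
    {y y₁ q : ℝ → ℝ} (hy : ContDiff ℝ ∞ y) (hy0 : ∀ t, 0 < y t) (hy2 : ∀ t, y t ^ 2 = φ t ^ d)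
    (hy1 : ∀ t, HasDerivAt y (y₁ t) t) (hyq : ∀ t, HasDerivAt y₁ (q t * y t) t)
    {V u : E (d + 2) → ℝ} (hV : ContDiffOn ℝ ∞ V {0}ᶜ)
    (hu : ∀ x, x ≠ 0 → u x = V x / y (Real.log ‖x‖))
    {x : E (d + 2)} (hx : x ≠ 0)
    (heq : D0 (D0 V) x + (1 / 2) * ∑ i, ∑ k, Lf i k (fun z => c i k z * Lf i k V z) x =
      q (Real.log ‖x‖) * V x) :
    laplaceBeltrami (gmet φ (Nc c)) u x = 0 := by
  have _ := hy
  set m : ℝ := ((d + 2 : ℕ) : ℝ) with hm
  have hw : ∀ t, HasDerivAt (fun t => Real.exp (-m * t)) (-m * Real.exp (-m * t)) t := fun t => by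
    simpa [mul_comm] using ((hasDerivAt_id t).const_mul (-m)).exp
  have hyi : ∀ t, HasDerivAt (fun t => (y t)⁻¹) (-y₁ t / y t ^ 2) t := fun t =>
    (hy1 t).inv (hy0 t).ne'
  have hF : ∀ a, (fun z => Real.sqrt (gmet φ (Nc c) z).det *
      ∑ j, inverseField (gmet φ (Nc c)) z a j * pderiv j u z) =ᶠ[𝓝 x] fun z =>
      z a * (Real.exp (-m * Real.log ‖z‖) *
        (y (Real.log ‖z‖) * D0 V z - y₁ (Real.log ‖z‖) * V z)) +
      (1 / 2) * ∑ i, ∑ k, rotv i k z a *
        (Real.exp (-m * Real.log ‖z‖) * y (Real.log ‖z‖) * (c i k z * Lf i k V z)) := by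
    intro a
    filter_upwards [isOpen_compl_singleton.mem_nhds hx] with z hz
    have hz0 : 0 < ‖z‖ := norm_pos_iff.2 hz
    have hu' : u =ᶠ[𝓝 z] fun z => V z * (y (Real.log ‖z‖))⁻¹ := by
      filter_upwards [isOpen_compl_singleton.mem_nhds hz] with w hw using hu w hw
    have hd := (GLap_rad hz (hyi _)).differentiableAt
    have e1 : D0 u z = D0 V z * (y (Real.log ‖z‖))⁻¹ +
        V z * (-y₁ (Real.log ‖z‖) / y (Real.log ‖z‖) ^ 2) := by
      rw [← GLap_D0_rad hz (hyi _), ← GLap_D0_mul (GLap_diff hV hz) hd, D0, D0, hu'.fderiv_eq]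
    have e2 : ∀ i k, Lf i k u z = Lf i k V z * (y (Real.log ‖z‖))⁻¹ := fun i k => by
      have := GLap_Lf_mul i k (GLap_diff hV hz) hd
      rw [GLap_Lf_rad i k hz (hyi _), mul_zero, add_zero] at this
      rw [← this]
      simp only [Lf, pderiv, hu'.fderiv_eq]
    have e3 : Real.exp (-m * Real.log ‖z‖) = (‖z‖ ^ (d + 2))⁻¹ := by
      rw [neg_mul, Real.exp_neg, hm, Real.exp_nat_mul, Real.exp_log hz0]
    have e4 : ∑ i, ∑ k, rotv i k z a *
        ((‖z‖ ^ (d + 2))⁻¹ * y (Real.log ‖z‖) * (c i k z * Lf i k V z)) =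
        (‖z‖ ^ (d + 2))⁻¹ * y (Real.log ‖z‖) ^ 2 * ∑ i, ∑ k, rotv i k z a *
          (c i k z * (Lf i k V z * (y (Real.log ‖z‖))⁻¹)) := by
      simp only [Finset.mul_sum]
      refine Finset.sum_congr rfl fun i _ => Finset.sum_congr rfl fun k _ => ?_
      have := (hy0 (Real.log ‖z‖)).ne'
      field_simp
    simp only [inverseField, gmet_inv hφ hN hz, gmet_sqrt_det hφ hN hz, Matrix.smul_apply,
      smul_eq_mul, mul_assoc, ← Finset.mul_sum]
    rw [GLap_Nc c u hz a, e1]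
    simp only [e2, e3, ← mul_assoc (‖z‖ ^ (d + 2))⁻¹]
    rw [e4, div_pow, pow_add (φ _), ← hy2]
    have := (hy0 (Real.log ‖z‖)).ne'
    have := (hφ.pos (Real.log ‖z‖)).ne'
    field_simp
    ring
  have d1 := (GLap_rad hx (hw _)).differentiableAt
  have d2 := (GLap_rad hx (hy1 _)).differentiableAt
  have d3 := (GLap_rad hx (hyq _)).differentiableAt
  have d4 := GLap_diff hV hx
  have d5 := GLap_diff_D0 hV hx
  have d6 := fun i k => (GLap_diff (hc i k) hx).fun_mul (GLap_diff_Lf i k hV hx)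
  have e : ∑ a, pderiv a (fun z => Real.sqrt (gmet φ (Nc c) z).det *
      ∑ j, inverseField (gmet φ (Nc c)) z a j * pderiv j u z) x = 0 := by
    rw [Finset.sum_congr rfl fun a _ => GLap_pderiv_congr a (hF a),
      GLap_div (d1.fun_mul ((d2.fun_mul d5).fun_sub (d3.fun_mul d4))) fun i k =>
        (d1.fun_mul d2).fun_mul (d6 i k)]
    have e5 : ∀ i k, Lf i k (fun z => Real.exp (-m * Real.log ‖z‖) * y (Real.log ‖z‖) *
        (c i k z * Lf i k V z)) x = Real.exp (-m * Real.log ‖x‖) * y (Real.log ‖x‖) *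
        Lf i k (fun z => c i k z * Lf i k V z) x := fun i k => by
      rw [GLap_Lf_mul i k (d1.fun_mul d2) (d6 i k), GLap_Lf_rad i k hx ((hw _).fun_mul (hy1 _)),
        zero_mul, zero_add]
    simp only [e5, ← Finset.mul_sum]
    rw [GLap_D0_mul d1 ((d2.fun_mul d5).fun_sub (d3.fun_mul d4)),
      GLap_D0_sub (d2.fun_mul d5) (d3.fun_mul d4),
      GLap_D0_mul d2 d5, GLap_D0_mul d3 d4, GLap_D0_rad hx (hw _), GLap_D0_rad hx (hy1 _),
      GLap_D0_rad hx (hyq _), ← hm]
    linear_combination Real.exp (-m * Real.log ‖x‖) * y (Real.log ‖x‖) * heq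
  rw [laplaceBeltrami, e, mul_zero]

/-- a smooth function that is harmonic away from the origin is harmonic (continuity of the
Laplace-Beltrami operator of a smooth function for a smooth metric) -/
theorem harmonic_of_punctured (hn : 1 ≤ n) {g : MetricField n} (hg : IsRiemannianOn g univ)
    {u : E n → ℝ} (hu : ContDiff ℝ ∞ u) (h : ∀ x, x ≠ 0 → laplaceBeltrami g u x = 0) :
    IsHarmonicOn g univ u := by
  refine ⟨hu.contDiffOn, fun x _ => ?_⟩
  have hdet : ∀ z, 0 < (g z).det := fun z => (hg.posDef z (mem_univ _)).det_pos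
  have c1 : ContDiffOn ℝ ∞ (fun z => Real.sqrt (g z).det) univ :=
    (R244.contDiffOn_det_of hg.contDiffOn).sqrt fun z _ => (hdet z).ne'
  have c2 : ∀ i, ContDiffOn ℝ ∞ (pderiv i fun z => Real.sqrt (g z).det *
      ∑ j, inverseField g z i j * pderiv j u z) univ := fun i =>
    R244.contDiffOn_pderiv isOpen_univ (c1.mul (ContDiffOn.sum fun j _ =>
      (R244.contDiffOn_inverseField hg i j).mul
        (R244.contDiffOn_pderiv isOpen_univ hu.contDiffOn j))) i
  have c3 : Continuous (laplaceBeltrami g u) := by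
    refine Continuous.mul (continuous_const.div (continuousOn_univ.1 c1.continuousOn)
      fun z => (Real.sqrt_pos.2 (hdet z)).ne') (continuous_finsetSum _ fun i _ => ?_)
    exact continuousOn_univ.1 (c2 i).continuousOn
  have : Nonempty (Fin n) := ⟨⟨0, hn⟩⟩
  exact congrFun (Continuous.ext_on (dense_compl_singleton (0 : E n)) c3 continuous_const
    fun z hz => h z hz) x

end Crest.Agent.R202
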