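import Crest.Agent.R202.GBasic
import Crest.Agent.R244.CalcB

/-!
# Row 202, G4: curvature in the radial direction

Let `S^k_j = δ^k_j + Γ^k_{ij} x^i` (`= ∇_j x^k`).  From the definition of `ricci` alone,
`R_{ij} x^i = ∂_k S^k_j + Γ^k_{kl} S^l_j - Γ^l_{kj} S^k_l - ∂_j S^k_k`.
For `g = gmet φ N` the covector `g x = φ² x/|x|²` is closed, so `2 g Γ x = x·∂g`, i.e.
`S = 1 + ½ g⁻¹ D0 g = ϱ 1 + P`, `P = Pten N = -½ (D0 N) N⁻¹`; `tr P = 0` (Jacobi's formula,
`det N = 1`), `P x = 0` and `xᵀ P = 0` (differentiate `N x x = x`).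
Sectional curvature: with the covector `ξ = g x`, `T_{jk} = ∂_j ξ_k - Γ^l_{jk} ξ_l = g_{kl} S^l_j`,
`ξ_l R^l_{kij} = -(∂_i T_{jk} - Γ^a_{ik} T_{ja}) + (∂_j T_{ik} - Γ^a_{jk} T_{ia})`; or use `R244.Rm`.
For an eigenvector `w` of `N` along the ray (`N w = e^{2β} w`) one has `S w = (ϱ - β') w`.
(Check in dimension 2: `g = φ²(dt² + e^{-2β} dθ²)`.)
-/

set_option autoImplicit false
open scoped ContDiff Topology
open Filter Set
open Crest.GeometryTopology.CoordMetric Crest.GeometryTopology.ChartCurvature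
open Crest.Agent.R230 (E MP sph ev Harm)

noncomputable section
namespace Crest.Agent.R202

variable {n : ℕ} {φ ϱ ϱ₁ : ℝ → ℝ} {a : ℝ} {N : MetricField n}

namespace GRad

variable {f h : E n → ℝ} {x : E n}

theorem fd_mul (hf : DifferentiableAt ℝ f x) (hh : DifferentiableAt ℝ h x) (v : E n) :
    fderiv ℝ (fun y => f y * h y) x v = fderiv ℝ f x v * h x + f x * fderiv ℝ h x v := by
  rw [fderiv_fun_mul hf hh]
  simp
  ring

theorem fd_sum {ι : Type*} (s : Finset ι) {F : ι → E n → ℝ}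
    (hF : ∀ i ∈ s, DifferentiableAt ℝ (F i) x) (v : E n) :
    fderiv ℝ (fun y => ∑ i ∈ s, F i y) x v = ∑ i ∈ s, fderiv ℝ (F i) x v := by
  rw [fderiv_fun_sum hF]
  simp

theorem diff_coord (i : Fin n) (x : E n) : DifferentiableAt ℝ (fun y : E n => y i) x := by
  fun_prop

theorem fd_coord (i : Fin n) (x v : E n) : fderiv ℝ (fun y : E n => y i) x v = v i := by
  have : (fun y : E n => y i) = (EuclideanSpace.proj i : E n →L[ℝ] ℝ) := rfl
  rw [this, ContinuousLinearMap.fderiv]
  rfl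

/-- derivative of a contraction with the position vector -/
theorem fd_contract {F : Fin n → E n → ℝ} (hF : ∀ i, DifferentiableAt ℝ (F i) x) (v : E n) :
    fderiv ℝ (fun y => ∑ i, F i y * y i) x v =
      ∑ i, fderiv ℝ (F i) x v * x i + ∑ i, F i x * v i := by
  rw [fd_sum _ fun i _ => (hF i).fun_mul (diff_coord i x), ← Finset.sum_add_distrib]
  exact Finset.sum_congr rfl fun i _ => by rw [fd_mul (hF i) (diff_coord i x), fd_coord]

theorem pd_contract {F : Fin n → E n → ℝ} (hF : ∀ i, DifferentiableAt ℝ (F i) x) (j : Fin n) :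
    pderiv j (fun y => ∑ i, F i y * y i) x = ∑ i, pderiv j (F i) x * x i + F j x := by
  unfold pderiv
  rw [fd_contract hF]
  simp

theorem D0_eq (f : E n → ℝ) (x : E n) : D0 f x = ∑ i, pderiv i f x * x i := by
  unfold D0 pderiv
  conv_lhs => rw [show fderiv ℝ f x x = fderiv ℝ f x
    (∑ l, x l • (EuclideanSpace.single l (1 : ℝ) : E n)) from
      congrArg _ (R244.eq_sum_single x)]
  simp [mul_comm]

theorem line (hf : DifferentiableAt ℝ f x) (v : E n) :
    HasDerivAt (fun t : ℝ => f (x + t • v)) (fderiv ℝ f x v) 0 := by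
  have h1 : HasDerivAt (fun t : ℝ => x + t • v) v 0 := by
    simpa using ((hasDerivAt_id (0 : ℝ)).smul_const v).const_add x
  have h2 : HasFDerivAt f (fderiv ℝ f x) (x + (0 : ℝ) • v) := by
    simpa using hf.hasFDerivAt
  exact h2.comp_hasDerivAt (0 : ℝ) h1

open Matrix Finset in
theorem hasDerivAt_det (M : ℝ → Matrix (Fin n) (Fin n) ℝ) (B : Matrix (Fin n) (Fin n) ℝ)
    (h : ∀ i j, HasDerivAt (fun s => M s i j) (B i j) 0) :
    HasDerivAt (fun s => (M s).det) (trace (adjugate (M 0) * B)) 0 := by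
  have h1 : HasDerivAt (fun s : ℝ => ∑ σ : Equiv.Perm (Fin n),
      ((Equiv.Perm.sign σ : ℤ) : ℝ) * ∏ i, M s (σ i) i)
      (∑ σ : Equiv.Perm (Fin n), ((Equiv.Perm.sign σ : ℤ) : ℝ) *
        ∑ i, (∏ j ∈ univ.erase i, M 0 (σ j) j) • B (σ i) i) 0 := by
    refine HasDerivAt.fun_sum fun σ _ => HasDerivAt.const_mul _ ?_
    exact HasDerivAt.fun_finsetProd (u := univ) (f := fun i s => M s (σ i) i)
      (f' := fun i => B (σ i) i) fun i _ => h _ _
  convert h1 using 1
  · funext s
    rw [det_apply']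
  · simp_rw [mul_sum]
    rw [sum_comm, trace]
    refine sum_congr rfl fun i _ => ?_
    have : (adjugate (M 0) * B).diag i = (adjugate (M 0) *ᵥ (fun k => B k i)) i := rfl
    rw [this, ← cramer_eq_adjugate_mulVec, cramer_apply, det_apply']
    refine sum_congr rfl fun σ _ => ?_
    congr 1
    rw [← mul_prod_erase univ _ (mem_univ i), smul_eq_mul, mul_comm]
    congr 1
    · refine prod_congr rfl fun j hj => ?_
      rw [updateCol_ne (mem_erase.1 hj).1]
    · simp

theorem diff_det {A : MetricField n} (hA : ∀ i j, DifferentiableAt ℝ (fun y => A y i j) x) :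
    DifferentiableAt ℝ (fun y => (A y).det) x := by
  simp only [Matrix.det_apply']
  exact DifferentiableAt.fun_sum fun σ _ =>
    (HasFDerivAt.finsetProd (u := Finset.univ) (g := fun i y => A y (σ i) i)
      fun i _ => (hA _ _).hasFDerivAt).differentiableAt.const_mul _

/-- Jacobi's formula -/
theorem fd_det {A : MetricField n} (hA : ∀ i j, DifferentiableAt ℝ (fun y => A y i j) x)
    (hd : (A x).det ≠ 0) (v : E n) :
    fderiv ℝ (fun y => (A y).det) x v =
      (A x).det * ∑ k, ∑ l, (A x)⁻¹ k l * fderiv ℝ (fun y => A y l k) x v := by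
  have h1 := hasDerivAt_det (fun t => A (x + t • v))
    (Matrix.of fun i j => fderiv ℝ (fun y => A y i j) x v) fun i j => line (hA i j) v
  have h2 := line (diff_det hA) v
  rw [h2.unique h1]
  simp only [zero_smul, add_zero]
  have e : (A x).adjugate = (A x).det • (A x)⁻¹ := by
    rw [Matrix.inv_def, smul_smul, Ring.inverse_eq_inv, mul_inv_cancel₀ hd, one_smul]
  rw [e, Matrix.smul_mul, Matrix.trace_smul, smul_eq_mul]
  simp only [Matrix.trace, Matrix.diag, Matrix.mul_apply, Matrix.of_apply]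

section General
variable {g : MetricField n} {U : Set (E n)}

theorem diff_g (hg : IsRiemannianOn g U) (hx : x ∈ U) (i j : Fin n) :
    DifferentiableAt ℝ (fun y => g y i j) x :=
  ((hg.contDiffOn i j).contDiffAt (hg.isOpen.mem_nhds hx)).differentiableAt (by simp)

theorem diff_chr (hg : IsRiemannianOn g U) (hx : x ∈ U) (k i j : Fin n) :
    DifferentiableAt ℝ (fun y => christoffel g y k i j) x :=
  ((R244.contDiffOn_christoffel hg k i j).contDiffAt (hg.isOpen.mem_nhds hx)).differentiableAt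
    (by simp)

theorem inv_symm (hg : IsRiemannianOn g U) (hx : x ∈ U) (k l : Fin n) :
    (g x)⁻¹ k l = (g x)⁻¹ l k := by
  have h := (hg.posDef x hx).inv.isHermitian
  have := congrFun (congrFun h k) l
  simpa [Matrix.conjTranspose_apply] using this.symm

theorem trace_chr (hg : IsRiemannianOn g U) (hx : x ∈ U) (i : Fin n) :
    ∑ k, christoffel g x k k i = pderiv i (fun y => (1 / 2) * Real.log (g y).det) x := by
  have hd : (g x).det ≠ 0 := (hg.posDef x hx).det_pos.ne'
  have h1 := (((diff_det (diff_g hg hx)).hasFDerivAt.log hd).const_mul (1 / 2 : ℝ)).fderiv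
  have h2 : pderiv i (fun y => (1 / 2) * Real.log (g y).det) x =
      (1 / 2) * ∑ k, ∑ l, (g x)⁻¹ k l * pderiv i (fun y => g y l k) x := by
    unfold pderiv
    rw [h1]
    simp only [smul_apply, smul_eq_mul]
    rw [fd_det (diff_g hg hx) hd, inv_mul_cancel_left₀ hd]
  have h3 : ∑ k, ∑ l, (g x)⁻¹ k l * pderiv k (fun y => g y i l) x =
      ∑ k, ∑ l, (g x)⁻¹ k l * pderiv l (fun y => g y k i) x := by
    rw [Finset.sum_comm]
    refine Finset.sum_congr rfl fun k _ => Finset.sum_congr rfl fun l _ => ?_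
    rw [inv_symm hg hx l k, R244.pderiv_g_symm hg hx l i k]
  have h4 : ∑ k, ∑ l, (g x)⁻¹ k l * pderiv i (fun y => g y k l) x =
      ∑ k, ∑ l, (g x)⁻¹ k l * pderiv i (fun y => g y l k) x :=
    Finset.sum_congr rfl fun k _ => Finset.sum_congr rfl fun l _ => by
      rw [R244.pderiv_g_symm hg hx i k l]
  rw [h2, ← h4]
  simp only [christoffel, inverseField, ← Finset.mul_sum, mul_add, mul_sub, Finset.sum_add_distrib,
    Finset.sum_sub_distrib]
  rw [h3]
  ring

theorem pd_congr (hfh : f =ᶠ[𝓝 x] h) (i : Fin n) : pderiv i f x = pderiv i h x := by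
  unfold pderiv
  rw [hfh.fderiv_eq]

theorem pd_comm (hf : ContDiffAt ℝ ∞ f x) (i j : Fin n) :
    pderiv i (pderiv j f) x = pderiv j (pderiv i f) x := by
  have h1 := R244.fderiv_fderiv_app hf (ContinuousLinearMap.id ℝ ℝ)
  have h2 := R244.fderiv_fderiv_symm hf (EuclideanSpace.single i 1) (EuclideanSpace.single j 1)
  exact (h1 _ _).trans ((congrArg _ h2).trans (h1 _ _).symm)

/-- `Γ^k_{ij} x^i` -/
def Ar (g : MetricField n) (y : E n) (k j : Fin n) : ℝ := ∑ i, christoffel g y k i j * y i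

theorem diff_Ar (hg : IsRiemannianOn g U) (hx : x ∈ U) (k j : Fin n) :
    DifferentiableAt ℝ (fun y => Ar g y k j) x :=
  DifferentiableAt.fun_sum fun i _ => (diff_chr hg hx k i j).fun_mul (diff_coord i x)

theorem ricci_contract (hg : IsRiemannianOn g U) (hx : x ∈ U) (j : Fin n) :
    ∑ i, ricci g x i j * x i =
      ∑ k, pderiv k (fun y => Ar g y k j) x - pderiv j (fun y => ∑ k, Ar g y k k) x +
        ∑ k, ∑ l, christoffel g x k k l * Ar g x l j -
        ∑ k, ∑ l, christoffel g x l k j * Ar g x k l := by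
  have h1 : ∑ k, pderiv k (fun y => Ar g y k j) x =
      ∑ i, (∑ k, pderiv k (fun y => christoffel g y k i j) x) * x i +
        ∑ k, christoffel g x k k j := by
    simp only [Ar, pd_contract fun i => diff_chr hg hx _ i j, Finset.sum_add_distrib,
      Finset.sum_mul]
    rw [Finset.sum_comm]
  have h2 : pderiv j (fun y => ∑ k, Ar g y k k) x =
      ∑ i, pderiv j (fun y => ∑ k, christoffel g y k k i) x * x i +
        ∑ k, christoffel g x k k j := by
    rw [← pd_contract (F := fun i y => ∑ k, christoffel g y k k i)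
      fun i => DifferentiableAt.fun_sum fun k _ => diff_chr hg hx k k i]
    refine pd_congr ?_ j
    filter_upwards [hg.isOpen.mem_nhds hx] with y hy
    simp only [Ar, Finset.sum_mul]
    rw [Finset.sum_comm]
    exact Finset.sum_congr rfl fun i _ => Finset.sum_congr rfl fun k _ => by
      rw [R244.christoffel_symm hg hy k i k]
  have h3 : ∑ k, ∑ l, christoffel g x k k l * Ar g x l j =
      ∑ i, (∑ k, ∑ l, christoffel g x k k l * christoffel g x l i j) * x i := by
    simp only [Ar, Finset.mul_sum, Finset.sum_mul]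
    conv_rhs => rw [Finset.sum_comm]
    refine Finset.sum_congr rfl fun k _ => ?_
    rw [Finset.sum_comm]
    exact Finset.sum_congr rfl fun _ _ => Finset.sum_congr rfl fun _ _ => by ring
  have h4 : ∑ k, ∑ l, christoffel g x l k j * Ar g x k l =
      ∑ i, (∑ k, ∑ l, christoffel g x k j l * christoffel g x l k i) * x i := by
    simp only [Ar, Finset.mul_sum, Finset.sum_mul]
    rw [Finset.sum_comm]
    conv_rhs => rw [Finset.sum_comm]
    refine Finset.sum_congr rfl fun k _ => ?_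
    rw [Finset.sum_comm]
    refine Finset.sum_congr rfl fun i _ => Finset.sum_congr rfl fun l _ => ?_
    rw [R244.christoffel_symm hg hx k l j, R244.christoffel_symm hg hx l i k]
    ring
  rw [h1, h2, h3, h4]
  simp only [ricci, add_mul, sub_mul, Finset.sum_add_distrib, Finset.sum_sub_distrib]
  ring

end General

theorem ev_ne (hx : x ≠ 0) : ∀ᶠ y in 𝓝 x, y ≠ (0 : E n) := isOpen_ne.mem_nhds hx

theorem diff_N (hN : NField N) (hx : x ≠ 0) (i j : Fin n) :
    DifferentiableAt ℝ (fun y => N y i j) x :=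
  ((hN.smooth i j).contDiffAt (ev_ne hx)).differentiableAt (by simp)

theorem hasFD_log (hx : x ≠ 0) :
    HasFDerivAt (fun y : E n => Real.log ‖y‖) ((‖x‖ ^ 2)⁻¹ • innerSL ℝ x) x := by
  have h0 : ‖x‖ ^ 2 ≠ 0 := pow_ne_zero _ (norm_ne_zero_iff.2 hx)
  have h1 := ((hasStrictFDerivAt_norm_sq x).hasFDerivAt.log h0).const_mul (1 / 2 : ℝ)
  have e : (fun y : E n => Real.log ‖y‖) = fun y => (1 / 2 : ℝ) * Real.log (‖y‖ ^ 2) := by
    funext y
    rw [Real.log_pow]
    push_cast
    ring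
  rw [e]
  refine h1.congr_fderiv ?_
  ext v
  simp
  ring

theorem fd_rad {F : ℝ → ℝ} {F' : ℝ} (hx : x ≠ 0) (hF : HasDerivAt F F' (Real.log ‖x‖)) :
    DifferentiableAt ℝ (fun y : E n => F (Real.log ‖y‖)) x ∧ ∀ v : E n,
      fderiv ℝ (fun y : E n => F (Real.log ‖y‖)) x v = F' * inner ℝ x v / ‖x‖ ^ 2 := by
  have h := hF.comp_hasFDerivAt x (hasFD_log hx)
  refine ⟨h.differentiableAt, fun v => ?_⟩
  have h2 : fderiv ℝ (fun y : E n => F (Real.log ‖y‖)) x = _ := h.fderiv
  rw [h2]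
  simp
  ring

/-- the conformal factor -/
def psi (φ : ℝ → ℝ) (y : E n) : ℝ := (φ (Real.log ‖y‖) / ‖y‖) ^ 2

theorem fd_psi (hφ : Warp n φ ϱ ϱ₁ a) (hx : x ≠ 0) :
    DifferentiableAt ℝ (psi φ : E n → ℝ) x ∧ ∀ v : E n, fderiv ℝ (psi φ : E n → ℝ) x v =
      2 * (ϱ (Real.log ‖x‖) - 1) * psi φ x * inner ℝ x v / ‖x‖ ^ 2 := by
  have hn : 0 < ‖x‖ := norm_pos_iff.2 hx
  have h1 := ((hφ.d1 (Real.log ‖x‖)).div (Real.hasDerivAt_exp _) (Real.exp_pos _).ne').pow 2
  obtain ⟨h2, h3⟩ := fd_rad hx h1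
  have e : (psi φ : E n → ℝ) =ᶠ[𝓝 x] fun y => ((φ / Real.exp) ^ 2) (Real.log ‖y‖) := by
    filter_upwards [ev_ne hx] with y hy
    simp [psi, Real.exp_log (norm_pos_iff.2 hy)]
  refine ⟨h2.congr_of_eventuallyEq e, fun v => ?_⟩
  rw [e.fderiv_eq, h3]
  simp only [psi, Pi.div_apply, Real.exp_log hn, Nat.add_one_sub_one, pow_one, Nat.cast_ofNat]
  field_simp

theorem psi_pos (hφ : Warp n φ ϱ ϱ₁ a) (hx : x ≠ 0) : 0 < psi φ x :=
  pow_pos (div_pos (hφ.pos _) (norm_pos_iff.2 hx)) 2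

theorem gmet_eq (hx : x ≠ 0) : gmet φ N x = psi φ x • (N x)⁻¹ := if_neg hx

theorem N_mul_inv (hN : NField N) (hx : x ≠ 0) : N x * (N x)⁻¹ = 1 :=
  Matrix.mul_nonsing_inv _ (by rw [hN.det x hx]; exact isUnit_one)

theorem N_inv_mul (hN : NField N) (hx : x ≠ 0) : (N x)⁻¹ * N x = 1 :=
  Matrix.nonsing_inv_mul _ (by rw [hN.det x hx]; exact isUnit_one)

theorem inv_rad (hN : NField N) (hx : x ≠ 0) :
    (N x)⁻¹.mulVec (fun i => x i) = fun i => x i := by
  conv_lhs => rw [← hN.rad x hx]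
  rw [Matrix.mulVec_mulVec, N_inv_mul hN hx, Matrix.one_mulVec]

theorem g_rad (hN : NField N) (hx : x ≠ 0) (l : Fin n) :
    ∑ i, gmet φ N x l i * x i = psi φ x * x l := by
  have h := congrFun (inv_rad hN hx) l
  simp only [Matrix.mulVec, dotProduct] at h
  rw [gmet_eq hx, ← h, Finset.mul_sum]
  exact Finset.sum_congr rfl fun i _ => by simp [mul_assoc]

theorem pd_g_rad (hφ : Warp n φ ϱ ϱ₁ a) (hN : NField N) (hx : x ≠ 0) (j l : Fin n) :
    ∑ i, pderiv j (fun y => gmet φ N y l i) x * x i =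
      2 * (ϱ (Real.log ‖x‖) - 1) * psi φ x * (x j * x l) / ‖x‖ ^ 2 +
        psi φ x * (1 : Matrix (Fin n) (Fin n) ℝ) l j - gmet φ N x l j := by
  have hg := gmet_riem hφ hN
  have h1 := pd_contract (F := fun i y => gmet φ N y l i) (fun i => diff_g hg (mem_univ x) l i) j
  have h2 : pderiv j (fun y => ∑ i, gmet φ N y l i * y i) x =
      pderiv j (fun y => psi φ y * y l) x :=
    pd_congr ((ev_ne hx).mono fun y hy => g_rad hN hy l) j
  have h3 : pderiv j (fun y => psi φ y * y l) x =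
      2 * (ϱ (Real.log ‖x‖) - 1) * psi φ x * (x j * x l) / ‖x‖ ^ 2 +
        psi φ x * (1 : Matrix (Fin n) (Fin n) ℝ) l j := by
    unfold pderiv
    rw [fd_mul (fd_psi hφ hx).1 (diff_coord l x), (fd_psi hφ hx).2, fd_coord]
    simp [EuclideanSpace.inner_single_right, Matrix.one_apply]
    ring
  linarith

theorem N_D0_g (hφ : Warp n φ ϱ ϱ₁ a) (hN : NField N) (hx : x ≠ 0) (k j : Fin n) :
    ∑ l, N x k l * D0 (fun y => gmet φ N y l j) x =
      2 * psi φ x * ((ϱ (Real.log ‖x‖) - 1) * (1 : Matrix (Fin n) (Fin n) ℝ) k j +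
        Pten N x k j) := by
  have hg := gmet_riem hφ hN
  have hn : ‖x‖ ^ 2 ≠ 0 := pow_ne_zero _ (norm_ne_zero_iff.2 hx)
  have e : (fun y => ∑ l, N y k l * gmet φ N y l j) =ᶠ[𝓝 x]
      fun y => psi φ y * (1 : Matrix (Fin n) (Fin n) ℝ) k j := by
    filter_upwards [ev_ne hx] with y hy
    rw [← Matrix.mul_apply, gmet_eq hy, Matrix.mul_smul, N_mul_inv hN hy]
    simp
  have h1 := DFunLike.congr_fun (e.fderiv_eq (𝕜 := ℝ)) x
  rw [fd_sum _ fun l _ => (diff_N hN hx k l).fun_mul (diff_g hg (mem_univ x) l j),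
    fd_mul (fd_psi hφ hx).1 (differentiableAt_const _), (fd_psi hφ hx).2,
    real_inner_self_eq_norm_sq, mul_div_assoc, div_self hn] at h1
  rw [Finset.sum_congr rfl fun l _ => fd_mul (diff_N hN hx k l) (diff_g hg (mem_univ x) l j) x,
    Finset.sum_add_distrib] at h1
  simp only [fderiv_fun_const, Pi.zero_apply, zero_apply] at h1
  have h2 : ∑ l, fderiv ℝ (fun y => N y k l) x x * gmet φ N x l j =
      -2 * psi φ x * Pten N x k j := by
    simp only [Pten, gmet_eq hx, Matrix.smul_apply, Matrix.mul_apply, Matrix.of_apply, smul_eq_mul,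
      Finset.mul_sum, D0]
    exact Finset.sum_congr rfl fun l _ => by ring
  unfold D0
  linarith

theorem D0N_rad (hN : NField N) (hx : x ≠ 0) (k : Fin n) :
    ∑ l, D0 (fun y => N y k l) x * x l = 0 := by
  have e : (fun y : E n => ∑ l, N y k l * y l) =ᶠ[𝓝 x] fun y => y k := by
    filter_upwards [ev_ne hx] with y hy
    exact congrFun (hN.rad y hy) k
  have h1 := congrArg (fun L : E n →L[ℝ] ℝ => L x) e.fderiv_eq
  simp only at h1
  rw [fd_contract (F := fun l y => N y k l) (fun l => diff_N hN hx k l), fd_coord] at h1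
  have h2 : ∑ l, N x k l * x l = x k := congrFun (hN.rad x hx) k
  unfold D0
  linarith

end GRad

open GRad

theorem christoffel_rad (hφ : Warp n φ ϱ ϱ₁ a) (hN : NField N) {x : E n} (hx : x ≠ 0) (k j : Fin n) :
    ∑ i, christoffel (gmet φ N) x k i j * x i =
      (ϱ (Real.log ‖x‖) - 1) * (1 : Matrix (Fin n) (Fin n) ℝ) k j + Pten N x k j := by
  have hg := gmet_riem hφ hN
  have hp := psi_pos hφ hx
  have h1 : ∀ l, ∑ i, (pderiv i (fun y => gmet φ N y j l) x + pderiv j (fun y => gmet φ N y i l) x -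
      pderiv l (fun y => gmet φ N y i j) x) * x i = D0 (fun y => gmet φ N y l j) x := by
    intro l
    have h2 := pd_g_rad hφ hN hx j l
    have h3 := pd_g_rad hφ hN hx l j
    simp only [add_mul, sub_mul, Finset.sum_add_distrib, Finset.sum_sub_distrib,
      R244.pderiv_g_symm hg (mem_univ x) _ j l, R244.pderiv_g_symm hg (mem_univ x) j _ l,
      R244.pderiv_g_symm hg (mem_univ x) l _ j]
    rw [D0_eq, h2, h3, R244.g_symm hg (mem_univ x) j l, Matrix.one_apply, Matrix.one_apply]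
    simp only [eq_comm (a := l)]
    ring
  have h4 : ∑ i, christoffel (gmet φ N) x k i j * x i =
      (1 / 2) * ∑ l, (gmet φ N x)⁻¹ k l * D0 (fun y => gmet φ N y l j) x := by
    simp only [← h1, christoffel, inverseField, Finset.mul_sum, Finset.sum_mul]
    rw [Finset.sum_comm]
    exact Finset.sum_congr rfl fun _ _ => Finset.sum_congr rfl fun _ _ => by ring
  have h5 : (‖x‖ / φ (Real.log ‖x‖)) ^ 2 = (psi φ x)⁻¹ := by
    rw [psi, ← inv_pow, inv_div]
  rw [h4, gmet_inv hφ hN hx, h5]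
  simp only [Matrix.smul_apply, smul_eq_mul, mul_assoc, ← Finset.mul_sum]
  rw [N_D0_g hφ hN hx]
  field_simp

theorem trace_Pten (hN : NField N) {x : E n} (hx : x ≠ 0) : ∑ k, Pten N x k k = 0 := by
  have h1 := fd_det (diff_N hN hx) (by rw [hN.det x hx]; exact one_ne_zero) x
  have e : (fun y => (N y).det) =ᶠ[𝓝 x] fun _ => (1 : ℝ) :=
    (ev_ne hx).mono fun y hy => hN.det y hy
  rw [e.fderiv_eq, hN.det x hx, one_mul, Finset.sum_comm] at h1
  simp only [fderiv_fun_const, Pi.zero_apply, zero_apply] at h1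
  simp only [Pten, Matrix.smul_apply, Matrix.mul_apply, Matrix.of_apply, smul_eq_mul,
    ← Finset.mul_sum, D0]
  refine mul_eq_zero_of_right _ (Eq.trans ?_ h1.symm)
  exact Finset.sum_congr rfl fun _ _ => Finset.sum_congr rfl fun _ _ => mul_comm _ _

theorem Pten_rad (hN : NField N) {x : E n} (hx : x ≠ 0) (k : Fin n) :
    ∑ j, Pten N x k j * x j = 0 := by
  have h1 : (Pten N x).mulVec (fun i => x i) k = 0 := by
    rw [Pten, Matrix.smul_mulVec, ← Matrix.mulVec_mulVec, inv_rad hN hx, Pi.smul_apply,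
      smul_eq_mul]
    exact mul_eq_zero_of_right _ (D0N_rad hN hx k)
  exact h1

namespace GRad

theorem Pten_ev (hφ : Warp n φ ϱ ϱ₁ a) (hN : NField N) {x : E n} (hx : x ≠ 0) (k j : Fin n) :
    (fun y => Pten N y k j) =ᶠ[𝓝 x] fun y => Ar (gmet φ N) y k j -
      (ϱ (Real.log ‖y‖) - 1) * (1 : Matrix (Fin n) (Fin n) ℝ) k j := by
  filter_upwards [ev_ne hx] with y hy
  rw [Ar, christoffel_rad hφ hN hy]
  ring

theorem diff_Pten (hφ : Warp n φ ϱ ϱ₁ a) (hN : NField N) {x : E n} (hx : x ≠ 0) (k j : Fin n) :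
    DifferentiableAt ℝ (fun y => Pten N y k j) x :=
  ((diff_Ar (gmet_riem hφ hN) (mem_univ x) k j).fun_sub
    (((fd_rad hx (hφ.d2 _)).1.sub_const 1).mul_const _)).congr_of_eventuallyEq
      (Pten_ev hφ hN hx k j)

theorem pd_rho (hφ : Warp n φ ϱ ϱ₁ a) {x : E n} (hx : x ≠ 0) (c : ℝ) (j : Fin n) :
    pderiv j (fun y : E n => (ϱ (Real.log ‖y‖) - 1) * c) x =
      ϱ₁ (Real.log ‖x‖) * x j / ‖x‖ ^ 2 * c := by
  have h := (fd_rad hx (((hφ.d2 (Real.log ‖x‖)).sub_const 1).mul_const c)).2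
    (EuclideanSpace.single j 1)
  unfold pderiv
  rw [h]
  simp [EuclideanSpace.inner_single_right]
  ring

end GRad

theorem ricci_rad (hφ : Warp n φ ϱ ϱ₁ a) (hN : NField N) {x : E n} (hx : x ≠ 0) (j : Fin n) :
    ∑ i, ricci (gmet φ N) x i j * x i =
      -((n : ℝ) - 1) * ϱ₁ (Real.log ‖x‖) * x j / ‖x‖ ^ 2 +
        (∑ k, pderiv k (fun y => Pten N y k j) x +
          ∑ k, ∑ l, christoffel (gmet φ N) x k k l * Pten N x l j -
          ∑ k, ∑ l, christoffel (gmet φ N) x l k j * Pten N x k l) := by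
  have hg := gmet_riem hφ hN
  have hA : ∀ y : E n, y ≠ 0 → ∀ k l, Ar (gmet φ N) y k l =
      (ϱ (Real.log ‖y‖) - 1) * (1 : Matrix (Fin n) (Fin n) ℝ) k l + Pten N y k l :=
    fun y hy k l => christoffel_rad hφ hN hy k l
  have h1 : ∀ k, pderiv k (fun y => Ar (gmet φ N) y k j) x =
      ϱ₁ (Real.log ‖x‖) * x k / ‖x‖ ^ 2 * (1 : Matrix (Fin n) (Fin n) ℝ) k j +
        pderiv k (fun y => Pten N y k j) x := by
    intro k
    rw [pd_congr ((ev_ne hx).mono fun y hy => hA y hy k j) k, ← pd_rho hφ hx]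
    unfold pderiv
    rw [fderiv_fun_add (((fd_rad hx (hφ.d2 _)).1.sub_const 1).mul_const _)
      (diff_Pten hφ hN hx k j)]
    rfl
  have h2 : pderiv j (fun y => ∑ k, Ar (gmet φ N) y k k) x =
      ϱ₁ (Real.log ‖x‖) * x j / ‖x‖ ^ 2 * n := by
    rw [← pd_rho hφ hx]
    refine pd_congr ((ev_ne hx).mono fun y hy => ?_) j
    simp only [hA y hy, Finset.sum_add_distrib, trace_Pten hN hy]
    simp
    ring
  rw [ricci_contract hg (mem_univ x), h2]
  simp only [h1, hA x hx, mul_add, Finset.sum_add_distrib, Matrix.one_apply, mul_ite, mul_one,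
    mul_zero, Finset.sum_ite_eq, Finset.sum_ite_eq', Finset.mem_univ, if_true]
  ring

theorem ricci_rad_rad (hφ : Warp n φ ϱ ϱ₁ a) (hN : NField N) {x : E n} (hx : x ≠ 0) :
    ∑ i, ∑ j, ricci (gmet φ N) x i j * x i * x j =
      -((n : ℝ) - 1) * ϱ₁ (Real.log ‖x‖) - ∑ k, ∑ l, Pten N x k l * Pten N x l k := by
  have hg := gmet_riem hφ hN
  have hn : ‖x‖ ^ 2 ≠ 0 := pow_ne_zero _ (norm_ne_zero_iff.2 hx)
  have h0 : ∑ j, -((n : ℝ) - 1) * ϱ₁ (Real.log ‖x‖) * x j / ‖x‖ ^ 2 * x j =
      -((n : ℝ) - 1) * ϱ₁ (Real.log ‖x‖) := by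
    have e : ∀ j, -((n : ℝ) - 1) * ϱ₁ (Real.log ‖x‖) * x j / ‖x‖ ^ 2 * x j =
        -((n : ℝ) - 1) * ϱ₁ (Real.log ‖x‖) / ‖x‖ ^ 2 * x j ^ 2 := fun j => by ring
    simp only [e, ← Finset.mul_sum]
    rw [← EuclideanSpace.real_norm_sq_eq, div_mul_cancel₀ _ hn]
  have h1 : ∑ j, (∑ k, pderiv k (fun y => Pten N y k j) x) * x j = 0 := by
    have h2 : ∀ k, ∑ j, pderiv k (fun y => Pten N y k j) x * x j = -Pten N x k k := by
      intro k
      have h3 := pd_contract (F := fun j y => Pten N y k j) (fun j => diff_Pten hφ hN hx k j) k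
      rw [pd_congr (h := fun _ => 0) ((ev_ne hx).mono fun y hy => Pten_rad hN hy k) k] at h3
      have h4 : pderiv k (fun _ : E n => (0 : ℝ)) x = 0 := by simp [pderiv]
      linarith
    simp only [Finset.sum_mul]
    rw [Finset.sum_comm]
    simp only [h2, Finset.sum_neg_distrib, trace_Pten hN hx, neg_zero]
  have h5 : ∑ j, (∑ k, ∑ l, christoffel (gmet φ N) x k k l * Pten N x l j) * x j = 0 := by
    simp only [Finset.sum_mul]
    rw [Finset.sum_comm]
    refine Finset.sum_eq_zero fun k _ => ?_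
    rw [Finset.sum_comm]
    refine Finset.sum_eq_zero fun l _ => ?_
    simp only [mul_assoc, ← Finset.mul_sum, Pten_rad hN hx l, mul_zero]
  have h6 : ∑ j, (∑ k, ∑ l, christoffel (gmet φ N) x l k j * Pten N x k l) * x j =
      ∑ k, ∑ l, Pten N x k l * Pten N x l k := by
    have h7 : ∀ k l, ∑ j, christoffel (gmet φ N) x l k j * Pten N x k l * x j =
        (ϱ (Real.log ‖x‖) - 1) * ((1 : Matrix (Fin n) (Fin n) ℝ) l k * Pten N x k l) +
          Pten N x k l * Pten N x l k := by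
      intro k l
      have e : ∀ j, christoffel (gmet φ N) x l k j * Pten N x k l * x j =
          Pten N x k l * (christoffel (gmet φ N) x l j k * x j) := fun j => by
        rw [R244.christoffel_symm hg (mem_univ x) l k j]
        ring
      simp only [e, ← Finset.mul_sum]
      rw [christoffel_rad hφ hN hx]
      ring
    simp only [Finset.sum_mul]
    rw [Finset.sum_comm]
    have h8 : ∀ k, ∑ j, ∑ l, christoffel (gmet φ N) x l k j * Pten N x k l * x j =
        (ϱ (Real.log ‖x‖) - 1) * Pten N x k k + ∑ l, Pten N x k l * Pten N x l k := by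
      intro k
      rw [Finset.sum_comm]
      simp only [h7, Finset.sum_add_distrib, ← Finset.mul_sum, Matrix.one_apply, ite_mul, one_mul,
        zero_mul, Finset.sum_ite_eq', Finset.mem_univ, if_true]
    simp only [h8, Finset.sum_add_distrib, ← Finset.mul_sum, trace_Pten hN hx, mul_zero, zero_add]
  rw [Finset.sum_comm]
  simp only [← Finset.sum_mul, ricci_rad hφ hN hx]
  simp only [add_mul, sub_mul, Finset.sum_add_distrib, Finset.sum_sub_distrib]
  rw [h0, h1, h5, h6]
  ring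

theorem ricci_symm {g : MetricField n} {U : Set (E n)} (hg : IsRiemannianOn g U) {x : E n}
    (hx : x ∈ U) (i j : Fin n) : ricci g x i j = ricci g x j i := by
  have hU := hg.isOpen.mem_nhds hx
  have h1 : ∀ k, pderiv k (fun y => christoffel g y k i j) x =
      pderiv k (fun y => christoffel g y k j i) x := fun k =>
    pd_congr (Filter.mem_of_superset hU fun y hy => R244.christoffel_symm hg hy k i j) k
  have hs : ContDiffAt ℝ ∞ (fun y => (1 / 2 : ℝ) * Real.log (g y).det) x :=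
    contDiffAt_const.mul (((R244.contDiffOn_det_of hg.contDiffOn).contDiffAt hU).log
      (hg.posDef x hx).det_pos.ne')
  have h2 : ∀ i j, pderiv j (fun y => ∑ k, christoffel g y k k i) x =
      pderiv j (pderiv i fun y => (1 / 2 : ℝ) * Real.log (g y).det) x := fun i j =>
    pd_congr (Filter.mem_of_superset hU fun y hy => trace_chr hg hy i) j
  have h3 : ∑ k, ∑ l, christoffel g x k j l * christoffel g x l k i =
      ∑ k, ∑ l, christoffel g x k i l * christoffel g x l k j := by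
    rw [Finset.sum_comm]
    refine Finset.sum_congr rfl fun k _ => Finset.sum_congr rfl fun l _ => ?_
    rw [R244.christoffel_symm hg hx l j k, R244.christoffel_symm hg hx k l i, mul_comm]
  unfold ricci
  rw [h2, h2, pd_comm hs j i, h3]
  simp only [h1, R244.christoffel_symm hg hx _ i j]

end Crest.Agent.R202
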