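import Crest.Agent.R202.GTan
import Crest.Agent.R202.GRad

/-!
# Row 202, G5: non-negative Ricci curvature

For `|x| < 1` the metric is flat; where `N = 1` near `x` use `ricci_round`; for `log |x| ≥ t₁`
write `w = ρ x̂ + v`, `v ⊥ x`:
`|x|² Ric(w,w) ≥ (-(n-1)ϱ₁ - C s²) ρ² - 2 C s |ρ| |v| + c |v|²` with `c = (n-2)(1-ϱ₀²)/2`
(`ricci_rad_rad`, `ricci_rad`, `ricci_symm`, `tangential`; `P` and `|x| ∂P` are `O(s)`).
-/

set_option autoImplicit false
open scoped ContDiff Topology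
open Filter Set
open Crest.GeometryTopology.CoordMetric
open Crest.Agent.R230 (E MP sph ev Harm)

noncomputable section
namespace Crest.Agent.R202

section GRicAux
variable {n : ℕ}

theorem gric_abs_sum_le {ι : Type} [Fintype ι] {f : ι → ℝ} {b : ℝ} (h : ∀ i, |f i| ≤ b) :
    |∑ i, f i| ≤ (Fintype.card ι : ℝ) * b := by
  calc |∑ i, f i| ≤ ∑ i, |f i| := Finset.abs_sum_le_sum_abs _ _
    _ ≤ ∑ _i : ι, b := Finset.sum_le_sum fun i _ => h i
    _ = _ := by simp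

theorem gric_abs_sum_le' {f : Fin n → ℝ} {b : ℝ} (h : ∀ i, |f i| ≤ b) :
    |∑ i, f i| ≤ (n : ℝ) * b := by
  simpa using gric_abs_sum_le h

theorem gric_abs_mul_le {a b A B : ℝ} (ha : |a| ≤ A) (hb : |b| ≤ B) : |a * b| ≤ A * B := by
  rw [abs_mul]
  exact mul_le_mul ha hb (abs_nonneg _) ((abs_nonneg _).trans ha)

/-- the Ricci tensor vanishes where the metric is Euclidean near the point -/
theorem gric_flat {g : MetricField n} {x : E n} (h : ∀ᶠ y in 𝓝 x, g y = 1) (i j : Fin n) :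
    ricci g x i j = 0 := by
  have h' : g =ᶠ[𝓝 x] fun _ => (1 : Matrix (Fin n) (Fin n) ℝ) := h
  have h1 := Crest.Agent.R244.christoffel_congr h'
  have h0 : ∀ (y : E n) (k i j : Fin n),
      christoffel (fun _ : E n => (1 : Matrix (Fin n) (Fin n) ℝ)) y k i j = 0 := by
    intro y k i j
    simp [christoffel, pderiv]
  have h2 : ∀ᶠ y in 𝓝 x, ∀ k i j, christoffel g y k i j = 0 := by
    filter_upwards [h1] with y hy k i j
    rw [hy, h0]
  have h3 : ∀ k i j, christoffel g x k i j = 0 := h2.self_of_nhds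
  have h4 : ∀ m k i j, pderiv m (fun y => christoffel g y k i j) x = 0 := by
    intro m k i j
    unfold pderiv
    have : (fun y => christoffel g y k i j) =ᶠ[𝓝 x] fun _ => (0 : ℝ) := by
      filter_upwards [h2] with y hy using hy k i j
    rw [this.fderiv_eq]; simp
  have h5 : pderiv j (fun y => ∑ k, christoffel g y k k i) x = 0 := by
    unfold pderiv
    have : (fun y => ∑ k, christoffel g y k k i) =ᶠ[𝓝 x] fun _ => (0 : ℝ) := by
      filter_upwards [h2] with y hy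
      simp [hy]
    rw [this.fderiv_eq]; simp
  unfold ricci
  simp [h3, h4, h5]

theorem gric_N_riem {N : MetricField n} (hN : NField N) : IsRiemannianOn N {0}ᶜ :=
  ⟨isOpen_compl_singleton, hN.smooth, fun x hx => hN.posDef x hx⟩

theorem gric_diff_inv {N : MetricField n} (hN : NField N) {x : E n} (hx : x ≠ 0) (k l : Fin n) :
    DifferentiableAt ℝ (fun y => (N y)⁻¹ k l) x := by
  have h := Crest.Agent.R244.contDiffOn_inverseField (gric_N_riem hN) k l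
  exact (h.contDiffAt (isOpen_compl_singleton.mem_nhds hx)).differentiableAt (by simp)

theorem gric_diff_D0 {N : MetricField n} (hN : NField N) {x : E n} (hx : x ≠ 0) (k l : Fin n) :
    DifferentiableAt ℝ (D0 fun y => N y k l) x := by
  have h : ContDiffOn ℝ ∞ (D0 fun y => N y k l) {0}ᶜ := by
    unfold D0
    exact ((hN.smooth k l).fderiv_of_isOpen isOpen_compl_singleton (m := ∞) (by simp)).clm_apply
      contDiffOn_id
  exact (h.contDiffAt (isOpen_compl_singleton.mem_nhds hx)).differentiableAt (by simp)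

theorem gric_Pten_apply (N : MetricField n) (y : E n) (k j : Fin n) :
    Pten N y k j = -(1 / 2) * ∑ l, D0 (fun z => N z k l) y * (N y)⁻¹ l j := by
  simp [Pten, Matrix.mul_apply]

theorem gric_pderiv_Pten {N : MetricField n} (hN : NField N) {x : E n} (hx : x ≠ 0)
    (m k j : Fin n) :
    pderiv m (fun y => Pten N y k j) x = -(1 / 2) * ∑ l,
      (pderiv m (D0 fun z => N z k l) x * (N x)⁻¹ l j +
        D0 (fun z => N z k l) x * pderiv m (fun y => (N y)⁻¹ l j) x) := by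
  have h1 : (fun y => Pten N y k j) =
      fun y => -(1 / 2) * ∑ l, D0 (fun z => N z k l) y * (N y)⁻¹ l j := by
    funext y; exact gric_Pten_apply N y k j
  have h2 : HasFDerivAt (fun y => -(1 / 2 : ℝ) * ∑ l, D0 (fun z => N z k l) y * (N y)⁻¹ l j)
      ((-(1 / 2) : ℝ) • ∑ l, (D0 (fun z => N z k l) x • fderiv ℝ (fun y => (N y)⁻¹ l j) x +
        (N x)⁻¹ l j • fderiv ℝ (D0 fun z => N z k l) x)) x := by
    refine HasFDerivAt.const_mul ?_ _
    exact HasFDerivAt.fun_sum fun l _ =>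
      (gric_diff_D0 hN hx k l).hasFDerivAt.mul (gric_diff_inv hN hx l j).hasFDerivAt
  unfold pderiv
  rw [h1, h2.fderiv]
  simp only [smul_apply, sum_apply, add_apply, smul_eq_mul]
  congr 1
  exact Finset.sum_congr rfl fun l _ => by ring

theorem gric_P_bound {N : MetricField n} {x : E n} {C s : ℝ}
    (hD : ∀ i j, Jet1Le (D0 fun y => N y i j) x s)
    (hI : ∀ i j, Jet1Le (fun y => (N y)⁻¹ i j) x C) (k j : Fin n) :
    |Pten N x k j| ≤ (n : ℝ) * (s * C) / 2 := by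
  rw [gric_Pten_apply, abs_mul]
  have h := gric_abs_sum_le' (f := fun l => D0 (fun z => N z k l) x * (N x)⁻¹ l j)
    (b := s * C) fun l => gric_abs_mul_le (hD k l).1 (hI l j).1
  have h2 : |(-(1 / 2) : ℝ)| = 1 / 2 := by rw [abs_neg]; norm_num
  rw [h2]; linarith

theorem gric_dP_bound {N : MetricField n} (hN : NField N) {x : E n} (hx : x ≠ 0) {C s : ℝ}
    (hD : ∀ i j, Jet1Le (D0 fun y => N y i j) x s)
    (hI : ∀ i j, Jet1Le (fun y => (N y)⁻¹ i j) x C) (m k j : Fin n) :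
    |‖x‖ * pderiv m (fun y => Pten N y k j) x| ≤ (n : ℝ) * (s * C) := by
  rw [gric_pderiv_Pten hN hx]
  have e : ‖x‖ * (-(1 / 2) * ∑ l,
      (pderiv m (D0 fun z => N z k l) x * (N x)⁻¹ l j +
        D0 (fun z => N z k l) x * pderiv m (fun y => (N y)⁻¹ l j) x)) =
      -(1 / 2) * ∑ l, ((‖x‖ * pderiv m (D0 fun z => N z k l) x) * (N x)⁻¹ l j +
        D0 (fun z => N z k l) x * (‖x‖ * pderiv m (fun y => (N y)⁻¹ l j) x)) := by
    rw [← mul_assoc, mul_comm ‖x‖, mul_assoc, Finset.mul_sum]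
    congr 1
    exact Finset.sum_congr rfl fun l _ => by ring
  rw [e, abs_mul]
  have hn : ∀ r : ℝ, |‖x‖ * r| = ‖x‖ * |r| := fun r => by rw [abs_mul, abs_norm]
  have h := gric_abs_sum_le' (f := fun l => (‖x‖ * pderiv m (D0 fun z => N z k l) x) * (N x)⁻¹ l j +
        D0 (fun z => N z k l) x * (‖x‖ * pderiv m (fun y => (N y)⁻¹ l j) x))
    (b := s * C + s * C) fun l => (abs_add_le _ _).trans (add_le_add
      (gric_abs_mul_le (by rw [hn]; exact (hD k l).2 m) (hI l j).1)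
      (gric_abs_mul_le (hD k l).1 (by rw [hn]; exact (hI l j).2 m)))
  have h2 : |(-(1 / 2) : ℝ)| = 1 / 2 := by rw [abs_neg]; norm_num
  rw [h2]; linarith

theorem gric_inner_eq (x v : E n) : inner ℝ x v = ∑ j, x j * v j := by
  simp [PiLp.inner_apply, mul_comm]

theorem gric_expand (R : Fin n → Fin n → ℝ) (hR : ∀ i j, R i j = R j i) (x v : Fin n → ℝ) (ρ : ℝ) :
    ∑ i, ∑ j, R i j * (ρ * x i + v i) * (ρ * x j + v j) =
      ρ ^ 2 * (∑ i, ∑ j, R i j * x i * x j) + 2 * ρ * (∑ j, (∑ i, R i j * x i) * v j) +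
        ∑ i, ∑ j, R i j * v i * v j := by
  have h1 : ∑ j, (∑ i, R i j * x i) * v j = ∑ i, ∑ j, R i j * x i * v j := by
    simp only [Finset.sum_mul]; exact Finset.sum_comm
  have h2 : ∑ j, (∑ i, R i j * x i) * v j = ∑ i, ∑ j, R i j * v i * x j := by
    simp only [Finset.sum_mul]
    exact Finset.sum_congr rfl fun i _ => Finset.sum_congr rfl fun j _ => by rw [hR j i]; ring
  have h3 : 2 * ρ * (∑ j, (∑ i, R i j * x i) * v j) =
      ρ * (∑ i, ∑ j, R i j * x i * v j) + ρ * ∑ i, ∑ j, R i j * v i * x j := by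
    rw [← h1, ← h2]; ring
  rw [h3]
  simp only [Finset.mul_sum, ← Finset.sum_add_distrib]
  exact Finset.sum_congr rfl fun i _ => Finset.sum_congr rfl fun j _ => by ring

/-- the key lower bound in the outer region -/
theorem gric_outer {φ ϱ ϱ₁ : ℝ → ℝ} {a : ℝ} {N : MetricField n} (hφ : Warp n φ ϱ ϱ₁ a)
    (hN : NField N) {x : E n} (hx : x ≠ 0) {c C s : ℝ} (hc : 0 < c)
    (hD : ∀ i j, Jet1Le (D0 fun y => N y i j) x s)
    (hI : ∀ i j, Jet1Le (fun y => (N y)⁻¹ i j) x C)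
    (hΓ : ∀ k i j, ‖x‖ * |christoffel (gmet φ N) x k i j| ≤ C)
    (hT : ∀ v : E n, inner ℝ x v = 0 →
      c * ‖v‖ ^ 2 ≤ ‖x‖ ^ 2 * ∑ i, ∑ j, ricci (gmet φ N) x i j * v i * v j)
    (ρ : ℝ) (v : E n) (hv : inner ℝ x v = 0) :
    (ρ * ‖x‖) ^ 2 * (-((n : ℝ) - 1) * ϱ₁ (Real.log ‖x‖) -
        ((n : ℝ) ^ 4 * C ^ 2 / 4 + 2 * ((n : ℝ) ^ 3 * C + (n : ℝ) ^ 4 * C ^ 2) ^ 2 / c) * s ^ 2) +
      c / 2 * ‖v‖ ^ 2 ≤
      ‖x‖ ^ 2 * ∑ i, ∑ j, ricci (gmet φ N) x i j * (ρ * x i + v i) * (ρ * x j + v j) := by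
  have hg := gmet_riem hφ hN
  have hP := gric_P_bound hD hI
  have hdP := gric_dP_bound hN hx hD hI
  have hn : ∀ r : ℝ, |‖x‖ * r| = ‖x‖ * |r| := fun r => by rw [abs_mul, abs_norm]
  rw [gric_expand _ (fun i j => ricci_symm hg (mem_univ x) i j), ricci_rad_rad hφ hN hx]
  simp only [ricci_rad hφ hN hx]
  set T : Fin n → ℝ := fun j => ∑ k, pderiv k (fun y => Pten N y k j) x +
          ∑ k, ∑ l, christoffel (gmet φ N) x k k l * Pten N x l j -
          ∑ k, ∑ l, christoffel (gmet φ N) x l k j * Pten N x k l with hTdef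
  set q := ϱ₁ (Real.log ‖x‖) with hq
  have e1 : ∑ j, (-((n : ℝ) - 1) * q * x j / ‖x‖ ^ 2 + T j) * v j = ∑ j, T j * v j := by
    have : ∑ j, (-((n : ℝ) - 1) * q * x j / ‖x‖ ^ 2 + T j) * v j =
        -((n : ℝ) - 1) * q / ‖x‖ ^ 2 * (∑ j, x j * v j) + ∑ j, T j * v j := by
      rw [Finset.mul_sum, ← Finset.sum_add_distrib]
      exact Finset.sum_congr rfl fun j _ => by ring
    rw [this, ← gric_inner_eq, hv]; ring
  have e2 : ∑ j, (-((n : ℝ) - 1) * q * x j / ‖x‖ ^ 2 +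
      (∑ k, pderiv k (fun y => Pten N y k j) x +
          ∑ k, ∑ l, christoffel (gmet φ N) x k k l * Pten N x l j -
          ∑ k, ∑ l, christoffel (gmet φ N) x l k j * Pten N x k l)) * v j = ∑ j, T j * v j := e1
  rw [e2]
  -- bound on `T`
  have hTb : ∀ j, |‖x‖ * T j| ≤ ((n : ℝ) ^ 2 * C + (n : ℝ) ^ 3 * C ^ 2) * s := by
    intro j
    have e : ‖x‖ * T j = ∑ k, ‖x‖ * pderiv k (fun y => Pten N y k j) x +
          ∑ k, ∑ l, (‖x‖ * christoffel (gmet φ N) x k k l) * Pten N x l j -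
          ∑ k, ∑ l, (‖x‖ * christoffel (gmet φ N) x l k j) * Pten N x k l := by
      simp only [hTdef, mul_add, mul_sub, Finset.mul_sum, mul_assoc]
    have b1 := gric_abs_sum_le' fun k => hdP k k j
    have b2 := gric_abs_sum_le' fun k => gric_abs_sum_le' fun l =>
      gric_abs_mul_le (a := ‖x‖ * christoffel (gmet φ N) x k k l) (by rw [hn]; exact hΓ k k l) (hP l j)
    have b3 := gric_abs_sum_le' fun k => gric_abs_sum_le' fun l =>
      gric_abs_mul_le (a := ‖x‖ * christoffel (gmet φ N) x l k j) (by rw [hn]; exact hΓ l k j) (hP k l)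
    rw [e]
    refine (abs_sub _ _).trans ?_
    refine (add_le_add (abs_add_le _ _) le_rfl).trans ?_
    refine (add_le_add (add_le_add b1 b2) b3).trans (le_of_eq ?_)
    ring
  have hvj : ∀ j, |v j| ≤ ‖v‖ := fun j => by
    simpa using PiLp.norm_apply_le v j
  have hTv : |‖x‖ * ∑ j, T j * v j| ≤ ((n : ℝ) ^ 3 * C + (n : ℝ) ^ 4 * C ^ 2) * s * ‖v‖ := by
    have e : ‖x‖ * ∑ j, T j * v j = ∑ j, (‖x‖ * T j) * v j := by
      simp only [Finset.mul_sum, mul_assoc]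
    rw [e]
    refine (gric_abs_sum_le' fun j => gric_abs_mul_le (hTb j) (hvj j)).trans (le_of_eq ?_)
    ring
  have hPP : |∑ k, ∑ l, Pten N x k l * Pten N x l k| ≤ (n : ℝ) ^ 4 * C ^ 2 / 4 * s ^ 2 := by
    refine (gric_abs_sum_le' fun k => gric_abs_sum_le' fun l =>
      gric_abs_mul_le (hP k l) (hP l k)).trans (le_of_eq ?_)
    ring
  have hvv := hT v hv
  set M := (n : ℝ) ^ 3 * C + (n : ℝ) ^ 4 * C ^ 2 with hM
  set Z := ‖x‖ * ∑ j, T j * v j with hZ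
  set PP := ∑ k, ∑ l, Pten N x k l * Pten N x l k with hPPdef
  set Q := ∑ i, ∑ j, ricci (gmet φ N) x i j * v i * v j with hQ
  set A := ρ * ‖x‖ with hA
  have e3 : ‖x‖ ^ 2 * (ρ ^ 2 * (-((n : ℝ) - 1) * q - PP) + 2 * ρ * (∑ j, T j * v j) + Q) =
      A ^ 2 * (-((n : ℝ) - 1) * q - PP) + 2 * A * Z + ‖x‖ ^ 2 * Q := by
    rw [hA, hZ]; ring
  rw [e3]
  have k1 : A ^ 2 * PP ≤ A ^ 2 * ((n : ℝ) ^ 4 * C ^ 2 / 4 * s ^ 2) :=
    mul_le_mul_of_nonneg_left ((le_abs_self _).trans hPP) (sq_nonneg _)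
  have k2 : -(2 * A * Z) ≤ 2 * |A| * (M * s * ‖v‖) := by
    calc -(2 * A * Z) ≤ |2 * A * Z| := neg_le_abs _
      _ = 2 * |A| * |Z| := by rw [abs_mul, abs_mul]; norm_num
      _ ≤ _ := mul_le_mul_of_nonneg_left hTv (by positivity)
  have k3 : 2 * |A| * (M * s * ‖v‖) ≤ A ^ 2 * (2 * M ^ 2 / c * s ^ 2) + c / 2 * ‖v‖ ^ 2 := by
    have h := sq_nonneg (2 * |A| * M * s - c * ‖v‖)
    have hA2 : |A| ^ 2 = A ^ 2 := sq_abs A
    have e : A ^ 2 * (2 * M ^ 2 / c * s ^ 2) + c / 2 * ‖v‖ ^ 2 - 2 * |A| * (M * s * ‖v‖) =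
        (2 * |A| * M * s - c * ‖v‖) ^ 2 / (2 * c) := by
      rw [← hA2]; field_simp; ring
    have : 0 ≤ (2 * |A| * M * s - c * ‖v‖) ^ 2 / (2 * c) := by positivity
    linarith
  nlinarith [k1, k2, k3, hvv]

end GRicAux

theorem gmet_ricci {n : ℕ} (hn : 3 ≤ n) {ϱ₀ : ℝ} (h0 : 0 ≤ ϱ₀) (h1 : ϱ₀ < 1) :
    ∃ ε C : ℝ, 0 < ε ∧ 0 < C ∧
    ∀ (φ ϱ ϱ₁ : ℝ → ℝ) (a : ℝ) (N : MetricField n) (t₁ : ℝ) (s : ℝ → ℝ),
      Warp n φ ϱ ϱ₁ a → NField N → 0 ≤ t₁ →
      (∀ x : E n, x ≠ 0 → Real.log ‖x‖ ≤ t₁ + 1 → N x = 1) →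
      (∀ t, t₁ ≤ t → ϱ t ≤ ϱ₀) →
      (∀ x : E n, x ≠ 0 → t₁ ≤ Real.log ‖x‖ → ∀ i j,
        Jet2Le (fun y => N y i j - (1 : Matrix (Fin n) (Fin n) ℝ) i j) x ε ∧
        Jet1Le (D0 fun y => N y i j) x (s (Real.log ‖x‖))) →
      (∀ t, t₁ ≤ t → C * s t ^ 2 ≤ -ϱ₁ t) →
      RicciNonnegOn (gmet φ N) univ ∧
      ((∀ t, t₁ ≤ t → ϱ₁ t < 0) → ∀ x : E n, Real.exp t₁ < ‖x‖ → ∀ w : E n, w ≠ 0 →
        0 < ∑ i, ∑ j, ricci (gmet φ N) x i j * w i * w j) := by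
  have hn' : (3 : ℝ) ≤ n := by exact_mod_cast hn
  set c : ℝ := ((n : ℝ) - 2) * (1 - ϱ₀ ^ 2) / 2 with hcdef
  have hc : 0 < c := by
    have : 0 < 1 - ϱ₀ ^ 2 := by nlinarith
    have h2 : 0 < (n : ℝ) - 2 := by linarith
    positivity
  obtain ⟨ε, C, hε, hC, H⟩ := tangential n hc
  set K : ℝ := (n : ℝ) ^ 4 * C ^ 2 / 4 + 2 * ((n : ℝ) ^ 3 * C + (n : ℝ) ^ 4 * C ^ 2) ^ 2 / c with hK
  have hK0 : 0 ≤ K := by positivity
  refine ⟨ε, K + 1, hε, by linarith, ?_⟩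
  intro φ ϱ ϱ₁ a N t₁ s hφ hN ht₁ hin hϱ hjet hs
  have hg := gmet_riem hφ hN
  -- outer region
  have outer : ∀ x : E n, x ≠ 0 → t₁ ≤ Real.log ‖x‖ → ∀ w : E n, ∃ (ρ : ℝ) (v : E n),
      w = ρ • x + v ∧ (ρ * ‖x‖) ^ 2 * (-((n : ℝ) - 2) * ϱ₁ (Real.log ‖x‖)) + c / 2 * ‖v‖ ^ 2 ≤
        ‖x‖ ^ 2 * ∑ i, ∑ j, ricci (gmet φ N) x i j * w i * w j := by
    intro x hx ht w
    have hx0 : 0 < ‖x‖ := norm_pos_iff.mpr hx
    set ρ : ℝ := inner ℝ x w / ‖x‖ ^ 2 with hρ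
    set v : E n := w - ρ • x with hv
    have hxv : inner ℝ x v = 0 := by
      rw [hv, inner_sub_right, inner_smul_right, real_inner_self_eq_norm_sq, hρ]
      field_simp
      ring
    have hw : w = ρ • x + v := by rw [hv]; abel
    obtain ⟨H1, H2, H3⟩ := H φ ϱ ϱ₁ a N hφ hN hg x hx fun i j => (hjet x hx ht i j).1
    have hT : ∀ v : E n, inner ℝ x v = 0 →
        c * ‖v‖ ^ 2 ≤ ‖x‖ ^ 2 * ∑ i, ∑ j, ricci (gmet φ N) x i j * v i * v j := by
      intro u hu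
      refine le_trans (mul_le_mul_of_nonneg_right ?_ (sq_nonneg _)) (H1 u hu)
      have b1 := hϱ _ ht
      have b2 := (hφ.apos.trans_le (hφ.lo (Real.log ‖x‖))).le
      have b3 : ϱ (Real.log ‖x‖) ^ 2 ≤ ϱ₀ ^ 2 := pow_le_pow_left₀ b2 b1 2
      have b4 : ((n : ℝ) - 2) * (1 - ϱ₀ ^ 2) ≤ ((n : ℝ) - 2) * (1 - ϱ (Real.log ‖x‖) ^ 2) :=
        mul_le_mul_of_nonneg_left (by linarith) (by linarith)
      rw [hcdef]; linarith
    have key := gric_outer hφ hN hx hc (fun i j => (hjet x hx ht i j).2) H3 H2 hT ρ v hxv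
    have hwi : ∀ i, w i = ρ * x i + v i := fun i => by
      conv_lhs => rw [hw]
      simp
    refine ⟨ρ, v, hw, ?_⟩
    simp only [← hwi] at key
    refine le_trans ?_ key
    have b5 := hs _ ht
    have b6 : -((n : ℝ) - 2) * ϱ₁ (Real.log ‖x‖) ≤
        -((n : ℝ) - 1) * ϱ₁ (Real.log ‖x‖) - K * s (Real.log ‖x‖) ^ 2 := by
      nlinarith [sq_nonneg (s (Real.log ‖x‖))]
    exact add_le_add (mul_le_mul_of_nonneg_left b6 (sq_nonneg (ρ * ‖x‖))) le_rfl
  refine ⟨?_, ?_⟩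
  · intro x _ w
    by_cases hx : x = 0
    · have hflat : ∀ᶠ y in 𝓝 x, gmet φ N y = 1 := by
        rw [hx]
        filter_upwards [Metric.closedBall_mem_nhds (0 : E n) one_pos] with y hy
        exact gmet_one hφ hN y (by simpa using hy)
      simp [gric_flat hflat]
    have hx0 : 0 < ‖x‖ := norm_pos_iff.mpr hx
    have hx2 : 0 < ‖x‖ ^ 2 := by positivity
    refine le_of_mul_le_mul_left ?_ hx2
    rw [mul_zero]
    by_cases ht : t₁ ≤ Real.log ‖x‖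
    · obtain ⟨ρ, v, -, h⟩ := outer x hx ht w
      refine le_trans ?_ h
      have b1 := hφ.dhi (Real.log ‖x‖)
      have b2 : 0 ≤ -((n : ℝ) - 2) * ϱ₁ (Real.log ‖x‖) := by nlinarith
      positivity
    · have hN1 : ∀ᶠ y in 𝓝 x, N y = 1 := by
        have hc1 : ContinuousAt (fun y : E n => Real.log ‖y‖) x :=
          (Real.continuousAt_log hx0.ne').comp continuous_norm.continuousAt
        have h1 : ∀ᶠ y in 𝓝 x, Real.log ‖y‖ < t₁ + 1 :=
          hc1.eventually_lt continuousAt_const (by push Not at ht; linarith)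
        filter_upwards [h1, isOpen_compl_singleton.mem_nhds (show x ∈ ({0}ᶜ : Set (E n)) from hx)]
          with y hy hy0
        exact hin y hy0 hy.le
      rw [ricci_round hφ hg hx hN1 w]
      have b1 := hφ.dhi (Real.log ‖x‖)
      have b2 := (hφ.apos.trans_le (hφ.lo (Real.log ‖x‖))).le
      have b3 := hφ.hi (Real.log ‖x‖)
      have b4 : 0 ≤ 1 - ϱ (Real.log ‖x‖) ^ 2 := by nlinarith
      have b5 : 0 ≤ ‖w‖ ^ 2 - inner ℝ x w ^ 2 / ‖x‖ ^ 2 := by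
        rw [sub_nonneg, div_le_iff₀ hx2]
        have := abs_real_inner_le_norm x w
        have h2 := pow_le_pow_left₀ (abs_nonneg _) this 2
        rw [sq_abs] at h2
        nlinarith
      have b6 : 0 ≤ ((n : ℝ) - 2) * (1 - ϱ (Real.log ‖x‖) ^ 2) - ϱ₁ (Real.log ‖x‖) := by
        have := mul_nonneg (show 0 ≤ (n : ℝ) - 2 by linarith) b4
        linarith
      have b7 : 0 ≤ -(((n : ℝ) - 1) * ϱ₁ (Real.log ‖x‖)) := by nlinarith
      have b8 : 0 ≤ inner ℝ x w ^ 2 / ‖x‖ ^ 2 := by positivity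
      have b9 := mul_nonneg b6 b5
      have b10 := mul_nonneg b7 b8
      linarith
  · intro hneg x hxt w hw
    have hx0 : 0 < ‖x‖ := (Real.exp_pos _).trans hxt
    have hx : x ≠ 0 := norm_pos_iff.mp hx0
    have ht : t₁ ≤ Real.log ‖x‖ := ((Real.lt_log_iff_exp_lt hx0).mpr hxt).le
    have hx2 : 0 < ‖x‖ ^ 2 := by positivity
    refine lt_of_mul_lt_mul_left ?_ hx2.le
    rw [mul_zero]
    obtain ⟨ρ, v, hwv, h⟩ := outer x hx ht w
    refine lt_of_lt_of_le ?_ h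
    have b1 := hneg _ ht
    have b2 : 0 < -((n : ℝ) - 2) * ϱ₁ (Real.log ‖x‖) := by nlinarith
    by_cases hρ : ρ = 0
    · have hv : v ≠ 0 := by
        intro hv
        apply hw
        rw [hwv, hρ, hv]; simp
      have : 0 < ‖v‖ := norm_pos_iff.mpr hv
      positivity
    · positivity

end Crest.Agent.R202
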