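import Crest.Agent.R202.GRad

/-!
# Row 202, G4: curvature in the radial direction

Let `S^k_j = δ^k_j + Γ^k_{ij} x^i` (`= ∇_j x^k`).  From the definition of `ricci` alone,
`R_{ij} x^i = ∂_k S^k_j + Γ^k_{kl} S^l_j - Γ^l_{kj} S^k_l - ∂_j S^k_k`.
For `g = gmet φ N` the covector `g x = φ² x/|x|²` is closed, so `2 g Γ x = x·∂g`, i.e.
`S = 1 + ½ g⁻¹ D0 g = ϱ 1 + P`, `P = Pten N = -½ (D0 N) N⁻¹`; `tr P = 0` (Jacobi's formula,
`det N = 1`), `P x = 0` and `xᵀ P = 0` (differentiate `N x x = x`).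
Sectional curvature: with the covector `ξ = g x`, `T_{jk} = ∂_j ξ_k - Γ^l_{jk} ξ_l = g_{kl} S^l_j`,
`ξ_l R^l_{kij} = -(∂_i T_{jk} - Γ^a_{ik} T_{ja}) + (∂_j T_{ik} - Γ^a_{jk} T_{ia})`; or use `R244.Rm`.
For an eigenvector `w` of `N` along the ray (`N w = e^{2β} w`) one has `S w = (ϱ - β') w`.
(Check in dimension 2: `g = φ²(dt² + e^{-2β} dθ²)`.)
-/

set_option autoImplicit false
open scoped ContDiff Topology
open Filter Set
open Crest.GeometryTopology.CoordMetric Crest.GeometryTopology.ChartCurvature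
open Crest.Agent.R230 (E MP sph ev Harm)

noncomputable section
namespace Crest.Agent.R202

variable {n : ℕ} {φ ϱ ϱ₁ : ℝ → ℝ} {a : ℝ} {N : MetricField n}

open Crest.Agent.R244 (Gam bil Rm)

theorem GSec_Gam (hφ : Warp n φ ϱ ϱ₁ a) (hN : NField N) {y : E n} (hy : y ≠ 0) (v : E n)
    (k : Fin n) :
    Gam (gmet φ N) y y v k = (ϱ (Real.log ‖y‖) - 1) * v k + ∑ j, Pten N y k j * v j := by
  rw [R244.Gam_apply, Finset.sum_comm]
  simp only [← Finset.sum_mul, christoffel_rad hφ hN hy, add_mul, Finset.sum_add_distrib]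
  simp [Matrix.one_apply]

theorem GSec_inv {A : Matrix (Fin n) (Fin n) ℝ} (hA : A.det = 1) {v : Fin n → ℝ} {c : ℝ}
    (hc : c ≠ 0) (h : A.mulVec v = fun i => c * v i) : A⁻¹.mulVec v = c⁻¹ • v := by
  have h1 : A⁻¹.mulVec (A.mulVec v) = v := by
    rw [Matrix.mulVec_mulVec, Matrix.nonsing_inv_mul _ (by rw [hA]; exact isUnit_one),
      Matrix.one_mulVec]
  rw [h, show (fun i => c * v i) = c • v from rfl, Matrix.mulVec_smul] at h1
  rw [eq_inv_smul_iff₀ hc, h1]

theorem GSec_ray (x : E n) (τ : ℝ) :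
    HasDerivAt (fun s => Real.exp s • x) (Real.exp τ • x) τ :=
  (Real.hasDerivAt_exp τ).smul_const x

theorem GSec_P (hN : NField N) {x w : E n} (hx : x ≠ 0) {β β₁ : ℝ → ℝ}
    (hβ : ∀ τ, HasDerivAt β (β₁ τ) τ)
    (hev : ∀ τ : ℝ, (N (Real.exp τ • x)).mulVec (fun i => w i) =
      fun i => Real.exp (2 * β τ) * w i) (τ : ℝ) (k : Fin n) :
    ∑ j, Pten N (Real.exp τ • x) k j * w j = -β₁ τ * w k := by
  have hy : Real.exp τ • x ≠ 0 := smul_ne_zero (Real.exp_pos τ).ne' hx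
  have h1 : HasDerivAt (fun s => ∑ l, N (Real.exp s • x) k l * w l)
      (∑ l, D0 (fun y => N y k l) (Real.exp τ • x) * w l) τ :=
    HasDerivAt.fun_sum fun l _ => (R244.hasDerivAt_along (c := fun s => Real.exp s • x)
      ((hN.smooth k l).contDiffAt (isOpen_compl_singleton.mem_nhds hy)) (GSec_ray x τ)).mul_const _
  have h2 : HasDerivAt (fun s => ∑ l, N (Real.exp s • x) k l * w l)
      (Real.exp (2 * β τ) * (2 * β₁ τ) * w k) τ := by
    have e : (fun s => ∑ l, N (Real.exp s • x) k l * w l) = fun s => Real.exp (2 * β s) * w k :=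
      funext fun s => congrFun (hev s) k
    rw [e]
    exact ((hβ τ).const_mul 2).exp.mul_const _
  have h3 := h1.unique h2
  have h4 := GSec_inv (hN.det _ hy) (Real.exp_pos _).ne' (hev τ)
  have h5 : ∑ j, Pten N (Real.exp τ • x) k j * w j =
      ((Pten N (Real.exp τ • x)).mulVec fun i => w i) k := rfl
  rw [h5, Pten, Matrix.smul_mulVec, ← Matrix.mulVec_mulVec, h4, Matrix.mulVec_smul]
  have h6 : ((Matrix.of fun i j => D0 (fun y => N y i j) (Real.exp τ • x)).mulVec fun i => w i) k =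
      ∑ l, D0 (fun y => N y k l) (Real.exp τ • x) * w l := rfl
  rw [Pi.smul_apply, Pi.smul_apply, h6, h3, smul_eq_mul, smul_eq_mul]
  field_simp

theorem GSec_skew {g : MetricField n} {U : Set (E n)} (hg : IsRiemannianOn g U) {x : E n}
    (hx : x ∈ U) (u w p q : E n) : bil g x (Rm g x u w p) q = -bil g x (Rm g x u w q) p := by
  have h1 := R244.bil_Rm_self hg hx u w (p + q)
  have h2 := R244.bil_Rm_self hg hx u w p
  have h3 := R244.bil_Rm_self hg hx u w q
  simp only [Rm, map_sub, map_add, _root_.sub_apply, _root_.add_apply] at h1 h2 h3 ⊢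
  linarith

theorem GSec_log {x w : E n} (hx : x ≠ 0) (hxw : inner ℝ x w = 0) :
    HasDerivAt (fun s : ℝ => Real.log ‖x + s • w‖) 0 0 := by
  have hl : HasDerivAt (fun s : ℝ => x + s • w) w 0 := by
    simpa using ((hasDerivAt_id (0 : ℝ)).smul_const w).const_add x
  have h := (hl.norm_sq.log (by simpa using hx)).div_const 2
  simp only [zero_smul, add_zero, hxw, mul_zero, zero_div, Real.log_pow] at h
  refine h.congr_of_eventuallyEq (Eventually.of_forall fun s => ?_)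
  push_cast
  ring

theorem GSec_along {Γ : E n → E n →L[ℝ] E n →L[ℝ] E n} {x : E n} (hG : ContDiffAt ℝ ∞ Γ x)
    {c q : ℝ → E n} {c' q' : E n} (h0 : c 0 = x) (hc : HasDerivAt c c' 0)
    (hq : HasDerivAt q q' 0) : HasDerivAt (fun s => Γ (c s) (c s) (q s))
      (fderiv ℝ Γ x c' x (q 0) + Γ x c' (q 0) + Γ x x q') 0 := by
  subst h0
  exact ((R244.hasDerivAt_along (B := Γ) hG hc).clm_apply hc).clm_apply hq

theorem gmet_sec (hφ : Warp n φ ϱ ϱ₁ a) (hN : NField N) {x w : E n} (hx : x ≠ 0) (hw : w ≠ 0)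
    (hxw : inner ℝ x w = 0) {β β₁ : ℝ → ℝ} {β₂ : ℝ} (hβ : ∀ τ, HasDerivAt β (β₁ τ) τ)
    (hβ₁ : HasDerivAt β₁ β₂ 0)
    (hev : ∀ τ : ℝ, (N (Real.exp τ • x)).mulVec (fun i => w i) =
      fun i => Real.exp (2 * β τ) * w i) :
    0 < gramDet (gmet φ N) x x w ∧ 0 < quadForm (gmet φ N) x w ∧
      secNumer (gmet φ N) x x w = quadForm (gmet φ N) x w *
        (β₁ 0 * (ϱ (Real.log ‖x‖) - β₁ 0) - ϱ₁ (Real.log ‖x‖) + β₂) := by
  have hg := gmet_riem hφ hN
  set g := gmet φ N with hgdef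
  set t := Real.log ‖x‖ with ht
  have hm := mem_univ x
  have hq : ∀ v, quadForm g x v = bil g x v v := fun v => (R244.bil_apply g x v v).symm
  have hw0 := R244.bil_pos hg hm hw
  have hxw0 : bil g x x w = 0 := by
    have h4 := GSec_inv (hN.det _ hx) one_ne_zero (v := fun i => x i)
      (by simpa using hN.rad x hx)
    rw [R244.bil_symm hg hm, R244.bil_eq_dot, hgdef, gmet, if_neg hx, Matrix.smul_mulVec]
    change dotProduct _ (_ • ((N x)⁻¹.mulVec fun i => x i)) = 0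
    rw [h4, inv_one, one_smul, dotProduct_smul]
    rw [PiLp.inner_apply] at hxw
    exact smul_eq_zero_of_right _ (by simpa [dotProduct] using hxw)
  refine ⟨?_, by rwa [hq], ?_⟩
  · rw [gramDet, ← R244.bil_apply, hxw0, hq, hq]
    simpa using mul_pos (R244.bil_pos hg hm hx) hw0
  have hG := R244.contDiffAt_Gam hg hm
  -- values along the ray
  have r1 : ∀ τ : ℝ, Gam g (Real.exp τ • x) (Real.exp τ • x) w = (ϱ (t + τ) - 1 - β₁ τ) • w := by
    intro τ
    ext k
    rw [GSec_Gam hφ hN (smul_ne_zero (Real.exp_pos τ).ne' hx), GSec_P hN hx hβ hev, norm_smul,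
      Real.norm_of_nonneg (Real.exp_pos τ).le,
      Real.log_mul (Real.exp_pos τ).ne' (norm_ne_zero_iff.2 hx), Real.log_exp, add_comm τ,
      PiLp.smul_apply, smul_eq_mul]
    ring
  have r2 : ∀ y : E n, y ≠ 0 → Gam g y y y = (ϱ (Real.log ‖y‖) - 1) • y := fun y hy => by
    ext k
    rw [GSec_Gam hφ hN hy, Pten_rad hN hy, add_zero, PiLp.smul_apply, smul_eq_mul]
  have r0 : Gam g x x w = (ϱ t - 1 - β₁ 0) • w := by simpa using r1 0
  have r0' : Gam g x w x = (ϱ t - 1 - β₁ 0) • w := by rw [R244.Gam_symm hg hm, r0]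
  have d1 : fderiv ℝ (Gam g) x x x w + Gam g x x w = (ϱ₁ t - β₂) • w := by
    have a1 := GSec_along hG (by simp) (GSec_ray x 0) (hasDerivAt_const (0 : ℝ) w)
    simp only [r1] at a1
    have a2 : HasDerivAt (fun τ => ϱ (t + τ)) (ϱ₁ t) 0 := by
      simpa using (hφ.d2 (t + 0)).comp_const_add t 0
    simpa using a1.unique (((a2.sub_const 1).sub hβ₁).smul_const w)
  have d2 : fderiv ℝ (Gam g) x w x x + Gam g x w x + Gam g x x w = (ϱ t - 1) • w := by
    have hl : HasDerivAt (fun s : ℝ => x + s • w) w 0 := by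
      simpa using ((hasDerivAt_id (0 : ℝ)).smul_const w).const_add x
    have a1 := GSec_along hG (by simp) hl hl
    have a2 : HasDerivAt (fun s : ℝ => ϱ (Real.log ‖x + s • w‖) - 1) 0 0 := by
      simpa using ((hφ.d2 _).comp (0 : ℝ) (GSec_log hx hxw)).sub_const 1
    have a3 := (a2.smul hl).congr_of_eventuallyEq (f₁ := fun s : ℝ =>
      Gam g (x + s • w) (x + s • w) (x + s • w)) (by
        filter_upwards [hl.continuousAt.eventually_ne (show x + (0 : ℝ) • w ≠ 0 by simpa using hx)]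
          with s hs using r2 _ hs)
    simpa using a1.unique a3
  have key : Rm g x x w x = -(β₁ 0 * (ϱ t - β₁ 0) - ϱ₁ t + β₂) • w := by
    rw [Rm, R244.fderiv_Gam_symm hg hm x w x, eq_sub_of_add_eq d1,
      eq_sub_of_add_eq (eq_sub_of_add_eq d2), r2 x hx, r0', map_smul, map_smul, r0, r0']
    module
  rw [R244.secNumer_eq hg hm]
  change bil g x (Rm g x x w w) x = _
  rw [GSec_skew hg hm, key, hq, map_smul, _root_.smul_apply, smul_eq_mul]
  ring

end Crest.Agent.R202
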