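import Crest.Agent.R202.GTanAux

/-!
# Row 202, G3: Ricci curvature as a function of the 2-jet

`ricci_eq_ricJ`: product rule and `∂(g⁻¹) = -g⁻¹ (∂g) g⁻¹` (differentiate `g⁻¹ g = 1`).
`ricJ_scale`: homogeneity.  `ricJ_conf`: the value on the jet of a conformally flat metric
`e^{2u} δ` with `u(x) = 0`, `∂u = p`, `∂²u = S`:
`Ric = -(n-2)(S - p pᵀ) - (tr S + (n-2)|p|²) δ` (here `Γ^k_{ij} = δ_{ki} p_j + δ_{kj} p_i - δ_{ij} p_k`).
`tangential`: for `g = gmet φ N` at `x` with `r = |x|`, `t = log r`, the rescaled jet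
`(g, r ∂g, r² ∂²g) · (r/φ)²` is a continuous function of `(x/r, ϱ, ϱ₁, jet of N)` (product rule for
`e^{2u} N⁻¹`, `u = log φ(t) - t`, `r ∂u = (ϱ-1) x̂`, `r² ∂²u = ϱ₁ x̂x̂ᵀ + (ϱ-1)(δ - 2 x̂x̂ᵀ)`), at
`N = (1,0,0)` the conformal formula gives `r² Ric(v,v) = ((n-2)(1-ϱ²) - ϱ₁)|v|²` for `v ⊥ x`;
uniform continuity on the compact set of `(x̂, ϱ, ϱ₁) ∈ S × [0,1] × [-n,0]`.
The same compactness bounds `r Γ` and `N⁻¹`.
-/

set_option autoImplicit false
open scoped ContDiff Topology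
open Filter Set
open Crest.GeometryTopology.CoordMetric
open Crest.Agent.R230 (E MP sph ev Harm)

noncomputable section
namespace Crest.Agent.R202

variable {n : ℕ}

namespace GTanAux

theorem quad_bound (A : Fin n → Fin n → ℝ) {δ : ℝ} (hA : ∀ i j, |A i j| ≤ δ) (v : E n) :
    |∑ i, ∑ j, A i j * v i * v j| ≤ (n : ℝ) ^ 2 * δ * ‖v‖ ^ 2 := by
  have hv : ∀ i, |v i| ≤ ‖v‖ := fun i => by simpa using PiLp.norm_apply_le v i
  calc |∑ i, ∑ j, A i j * v i * v j| ≤ ∑ i, ∑ j, |A i j * v i * v j| :=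
        (Finset.abs_sum_le_sum_abs _ _).trans
          (Finset.sum_le_sum fun i _ => Finset.abs_sum_le_sum_abs _ _)
    _ ≤ ∑ _i : Fin n, ∑ _j : Fin n, δ * ‖v‖ * ‖v‖ := by
        refine Finset.sum_le_sum fun i _ => Finset.sum_le_sum fun j _ => ?_
        rw [abs_mul, abs_mul]
        have h0 : 0 ≤ δ := (abs_nonneg _).trans (hA i j)
        exact mul_le_mul (mul_le_mul (hA i j) (hv i) (abs_nonneg _) h0) (hv j) (abs_nonneg _)
          (by positivity)
    _ = _ := by simp; ring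

theorem quad_form (a b : ℝ) (u v : E n) (huv : ∑ i, u i * v i = 0) :
    ∑ i, ∑ j, (a * (u i * u j) + b * (1 : Matrix (Fin n) (Fin n) ℝ) i j) * v i * v j =
      b * ‖v‖ ^ 2 := by
  have h1 : ∀ i, ∑ j, (a * (u i * u j) + b * (1 : Matrix (Fin n) (Fin n) ℝ) i j) * v i * v j =
      b * v i ^ 2 := by
    intro i
    have : ∀ j, (a * (u i * u j) + b * (1 : Matrix (Fin n) (Fin n) ℝ) i j) * v i * v j =
        a * u i * v i * (u j * v j) + (if i = j then b * v i ^ 2 else 0) := by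
      intro j
      by_cases h : i = j
      · subst h; simp; ring
      · simp [h]; ring
    simp only [this, Finset.sum_add_distrib, ← Finset.mul_sum, huv]
    simp
  simp only [h1, ← Finset.mul_sum, EuclideanSpace.real_norm_sq_eq]

theorem ric_zero (p : PP n) (hp : ‖p.1‖ = 1) (v : E n) (hv : ∑ i, p.1 i * v i = 0) :
    ∑ i, ∑ j, ricJ (GJ ((0 : QQ n), p)).1 (GJ ((0 : QQ n), p)).2.1 (GJ ((0 : QQ n), p)).2.2 i j *
      v i * v j = (((n : ℝ) - 2) * (1 - p.2.1 ^ 2) - p.2.2) * ‖v‖ ^ 2 := by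
  have hs : ∑ k, p.1 k ^ 2 = 1 := by rw [← EuclideanSpace.real_norm_sq_eq, hp, one_pow]
  have hS : ∀ i j, Sv p i j = Sv p j i := by
    intro i j
    simp only [Sv, Matrix.one_apply, eq_comm (a := i)]
    ring
  have htr : ∑ k, Sv p k k = p.2.2 + (p.2.1 - 1) * ((n : ℝ) - 2) := by
    have : ∀ k, Sv p k k = (p.2.2 - 2 * (p.2.1 - 1)) * p.1 k ^ 2 + (p.2.1 - 1) := by
      intro k; simp [Sv]; ring
    simp only [this, Finset.sum_add_distrib, ← Finset.mul_sum, hs]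
    simp; ring
  have hpp : ∑ k, pv p k ^ 2 = (p.2.1 - 1) ^ 2 := by
    simp only [pv, mul_pow, ← Finset.mul_sum, hs, mul_one]
  rw [GJ_zero]
  simp only [ricJ_conf (pv p) (Sv p) hS, htr, hpp]
  rw [← quad_form (-((n : ℝ) - 2) * (p.2.2 - 2 * (p.2.1 - 1) - (p.2.1 - 1) ^ 2)) _ p.1 v hv]
  refine Finset.sum_congr rfl fun i _ => Finset.sum_congr rfl fun j _ => ?_
  simp only [Sv, pv]
  ring

end GTanAux

open GTanAux in
/-- tangential Ricci curvature, Christoffel symbols and `N⁻¹` for a nearly round cross-section -/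
theorem tangential (n : ℕ) {η : ℝ} (hη : 0 < η) : ∃ ε C : ℝ, 0 < ε ∧ 0 < C ∧
    ∀ (φ ϱ ϱ₁ : ℝ → ℝ) (a : ℝ) (N : MetricField n), Warp n φ ϱ ϱ₁ a → NField N →
      IsRiemannianOn (gmet φ N) univ → ∀ x : E n, x ≠ 0 →
      (∀ i j, Jet2Le (fun y => N y i j - (1 : Matrix (Fin n) (Fin n) ℝ) i j) x ε) →
      (∀ v : E n, inner ℝ x v = 0 →
        (((n : ℝ) - 2) * (1 - ϱ (Real.log ‖x‖) ^ 2) - η) * ‖v‖ ^ 2 ≤
          ‖x‖ ^ 2 * ∑ i, ∑ j, ricci (gmet φ N) x i j * v i * v j) ∧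
      (∀ k i j, ‖x‖ * |christoffel (gmet φ N) x k i j| ≤ C) ∧
      (∀ i j, Jet1Le (fun y => (N y)⁻¹ i j) x C) := by
  set K : Set (PP n) := Metric.sphere (0 : E n) 1 ×ˢ (Icc (0 : ℝ) 1 ×ˢ Icc (-(n : ℝ)) 0) with hKdef
  have hK : IsCompact K := (isCompact_sphere _ _).prod (isCompact_Icc.prod isCompact_Icc)
  set δ : ℝ := η / ((n : ℝ) ^ 2 + 1) with hδ
  have hδ0 : 0 < δ := by positivity
  have hδη : (n : ℝ) ^ 2 * δ ≤ η := by
    rw [hδ, mul_div_assoc', div_le_iff₀ (by positivity)]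
    nlinarith
  have e1 := eventually_all.2 fun i : Fin n => eventually_all.2 fun j : Fin n =>
    tube hK (fun p => contAt_ric p i j) hδ0
  choose C₁ hC₁ using fun k i j : Fin n => tube_bound hK (fun p => contAt_ch p k i j)
  have c0 : ∀ (i j : Fin n) (p : PP n),
      ContinuousAt (fun z : QQ n × PP n => (HJ z.1).1 i j) (0, p) := fun i j p =>
    ContinuousAt.comp (g := fun H : JJ n => H.1 i j) (f := fun z : QQ n × PP n => HJ z.1)
      (by fun_prop)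
      (ContinuousAt.comp (g := HJ) (f := fun z : QQ n × PP n => z.1) contAt_HJ continuousAt_fst)
  have c1 : ∀ (l i j : Fin n) (p : PP n),
      ContinuousAt (fun z : QQ n × PP n => (HJ z.1).2.1 l i j) (0, p) := fun l i j p =>
    ContinuousAt.comp (g := fun H : JJ n => H.2.1 l i j) (f := fun z : QQ n × PP n => HJ z.1)
      (by fun_prop)
      (ContinuousAt.comp (g := HJ) (f := fun z : QQ n × PP n => z.1) contAt_HJ continuousAt_fst)
  choose C₂ hC₂ using fun i j : Fin n => tube_bound hK (c0 i j)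
  choose C₃ hC₃ using fun l i j : Fin n => tube_bound hK (c1 l i j)
  have e2 := eventually_all.2 fun k : Fin n => eventually_all.2 fun i : Fin n =>
    eventually_all.2 fun j : Fin n => hC₁ k i j
  have e3 := eventually_all.2 fun i : Fin n => eventually_all.2 fun j : Fin n => hC₂ i j
  have e4 := eventually_all.2 fun k : Fin n => eventually_all.2 fun i : Fin n =>
    eventually_all.2 fun j : Fin n => hC₃ k i j
  obtain ⟨ε, hε, hq⟩ := Metric.eventually_nhds_iff.1 (e1.and (e2.and (e3.and e4)))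
  obtain ⟨B₁, hB₁⟩ := (Set.finite_range fun z : Fin n × Fin n × Fin n =>
    C₁ z.1 z.2.1 z.2.2).bddAbove
  obtain ⟨B₂, hB₂⟩ := (Set.finite_range fun z : Fin n × Fin n => C₂ z.1 z.2).bddAbove
  obtain ⟨B₃, hB₃⟩ := (Set.finite_range fun z : Fin n × Fin n × Fin n =>
    C₃ z.1 z.2.1 z.2.2).bddAbove
  refine ⟨ε / 2, max 1 (max B₁ (max B₂ B₃)), by positivity, by positivity, ?_⟩
  intro φ ϱ ϱ₁ a N hφ hN hg x hx hJ
  have h0 : ‖x‖ ≠ 0 := norm_ne_zero_iff.2 hx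
  have hqx : dist (qN N x) 0 < ε := by
    rw [dist_zero_right]
    exact (norm_qN_le (by positivity) hJ).trans_lt (by linarith)
  obtain ⟨f1, f2, f3, f4⟩ := hq hqx
  have hn1 : ‖(pX ϱ ϱ₁ x).1‖ = 1 := by
    simp [pX, norm_smul, h0]
  have hp : pX ϱ ϱ₁ x ∈ K := by
    refine ⟨by simpa using hn1, ⟨hφ.apos.le.trans (hφ.lo _), hφ.hi _⟩, hφ.dlo _, hφ.dhi _⟩
  have hdet : (gmet φ N x).det ≠ 0 := (hg.posDef x (mem_univ _)).det_pos.ne'
  have hw : (wt φ x)⁻¹ ≠ 0 := inv_ne_zero (wt_pos hφ hx).ne'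
  have hGJ := GJ_qN hφ hN hx
  refine ⟨fun v hv => ?_, fun k i j => ?_, fun i j => ⟨?_, fun l => ?_⟩⟩
  · have hv' : ∑ i, (pX ϱ ϱ₁ x).1 i * v i = 0 := by
      have : ∑ i, x i * v i = 0 := by
        rw [← hv, PiLp.inner_apply]
        exact Finset.sum_congr rfl fun i _ => by simp [mul_comm]
      simp only [pX, PiLp.smul_apply, smul_eq_mul, mul_assoc, ← Finset.mul_sum, this, mul_zero]
    have hz := ric_zero (pX ϱ ϱ₁ x) hn1 v hv'
    have hr : ∀ i j, ‖x‖ ^ 2 * ricci (gmet φ N) x i j =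
        ricJ (GJ (qN N x, pX ϱ ϱ₁ x)).1 (GJ (qN N x, pX ϱ ϱ₁ x)).2.1
          (GJ (qN N x, pX ϱ ϱ₁ x)).2.2 i j := by
      intro i j
      rw [hGJ, ricci_eq_ricJ hg (mem_univ x), ← ricJ_scale _ _ _ hdet hw]
    have hb := quad_bound _ (fun i j => (f1 i j _ hp).le) v
    have hsum : ‖x‖ ^ 2 * ∑ i, ∑ j, ricci (gmet φ N) x i j * v i * v j =
        ∑ i, ∑ j, ‖x‖ ^ 2 * ricci (gmet φ N) x i j * v i * v j := by
      simp only [Finset.mul_sum, mul_assoc]
    simp only [sub_mul, Finset.sum_sub_distrib, hz, ← hr] at hb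
    rw [← hsum] at hb
    have h1 := (abs_le.1 hb).1
    have h2 : ϱ₁ (Real.log ‖x‖) * ‖v‖ ^ 2 ≤ 0 :=
      mul_nonpos_of_nonpos_of_nonneg (hφ.dhi _) (by positivity)
    have h3 : (n : ℝ) ^ 2 * δ * ‖v‖ ^ 2 ≤ η * ‖v‖ ^ 2 :=
      mul_le_mul_of_nonneg_right hδη (by positivity)
    simp only [pX] at h1
    nlinarith
  · have h1 := f2 k i j _ hp
    rw [hGJ] at h1
    simp only at h1
    rw [chJ_scale _ _ hdet hw, abs_mul, abs_norm, ← christoffel_eq_chJ] at h1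
    exact h1.trans ((hB₁ ⟨(k, i, j), rfl⟩).trans
      (le_max_of_le_right (le_max_left _ _)))
  · have h1 := f3 i j _ hp
    simp only [HJ_qN hN hx] at h1
    exact h1.trans ((hB₂ ⟨(i, j), rfl⟩).trans
      (le_max_of_le_right (le_max_of_le_right (le_max_left _ _))))
  · have h1 := f4 l i j _ hp
    simp only [HJ_qN hN hx, Matrix.smul_apply, smul_eq_mul, abs_mul, abs_norm, jet1,
      Matrix.of_apply] at h1
    exact h1.trans ((hB₃ ⟨(l, i, j), rfl⟩).trans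
      (le_max_of_le_right (le_max_of_le_right (le_max_right _ _))))

end Crest.Agent.R202
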