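import Crest.Agent.R202.GJet

/-!
# Row 202: calculus of jets for `GTan`
-/

set_option autoImplicit false
open scoped ContDiff Topology
open Filter Set
open Crest.GeometryTopology.CoordMetric
open Crest.Agent.R230 (E)

noncomputable section
namespace Crest.Agent.R202.GTanAux

variable {n : ℕ}

/-! ### partial derivatives -/

theorem pd_congr {f g : E n → ℝ} {x : E n} (h : f =ᶠ[𝓝 x] g) (i : Fin n) :
    pderiv i f =ᶠ[𝓝 x] pderiv i g := by
  filter_upwards [h.fderiv (𝕜 := ℝ)] with y hy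
  simp [pderiv, hy]

theorem pd_const (c : ℝ) (i : Fin n) : pderiv i (fun _ : E n => c) = fun _ => 0 := by
  funext y; simp [pderiv]

theorem pd_sub_const (f : E n → ℝ) (c : ℝ) (i : Fin n) :
    pderiv i (fun y => f y - c) = pderiv i f := by
  funext y; simp [pderiv, fderiv_sub_const]

theorem pd_mul {f g : E n → ℝ} {x : E n} (hf : DifferentiableAt ℝ f x)
    (hg : DifferentiableAt ℝ g x) (i : Fin n) :
    pderiv i (fun y => f y * g y) x = pderiv i f x * g x + f x * pderiv i g x := by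
  unfold pderiv
  rw [fderiv_fun_mul hf hg]
  simp only [add_apply, smul_apply, smul_eq_mul]
  ring

theorem pd_add {f g : E n → ℝ} {x : E n} (hf : DifferentiableAt ℝ f x)
    (hg : DifferentiableAt ℝ g x) (i : Fin n) :
    pderiv i (fun y => f y + g y) x = pderiv i f x + pderiv i g x := by
  unfold pderiv
  rw [fderiv_fun_add hf hg]
  simp only [add_apply]

theorem pd_sum {ι : Type} [Fintype ι] {f : ι → E n → ℝ} {x : E n}
    (hf : ∀ k, DifferentiableAt ℝ (f k) x) (i : Fin n) :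
    pderiv i (fun y => ∑ k, f k y) x = ∑ k, pderiv i (f k) x := by
  unfold pderiv
  rw [fderiv_fun_sum fun k _ => hf k]
  simp only [sum_apply]

theorem cd_pd {f : E n → ℝ} {x : E n} (hf : ContDiffAt ℝ ∞ f x) (i : Fin n) :
    ContDiffAt ℝ ∞ (pderiv i f) x := by
  have h : ContDiffAt ℝ ∞ (fderiv ℝ f) x := hf.fderiv_right (by simp)
  exact h.clm_apply contDiffAt_const

theorem cd_diff {f : E n → ℝ} {x : E n} (hf : ContDiffAt ℝ ∞ f x) : DifferentiableAt ℝ f x :=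
  hf.differentiableAt (by simp)

theorem ev_diff {f : E n → ℝ} {x : E n} (hf : ContDiffAt ℝ ∞ f x) :
    ∀ᶠ y in 𝓝 x, DifferentiableAt ℝ f y := by
  have h1 : ContDiffAt ℝ 1 f x := hf.of_le (by exact_mod_cast le_top)
  filter_upwards [h1.eventually (by simp)] with y hy
  exact hy.differentiableAt (by simp)

theorem pd2_mul {f g : E n → ℝ} {x : E n} (hf : ContDiffAt ℝ ∞ f x) (hg : ContDiffAt ℝ ∞ g x)
    (m l : Fin n) :
    pderiv m (pderiv l fun y => f y * g y) x =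
      pderiv m (pderiv l f) x * g x + pderiv l f x * pderiv m g x +
        (pderiv m f x * pderiv l g x + f x * pderiv m (pderiv l g) x) := by
  have h : (pderiv l fun y => f y * g y) =ᶠ[𝓝 x]
      fun y => pderiv l f y * g y + f y * pderiv l g y := by
    filter_upwards [ev_diff hf, ev_diff hg] with y h1 h2
    exact pd_mul h1 h2 l
  rw [(pd_congr h m).eq_of_nhds, pd_add ((cd_diff (cd_pd hf l)).fun_mul (cd_diff hg))
    ((cd_diff hf).fun_mul (cd_diff (cd_pd hg l))), pd_mul (cd_diff (cd_pd hf l)) (cd_diff hg),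
    pd_mul (cd_diff hf) (cd_diff (cd_pd hg l))]

theorem pd2_sum {ι : Type} [Fintype ι] {f : ι → E n → ℝ} {x : E n}
    (hf : ∀ k, ContDiffAt ℝ ∞ (f k) x) (m l : Fin n) :
    pderiv m (pderiv l fun y => ∑ k, f k y) x = ∑ k, pderiv m (pderiv l (f k)) x := by
  have h : (pderiv l fun y => ∑ k, f k y) =ᶠ[𝓝 x] fun y => ∑ k, pderiv l (f k) y := by
    filter_upwards [eventually_all.2 fun k => ev_diff (hf k)] with y h1
    exact pd_sum h1 l
  rw [(pd_congr h m).eq_of_nhds, pd_sum fun k => cd_diff (cd_pd (hf k) l)]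

/-! ### jets of matrix fields -/

theorem jet1_congr {A B : MetricField n} {x : E n} (h : A =ᶠ[𝓝 x] B) : jet1 A x = jet1 B x := by
  funext l; ext i j
  have : (fun y => A y i j) =ᶠ[𝓝 x] fun y => B y i j := by
    filter_upwards [h] with y hy; rw [hy]
  exact (pd_congr this l).eq_of_nhds

theorem jet2_congr {A B : MetricField n} {x : E n} (h : A =ᶠ[𝓝 x] B) : jet2 A x = jet2 B x := by
  funext m l; ext i j
  have : (fun y => A y i j) =ᶠ[𝓝 x] fun y => B y i j := by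
    filter_upwards [h] with y hy; rw [hy]
  exact (pd_congr (pd_congr this l) m).eq_of_nhds

theorem jet1_const (M : Matrix (Fin n) (Fin n) ℝ) (x : E n) (l : Fin n) :
    jet1 (fun _ => M) x l = 0 := by
  ext i j; simp [jet1, pd_const]

theorem jet2_const (M : Matrix (Fin n) (Fin n) ℝ) (x : E n) (m l : Fin n) :
    jet2 (fun _ => M) x m l = 0 := by
  ext i j; simp [jet2, pd_const]

theorem jet1_mul {A B : MetricField n} {x : E n} (hA : ∀ i j, ContDiffAt ℝ ∞ (fun y => A y i j) x)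
    (hB : ∀ i j, ContDiffAt ℝ ∞ (fun y => B y i j) x) (l : Fin n) :
    jet1 (fun y => A y * B y) x l = jet1 A x l * B x + A x * jet1 B x l := by
  ext i j
  simp only [jet1, Matrix.of_apply, Matrix.mul_apply, Matrix.add_apply]
  rw [pd_sum fun k => (cd_diff (hA i k)).fun_mul (cd_diff (hB k j)), ← Finset.sum_add_distrib]
  exact Finset.sum_congr rfl fun k _ => pd_mul (cd_diff (hA i k)) (cd_diff (hB k j)) l

theorem jet2_mul {A B : MetricField n} {x : E n} (hA : ∀ i j, ContDiffAt ℝ ∞ (fun y => A y i j) x)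
    (hB : ∀ i j, ContDiffAt ℝ ∞ (fun y => B y i j) x) (m l : Fin n) :
    jet2 (fun y => A y * B y) x m l = jet2 A x m l * B x + jet1 A x l * jet1 B x m +
      (jet1 A x m * jet1 B x l + A x * jet2 B x m l) := by
  ext i j
  simp only [jet1, jet2, Matrix.of_apply, Matrix.mul_apply, Matrix.add_apply]
  rw [pd2_sum fun k => (hA i k).mul (hB k j), ← Finset.sum_add_distrib, ← Finset.sum_add_distrib,
    ← Finset.sum_add_distrib]
  exact Finset.sum_congr rfl fun k _ => pd2_mul (hA i k) (hB k j) m l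

theorem jet1_smul {w : E n → ℝ} {B : MetricField n} {x : E n} (hw : ContDiffAt ℝ ∞ w x)
    (hB : ∀ i j, ContDiffAt ℝ ∞ (fun y => B y i j) x) (l : Fin n) :
    jet1 (fun y => w y • B y) x l = pderiv l w x • B x + w x • jet1 B x l := by
  ext i j
  simp only [jet1, Matrix.of_apply, Matrix.smul_apply, Matrix.add_apply, smul_eq_mul]
  exact pd_mul (cd_diff hw) (cd_diff (hB i j)) l

theorem jet2_smul {w : E n → ℝ} {B : MetricField n} {x : E n} (hw : ContDiffAt ℝ ∞ w x)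
    (hB : ∀ i j, ContDiffAt ℝ ∞ (fun y => B y i j) x) (m l : Fin n) :
    jet2 (fun y => w y • B y) x m l = pderiv m (pderiv l w) x • B x + pderiv l w x • jet1 B x m +
      (pderiv m w x • jet1 B x l + w x • jet2 B x m l) := by
  ext i j
  simp only [jet1, jet2, Matrix.of_apply, Matrix.smul_apply, Matrix.add_apply, smul_eq_mul]
  exact pd2_mul hw (hB i j) m l

/-- jets of the inverse field -/
theorem jet_inv {N : MetricField n} {U : Set (E n)} (hN : IsRiemannianOn N U) {x : E n}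
    (hx : x ∈ U) :
    (∀ l, jet1 (fun y => (N y)⁻¹) x l = -((N x)⁻¹ * jet1 N x l * (N x)⁻¹)) ∧
    (∀ m l, jet2 (fun y => (N y)⁻¹) x m l =
      -((-((N x)⁻¹ * jet1 N x l * (N x)⁻¹) * jet1 N x m +
        (-((N x)⁻¹ * jet1 N x m * (N x)⁻¹) * jet1 N x l + (N x)⁻¹ * jet2 N x m l)) * (N x)⁻¹)) := by
  have hU := hN.isOpen.mem_nhds hx
  have hA : ∀ i j, ContDiffAt ℝ ∞ (fun y => (N y)⁻¹ i j) x := fun i j =>
    (R244.contDiffOn_inverseField hN i j).contDiffAt hU
  have hB : ∀ i j, ContDiffAt ℝ ∞ (fun y => N y i j) x := fun i j =>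
    (hN.contDiffOn i j).contDiffAt hU
  have hu : ∀ y ∈ U, IsUnit (N y).det := fun y hy => (hN.posDef y hy).det_pos.ne'.isUnit
  have he : (fun y => (N y)⁻¹ * N y) =ᶠ[𝓝 x] fun _ => (1 : Matrix (Fin n) (Fin n) ℝ) := by
    filter_upwards [hU] with y hy
    exact Matrix.nonsing_inv_mul _ (hu y hy)
  have hr : N x * (N x)⁻¹ = 1 := Matrix.mul_nonsing_inv _ (hu x hx)
  have h1 : ∀ l, jet1 (fun y => (N y)⁻¹) x l = -((N x)⁻¹ * jet1 N x l * (N x)⁻¹) := by
    intro l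
    have h := jet1_mul (A := fun y => (N y)⁻¹) hA hB l
    rw [jet1_congr he, jet1_const] at h
    have h' : jet1 (fun y => (N y)⁻¹) x l * N x = -((N x)⁻¹ * jet1 N x l) :=
      eq_neg_of_add_eq_zero_left h.symm
    calc jet1 (fun y => (N y)⁻¹) x l = jet1 (fun y => (N y)⁻¹) x l * N x * (N x)⁻¹ := by
          rw [Matrix.mul_assoc, hr, Matrix.mul_one]
      _ = _ := by rw [h', Matrix.neg_mul]
  refine ⟨h1, fun m l => ?_⟩
  have h := jet2_mul (A := fun y => (N y)⁻¹) hA hB m l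
  rw [jet2_congr he, jet2_const, h1, h1, add_assoc] at h
  have h' := eq_neg_of_add_eq_zero_left h.symm
  calc jet2 (fun y => (N y)⁻¹) x m l = jet2 (fun y => (N y)⁻¹) x m l * N x * (N x)⁻¹ := by
        rw [Matrix.mul_assoc, hr, Matrix.mul_one]
    _ = _ := by rw [h', Matrix.neg_mul]

/-! ### radial functions -/

theorem hasFDerivAt_log_norm {y : E n} (hy : y ≠ 0) :
    HasFDerivAt (fun z : E n => Real.log ‖z‖) ((‖y‖ ^ 2)⁻¹ • innerSL ℝ y) y := by
  have hn : ‖y‖ ^ 2 ≠ 0 := pow_ne_zero _ (norm_ne_zero_iff.2 hy)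
  have h1 := ((hasStrictFDerivAt_norm_sq y).hasFDerivAt.log hn).const_mul (1 / 2 : ℝ)
  have he : (fun z : E n => Real.log ‖z‖) = fun z => (1 / 2 : ℝ) * Real.log (‖z‖ ^ 2) := by
    funext z; rw [Real.log_pow]; push_cast; ring
  rw [he]
  refine h1.congr_fderiv ?_
  ext v
  simp only [smul_apply, smul_eq_mul, two_smul, add_apply]
  ring

theorem pd_comp_log {h : ℝ → ℝ} {h' : ℝ} {y : E n} (hy : y ≠ 0)
    (hh : HasDerivAt h h' (Real.log ‖y‖)) :
    DifferentiableAt ℝ (fun z : E n => h (Real.log ‖z‖)) y ∧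
      ∀ l, pderiv l (fun z : E n => h (Real.log ‖z‖)) y = h' * (y l / ‖y‖ ^ 2) := by
  have h1 := hh.comp_hasFDerivAt y (hasFDerivAt_log_norm hy)
  refine ⟨h1.differentiableAt, fun l => ?_⟩
  unfold pderiv
  have h2 : fderiv ℝ (fun z : E n => h (Real.log ‖z‖)) y = _ := h1.fderiv
  rw [h2]
  simp [EuclideanSpace.inner_single_right, div_eq_inv_mul]

theorem pd_coord (l m : Fin n) (y : E n) :
    pderiv m (fun z : E n => z l) y = (1 : Matrix (Fin n) (Fin n) ℝ) m l := by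
  unfold pderiv
  have h : HasFDerivAt (fun z : E n => z l) (EuclideanSpace.proj (𝕜 := ℝ) l) y :=
    (EuclideanSpace.proj (𝕜 := ℝ) l).hasFDerivAt
  rw [h.fderiv]
  simp [Matrix.one_apply, eq_comm]

theorem diff_coord (l : Fin n) (y : E n) : DifferentiableAt ℝ (fun z : E n => z l) y :=
  (EuclideanSpace.proj (𝕜 := ℝ) l).differentiableAt

/-- the conformal factor -/
def wt (φ : ℝ → ℝ) (y : E n) : ℝ := (φ (Real.log ‖y‖) / ‖y‖) ^ 2

theorem wt_pos {φ ϱ ϱ₁ : ℝ → ℝ} {a : ℝ} (hφ : Warp n φ ϱ ϱ₁ a) {y : E n} (hy : y ≠ 0) :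
    0 < wt φ y := pow_pos (div_pos (hφ.pos _) (norm_pos_iff.2 hy)) _

theorem cd_wt {φ ϱ ϱ₁ : ℝ → ℝ} {a : ℝ} (hφ : Warp n φ ϱ ϱ₁ a) {y : E n} (hy : y ≠ 0) :
    ContDiffAt ℝ ∞ (wt φ) y := by
  have h1 : ContDiffAt ℝ ∞ (fun z : E n => ‖z‖) y := contDiffAt_norm ℝ hy
  have h0 : ‖y‖ ≠ 0 := norm_ne_zero_iff.2 hy
  exact ((hφ.smooth.contDiffAt.comp y (h1.log h0)).div h1 h0).pow 2

theorem exp_neg_two_log {y : E n} (hy : y ≠ 0) :
    Real.exp (-2 * Real.log ‖y‖) = (‖y‖ ^ 2)⁻¹ := by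
  have h0 : 0 < ‖y‖ := norm_pos_iff.2 hy
  rw [show -2 * Real.log ‖y‖ = -Real.log (‖y‖ ^ 2) by rw [Real.log_pow]; push_cast; ring,
    Real.exp_neg, Real.exp_log (pow_pos h0 2)]

theorem wt_eq {φ : ℝ → ℝ} {y : E n} (hy : y ≠ 0) :
    wt φ y = φ (Real.log ‖y‖) ^ 2 * Real.exp (-2 * Real.log ‖y‖) := by
  rw [exp_neg_two_log hy, wt, div_pow, div_eq_mul_inv]

theorem hasDerivAt_exp2 (t : ℝ) :
    HasDerivAt (fun s => Real.exp (-2 * s)) (Real.exp (-2 * t) * (-2)) t := by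
  simpa using ((hasDerivAt_id t).const_mul (-2 : ℝ)).exp

theorem pd_wt {φ ϱ ϱ₁ : ℝ → ℝ} {a : ℝ} (hφ : Warp n φ ϱ ϱ₁ a) {y : E n} (hy : y ≠ 0) (l : Fin n) :
    pderiv l (wt φ) y = 2 * (ϱ (Real.log ‖y‖) - 1) * wt φ y * (y l / ‖y‖ ^ 2) := by
  have he : wt φ =ᶠ[𝓝 y] fun z : E n =>
      (fun t => φ t ^ 2 * Real.exp (-2 * t)) (Real.log ‖z‖) := by
    filter_upwards [isOpen_compl_singleton.mem_nhds hy] with z hz
    exact wt_eq hz
  have hd := ((hφ.d1 (Real.log ‖y‖)).fun_pow 2).fun_mul (hasDerivAt_exp2 (Real.log ‖y‖))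
  rw [(pd_congr he l).eq_of_nhds, (pd_comp_log hy hd).2, wt_eq hy]
  norm_num
  left; ring

theorem pd2_wt {φ ϱ ϱ₁ : ℝ → ℝ} {a : ℝ} (hφ : Warp n φ ϱ ϱ₁ a) {y : E n} (hy : y ≠ 0)
    (m l : Fin n) :
    pderiv m (pderiv l (wt φ)) y = wt φ y * (‖y‖ ^ 2)⁻¹ *
      (2 * (ϱ (Real.log ‖y‖) - 1) * (1 : Matrix (Fin n) (Fin n) ℝ) m l +
        (2 * ϱ₁ (Real.log ‖y‖) + 4 * (ϱ (Real.log ‖y‖) - 1) ^ 2 - 4 * (ϱ (Real.log ‖y‖) - 1)) *
          (y m * y l / ‖y‖ ^ 2)) := by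
  have he : pderiv l (wt φ) =ᶠ[𝓝 y] fun z : E n => z l *
      (fun t => 2 * (ϱ t - 1) * (φ t ^ 2 * Real.exp (-2 * t)) * Real.exp (-2 * t))
        (Real.log ‖z‖) := by
    filter_upwards [isOpen_compl_singleton.mem_nhds hy] with z hz
    rw [pd_wt hφ hz, wt_eq hz, div_eq_mul_inv, ← exp_neg_two_log hz]
    ring
  have hd := ((((hφ.d2 (Real.log ‖y‖)).sub_const 1).const_mul 2).fun_mul
    (((hφ.d1 (Real.log ‖y‖)).fun_pow 2).fun_mul (hasDerivAt_exp2 (Real.log ‖y‖)))).fun_mul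
    (hasDerivAt_exp2 (Real.log ‖y‖))
  have hc := pd_comp_log hy hd
  rw [(pd_congr he m).eq_of_nhds, pd_mul (diff_coord l y) hc.1, hc.2, pd_coord, wt_eq hy,
    div_eq_mul_inv, div_eq_mul_inv, ← exp_neg_two_log hy]
  norm_num
  ring

/-! ### the space of jets -/

/-- 2-jets of matrix fields -/
abbrev JJ (n : ℕ) : Type :=
  Matrix (Fin n) (Fin n) ℝ × (Fin n → Matrix (Fin n) (Fin n) ℝ) ×
    (Fin n → Fin n → Matrix (Fin n) (Fin n) ℝ)

/-- normed coordinates on 2-jets -/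
abbrev QQ (n : ℕ) : Type :=
  (Fin n → Fin n → ℝ) × (Fin n → Fin n → Fin n → ℝ) × (Fin n → Fin n → Fin n → Fin n → ℝ)

/-- the parameters `(x̂, ϱ, ϱ₁)` -/
abbrev PP (n : ℕ) : Type := E n × ℝ × ℝ

/-- the jet with coordinates `q`, centred at `(1,0,0)` -/
def emb (q : QQ n) : JJ n :=
  (1 + Matrix.of q.1, fun l => Matrix.of (q.2.1 l), fun m l => Matrix.of (q.2.2 m l))

/-- jet of the inverse, as a polynomial -/
def invP (A : Matrix (Fin n) (Fin n) ℝ) (j : JJ n) : JJ n :=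
  (A, fun l => -(A * j.2.1 l * A), fun m l =>
    -((-(A * j.2.1 l * A) * j.2.1 m + (-(A * j.2.1 m * A) * j.2.1 l + A * j.2.2 m l)) * A))

/-- jet of the inverse -/
def invJ (j : JJ n) : JJ n := invP j.1⁻¹ j

/-- `r ∂ u` -/
def pv (p : PP n) (l : Fin n) : ℝ := (p.2.1 - 1) * p.1 l

/-- `r² ∂² u` -/
def Sv (p : PP n) (m l : Fin n) : ℝ :=
  p.2.2 * p.1 m * p.1 l + (p.2.1 - 1) * ((1 : Matrix (Fin n) (Fin n) ℝ) m l - 2 * p.1 m * p.1 l)

/-- jet of `e^{2u} H` -/
def twist (p : PP n) (j : JJ n) : JJ n :=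
  (j.1, fun l => (2 * pv p l) • j.1 + j.2.1 l, fun m l =>
    (2 * Sv p m l + 4 * pv p m * pv p l) • j.1 + (2 * pv p l) • j.2.1 m +
      ((2 * pv p m) • j.2.1 l + j.2.2 m l))

/-- `chJ` with the inverse as a variable -/
def chP (A : Matrix (Fin n) (Fin n) ℝ) (j : JJ n) (k i i' : Fin n) : ℝ :=
  (1 / 2) * ∑ l, A k l * (j.2.1 i i' l + j.2.1 i' i l - j.2.1 l i i')

/-- `dchJ` with the inverse as a variable -/
def dchP (A : Matrix (Fin n) (Fin n) ℝ) (j : JJ n) (m k i i' : Fin n) : ℝ :=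
  (1 / 2) * ∑ l, ((-(A * j.2.1 m * A)) k l * (j.2.1 i i' l + j.2.1 i' i l - j.2.1 l i i') +
    A k l * (j.2.2 m i i' l + j.2.2 m i' i l - j.2.2 m l i i'))

/-- `ricJ` with the inverse as a variable -/
def ricP (A : Matrix (Fin n) (Fin n) ℝ) (j : JJ n) (i i' : Fin n) : ℝ :=
  (∑ k, dchP A j k k i i') - (∑ k, dchP A j i' k k i)
    + (∑ k, ∑ l, chP A j k k l * chP A j l i i') - (∑ k, ∑ l, chP A j k i' l * chP A j l k i)

theorem chJ_eq (j : JJ n) (k i i' : Fin n) : chJ j.1 j.2.1 k i i' = chP j.1⁻¹ j k i i' := rfl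

theorem ricJ_eq (j : JJ n) (i i' : Fin n) : ricJ j.1 j.2.1 j.2.2 i i' = ricP j.1⁻¹ j i i' := rfl

theorem cont_emb : Continuous (emb : QQ n → JJ n) := by
  unfold emb; fun_prop

theorem cont_invP : Continuous fun z : Matrix (Fin n) (Fin n) ℝ × JJ n => invP z.1 z.2 := by
  unfold invP; fun_prop

theorem cont_pv (l : Fin n) : Continuous fun p : PP n => pv p l := by
  unfold pv; fun_prop

theorem cont_Sv (m l : Fin n) : Continuous fun p : PP n => Sv p m l := by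
  unfold Sv; fun_prop

theorem cont_twist : Continuous fun z : PP n × JJ n => twist z.1 z.2 := by
  unfold twist pv Sv; fun_prop

theorem cont_chP (k i i' : Fin n) :
    Continuous fun z : Matrix (Fin n) (Fin n) ℝ × JJ n => chP z.1 z.2 k i i' := by
  unfold chP; fun_prop

theorem cont_dchP (m k i i' : Fin n) :
    Continuous fun z : Matrix (Fin n) (Fin n) ℝ × JJ n => dchP z.1 z.2 m k i i' := by
  unfold dchP; fun_prop

theorem cont_ricP (i i' : Fin n) :
    Continuous fun z : Matrix (Fin n) (Fin n) ℝ × JJ n => ricP z.1 z.2 i i' := by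
  unfold ricP
  refine ((Continuous.sub ?_ ?_).add ?_).sub ?_
  · exact continuous_finsetSum _ fun k _ => cont_dchP _ _ _ _
  · exact continuous_finsetSum _ fun k _ => cont_dchP _ _ _ _
  · exact continuous_finsetSum _ fun k _ => continuous_finsetSum _ fun l _ =>
      (cont_chP _ _ _).mul (cont_chP _ _ _)
  · exact continuous_finsetSum _ fun k _ => continuous_finsetSum _ fun l _ =>
      (cont_chP _ _ _).mul (cont_chP _ _ _)

theorem contAt_inv_one : ContinuousAt (Inv.inv : Matrix (Fin n) (Fin n) ℝ → _) 1 := by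
  refine continuousAt_matrix_inv _ ?_
  rw [Matrix.det_one, Ring.inverse_eq_inv']
  exact continuousAt_inv₀ one_ne_zero

theorem contAt_pair {j : JJ n} (hj : j.1 = 1) :
    ContinuousAt (fun j : JJ n => (j.1⁻¹, j)) j := by
  refine ContinuousAt.prodMk ?_ continuousAt_id
  exact ContinuousAt.comp (g := Inv.inv) (f := fun j : JJ n => j.1) (hj ▸ contAt_inv_one)
    continuousAt_fst

theorem emb_zero : emb (0 : QQ n) = (1, 0, 0) := by
  refine Prod.ext ?_ (Prod.ext ?_ ?_)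
  · ext i j; simp [emb]
  · funext l; ext i j; simp [emb]
  · funext m l; ext i j; simp [emb]

theorem invJ_one : invJ ((1, 0, 0) : JJ n) = (1, 0, 0) := by
  refine Prod.ext ?_ (Prod.ext ?_ ?_)
  · simp [invJ, invP]
  · funext l; simp [invJ, invP]
  · funext m l; simp [invJ, invP]

/-- the jet of `N⁻¹` in terms of the coordinates of the jet of `N` -/
def HJ (q : QQ n) : JJ n := invJ (emb q)

theorem HJ_zero : HJ (0 : QQ n) = (1, 0, 0) := by rw [HJ, emb_zero, invJ_one]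

theorem contAt_HJ : ContinuousAt (HJ : QQ n → JJ n) 0 := by
  have h1 : ContinuousAt (invJ : JJ n → JJ n) (emb 0) :=
    ContinuousAt.comp (g := fun z : Matrix (Fin n) (Fin n) ℝ × JJ n => invP z.1 z.2)
      (f := fun j : JJ n => (j.1⁻¹, j)) cont_invP.continuousAt (contAt_pair (by rw [emb_zero]))
  exact h1.comp cont_emb.continuousAt

/-- the rescaled jet of the metric -/
def GJ (z : QQ n × PP n) : JJ n := twist z.2 (HJ z.1)

theorem contAt_GJ (p : PP n) : ContinuousAt (GJ : QQ n × PP n → JJ n) (0, p) := by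
  have h1 : ContinuousAt (fun z : QQ n × PP n => (z.2, HJ z.1)) (0, p) :=
    continuousAt_snd.prodMk (ContinuousAt.comp (g := HJ) (f := fun z : QQ n × PP n => z.1)
      contAt_HJ continuousAt_fst)
  exact ContinuousAt.comp (g := fun z : PP n × JJ n => twist z.1 z.2) cont_twist.continuousAt h1

theorem GJ_zero (p : PP n) : GJ ((0 : QQ n), p) =
    (1, fun l => (2 * pv p l) • (1 : Matrix (Fin n) (Fin n) ℝ),
      fun m l => (2 * Sv p m l + 4 * pv p m * pv p l) • (1 : Matrix (Fin n) (Fin n) ℝ)) := by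
  simp [GJ, HJ_zero, twist]

theorem contAt_GJ_pair (p : PP n) :
    ContinuousAt (fun z : QQ n × PP n => ((GJ z).1⁻¹, GJ z)) (0, p) :=
  ContinuousAt.comp (g := fun j : JJ n => (j.1⁻¹, j)) (contAt_pair (by rw [GJ_zero])) (contAt_GJ p)

theorem contAt_ric (p : PP n) (i j : Fin n) :
    ContinuousAt (fun z : QQ n × PP n => ricJ (GJ z).1 (GJ z).2.1 (GJ z).2.2 i j) (0, p) :=
  ContinuousAt.comp (g := fun z : Matrix (Fin n) (Fin n) ℝ × JJ n => ricP z.1 z.2 i j)
    (f := fun z : QQ n × PP n => ((GJ z).1⁻¹, GJ z)) (cont_ricP i j).continuousAt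
    (contAt_GJ_pair p)

theorem contAt_ch (p : PP n) (k i j : Fin n) :
    ContinuousAt (fun z : QQ n × PP n => chJ (GJ z).1 (GJ z).2.1 k i j) (0, p) :=
  ContinuousAt.comp (g := fun z : Matrix (Fin n) (Fin n) ℝ × JJ n => chP z.1 z.2 k i j)
    (f := fun z : QQ n × PP n => ((GJ z).1⁻¹, GJ z)) (cont_chP k i j).continuousAt
    (contAt_GJ_pair p)

/-! ### tube lemma -/

theorem tube {K : Set (PP n)} (hK : IsCompact K) {f : QQ n × PP n → ℝ}
    (hf : ∀ p, ContinuousAt f (0, p)) {η : ℝ} (hη : 0 < η) :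
    ∀ᶠ q in 𝓝 (0 : QQ n), ∀ p ∈ K, |f (q, p) - f (0, p)| < η := by
  refine hK.eventually_forall_of_forall_eventually
    (P := fun q p => |f (q, p) - f (0, p)| < η) fun p _ => ?_
  have h1 : ContinuousAt (fun z : QQ n × PP n => f (0, z.2)) (0, p) :=
    ContinuousAt.comp (g := f) (f := fun z : QQ n × PP n => ((0 : QQ n), z.2)) (hf p)
      (by fun_prop)
  have h2 : ContinuousAt (fun z : QQ n × PP n => |f z - f (0, z.2)|) (0, p) :=
    ((hf p).sub h1).abs
  exact h2.eventually (gt_mem_nhds (by simpa using hη))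

theorem tube_bound {K : Set (PP n)} (hK : IsCompact K) {f : QQ n × PP n → ℝ}
    (hf : ∀ p, ContinuousAt f (0, p)) :
    ∃ C : ℝ, ∀ᶠ q in 𝓝 (0 : QQ n), ∀ p ∈ K, |f (q, p)| ≤ C := by
  have hc : Continuous fun p : PP n => f (0, p) := continuous_iff_continuousAt.2 fun p =>
    ContinuousAt.comp (g := f) (f := fun p : PP n => ((0 : QQ n), p)) (hf p) (by fun_prop)
  obtain ⟨C, hC⟩ := hK.exists_bound_of_continuousOn hc.continuousOn
  refine ⟨C + 1, ?_⟩
  filter_upwards [tube hK hf one_pos] with q hq p hp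
  have h1 := hq p hp
  have h2 := hC p hp
  rw [Real.norm_eq_abs] at h2
  have h3 := abs_add_le (f (q, p) - f (0, p)) (f (0, p))
  rw [sub_add_cancel] at h3
  linarith

/-! ### the rescaled jet of `gmet` -/

theorem chJ_scale (G : Matrix (Fin n) (Fin n) ℝ) (G₁ : Fin n → Matrix (Fin n) (Fin n) ℝ)
    (hG : G.det ≠ 0) {c : ℝ} (hc : c ≠ 0) (r : ℝ) (k i j : Fin n) :
    chJ (c • G) (fun l => (c * r) • G₁ l) k i j = r * chJ G G₁ k i j := by
  have h : (c • G)⁻¹ = c⁻¹ • G⁻¹ := by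
    refine Matrix.inv_eq_left_inv ?_
    rw [Matrix.smul_mul, Matrix.mul_smul, smul_smul, inv_mul_cancel₀ hc, one_smul,
      Matrix.nonsing_inv_mul _ hG.isUnit]
  unfold chJ
  rw [h, Finset.mul_sum, Finset.mul_sum, Finset.mul_sum]
  refine Finset.sum_congr rfl fun l _ => ?_
  simp only [Matrix.smul_apply, smul_eq_mul]
  field_simp

/-- coordinates of the rescaled jet of `N` -/
def qN (N : MetricField n) (x : E n) : QQ n :=
  (fun i j => N x i j - (1 : Matrix (Fin n) (Fin n) ℝ) i j, fun l i j => ‖x‖ * jet1 N x l i j,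
    fun m l i j => ‖x‖ ^ 2 * jet2 N x m l i j)

theorem emb_qN (N : MetricField n) (x : E n) :
    emb (qN N x) = (N x, fun l => ‖x‖ • jet1 N x l, fun m l => ‖x‖ ^ 2 • jet2 N x m l) := by
  refine Prod.ext ?_ (Prod.ext ?_ ?_)
  · ext i j; simp [emb, qN]
  · funext l; ext i j; simp [emb, qN]
  · funext m l; ext i j; simp [emb, qN]

theorem norm_qN_le {N : MetricField n} {x : E n} {ε : ℝ} (hε : 0 ≤ ε)
    (h : ∀ i j, Jet2Le (fun y => N y i j - (1 : Matrix (Fin n) (Fin n) ℝ) i j) x ε) :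
    ‖qN N x‖ ≤ ε := by
  refine norm_prod_le_iff.2 ⟨?_, norm_prod_le_iff.2 ⟨?_, ?_⟩⟩
  · refine (pi_norm_le_iff_of_nonneg hε).2 fun i => (pi_norm_le_iff_of_nonneg hε).2 fun j => ?_
    exact (h i j).1
  · refine (pi_norm_le_iff_of_nonneg hε).2 fun l => (pi_norm_le_iff_of_nonneg hε).2 fun i =>
      (pi_norm_le_iff_of_nonneg hε).2 fun j => ?_
    have := (h i j).2.1 l
    rw [pd_sub_const] at this
    simpa [qN, jet1, abs_mul] using this
  · refine (pi_norm_le_iff_of_nonneg hε).2 fun m => (pi_norm_le_iff_of_nonneg hε).2 fun l =>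
      (pi_norm_le_iff_of_nonneg hε).2 fun i => (pi_norm_le_iff_of_nonneg hε).2 fun j => ?_
    have := (h i j).2.2 m l
    rw [pd_sub_const] at this
    simpa [qN, jet2, abs_mul] using this

theorem nfield_riem {N : MetricField n} (hN : NField N) : IsRiemannianOn N {0}ᶜ :=
  ⟨isOpen_compl_singleton, hN.smooth, fun x hx => hN.posDef x hx⟩

theorem HJ_qN {N : MetricField n} (hN : NField N) {x : E n} (hx : x ≠ 0) :
    HJ (qN N x) = ((N x)⁻¹, fun l => ‖x‖ • jet1 (fun y => (N y)⁻¹) x l,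
      fun m l => ‖x‖ ^ 2 • jet2 (fun y => (N y)⁻¹) x m l) := by
  obtain ⟨h1, h2⟩ := jet_inv (nfield_riem hN) (x := x) hx
  rw [HJ, emb_qN]
  refine Prod.ext rfl (Prod.ext ?_ ?_)
  · funext l
    simp [invJ, invP, h1]
  · funext m l
    simp only [invJ, invP, h2, Matrix.mul_smul, Matrix.smul_mul, Matrix.neg_mul, smul_neg,
      smul_smul, Matrix.add_mul, smul_add, sq]

/-- the parameter point -/
def pX (ϱ ϱ₁ : ℝ → ℝ) (x : E n) : PP n := (‖x‖⁻¹ • x, ϱ (Real.log ‖x‖), ϱ₁ (Real.log ‖x‖))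

theorem GJ_qN {φ ϱ ϱ₁ : ℝ → ℝ} {a : ℝ} (hφ : Warp n φ ϱ ϱ₁ a) {N : MetricField n} (hN : NField N)
    {x : E n} (hx : x ≠ 0) :
    GJ (qN N x, pX ϱ ϱ₁ x) = ((wt φ x)⁻¹ • gmet φ N x,
      fun l => ((wt φ x)⁻¹ * ‖x‖) • jet1 (gmet φ N) x l,
      fun m l => ((wt φ x)⁻¹ * ‖x‖ ^ 2) • jet2 (gmet φ N) x m l) := by
  have hU := isOpen_compl_singleton.mem_nhds hx
  have he : gmet φ N =ᶠ[𝓝 x] fun y => wt φ y • (N y)⁻¹ := by
    filter_upwards [hU] with y hy
    have hy' : y ≠ 0 := hy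
    simp [gmet, hy', wt]
  have hA : ∀ i j, ContDiffAt ℝ ∞ (fun y => (N y)⁻¹ i j) x := fun i j =>
    (R244.contDiffOn_inverseField (nfield_riem hN) i j).contDiffAt hU
  have hw := (wt_pos hφ hx).ne'
  have h0 : ‖x‖ ≠ 0 := norm_ne_zero_iff.2 hx
  rw [jet1_congr he, jet2_congr he, he.eq_of_nhds, GJ, HJ_qN hN hx]
  refine Prod.ext ?_ (Prod.ext ?_ ?_)
  · simp [twist, smul_smul, hw]
  · funext l
    simp only [twist]
    rw [jet1_smul (B := fun y => (N y)⁻¹) (cd_wt hφ hx) hA, pd_wt hφ hx]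
    ext i j
    simp only [pv, pX, Matrix.add_apply, Matrix.smul_apply, smul_eq_mul, PiLp.smul_apply]
    field_simp
  · funext m l
    simp only [twist]
    rw [jet2_smul (B := fun y => (N y)⁻¹) (cd_wt hφ hx) hA, pd_wt hφ hx, pd_wt hφ hx,
      pd2_wt hφ hx]
    ext i j
    simp only [pv, Sv, pX, Matrix.add_apply, Matrix.smul_apply, smul_eq_mul, PiLp.smul_apply]
    field_simp
    ring

end Crest.Agent.R202.GTanAux
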