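import Crest.Agent.R202.GDist

/-!
# Row 202, G2: asymptotic volume ratio, and the Laplacian

AVR: the ball of radius `R = rfun φ T` is the Euclidean ball of radius `e^T` (`gmet_dist`, `rfun φ` is
strictly increasing onto `(0,∞)`), its volume is `n ω ∫_{-∞}^T φ^n dt` (`R230.lintegral_polar`,
`gmet_sqrt_det`).  With `r = rfun φ`: `r' = φ`, `φ' = ϱ φ`, `ϱ → a`, so `φ / r → a` and
`(∫ φ^n) / r^n → a^{n-1}/n` (prove a small `∞/∞` l'Hôpital lemma: if `f' / h' → L`, `h' > 0`,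
`h → ∞` then `f/h → L`, by monotonicity of `f - (L ± ε) h`).

Laplacian: `√g g⁻¹ = (φ/|x|)^{n-2} N`, and `N ∇u = x D0 u/|x|² + ½ Σ c_{ik} ℓ_{ik} L_{ik} u / |x|²`
(because `½ Σ ℓ ℓᵀ = |x|² - x xᵀ`); `div (f x) = D0 f + n f`, `div (f ℓ_{ik}) = L_{ik} f`,
`L_{ik}` kills functions of `|x|`.  Hence
`div(√g g⁻¹ ∇u) = |x|^{-n} [D0(φ^d D0 u) + φ^d ½ Σ L(c L u)]`, and with `u = V/y`, `y² = φ^d`:
`D0(y² D0(V/y)) = y D0 D0 V - y'' V`.
-/

set_option autoImplicit false
open scoped ContDiff Topology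
open Filter Set MeasureTheory
open Crest.GeometryTopology.CoordMetric
open Crest.Agent.R230 (E MP sph ev Harm)

noncomputable section
namespace Crest.Agent.R202

variable {n : ℕ} {φ ϱ ϱ₁ : ℝ → ℝ} {a : ℝ} {N : MetricField n}

namespace GVolAux

/-- one-sided l'Hôpital estimate -/
theorem lhop_le {f f' h h' : ℝ → ℝ} {L : ℝ} (hf : ∀ t, 0 ≤ t → HasDerivAt f (f' t) t)
    (hh : ∀ t, 0 ≤ t → HasDerivAt h (h' t) t) (hp : ∀ t, 0 ≤ t → 0 < h' t)
    (hi : Tendsto h atTop atTop) (hL : Tendsto (fun t => f' t / h' t) atTop (𝓝 L)) {b : ℝ}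
    (hb : L < b) : ∀ᶠ t in atTop, f t / h t < b := by
  obtain ⟨c, hc1, hc2⟩ := exists_between hb
  obtain ⟨T, hT⟩ := eventually_atTop.1
    ((hL.eventually (gt_mem_nhds hc1)).and (eventually_ge_atTop (0 : ℝ)))
  have hd : ∀ t, T ≤ t → HasDerivAt (fun s => f s - c * h s) (f' t - c * h' t) t := fun t ht =>
    (hf t (hT t ht).2).sub ((hh t (hT t ht).2).const_mul c)
  have hanti : AntitoneOn (fun s => f s - c * h s) (Ici T) := by
    refine antitoneOn_of_deriv_nonpos (convex_Ici T)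
      (fun t ht => (hd t ht).continuousAt.continuousWithinAt)
      (fun t ht => (hd t (interior_subset ht)).differentiableAt.differentiableWithinAt)
      fun t ht => ?_
    have ht' : T ≤ t := interior_subset ht
    rw [(hd t ht').deriv]
    have := (div_lt_iff₀ (hp t (hT t ht').2)).1 (hT t ht').1
    linarith
  filter_upwards [eventually_ge_atTop T, hi.eventually_gt_atTop 0,
    hi.eventually_gt_atTop ((f T - c * h T) / (b - c))] with t ht h0 h1
  have h2 : f t - c * h t ≤ f T - c * h T := hanti (mem_Ici.2 le_rfl) ht ht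
  rw [div_lt_iff₀ (sub_pos.2 hc2)] at h1
  rw [div_lt_iff₀ h0]
  nlinarith

/-- l'Hôpital's rule for `∗/∞` at `+∞` -/
theorem lhop {f f' h h' : ℝ → ℝ} {L : ℝ} (hf : ∀ t, 0 ≤ t → HasDerivAt f (f' t) t)
    (hh : ∀ t, 0 ≤ t → HasDerivAt h (h' t) t) (hp : ∀ t, 0 ≤ t → 0 < h' t)
    (hi : Tendsto h atTop atTop) (hL : Tendsto (fun t => f' t / h' t) atTop (𝓝 L)) :
    Tendsto (fun t => f t / h t) atTop (𝓝 L) := by
  refine tendsto_order.2 ⟨fun b hb => ?_, fun b hb => lhop_le hf hh hp hi hL hb⟩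
  have hL' : Tendsto (fun t => -f' t / h' t) atTop (𝓝 (-L)) := by
    simpa only [neg_div] using hL.neg
  filter_upwards [lhop_le (f := fun t => -f t) (fun t ht => (hf t ht).neg) hh hp hi hL'
    (neg_lt_neg hb)] with t ht
  rw [neg_div] at ht
  linarith

theorem rfun_deriv (hφ : Warp n φ ϱ ϱ₁ a) (t : ℝ) : HasDerivAt (rfun φ) (φ t) t :=
  ((hφ.smooth.continuous.integral_hasStrictDerivAt 0 t).hasDerivAt).const_add 1

theorem rfun_strictMono (hφ : Warp n φ ϱ ϱ₁ a) : StrictMono (rfun φ) :=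
  strictMono_of_deriv_pos fun t => by
    rw [(rfun_deriv hφ t).deriv]
    exact hφ.pos t

theorem rfun_zero : rfun φ 0 = 1 := by simp [rfun]

theorem one_le (hφ : Warp n φ ϱ ϱ₁ a) {t : ℝ} (ht : 0 ≤ t) : 1 ≤ φ t := by
  have hm : Monotone φ := monotone_of_deriv_nonneg (fun t => (hφ.d1 t).differentiableAt) fun t => by
    rw [(hφ.d1 t).deriv]
    exact mul_nonneg (hφ.apos.le.trans (hφ.lo t)) (hφ.pos t).le
  have := hm ht
  rwa [hφ.init 0 le_rfl, Real.exp_zero] at this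

theorem rfun_ge (hφ : Warp n φ ϱ ϱ₁ a) {t : ℝ} (ht : 0 ≤ t) : 1 + t ≤ rfun φ t := by
  have : ∫ _s in (0 : ℝ)..t, (1 : ℝ) ≤ ∫ s in (0 : ℝ)..t, φ s :=
    intervalIntegral.integral_mono_on ht (by simp) (hφ.smooth.continuous.intervalIntegrable _ _)
      fun s hs => one_le hφ hs.1
  rw [intervalIntegral.integral_const, sub_zero, smul_eq_mul, mul_one] at this
  unfold rfun
  linarith

theorem rfun_tendsto (hφ : Warp n φ ϱ ϱ₁ a) : Tendsto (rfun φ) atTop atTop :=
  tendsto_atTop_mono' atTop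
    ((eventually_ge_atTop (0 : ℝ)).mono fun t ht => show t ≤ rfun φ t by linarith [rfun_ge hφ ht])
    tendsto_id

theorem ball_eq (hφ : Warp n φ ϱ ϱ₁ a) (hN : NField N) {T : ℝ} (hT : 0 ≤ T) :
    riemBall (gmet φ N) 0 (rfun φ T) = Metric.ball 0 (Real.exp T) := by
  ext y
  simp only [riemBall, mem_ofPred_eq, mem_ball_zero_iff]
  by_cases hy : y = 0
  · subst hy
    rw [gmet_dist_zero hφ hN, norm_zero]
    exact iff_of_true (by linarith [rfun_ge hφ hT]) (Real.exp_pos T)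
  · rw [gmet_dist hφ hN hy, (rfun_strictMono hφ).lt_iff_lt,
      Real.log_lt_iff_lt_exp (norm_pos_iff.2 hy)]

theorem cont (hφ : Warp n φ ϱ ϱ₁ a) :
    Continuous fun r : ℝ => (φ (Real.log (max r 1)) / max r 1) ^ n := by
  have h0 : ∀ r : ℝ, max r 1 ≠ 0 := fun r => (lt_of_lt_of_le one_pos (le_max_right r 1)).ne'
  have h1 : Continuous fun r : ℝ => max r 1 := continuous_id.max continuous_const
  exact ((hφ.smooth.continuous.comp (h1.log h0)).div h1 h0).pow n

theorem sqrt_det (hφ : Warp n φ ϱ ϱ₁ a) (hN : NField N) (x : E n) :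
    Real.sqrt (gmet φ N x).det = (φ (Real.log (max ‖x‖ 1)) / max ‖x‖ 1) ^ n := by
  rcases le_total ‖x‖ 1 with h | h
  · rw [gmet_one hφ hN x h, max_eq_right h, Real.log_one, hφ.init 0 le_rfl]
    simp
  · rw [gmet_sqrt_det hφ hN (norm_pos_iff.1 (lt_of_lt_of_le one_pos h)), max_eq_left h]

theorem vol_ball (hn : 1 ≤ n) (hφ : Warp n φ ϱ ϱ₁ a) (hN : NField N) {ρ : ℝ} (hρ : 0 ≤ ρ) :
    (riemVolume (gmet φ N) (Metric.ball 0 ρ)).toReal =
      n * (volume (Metric.ball (0 : E n) 1)).toReal *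
        ∫ r in (0 : ℝ)..ρ, r ^ (n - 1) * (φ (Real.log (max r 1)) / max r 1) ^ n := by
  have := R230.SphereAux.nontriv hn
  set w : ℝ → ℝ := fun r => (φ (Real.log (max r 1)) / max r 1) ^ n with hw
  have hw0 : ∀ r, 0 ≤ w r := fun r =>
    pow_nonneg (div_nonneg (hφ.pos _).le (zero_le_one.trans (le_max_right r 1))) n
  have hc : Continuous fun x : E n => w ‖x‖ := (cont hφ).comp continuous_norm
  have hint : IntegrableOn (fun x : E n => w ‖x‖) (Metric.ball 0 ρ) :=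
    (hc.continuousOn.integrableOn_compact (isCompact_closedBall 0 ρ)).mono_set
      Metric.ball_subset_closedBall
  have h1 : riemVolume (gmet φ N) (Metric.ball 0 ρ) =
      ENNReal.ofReal (∫ x in Metric.ball (0 : E n) ρ, w ‖x‖) := by
    rw [ofReal_integral_eq_lintegral_ofReal hint (Eventually.of_forall fun x => hw0 _), riemVolume]
    simp only [sqrt_det hφ hN, hw]
  rw [h1, ENNReal.toReal_ofReal (integral_nonneg fun x => hw0 _),
    ← integral_indicator measurableSet_ball]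
  have h2 : (Metric.ball (0 : E n) ρ).indicator (fun x => w ‖x‖) =
      fun x => (Iio ρ).indicator w ‖x‖ := by
    funext x
    by_cases hx : ‖x‖ < ρ
    · rw [indicator_of_mem (mem_ball_zero_iff.2 hx), indicator_of_mem (mem_Iio.2 hx)]
    · rw [indicator_of_notMem (mt mem_ball_zero_iff.1 hx), indicator_of_notMem (mt mem_Iio.1 hx)]
  rw [h2, integral_fun_norm_addHaar volume ((Iio ρ).indicator w), finrank_euclideanSpace_fin]
  have h3 : ∫ y in Ioi (0 : ℝ), y ^ (n - 1) • (Iio ρ).indicator w y =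
      ∫ r in (0 : ℝ)..ρ, r ^ (n - 1) * w r := by
    rw [intervalIntegral.integral_of_le hρ, integral_Ioc_eq_integral_Ioo, ← Ioi_inter_Iio,
      ← setIntegral_indicator measurableSet_Iio]
    congr 1
    funext y
    by_cases hy : y ∈ Iio ρ
    · rw [indicator_of_mem hy, indicator_of_mem hy, smul_eq_mul]
    · rw [indicator_of_notMem hy, indicator_of_notMem hy, smul_zero]
  rw [h3, nsmul_eq_mul, smul_eq_mul, mul_assoc, Measure.real]

theorem vol_deriv (hn : 1 ≤ n) (hφ : Warp n φ ϱ ϱ₁ a) {t : ℝ} (ht : 0 ≤ t) :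
    HasDerivAt (fun T : ℝ => ∫ r in (0 : ℝ)..Real.exp T,
      r ^ (n - 1) * (φ (Real.log (max r 1)) / max r 1) ^ n) (φ t ^ n) t := by
  have hc : Continuous fun r : ℝ => r ^ (n - 1) * (φ (Real.log (max r 1)) / max r 1) ^ n :=
    (continuous_pow _).mul (cont hφ)
  have h1 := ((hc.integral_hasStrictDerivAt 0 (Real.exp t)).hasDerivAt).comp t (Real.hasDerivAt_exp t)
  refine h1.congr_deriv ?_
  rw [max_eq_left (Real.one_le_exp ht), Real.log_exp, div_pow]
  obtain ⟨m, rfl⟩ : ∃ m, n = m + 1 := ⟨n - 1, by omega⟩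
  have := (Real.exp_pos t).ne'
  rw [Nat.add_sub_cancel]
  field_simp
  ring

theorem ratio (hn : 1 ≤ n) (hφ : Warp n φ ϱ ϱ₁ a) (hlim : Tendsto ϱ atTop (𝓝 a)) :
    Tendsto (fun T : ℝ => (∫ r in (0 : ℝ)..Real.exp T,
      r ^ (n - 1) * (φ (Real.log (max r 1)) / max r 1) ^ n) / rfun φ T ^ n) atTop
      (𝓝 (a ^ (n - 1) / n)) := by
  have h1 : Tendsto (fun t => φ t / rfun φ t) atTop (𝓝 a) :=
    lhop (fun t _ => hφ.d1 t) (fun t _ => rfun_deriv hφ t) (fun t _ => hφ.pos t) (rfun_tendsto hφ)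
      (hlim.congr fun t => by rw [mul_div_cancel_right₀ _ (hφ.pos t).ne'])
  have hn' : (0 : ℝ) < n := by exact_mod_cast hn
  have hr : ∀ t, 0 ≤ t → 0 < rfun φ t := fun t ht => by linarith [rfun_ge hφ ht]
  refine lhop (fun t ht => vol_deriv hn hφ ht) (fun t _ => (rfun_deriv hφ t).fun_pow n)
    (fun t ht => mul_pos (mul_pos hn' (pow_pos (hr t ht) _)) (hφ.pos t))
    ((tendsto_pow_atTop (by omega)).comp (rfun_tendsto hφ)) ?_
  refine ((h1.pow (n - 1)).div_const (n : ℝ)).congr' ?_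
  filter_upwards [eventually_ge_atTop (0 : ℝ)] with t ht
  obtain ⟨m, rfl⟩ : ∃ m, n = m + 1 := ⟨n - 1, by omega⟩
  have h2 := (hr t ht).ne'
  have h3 := (hφ.pos t).ne'
  rw [Nat.add_sub_cancel, div_pow, pow_succ]
  field_simp

end GVolAux

theorem gmet_avr (hn : 1 ≤ n) (hφ : Warp n φ ϱ ϱ₁ a) (hN : NField N)
    (hlim : Tendsto ϱ atTop (𝓝 a)) : HasAsymptoticVolumeRatio (gmet φ N) (a ^ (n - 1)) := by
  have hsurj : ∀ R : ℝ, ∃ T : ℝ, 1 ≤ R → 0 ≤ T ∧ rfun φ T = R := by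
    intro R
    by_cases hR : 1 ≤ R
    · have hc : Continuous (rfun φ) :=
        continuous_iff_continuousAt.2 fun t => (GVolAux.rfun_deriv hφ t).continuousAt
      obtain ⟨T, hT, hTR⟩ := intermediate_value_Icc (a := 0) (b := R) (by linarith) hc.continuousOn
        (show R ∈ Icc (rfun φ 0) (rfun φ R) from
          ⟨by rwa [GVolAux.rfun_zero], by linarith [GVolAux.rfun_ge hφ (by linarith : 0 ≤ R)]⟩)
      exact ⟨T, fun _ => ⟨hT.1, hTR⟩⟩
    · exact ⟨0, fun h => absurd h hR⟩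
  choose T hT using hsurj
  have hTt : Tendsto T atTop atTop := by
    refine tendsto_atTop.2 fun b => ?_
    filter_upwards [eventually_ge_atTop (1 : ℝ), eventually_ge_atTop (rfun φ b)] with R h1 h2
    rw [← (hT R h1).2] at h2
    exact (GVolAux.rfun_strictMono hφ).le_iff_le.1 h2
  have hn' : (n : ℝ) ≠ 0 := by
    have : n ≠ 0 := by omega
    exact_mod_cast this
  have hk : (volume (Metric.ball (0 : E n) 1)).toReal ≠ 0 :=
    (ENNReal.toReal_pos (Metric.measure_ball_pos volume 0 one_pos).ne' measure_ball_lt_top.ne).ne'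
  have h1 := ((GVolAux.ratio hn hφ hlim).comp hTt).const_mul (n : ℝ)
  rw [mul_div_cancel₀ _ hn'] at h1
  refine h1.congr' ?_
  filter_upwards [eventually_ge_atTop (1 : ℝ)] with R hR
  have h2 := GVolAux.ball_eq hφ hN (hT R hR).1
  rw [(hT R hR).2] at h2
  have h3 : R ≠ 0 := by linarith
  rw [h2, GVolAux.vol_ball hn hφ hN (Real.exp_pos _).le, Function.comp_apply, (hT R hR).2]
  field_simp

end Crest.Agent.R202
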