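import Crest.Agent.R202.HDefs

/-!
# Row 202, H11: blocks of labels between two degrees

A label `(m, k)` with `m ≥ 1` has degree `j + m + 2k`; there are `(l - j + 1)/2` such labels of degree `l`.  Labels of the same
degree are joined by an edge; the degrees `l` and `l + 1` are joined by the edge from `(l + 1 - j, 0)` to the label of degree
`l` with `m ∈ {1, 2}` (it exists as `j < l`).
-/

set_option autoImplicit false
open scoped ContDiff RealInnerProductSpace Topology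
open MeasureTheory Set Filter Module
open Crest.GeometryTopology.CoordMetric
open Crest.Agent.R230 (E MP sph ev Harm)

noncomputable section
namespace Crest.Agent.R202

/-- labels with `m ≥ 1` and degree in `[lo, hi]` -/
def blk (j lo hi : ℕ) : Finset (ℕ × ℕ) :=
  (Finset.range (hi + 1) ×ˢ Finset.range (hi + 1)).filter fun x =>
    1 ≤ x.1 ∧ lo ≤ ldeg j x ∧ ldeg j x ≤ hi

/-- the edges -/
def EdS (J : Finset ℕ) (lo hi : ℕ → ℕ) : Finset Edge :=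
  J.biUnion fun j => ((blk j (lo j) (hi j) ×ˢ blk j (lo j) (hi j)).filter fun y =>
    y.1 ≠ y.2 ∧ (ldeg j y.1 = ldeg j y.2 ∨ (y.1.2 = 0 ∧ y.2.1 ≤ 2 ∧ ldeg j y.1 = ldeg j y.2 + 1))).image
      fun y => (j, y)

theorem mem_blk {j lo hi : ℕ} {x : ℕ × ℕ} :
    x ∈ blk j lo hi ↔ 1 ≤ x.1 ∧ lo ≤ ldeg j x ∧ ldeg j x ≤ hi := by
  rw [blk, Finset.mem_filter, Finset.mem_product, Finset.mem_range, Finset.mem_range]
  refine ⟨fun h => h.2, fun h => ⟨?_, h⟩⟩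
  have := h.2.2
  unfold ldeg at this
  omega

theorem HBlk_ldeg {j : ℕ} {x : ℕ × ℕ} (h : 1 ≤ x.1) : ldeg j x = j + x.1 + 2 * x.2 := by
  rw [ldeg, if_neg (by omega), add_zero]

theorem HBlk_mem {j lo hi : ℕ} {x : ℕ × ℕ} :
    x ∈ blk j lo hi ↔ 1 ≤ x.1 ∧ lo ≤ j + x.1 + 2 * x.2 ∧ j + x.1 + 2 * x.2 ≤ hi := by
  rw [mem_blk]
  exact and_congr_right fun h => by rw [HBlk_ldeg h]

theorem HBlk_fiber {j lo hi l : ℕ} (hl : l ∈ Finset.Icc lo hi) :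
    ((blk j lo hi).filter fun x => ldeg j x = l).card = (l - j + 1) / 2 := by
  rw [← Finset.card_range ((l - j + 1) / 2)]
  rw [Finset.mem_Icc] at hl
  have key : ∀ x : ℕ × ℕ, x ∈ (blk j lo hi).filter (fun x => ldeg j x = l) ↔
      1 ≤ x.1 ∧ j + x.1 + 2 * x.2 = l := fun x => by
    rw [Finset.mem_filter, HBlk_mem]
    exact ⟨fun h => ⟨h.1.1, HBlk_ldeg h.1.1 ▸ h.2⟩,
      fun h => ⟨⟨h.1, by omega, by omega⟩, (HBlk_ldeg h.1).trans h.2⟩⟩
  refine Finset.card_bij (fun x _ => x.2) (fun x hx => ?_) (fun x hx y hy h => ?_) fun k hk => ?_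
  · have := (key x).1 hx
    rw [Finset.mem_range]; omega
  · have := (key x).1 hx
    have := (key y).1 hy
    exact Prod.ext (by omega) h
  · rw [Finset.mem_range] at hk
    exact ⟨(l - j - 2 * k, k), (key _).2 (by dsimp only; omega), rfl⟩

theorem sum_blk (j lo hi : ℕ) (f : ℕ → ℝ) :
    ∑ x ∈ blk j lo hi, f (ldeg j x) = ∑ l ∈ Finset.Icc lo hi, (((l - j + 1) / 2 : ℕ) : ℝ) * f l := by
  rw [← Finset.sum_fiberwise_of_maps_to (g := ldeg j) (t := Finset.Icc lo hi)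
    fun x hx => Finset.mem_Icc.2 (mem_blk.1 hx).2]
  refine Finset.sum_congr rfl fun l hl => ?_
  rw [Finset.sum_congr rfl fun x hx => by rw [(Finset.mem_filter.1 hx).2], Finset.sum_const,
    HBlk_fiber hl, nsmul_eq_mul]

theorem card_blk (j lo hi : ℕ) : (blk j lo hi).card = ∑ l ∈ Finset.Icc lo hi, (l - j + 1) / 2 := by
  rw [Finset.card_eq_sum_card_fiberwise (f := ldeg j) (t := Finset.Icc lo hi)
    fun x hx => Finset.mem_coe.2 (Finset.mem_Icc.2 (mem_blk.1 (Finset.mem_coe.1 hx)).2)]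
  exact Finset.sum_congr rfl fun l hl => HBlk_fiber hl

theorem HBlk_EdS {J : Finset ℕ} {lo hi : ℕ → ℕ} {e : Edge} :
    e ∈ EdS J lo hi ↔ e.1 ∈ J ∧ e.2.1 ∈ blk e.1 (lo e.1) (hi e.1) ∧
      e.2.2 ∈ blk e.1 (lo e.1) (hi e.1) ∧ e.2.1 ≠ e.2.2 ∧ (ldeg e.1 e.2.1 = ldeg e.1 e.2.2 ∨
        (e.2.1.2 = 0 ∧ e.2.2.1 ≤ 2 ∧ ldeg e.1 e.2.1 = ldeg e.1 e.2.2 + 1)) := by
  simp only [EdS, Finset.mem_biUnion, Finset.mem_image, Finset.mem_filter, Finset.mem_product]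
  constructor
  · rintro ⟨j, hj, y, hy, rfl⟩
    exact ⟨hj, hy.1.1, hy.1.2, hy.2⟩
  · rintro ⟨hj, h1, h2, h3⟩
    exact ⟨e.1, hj, e.2, ⟨⟨h1, h2⟩, h3⟩, rfl⟩

theorem mem_EdS {J : Finset ℕ} {lo hi : ℕ → ℕ} {e : Edge} (he : e ∈ EdS J lo hi) :
    e.1 ∈ J ∧ 1 ≤ e.2.1.1 ∧ 1 ≤ e.2.2.1 ∧
      ((e.2.1.1 ≠ e.2.2.1 ∧ ldeg e.1 e.2.1 = ldeg e.1 e.2.2) ∨
        ∃ l, lo e.1 ≤ l ∧ l < hi e.1 ∧ e.2.1 = (l + 1 - e.1, 0) ∧ e.2.2.1 ≤ 2 ∧ ldeg e.1 e.2.2 = l) := by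
  obtain ⟨hj, h1, h2, h3, h4⟩ := HBlk_EdS.1 he
  obtain ⟨j, ⟨m, k⟩, m', k'⟩ := e
  have g1 := HBlk_mem.1 h1
  have g2 := HBlk_mem.1 h2
  refine ⟨hj, g1.1, g2.1, ?_⟩
  rcases h4 with h4 | h4
  · refine Or.inl ⟨fun h => h3 (Prod.ext h ?_), h4⟩
    rw [HBlk_ldeg g1.1, HBlk_ldeg g2.1] at h4
    dsimp only at *
    omega
  · refine Or.inr ⟨_, ?_, ?_, Prod.ext ?_ h4.1, h4.2.1, rfl⟩ <;>
      rw [HBlk_ldeg g1.1, HBlk_ldeg g2.1] at h4 <;> rw [HBlk_ldeg g2.1] <;> dsimp only at * <;>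
      omega

theorem HBlk_step {J : Finset ℕ} {lo hi : ℕ → ℕ} {j l : ℕ} (hj : j ∈ J) (h : j < lo j)
    (h1 : lo j ≤ l) (h2 : l < hi j) :
    (j, (l + 1 - j, 0), (l - j - 2 * ((l - j - 1) / 2), (l - j - 1) / 2)) ∈ EdS J lo hi := by
  refine HBlk_EdS.2 ⟨hj, HBlk_mem.2 (by dsimp only; omega), HBlk_mem.2 (by dsimp only; omega),
    fun e => ?_, Or.inr ⟨rfl, by dsimp only; omega, ?_⟩⟩
  · simp only [Prod.mk.injEq] at e
    omega
  · rw [HBlk_ldeg, HBlk_ldeg] <;> dsimp only <;> omega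

theorem mix_blk {J : Finset ℕ} {lL lo hi : ℕ → ℕ} {θ₀ : ℝ} (h1 : ∀ j ∈ J, lL j ≤ lo j)
    (h2 : ∀ j ∈ J, j < lo j) (hne : ∃ j ∈ J, lo j < hi j)
    (havg : ∀ j ∈ J, ∑ l ∈ Finset.Icc (lo j) (hi j), (((l - j + 1) / 2 : ℕ) : ℝ) * ((l : ℝ) - θ₀) ≤ 0)
    (hs : ∀ j ∈ J, ∀ l : ℕ, lL j ≤ l → l < lo j → l ≤ hi j → (l : ℝ) ≤ θ₀) :
    Mix J (fun j => blk j (lL j) (hi j)) (fun j => blk j (lo j) (hi j)) (EdS J lo hi) θ₀ := by
  refine ⟨?_, fun j _ x hx => (mem_blk.1 hx).1, fun j hj x hx => ?_, fun e he => ?_,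
    fun j hj x hx x' hx' => ?_, fun j hj => ?_, fun j hj x hx hx' => ?_⟩
  · obtain ⟨j, hj, h⟩ := hne
    exact ⟨_, HBlk_step hj (h2 j hj) le_rfl h⟩
  · rw [mem_blk] at hx ⊢
    exact ⟨hx.1, (h1 j hj).trans hx.2.1, hx.2.2⟩
  · obtain ⟨a, b, c, d, -⟩ := HBlk_EdS.1 he
    exact ⟨a, b, c, d⟩
  · have hsame : ∀ y ∈ blk j (lo j) (hi j), ∀ y' ∈ blk j (lo j) (hi j), ldeg j y = ldeg j y' →
        Relation.ReflTransGen (fun y y' => (j, y, y') ∈ EdS J lo hi ∨ (j, y', y) ∈ EdS J lo hi)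
          y y' := by
      intro y hy y' hy' h
      rcases eq_or_ne y y' with rfl | hne'
      · exact .refl
      · exact .single (Or.inl (HBlk_EdS.2 ⟨hj, hy, hy', hne', Or.inl h⟩))
    have hb : ∀ i, ∀ y ∈ blk j (lo j) (hi j), ldeg j y = lo j + i →
        Relation.ReflTransGen (fun y y' => (j, y, y') ∈ EdS J lo hi ∨ (j, y', y) ∈ EdS J lo hi)
          y (lo j - j, 0) := by
      have := h2 j hj
      intro i
      induction i with
      | zero =>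
        intro y hy h
        have := mem_blk.1 hy
        refine hsame y hy _ (HBlk_mem.2 (by dsimp only; omega)) ?_
        rw [h, HBlk_ldeg] <;> dsimp only <;> omega
      | succ i ih =>
        intro y hy h
        have := mem_blk.1 hy
        have he := HBlk_step hj (h2 j hj) (Nat.le_add_right (lo j) i) (hi := hi) (by omega)
        obtain ⟨-, b, c, -, -⟩ := HBlk_EdS.1 he
        refine (hsame y hy _ b ?_).trans (.head (Or.inl he) (ih _ c ?_))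
        · rw [h, HBlk_ldeg] <;> dsimp only <;> omega
        · rw [HBlk_ldeg] <;> dsimp only <;> omega
    have k1 := hb (ldeg j x - lo j) x hx (by have := mem_blk.1 hx; omega)
    have k2 := hb (ldeg j x' - lo j) x' hx' (by have := mem_blk.1 hx'; omega)
    refine k1.trans ?_
    exact Relation.ReflTransGen.mono (fun _ _ h => Or.symm h) _ _ k2.swap
  · have := havg j hj
    simp only [mul_sub, Finset.sum_sub_distrib, ← Finset.sum_mul] at this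
    rw [sum_blk j (lo j) (hi j) fun l => (l : ℝ), card_blk, Nat.cast_sum]
    linarith
  · rw [mem_blk] at hx hx'
    exact hs j hj _ hx.2.1 (by omega) hx.2.2

end Crest.Agent.R202
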