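import Crest.Agent.R202.HDefs

/-!
# Row 202, H5: a periodic word of transpositions that equidistributes the labels

Work with the finite type `Λ` of pairs `(j, x)`, `j ∈ J`, `x ∈ L j`, the transpositions `σ_e` (`e ∈ Ed`) and the finite
group `Γ` they generate.  Every `γ ∈ Γ` is the product of a non-empty word `w_γ` in the edges (append `e₀ e₀`).
The cycle is the concatenation over `γ ∈ Γ` of `w_γ` and its reverse; mark the position after `w_γ`, where the
accumulated permutation is `γ`; after a full cycle it is `1`.  The orbit of `(j, x)` is `O j` or a point, and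
`Σ_{γ ∈ Γ} f (γ x) = |Γ|/|orbit| · Σ_{orbit} f ≤ θ₀ |Γ|` (e.g. `MulAction.orbitEquivQuotientStabilizer`, or: all fibres of
`γ ↦ γ x` have the same size).
-/

set_option autoImplicit false
open scoped ContDiff RealInnerProductSpace Topology
open MeasureTheory Set Filter Module
open Crest.GeometryTopology.CoordMetric
open Crest.Agent.R230 (E MP sph ev Harm)

noncomputable section
namespace Crest.Agent.R202

namespace HC

/-- the transposition of an edge, acting on the pairs (block, label) -/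
def sg (e : Edge) : Equiv.Perm (ℕ × ℕ × ℕ) := Equiv.swap (e.1, e.2.1) (e.1, e.2.2)

theorem sg_apply (e : Edge) (j : ℕ) (x : ℕ × ℕ) : sg e (j, x) = (j, swp e.1 e.2.1 e.2.2 j x) := by
  rw [sg, swp]
  split_ifs with h
  · subst h
    exact (Function.Injective.map_swap (f := Prod.mk e.1) (Prod.mk_right_injective e.1) _ _ _).symm
  · exact Equiv.swap_apply_of_ne_of_ne (fun h' => h (congrArg Prod.fst h'))
      (fun h' => h (congrArg Prod.fst h'))

theorem sg_mul_self (e : Edge) : sg e * sg e = 1 := Equiv.swap_mul_self _ _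

/-- the permutation accumulated along a word -/
def acc (w : List Edge) : Equiv.Perm (ℕ × ℕ × ℕ) := (w.map sg).reverse.prod

theorem acc_nil : acc [] = 1 := rfl

theorem acc_append (w w' : List Edge) : acc (w ++ w') = acc w' * acc w := by
  simp [acc]

theorem acc_single (e : Edge) : acc [e] = sg e := by simp [acc]

theorem acc_cons (e : Edge) (w : List Edge) : acc (e :: w) = acc w * sg e := by
  simp [acc]

theorem acc_reverse (w : List Edge) : acc w.reverse * acc w = 1 := by
  induction w with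
  | nil => simp [acc]
  | cons e w ih =>
    rw [List.reverse_cons, acc_append, acc_single, acc_cons, mul_assoc, ← mul_assoc (acc w.reverse),
      ih, one_mul, sg_mul_self]

/-- the permutations given by words in the edges -/
def Gam (Ed : Finset Edge) : Set (Equiv.Perm (ℕ × ℕ × ℕ)) :=
  {γ | ∃ w : List Edge, (∀ e ∈ w, e ∈ Ed) ∧ acc w = γ}

theorem one_mem (Ed : Finset Edge) : 1 ∈ Gam Ed := ⟨[], by simp, rfl⟩

theorem mul_mem {Ed : Finset Edge} {e : Edge} (he : e ∈ Ed) {γ : Equiv.Perm (ℕ × ℕ × ℕ)}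
    (h : γ ∈ Gam Ed) : sg e * γ ∈ Gam Ed := by
  obtain ⟨w, hw, rfl⟩ := h
  refine ⟨w ++ [e], fun e' he' => ?_, by rw [acc_append, acc_single]⟩
  rcases List.mem_append.1 he' with h1 | h1
  · exact hw e' h1
  · rw [List.mem_singleton.1 h1]; exact he

theorem induction {Ed : Finset Edge} {Q : Equiv.Perm (ℕ × ℕ × ℕ) → Prop} (h1 : Q 1)
    (h2 : ∀ e ∈ Ed, ∀ γ, Q γ → Q (sg e * γ)) : ∀ γ ∈ Gam Ed, Q γ := by
  rintro γ ⟨w, hw, rfl⟩
  induction w using List.reverseRecOn with
  | nil => exact h1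
  | append_singleton w e ih =>
    rw [acc_append, acc_single]
    exact h2 e (hw e (by simp)) _ (ih fun e' he' => hw e' (by simp [he']))

theorem finite (Ed : Finset Edge) : (Gam Ed).Finite := by
  classical
  let S : Finset (ℕ × ℕ × ℕ) := Ed.image (fun e => (e.1, e.2.1)) ∪ Ed.image fun e => (e.1, e.2.2)
  refine (Set.finite_range
    (Equiv.Perm.ofSubtype : Equiv.Perm {p // p ∈ S} →* Equiv.Perm (ℕ × ℕ × ℕ))).subset ?_
  refine induction ⟨1, map_one _⟩ ?_
  rintro e he γ ⟨g, rfl⟩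
  have a : (e.1, e.2.1) ∈ S := Finset.mem_union_left _ (Finset.mem_image_of_mem _ he)
  have b : (e.1, e.2.2) ∈ S := Finset.mem_union_right _ (Finset.mem_image_of_mem _ he)
  exact ⟨Equiv.swap ⟨_, a⟩ ⟨_, b⟩ * g, by rw [map_mul, Equiv.Perm.ofSubtype_swap_eq]; rfl⟩

theorem cycle {Ed : Finset Edge} {e₀ : Edge} (he₀ : e₀ ∈ Ed) (T : Finset (Equiv.Perm (ℕ × ℕ × ℕ)))
    (hT : ∀ γ ∈ T, γ ∈ Gam Ed) : ∃ (W : List Edge) (A : Finset ℕ), (∀ e ∈ W, e ∈ Ed) ∧ acc W = 1 ∧
      (∀ i ∈ A, i < W.length) ∧ ∀ F : Equiv.Perm (ℕ × ℕ × ℕ) → ℝ,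
        ∑ i ∈ A, F (acc (W.take i)) = ∑ γ ∈ T, F γ := by
  classical
  induction T using Finset.induction_on with
  | empty => exact ⟨[], ∅, by simp, rfl, by simp, by simp⟩
  | insert γ T hγ ih =>
    obtain ⟨W, A, h1, h2, h3, h4⟩ := ih fun g hg => hT g (Finset.mem_insert_of_mem hg)
    obtain ⟨w, hw, rfl⟩ := hT γ (Finset.mem_insert_self _ _)
    have hA : (W ++ w).length ∉ A := fun h => by
      have := h3 _ h
      rw [List.length_append] at this
      omega
    refine ⟨(W ++ w) ++ (e₀ :: e₀ :: w.reverse), insert (W ++ w).length A, ?_, ?_, ?_, fun F => ?_⟩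
    · intro e he
      simp only [List.mem_append, List.mem_cons, List.mem_reverse] at he
      rcases he with (he | he) | rfl | rfl | he
      exacts [h1 e he, hw e he, he₀, he₀, hw e he]
    · rw [acc_append, acc_append, acc_cons, acc_cons, h2, mul_one, mul_assoc (acc w.reverse),
        sg_mul_self, mul_one, acc_reverse]
    · intro i hi
      rcases Finset.mem_insert.1 hi with rfl | hi
      · simp
      · have := h3 i hi
        simp only [List.length_append]
        omega
    · rw [Finset.sum_insert hA, Finset.sum_insert hγ, List.take_left, acc_append, h2, mul_one, ← h4]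
      congr 1
      refine Finset.sum_congr rfl fun i hi => ?_
      rw [List.append_assoc, List.take_append_of_le_length (h3 i hi).le]

/-- the permutation after `n` steps of an infinite word -/
def Ph (e : ℕ → Edge) : ℕ → Equiv.Perm (ℕ × ℕ × ℕ)
  | 0 => 1
  | n + 1 => sg (e n) * Ph e n

theorem Ph_apply (e : ℕ → Edge) (j : ℕ) (x : ℕ × ℕ) (n : ℕ) : Ph e n (j, x) = (j, labI e j x n) := by
  induction n with
  | zero => rfl
  | succ n ih => rw [Ph, Equiv.Perm.mul_apply, ih, sg_apply]; rfl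

theorem Ph_per (W : List Edge) (e₀ : Edge) (hW : acc W = 1) (r : ℕ) : ∀ i ≤ W.length,
    Ph (fun n => W.getD (n % W.length) e₀) (r * W.length + i) = acc (W.take i) := by
  have step : ∀ r : ℕ, Ph (fun n => W.getD (n % W.length) e₀) (r * W.length) = 1 →
      ∀ i ≤ W.length,
        Ph (fun n => W.getD (n % W.length) e₀) (r * W.length + i) = acc (W.take i) := by
    intro r hr i
    induction i with
    | zero => intro _; simpa [acc] using hr
    | succ i ih =>
      intro hi
      have hi' : i < W.length := hi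
      rw [← add_assoc, Ph, ih hi'.le, List.take_succ_eq_append_getElem hi', acc_append, acc_single,
        Nat.mul_add_mod', Nat.mod_eq_of_lt hi', List.getD_eq_getElem _ _ hi']
  refine step r ?_
  induction r with
  | zero => rw [zero_mul]; rfl
  | succ r ih => rw [add_mul, one_mul, step r ih _ le_rfl, List.take_length, hW]

variable {J : Finset ℕ} {L O : ℕ → Finset (ℕ × ℕ)} {Ed : Finset Edge} {θ₀ : ℝ}

theorem swp_mem (h : Mix J L O Ed θ₀) {e : Edge} (he : e ∈ Ed) {j : ℕ} {x : ℕ × ℕ} (hx : x ∈ O j) :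
    swp e.1 e.2.1 e.2.2 j x ∈ O j := by
  obtain ⟨-, h1, h2, -⟩ := h.edge e he
  rw [swp]
  split_ifs with hj
  · subst hj
    rw [Equiv.swap_apply_def]
    split_ifs
    exacts [h2, h1, hx]
  · exact hx

theorem swp_fix (h : Mix J L O Ed θ₀) {e : Edge} (he : e ∈ Ed) {j : ℕ} {x : ℕ × ℕ} (hx : x ∉ O j) :
    swp e.1 e.2.1 e.2.2 j x = x := by
  obtain ⟨-, h1, h2, -⟩ := h.edge e he
  rw [swp]
  split_ifs with hj
  · subst hj
    exact Equiv.swap_apply_of_ne_of_ne (fun h' => hx (h' ▸ h1)) (fun h' => hx (h' ▸ h2))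
  · rfl

theorem avg (h : Mix J L O Ed θ₀) {j : ℕ} (hj : j ∈ J) {x : ℕ × ℕ} (hx : x ∈ L j) :
    ∑ γ ∈ (finite Ed).toFinset, (ldeg j (γ (j, x)).2 : ℝ) ≤ θ₀ * (finite Ed).toFinset.card := by
  classical
  set T := (finite Ed).toFinset with hT
  have mem : ∀ γ, γ ∈ T ↔ γ ∈ Gam Ed := fun γ => Set.Finite.mem_toFinset _
  by_cases hO : x ∈ O j
  · have orb : ∀ γ ∈ Gam Ed, ∃ y ∈ O j, γ (j, x) = (j, y) := by
      refine induction ⟨x, hO, rfl⟩ ?_
      rintro e he γ ⟨y, hy, hγ⟩
      exact ⟨_, swp_mem h he hy, by rw [Equiv.Perm.mul_apply, hγ, sg_apply]⟩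
    have maps : ∀ γ ∈ T, (γ (j, x)).2 ∈ O j := fun γ hγ => by
      obtain ⟨y, hy, e⟩ := orb γ ((mem γ).1 hγ)
      rw [e]; exact hy
    have fst : ∀ γ ∈ T, ∀ y, (γ (j, x)).2 = y ↔ γ (j, x) = (j, y) := fun γ hγ y => by
      obtain ⟨y', -, e⟩ := orb γ ((mem γ).1 hγ)
      rw [e]; simp
    let N : ℕ × ℕ → ℕ := fun y => (T.filter fun γ => (γ (j, x)).2 = y).card
    have one : ∀ e ∈ Ed, ∀ y y', sg e (j, y) = (j, y') → N y ≤ N y' := by
      intro e he y y' hy
      refine Finset.card_le_card_of_injOn (fun γ => sg e * γ) (fun γ hγ => ?_) ?_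
      · obtain ⟨h1, h2⟩ := Finset.mem_filter.1 (Finset.mem_coe.1 hγ)
        refine Finset.mem_coe.2 (Finset.mem_filter.2 ⟨(mem _).2 (mul_mem he ((mem γ).1 h1)), ?_⟩)
        show (sg e (γ (j, x))).2 = y'
        rw [(fst γ h1 y).1 h2, hy]
      · exact (mul_right_injective (sg e)).injOn
    have two : ∀ y y', (j, y, y') ∈ Ed → N y = N y' := fun y y' he =>
      le_antisymm (one _ he y y' (Equiv.swap_apply_left _ _))
        (one _ he y' y (Equiv.swap_apply_right _ _))
    have const : ∀ y ∈ O j, N y = N x := by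
      intro y hy
      have c := h.conn j hj x hO y hy
      clear hy
      induction c with
      | refl => rfl
      | tail _ h2 ih =>
        rcases h2 with h2 | h2
        · rw [← two _ _ h2, ih]
        · rw [two _ _ h2, ih]
    have e1 : ∑ γ ∈ T, (ldeg j (γ (j, x)).2 : ℝ) = N x * ∑ y ∈ O j, (ldeg j y : ℝ) := by
      rw [← Finset.sum_fiberwise_of_maps_to maps, Finset.mul_sum]
      refine Finset.sum_congr rfl fun y hy => ?_
      rw [Finset.sum_congr rfl (g := fun _ => (ldeg j y : ℝ)) fun γ hγ => by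
        rw [(Finset.mem_filter.1 hγ).2], Finset.sum_const, nsmul_eq_mul, ← const y hy]
    have e2 : T.card = N x * (O j).card := by
      rw [Finset.card_eq_sum_card_fiberwise (f := fun γ : Equiv.Perm (ℕ × ℕ × ℕ) => (γ (j, x)).2)
          (s := T) (t := O j) (fun γ hγ => maps γ hγ),
        Finset.sum_congr rfl (g := fun _ => N x) fun y hy => const y hy, Finset.sum_const,
        smul_eq_mul, mul_comm]
    rw [e1, e2, Nat.cast_mul, mul_left_comm]
    exact mul_le_mul_of_nonneg_left (h.avg j hj) (Nat.cast_nonneg _)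
  · have fix : ∀ γ ∈ Gam Ed, γ (j, x) = (j, x) := by
      refine induction rfl fun e he γ hγ => ?_
      rw [Equiv.Perm.mul_apply, hγ, sg_apply, swp_fix h he hO]
    rw [Finset.sum_congr rfl (g := fun _ => (ldeg j x : ℝ)) fun γ hγ => by
      rw [fix γ ((mem γ).1 hγ)], Finset.sum_const, nsmul_eq_mul, mul_comm]
    exact mul_le_mul_of_nonneg_right (h.single j hj x hx hO) (Nat.cast_nonneg _)

end HC

theorem mix_word {J : Finset ℕ} {L O : ℕ → Finset (ℕ × ℕ)} {Ed : Finset Edge} {θ₀ : ℝ}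
    (h : Mix J L O Ed θ₀) : ∃ (P : ℕ) (e : ℕ → Edge) (lg : ℕ → Bool), 1 ≤ P ∧ (∀ i, e i ∈ Ed) ∧
      (∀ i, lg (i + P) = lg i) ∧ (∃ i, lg i = true) ∧ ∀ j ∈ J, ∀ x ∈ L j, ∀ r : ℕ,
        ∑ i ∈ (Finset.range P).filter (fun i => lg i = true), (ldeg j (labI e j x (r * P + i)) : ℝ) ≤
          θ₀ * ((Finset.range P).filter fun i => lg i = true).card := by
  classical
  obtain ⟨e₀, he₀⟩ := h.ne
  obtain ⟨W, A, h1, h2, h3, h4⟩ := HC.cycle he₀ (HC.finite Ed).toFinset
    fun γ hγ => (Set.Finite.mem_toFinset _).1 hγ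
  have hc : (A.card : ℝ) = (HC.finite Ed).toFinset.card := by simpa using h4 fun _ => 1
  have hA : A.Nonempty := by
    rw [← Finset.card_pos, Nat.cast_inj.1 hc, Finset.card_pos]
    exact ⟨1, (Set.Finite.mem_toFinset _).2 (HC.one_mem Ed)⟩
  obtain ⟨i₀, hi₀⟩ := hA
  have hP : 0 < W.length := lt_of_le_of_lt (Nat.zero_le _) (h3 i₀ hi₀)
  have hf : (Finset.range W.length).filter (fun i => decide (i % W.length ∈ A) = true) = A := by
    ext i
    rw [Finset.mem_filter, Finset.mem_range, decide_eq_true_iff]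
    refine ⟨fun hi => by rw [← Nat.mod_eq_of_lt hi.1]; exact hi.2, fun hi => ⟨h3 i hi, ?_⟩⟩
    rw [Nat.mod_eq_of_lt (h3 i hi)]; exact hi
  refine ⟨W.length, fun n => W.getD (n % W.length) e₀, fun n => decide (n % W.length ∈ A), hP,
    fun i => ?_, fun i => by simp only [Nat.add_mod_right], ⟨i₀, ?_⟩, fun j hj x hx r => ?_⟩
  · show W.getD (i % W.length) e₀ ∈ Ed
    rw [List.getD_eq_getElem _ _ (Nat.mod_lt _ hP)]
    exact h1 _ (List.getElem_mem _)
  · rw [decide_eq_true_iff, Nat.mod_eq_of_lt (h3 i₀ hi₀)]; exact hi₀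
  · rw [hf, hc]
    refine le_of_eq_of_le ?_ (HC.avg h hj hx)
    rw [← h4 fun γ => (ldeg j (γ (j, x)).2 : ℝ)]
    refine Finset.sum_congr rfl fun i hi => ?_
    rw [← HC.Ph_per W e₀ h2 r i (h3 i hi).le, HC.Ph_apply]

theorem labI_mem {J : Finset ℕ} {L O : ℕ → Finset (ℕ × ℕ)} {Ed : Finset Edge} {θ₀ : ℝ}
    (h : Mix J L O Ed θ₀) {e : ℕ → Edge} (he : ∀ i, e i ∈ Ed) {j : ℕ} (hj : j ∈ J) {x : ℕ × ℕ}
    (hx : x ∈ L j) (i : ℕ) : labI e j x i ∈ L j := by
  induction i with
  | zero => exact hx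
  | succ i ih =>
    rw [labI]
    by_cases hO : labI e j x i ∈ O j
    · exact h.sub j hj (HC.swp_mem h (he i) hO)
    · rw [HC.swp_fix h (he i) hO]; exact ih

theorem labI_inj (e : ℕ → Edge) (j i : ℕ) : Function.Injective fun x => labI e j x i := by
  intro x y hxy
  have h : HC.Ph e i (j, x) = HC.Ph e i (j, y) := by
    rw [HC.Ph_apply, HC.Ph_apply]; exact congrArg _ hxy
  exact congrArg Prod.snd ((HC.Ph e i).injective h)

end Crest.Agent.R202
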