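import Mathlib

/-!
# Row 202, H12: binomial sums for `count8`
-/

set_option autoImplicit false

namespace Crest.Agent.R202

theorem vand_up {s a : ℕ} (hs : s ≤ a) (b K : ℕ) :
    ∑ j ∈ Finset.range K, Nat.choose (j + s) a * Nat.choose (K - 1 - j + b) b =
      Nat.choose (K + s + b) (a + b + 1) := by
  induction b generalizing K with
  | zero =>
    induction K with
    | zero => simp [Nat.choose_eq_zero_of_lt (by omega : s < a + 1)]
    | succ K ih =>
      simp only [Nat.choose_zero_right, mul_one, add_zero] at ih ⊢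
      rw [Finset.sum_range_succ, ih, show K + 1 + s = K + s + 1 by ring, Nat.choose_succ_succ]
      ring
  | succ b ihb =>
    induction K with
    | zero => simp [Nat.choose_eq_zero_of_lt (by omega : s + (b + 1) < a + (b + 1) + 1)]
    | succ K ih =>
      have h1 : ∀ j ∈ Finset.range (K + 1),
          Nat.choose (j + s) a * Nat.choose (K + 1 - 1 - j + (b + 1)) (b + 1) =
          Nat.choose (j + s) a * Nat.choose (K + 1 - 1 - j + b) b +
            Nat.choose (j + s) a * Nat.choose (K + 1 - 1 - j + b) (b + 1) := by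
        intro j _
        rw [← add_assoc, Nat.choose_succ_succ', mul_add]
      rw [Finset.sum_congr rfl h1, Finset.sum_add_distrib, ihb (K + 1), Finset.sum_range_succ]
      have h2 : ∀ j ∈ Finset.range K,
          Nat.choose (j + s) a * Nat.choose (K + 1 - 1 - j + b) (b + 1) =
          Nat.choose (j + s) a * Nat.choose (K - 1 - j + (b + 1)) (b + 1) := by
        intro j hj
        have := Finset.mem_range.1 hj
        congr 2
        omega
      rw [Finset.sum_congr rfl h2, ih, Nat.choose_eq_zero_of_lt (by omega : K + 1 - 1 - K + b < b + 1),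
        mul_zero, add_zero, show K + 1 + s + (b + 1) = (K + 1 + s + b) + 1 by ring,
        show a + (b + 1) + 1 = (a + b + 1) + 1 by ring, Nat.choose_succ_succ',
        show K + s + (b + 1) = K + 1 + s + b by ring]

theorem wsum_ge (j N : ℕ) :
    Nat.choose (N + 1) 2 ≤ 2 * ∑ l ∈ Finset.Icc 0 (j + N), (l - j + 1) / 2 := by
  induction N with
  | zero => simp
  | succ N ih =>
    rw [← add_assoc, Finset.sum_Icc_succ_top (by omega), Nat.choose_succ_succ' (N + 1) 1,
      Nat.choose_one_right]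
    simp only [Nat.reduceAdd]
    omega

theorem wsum_add {j K : ℕ} (h : j ≤ K) (m : ℕ) :
    2 * ∑ l ∈ Finset.Icc 0 K, (l - j + 1) / 2 + m * (K - j) ≤
      2 * ∑ l ∈ Finset.Icc 0 (K + m), (l - j + 1) / 2 := by
  induction m with
  | zero => simp
  | succ m ih =>
    rw [← add_assoc, Finset.sum_Icc_succ_top (by omega), Nat.succ_mul m]
    omega

theorem choose_add_le (n m r : ℕ) :
    Nat.choose (n + m) (r + 1) ≤ Nat.choose n (r + 1) + m * Nat.choose (n + m - 1) r := by
  induction m with
  | zero => simp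
  | succ m ih =>
    have h1 : Nat.choose (n + m - 1) r ≤ Nat.choose (n + m) r := Nat.choose_le_choose r (by omega)
    have h2 := Nat.mul_le_mul_left m h1
    rw [← add_assoc, Nat.choose_succ_succ', Nat.add_sub_cancel, Nat.succ_mul]
    omega

theorem count8_num {t : ℕ} (ht : 2 ≤ t) :
    2 * ((t + 2) * Nat.choose (10000 * t + 6) 6) <
      (2500 * t + 1) * (1001 * t * (4999 * t) * (2 * Nat.choose (2500 * t + 3) 4)) := by
  have ht' : (2 : ℝ) ≤ t := by exact_mod_cast ht
  have h1 := Nat.choose_le_pow_div (α := ℝ) 6 (10000 * t + 6)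
  have h2 := Nat.pow_le_choose (α := ℝ) 4 (2500 * t + 3)
  rw [show 2500 * t + 3 + 1 - 4 = 2500 * t by omega] at h2
  have f6 : ((Nat.factorial 6 : ℕ) : ℝ) = 720 := by norm_num [Nat.factorial]
  have f4 : ((Nat.factorial 4 : ℕ) : ℝ) = 24 := by norm_num [Nat.factorial]
  rw [f6] at h1
  rw [f4] at h2
  push_cast at h1 h2
  have h3 : ((10000 : ℝ) * t + 6) ^ 6 ≤ (10003 * t) ^ 6 :=
    pow_le_pow_left₀ (by positivity) (by linarith) 6
  have h4 : (2 : ℝ) * ((t + 2) * Nat.choose (10000 * t + 6) 6) ≤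
      2 * ((2 * t) * ((10003 * t) ^ 6 / 720)) := by
    refine mul_le_mul_of_nonneg_left (mul_le_mul (by linarith) ?_ (by positivity) (by positivity))
      (by norm_num)
    linarith
  have h5 : (2500 * t : ℝ) * (1001 * t * (4999 * t) * (2 * ((2500 * t) ^ 4 / 24))) ≤
      (2500 * t + 1) * (1001 * t * (4999 * t) * (2 * Nat.choose (2500 * t + 3) 4)) := by
    gcongr
    linarith
  have h6 : (0 : ℝ) < (t : ℝ) ^ 7 := by positivity
  have h7 : (2 : ℝ) * ((2 * t) * ((10003 * t) ^ 6 / 720)) <
      (2500 * t : ℝ) * (1001 * t * (4999 * t) * (2 * ((2500 * t) ^ 4 / 24))) := by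
    have e1 : (2 : ℝ) * ((2 * t) * ((10003 * t) ^ 6 / 720)) = 4 * 10003 ^ 6 / 720 * (t : ℝ) ^ 7 := by
      ring
    have e2 : (2500 * t : ℝ) * (1001 * t * (4999 * t) * (2 * ((2500 * t) ^ 4 / 24))) =
        2500 * 1001 * 4999 * 2 * 2500 ^ 4 / 24 * (t : ℝ) ^ 7 := by ring
    rw [e1, e2]
    exact mul_lt_mul_of_pos_right (by norm_num) h6
  exact_mod_cast h4.trans_lt (h7.trans_le h5)

theorem count8_aux {t : ℕ} (ht : 2 ≤ t) :
    Nat.choose (8 + 10000 * t - 1) (10000 * t) + Nat.choose (8 + 10000 * t - 2) (10000 * t - 1) <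
      ∑ j ∈ Finset.range (9999 * t),
        2 * (∑ l ∈ Finset.Icc 0 (if 2500 * t ≤ j ∧ j ≤ 5000 * t then 11000 * t else 9999 * t),
          (l - j + 1) / 2) * (Nat.choose (j + 4) 4 + Nat.choose (j + 3) 4) := by
  set G : ℕ := 1001 * t * (4999 * t) * (2 * Nat.choose (2500 * t + 3) 4) with hG
  have hterm : ∀ j ∈ Finset.range (9999 * t),
      Nat.choose (j + 4) 4 * Nat.choose (9999 * t - 1 - j + 2) 2 +
        Nat.choose (j + 3) 4 * Nat.choose (9999 * t - 1 - j + 2) 2 +
        (if 2500 * t ≤ j ∧ j ≤ 5000 * t then G else 0) ≤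
      2 * (∑ l ∈ Finset.Icc 0 (if 2500 * t ≤ j ∧ j ≤ 5000 * t then 11000 * t else 9999 * t),
          (l - j + 1) / 2) * (Nat.choose (j + 4) 4 + Nat.choose (j + 3) 4) := by
    intro j hj
    have hj' := Finset.mem_range.1 hj
    have h1 := wsum_ge j (9999 * t - j)
    rw [show j + (9999 * t - j) = 9999 * t by omega] at h1
    rw [show 9999 * t - 1 - j + 2 = 9999 * t - j + 1 by omega, ← add_mul, mul_comm]
    split_ifs with h
    · have h2 := wsum_add (j := j) (K := 9999 * t) hj'.le (1001 * t)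
      rw [show 9999 * t + 1001 * t = 11000 * t by ring] at h2
      have h3 : 1001 * t * (4999 * t) ≤ 1001 * t * (9999 * t - j) :=
        Nat.mul_le_mul_left _ (by omega)
      have h4 : 2 * Nat.choose (2500 * t + 3) 4 ≤ Nat.choose (j + 4) 4 + Nat.choose (j + 3) 4 := by
        have a1 : Nat.choose (2500 * t + 3) 4 ≤ Nat.choose (j + 4) 4 :=
          Nat.choose_le_choose 4 (by omega)
        have a2 : Nat.choose (2500 * t + 3) 4 ≤ Nat.choose (j + 3) 4 :=
          Nat.choose_le_choose 4 (by omega)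
        omega
      have h5 : G ≤ 1001 * t * (9999 * t - j) * (Nat.choose (j + 4) 4 + Nat.choose (j + 3) 4) :=
        Nat.mul_le_mul h3 h4
      refine le_trans (Nat.add_le_add_left h5 _) ?_
      rw [← add_mul]
      exact Nat.mul_le_mul_right _ (by omega)
    · rw [add_zero]
      exact Nat.mul_le_mul_right _ h1
  refine lt_of_lt_of_le ?_ (Finset.sum_le_sum hterm)
  rw [Finset.sum_add_distrib, Finset.sum_add_distrib, vand_up (by norm_num), vand_up (by norm_num),
    ← Finset.sum_filter, Finset.sum_const, smul_eq_mul]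
  have hf : (Finset.range (9999 * t)).filter (fun j => 2500 * t ≤ j ∧ j ≤ 5000 * t) =
      Finset.Icc (2500 * t) (5000 * t) := by
    ext j
    simp only [Finset.mem_filter, Finset.mem_range, Finset.mem_Icc]
    omega
  rw [hf, Nat.card_Icc, show 5000 * t + 1 - 2500 * t = 2500 * t + 1 by omega]
  have e1 : Nat.choose (8 + 10000 * t - 1) (10000 * t) = Nat.choose (10000 * t + 7) 7 := by
    rw [show 8 + 10000 * t - 1 = 10000 * t + 7 by omega, Nat.choose_symm_add]
  have e2 : Nat.choose (8 + 10000 * t - 2) (10000 * t - 1) = Nat.choose (10000 * t + 6) 7 := by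
    rw [show 8 + 10000 * t - 2 = (10000 * t - 1) + 7 by omega, Nat.choose_symm_add,
      show 10000 * t - 1 + 7 = 10000 * t + 6 by omega]
  have h1 := choose_add_le (9999 * t + 5) (t + 2) 6
  rw [show 9999 * t + 5 + (t + 2) = 10000 * t + 7 by ring,
    show 10000 * t + 7 - 1 = 10000 * t + 6 by omega] at h1
  have h2 : Nat.choose (10000 * t + 6) 7 ≤ Nat.choose (10000 * t + 7) 7 :=
    Nat.choose_le_choose 7 (by omega)
  have h3 : Nat.choose (9999 * t + 5) 7 ≤ Nat.choose (9999 * t + 6) 7 :=
    Nat.choose_le_choose 7 (by omega)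
  have h4 := count8_num ht
  rw [e1, e2, show 9999 * t + 4 + 2 = 9999 * t + 6 by ring,
    show 9999 * t + 3 + 2 = 9999 * t + 5 by ring]
  rw [← hG] at h4
  simp only [Nat.reduceAdd] at h1 ⊢
  omega

end Crest.Agent.R202
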