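import Crest.Agent.R202.HDefs
import Crest.Agent.R202.HCountAux

/-!
# Row 202, H12: the two counts (elementary arithmetic)

`count3`: choose `λ` with `c < λ²`, `λ < 3a/2`, `K = ⌊λ k⌋`, `lo = max l₀ 2`, `θ₀ = (k + 1/2) a - 1`.  The weights
`w = (l - j + 1)/2` satisfy `(l - 1)/2 ≤ w ≤ (l + 1)/2`, `Σ l w ≤ K³/6 + O(K²)`, `Σ w ≥ K²/4 - O(K)`, and the two blocks together
have `2 (w₀ + w₁) = 2 l`.
`count8`: `k = 10000 t`, `K = 9999 t`, `J = range K`, mixed blocks `2500 t ≤ j ≤ 5000 t` with `lo = 7500 t`, `hi = 11000 t`; for the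
other blocks `hi = K`, `lo = K + 1`.  Average: the weights above `K` are `≤ (hi - j + 1)/2 ≤ 3 (lo - j)/2`, those below are
`≥ (lo - j)/2`, and `3 · Σ_{i ≤ 1001 t} i ≤ Σ_{i ≤ 2499 t} i`.  Count: `2 Σ_{l ≤ K} (l - j + 1)/2 ≥ C(K - j + 1, 2)`,
`Σ_{j<K} C(j + 4, 4) C(K - j + 1, 2) = C(K + 6, 7)`, `Σ_{j<K} C(j + 3, 4) C(K - j + 1, 2) = C(K + 5, 7)` (induction, or
`Nat.add_choose_eq`-type Vandermonde identities); the loss `2 (C(k+7, 7) - C(K+5, 7)) ≤ 2 (t + 2) C(k + 6, 6)` is about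
`6 · 10²¹ t⁷` for `t ≥ 2`, the gain from the degrees `K < l ≤ hi` of the mixed blocks is at least
`2500 t · 2 C(2500 t + 3, 4) · 1001 t · 4999 t ≥ 3 · 10²² t⁷`.
-/

set_option autoImplicit false
open scoped ContDiff RealInnerProductSpace Topology
open MeasureTheory Set Filter Module
open Crest.GeometryTopology.CoordMetric
open Crest.Agent.R230 (E MP sph ev Harm)

noncomputable section
namespace Crest.Agent.R202

theorem sum_Icc_tele {f F : ℕ → ℝ} (hF : ∀ n, F (n + 1) - F n = f n) {lo K : ℕ} (h : lo ≤ K + 1) :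
    ∑ l ∈ Finset.Icc lo K, f l = F (K + 1) - F lo := by
  rw [← Finset.Ico_add_one_right_eq_Icc, ← Finset.sum_Ico_sub F h]
  exact Finset.sum_congr rfl fun l _ => (hF l).symm

theorem wt_bounds {j l : ℕ} (h : j ≤ l) :
    ((l : ℝ) - j) / 2 ≤ (((l - j + 1) / 2 : ℕ) : ℝ) ∧
      (((l - j + 1) / 2 : ℕ) : ℝ) ≤ ((l : ℝ) - j + 1) / 2 := by
  have h1 : l ≤ 2 * ((l - j + 1) / 2) + j := by omega
  have h2 : 2 * ((l - j + 1) / 2) + j ≤ l + 1 := by omega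
  have h1' : (l : ℝ) ≤ 2 * (((l - j + 1) / 2 : ℕ) : ℝ) + j := by exact_mod_cast h1
  have h2' : 2 * (((l - j + 1) / 2 : ℕ) : ℝ) + j ≤ l + 1 := by exact_mod_cast h2
  constructor <;> linarith

theorem count3 {a c : ℝ} (ha : 0 < a) (hc : 1 < c) (hca : c < 9 * a ^ 2 / 4) (l₀ : ℕ) :
    ∃ k₀ : ℕ, ∀ k : ℕ, k₀ ≤ k → ∃ (lo K : ℕ) (θ₀ : ℝ), l₀ ≤ lo ∧ 2 ≤ lo ∧ lo < K ∧
      θ₀ + 1 / 2 < ((k : ℝ) + 1 / 2) * a ∧
      (∀ j : ℕ, j ≤ 1 →
        ∑ l ∈ Finset.Icc lo K, (((l - j + 1) / 2 : ℕ) : ℝ) * ((l : ℝ) - θ₀) ≤ 0) ∧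
      c * ((k : ℝ) + 1) ^ 2 ≤
        ((∑ j ∈ Finset.range 2, 2 * ∑ l ∈ Finset.Icc lo K, (l - j + 1) / 2 : ℕ) : ℝ) := by
  obtain ⟨lam, hl1, hl2⟩ : ∃ lam : ℝ, √c < lam ∧ lam < 3 * a / 2 := by
    refine exists_between ?_
    rw [Real.sqrt_lt' (by positivity)]
    linarith
  have hc1 : 1 < √c := by rw [Real.lt_sqrt (by norm_num)]; linarith
  have hlam1 : 1 < lam := hc1.trans hl1
  have hcl : c < lam ^ 2 := by
    rw [Real.sqrt_lt' (by linarith)] at hl1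
    exact hl1
  set lo : ℕ := max l₀ 2 with hlo
  set L : ℝ := (lo : ℝ) ^ 2 with hL
  have hL0 : 0 ≤ L := by positivity
  set ρ : ℝ := a / lam with hρ
  have hρ0 : 0 < ρ := by positivity
  have hρ1 : 2 / 3 < ρ := by
    rw [hρ, lt_div_iff₀ (by linarith)]
    linarith
  set ε : ℝ := ρ / 4 - 1 / 6 with hε
  have hε0 : 0 < ε := by linarith
  set A : ℝ := (ρ + 1) / 4 + 1 / 2 + ρ * L / 4 + 1 / 3 with hA
  obtain ⟨k₁, hk₁⟩ := exists_nat_ge (A / ε)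
  obtain ⟨k₂, hk₂⟩ := exists_nat_ge ((lam + 3 * c + L) / (lam ^ 2 - c))
  obtain ⟨k₃, hk₃⟩ := exists_nat_ge (1 / a)
  refine ⟨max (max k₁ k₂) (max k₃ (lo + 1)), fun k hk => ?_⟩
  have hk1 : k₁ ≤ k := le_trans (by omega) hk
  have hk2 : k₂ ≤ k := le_trans (by omega) hk
  have hk3 : k₃ ≤ k := le_trans (by omega) hk
  have hk4 : lo + 1 ≤ k := le_trans (by omega) hk
  have hlo2 : 2 ≤ lo := le_max_right _ _
  have hk0 : (1 : ℝ) ≤ k := by exact_mod_cast (by omega : 1 ≤ k)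
  set K : ℕ := ⌊lam * k⌋₊ with hK
  have hKk : k ≤ K := Nat.le_floor (by nlinarith)
  have hK1 : (K : ℝ) ≤ lam * k := Nat.floor_le (by positivity)
  have hK2 : lam * k < K + 1 := Nat.lt_floor_add_one _
  have hKk' : (k : ℝ) ≤ K := by exact_mod_cast hKk
  have hlo' : (2 : ℝ) ≤ lo := by exact_mod_cast hlo2
  refine ⟨lo, K, ((k : ℝ) + 1 / 2) * a - 1, le_max_left _ _, hlo2, by omega, by linarith,
    fun j hj => ?_, ?_⟩
  · set θ₀ : ℝ := ((k : ℝ) + 1 / 2) * a - 1 with hθ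
    have hka : 1 ≤ (k : ℝ) * a := by
      have h1 : 1 / a ≤ k := hk₃.trans (by exact_mod_cast hk3)
      rwa [div_le_iff₀ ha] at h1
    have hθ0 : 0 ≤ θ₀ := by nlinarith
    have hθ1 : ρ * K - 1 ≤ θ₀ := by
      have h1 : ρ * K ≤ ρ * (lam * k) := mul_le_mul_of_nonneg_left hK1 hρ0.le
      have h2 : ρ * (lam * k) = k * a := by rw [hρ]; field_simp
      nlinarith
    have h1 : ∑ l ∈ Finset.Icc lo K, (((l - j + 1) / 2 : ℕ) : ℝ) * ((l : ℝ) - θ₀) ≤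
        ∑ l ∈ Finset.Icc lo K, (((l : ℝ) + 1) / 2 * l - ((l : ℝ) - 1) / 2 * θ₀) := by
      refine Finset.sum_le_sum fun l hl => ?_
      have hl' := (Finset.mem_Icc.1 hl).1
      obtain ⟨w1, w2⟩ := wt_bounds (j := j) (l := l) (by omega)
      have hj0 : (0 : ℝ) ≤ j := Nat.cast_nonneg j
      have hj1 : (j : ℝ) ≤ 1 := by exact_mod_cast hj
      have hl0 : (0 : ℝ) ≤ l := Nat.cast_nonneg l
      rw [mul_sub]
      exact sub_le_sub (mul_le_mul_of_nonneg_right (by linarith) hl0)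
        (mul_le_mul_of_nonneg_right (by linarith) hθ0)
    refine h1.trans ?_
    rw [sum_Icc_tele (F := fun n : ℕ => ((n : ℝ) - 1) * n * (n + 1) / 6 -
      ((n : ℝ) - 1) * (n - 2) / 4 * θ₀) (fun n => by push_cast; ring) (by omega)]
    push_cast
    have hK0 : (1 : ℝ) ≤ K := hk0.trans hKk'
    have hAK : A ≤ ε * K := by
      have h2 : A / ε ≤ K := hk₁.trans ((by exact_mod_cast hk1 : (k₁ : ℝ) ≤ k).trans hKk')
      rw [div_le_iff₀ hε0] at h2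
      linarith
    have hloK : (lo : ℝ) + 1 ≤ K := by exact_mod_cast hk4.trans hKk
    have e1 : 0 ≤ (K : ℝ) ^ 2 - K - L := by rw [hL]; nlinarith
    have e2 : (ρ * K - 1) * ((K : ℝ) ^ 2 - K - L) ≤ θ₀ * ((K : ℝ) ^ 2 - K - L) :=
      mul_le_mul_of_nonneg_right hθ1 e1
    have e3 : ((lo : ℝ) - 1) * (lo - 2) * θ₀ ≤ L * θ₀ :=
      mul_le_mul_of_nonneg_right (by rw [hL]; nlinarith) hθ0
    have e4 : 0 ≤ ((lo : ℝ) - 1) * lo * (lo + 1) := by
      have : (0 : ℝ) ≤ (lo : ℝ) - 1 := by linarith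
      positivity
    have e5 : A * (K : ℝ) ^ 2 ≤ ε * K * (K : ℝ) ^ 2 :=
      mul_le_mul_of_nonneg_right hAK (by positivity)
    have e6 : (K : ℝ) ≤ (K : ℝ) ^ 2 := by nlinarith
    have e7 : ρ * L * K ≤ ρ * L * (K : ℝ) ^ 2 := mul_le_mul_of_nonneg_left e6 (by positivity)
    have e8 : (K : ℝ) * (K + 1) * (K + 2) / 6 ≤ (ρ * K - 1) * ((K : ℝ) ^ 2 - K - L) / 4 := by
      rw [hA, hε] at e5
      nlinarith
    nlinarith
  · have h1 : (∑ j ∈ Finset.range 2, 2 * ∑ l ∈ Finset.Icc lo K, (l - j + 1) / 2 : ℕ) =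
        ∑ l ∈ Finset.Icc lo K, 2 * l := by
      rw [Finset.sum_range_succ, Finset.sum_range_one, ← mul_add, ← Finset.sum_add_distrib,
        Finset.mul_sum]
      refine Finset.sum_congr rfl fun l hl => ?_
      have hl' := (Finset.mem_Icc.1 hl).1
      omega
    rw [h1]
    push_cast
    rw [sum_Icc_tele (F := fun n : ℕ => ((n : ℝ) - 1) * n) (fun n => by push_cast; ring) (by omega)]
    push_cast
    have hd : 0 < lam ^ 2 - c := by linarith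
    have h2 : lam + 3 * c + L ≤ k * (lam ^ 2 - c) := by
      have h2 : (lam + 3 * c + L) / (lam ^ 2 - c) ≤ k := hk₂.trans (by exact_mod_cast hk2)
      rwa [div_le_iff₀ hd] at h2
    have h3 : (lam + 3 * c + L) * k ≤ k * (lam ^ 2 - c) * k :=
      mul_le_mul_of_nonneg_right h2 (by linarith)
    have h4 : (lam * k - 1) * (lam * k) ≤ K * (K + 1) :=
      mul_le_mul (by linarith) hK2.le (by positivity) (by positivity)
    have h5 : ((lo : ℝ) - 1) * lo ≤ L := by rw [hL]; nlinarith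
    have h6 : c + L ≤ (c + L) * k := le_mul_of_one_le_right (by linarith) hk0
    nlinarith

theorem count8_avg {t j : ℕ} (ht : 1 ≤ t) (hj : j ≤ 5000 * t) :
    ∑ l ∈ Finset.Icc (7500 * t) (11000 * t),
      (((l - j + 1) / 2 : ℕ) : ℝ) * ((l : ℝ) - (9999 * t : ℕ)) ≤ 0 := by
  have ht' : (1 : ℝ) ≤ t := by exact_mod_cast ht
  have hj' : (j : ℝ) ≤ 5000 * t := by exact_mod_cast hj
  have h1 : ∑ l ∈ Finset.Icc (7500 * t) (11000 * t),
      (((l - j + 1) / 2 : ℕ) : ℝ) * ((l : ℝ) - (9999 * t : ℕ)) ≤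
      ∑ l ∈ Finset.Icc (7500 * t) (11000 * t),
        (((l : ℝ) - j) * ((l : ℝ) - 9999 * t) / 2 + 1001 * t / 2) := by
    refine Finset.sum_le_sum fun l hl => ?_
    obtain ⟨hl1, hl2⟩ := Finset.mem_Icc.1 hl
    obtain ⟨w1, w2⟩ := wt_bounds (j := j) (l := l) (by omega)
    have hl2' : (l : ℝ) ≤ 11000 * t := by exact_mod_cast hl2
    push_cast
    set w : ℝ := (((l - j + 1) / 2 : ℕ) : ℝ)
    rcases le_total (l : ℝ) (9999 * t) with h | h
    · nlinarith [mul_le_mul_of_nonneg_right w1 (sub_nonneg.2 h)]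
    · nlinarith [mul_le_mul_of_nonneg_right w2 (sub_nonneg.2 h)]
  refine h1.trans ?_
  rw [sum_Icc_tele (F := fun n : ℕ => (((n : ℝ) - 1) * n * (2 * n - 1) / 6 -
      ((j : ℝ) + 9999 * t) * (((n : ℝ) - 1) * n / 2) + j * (9999 * t) * n) / 2 + 1001 * t / 2 * n)
    (fun n => by push_cast; ring) (by omega)]
  push_cast
  have h2 : (j : ℝ) * t ^ 2 ≤ 5000 * t * t ^ 2 := mul_le_mul_of_nonneg_right hj' (by positivity)
  have h3 : (j : ℝ) * t ≤ 5000 * t * t := mul_le_mul_of_nonneg_right hj' (by positivity)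
  have h4 : (t : ℝ) ^ 2 ≤ t ^ 3 := pow_le_pow_right₀ ht' (by norm_num)
  have h5 : (t : ℝ) ≤ t ^ 3 := by nlinarith
  nlinarith

theorem count8 {t : ℕ} (ht : 2 ≤ t) :
    Nat.choose (8 + 10000 * t - 1) (10000 * t) + Nat.choose (8 + 10000 * t - 2) (10000 * t - 1) <
      ∑ j ∈ Finset.range (9999 * t),
        2 * (∑ l ∈ Finset.Icc 0 (if 2500 * t ≤ j ∧ j ≤ 5000 * t then 11000 * t else 9999 * t),
          (l - j + 1) / 2) * (Nat.choose (j + 4) 4 + Nat.choose (j + 3) 4) :=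
  count8_aux ht

end Crest.Agent.R202
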