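import Crest.Agent.R202.FDefs
import Crest.Agent.R202.GSec
import Crest.Agent.R202.GRic
import Crest.Agent.R202.GVol
import Crest.Agent.R202.GLap
import Crest.Agent.R202.GDist
import Crest.Agent.R202.BNc
import Crest.Agent.R202.BJets
import Crest.Agent.R202.COrigin

/-!
# Row 202: schedule, warping function, final properties (definitions)

Phase `p` lives on `[ta p, tb p]`: hold `[ta, ta + H]`, move `[ta + H, tu]`, middle hold `[tu, tv]`, move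
`[tv, tv + H]`, hold `[tv + H, tb]`, where `H = HH T P p`; the event `p` is `[tb p, tb p + 1]`.
-/

set_option autoImplicit false
open scoped ContDiff RealInnerProductSpace Topology
open MeasureTheory Set Filter Module
open Crest.GeometryTopology.CoordMetric
open Crest.Agent.R230 (E MP sph ev Harm)

noncomputable section
namespace Crest.Agent.R202

open Crest.GeometryTopology.ChartCurvature

/-- an edge: block and two labels -/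
abbrev Edge : Type := ℕ × (ℕ × ℕ) × (ℕ × ℕ)

/-- the label after the first `i` transpositions of the word `e` -/
def labI (e : ℕ → Edge) (j : ℕ) (x : ℕ × ℕ) : ℕ → ℕ × ℕ
  | 0 => x
  | i + 1 => swp (e i).1 (e i).2.1 (e i).2.2 j (labI e j x i)

/-- combinatorial data: the labels `O j ⊆ L j` are connected by the edges and have mean degree `≤ θ₀`,
the other tracked labels have degree `≤ θ₀` -/
structure Mix (J : Finset ℕ) (L O : ℕ → Finset (ℕ × ℕ)) (Ed : Finset Edge) (θ₀ : ℝ) : Prop where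
  ne : Ed.Nonempty
  one : ∀ j ∈ J, ∀ x ∈ L j, 1 ≤ x.1
  sub : ∀ j ∈ J, O j ⊆ L j
  edge : ∀ e ∈ Ed, e.1 ∈ J ∧ e.2.1 ∈ O e.1 ∧ e.2.2 ∈ O e.1 ∧ e.2.1 ≠ e.2.2
  conn : ∀ j ∈ J, ∀ x ∈ O j, ∀ x' ∈ O j,
    Relation.ReflTransGen (fun y y' => (j, y, y') ∈ Ed ∨ (j, y', y) ∈ Ed) x x'
  avg : ∀ j ∈ J, ∑ x ∈ O j, (ldeg j x : ℝ) ≤ θ₀ * (O j).card
  single : ∀ j ∈ J, ∀ x ∈ L j, x ∉ O j → (ldeg j x : ℝ) ≤ θ₀

/-- the time scale of the phase `p` -/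
def HH (T : ℝ) (P p : ℕ) : ℝ := T * (((p / P : ℕ) : ℝ) + 1) ^ 2

/-- the length of the middle hold -/
def Mh (T Kl : ℝ) (P : ℕ) (lg : ℕ → Bool) (p : ℕ) : ℝ := if lg p = true then Kl * HH T P p else 0

/-- start of the phase `p` -/
def ta (T Kl : ℝ) (P : ℕ) (lg : ℕ → Bool) : ℕ → ℝ
  | 0 => -T
  | p + 1 => ta T Kl P lg p + 4 * HH T P p + Mh T Kl P lg p + 1

/-- start of the middle hold -/
def tu (T Kl : ℝ) (P : ℕ) (lg : ℕ → Bool) (p : ℕ) : ℝ := ta T Kl P lg p + 2 * HH T P p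

/-- end of the middle hold -/
def tv (T Kl : ℝ) (P : ℕ) (lg : ℕ → Bool) (p : ℕ) : ℝ := tu T Kl P lg p + Mh T Kl P lg p

/-- end of the phase `p` -/
def tb (T Kl : ℝ) (P : ℕ) (lg : ℕ → Bool) (p : ℕ) : ℝ := tv T Kl P lg p + 2 * HH T P p

/-- the error scale of the phase `p` -/
def et (g T : ℝ) (P p : ℕ) : ℝ := Real.exp (-(g / 2) * HH T P p)

/-- the middle halves of the two moves -/
def Mid (T Kl : ℝ) (P : ℕ) (lg : ℕ → Bool) (p : ℕ) : Set ℝ :=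
  Icc (ta T Kl P lg p + 5 / 4 * HH T P p) (ta T Kl P lg p + 7 / 4 * HH T P p) ∪
    Icc (tv T Kl P lg p + 1 / 4 * HH T P p) (tv T Kl P lg p + 3 / 4 * HH T P p)

/-- the potential -/
structure QOK (d : ℕ) (κ₀ η₀ δ A g T Kl : ℝ) (P : ℕ) (lg : ℕ → Bool) (q : ℝ → ℝ) : Prop where
  smooth : ContDiff ℝ ∞ q
  bd : ∀ r : ℕ, ∃ B : ℝ, ∀ t, |iteratedDeriv r q t| ≤ B
  init : ∀ t, t ≤ 0 → q t = ((d : ℝ) / 2) ^ 2
  anti : Antitone q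
  lim : Tendsto q atTop (𝓝 (κ₀ ^ 2))
  lip : ∀ s t, |q t - q s| ≤ δ * |t - s|
  low : ∀ t, T / 2 ≤ t → q t ≤ κ₀ ^ 2 + η₀
  left : ∀ p, ∀ t ∈ Icc (ta T Kl P lg p) (ta T Kl P lg p + HH T P p), q t = q (ta T Kl P lg p)
  right : ∀ p, ∀ t ∈ Icc (tb T Kl P lg p - HH T P p) (tb T Kl P lg p),
    |q t - q (tb T Kl P lg p)| ≤ et g T P p
  ev : ∀ p, ∀ t ∈ Icc (tb T Kl P lg p) (tb T Kl P lg p + 1), q t = q (tb T Kl P lg p) ∧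
    et g T P p ≤ q (t - 2) - q t
  cost : ∀ p, ∀ t ∈ Mid T Kl P lg p, A / HH T P p ^ 2 ≤ q (t - 2) - q t
  sec : ∃ A' : ℝ, ∀ p, ∀ t ∈ Icc (tv T Kl P lg p) (tv T Kl P lg p + HH T P p),
    -deriv q t ≤ A' / HH T P p ^ 2

/-- the path of coefficient vectors, depending on the control amplitudes `c` -/
structure PathOK {V R : Type} [Fintype V] [DecidableEq V] [Fintype R] (lf md st : ℕ → V)
    (χ : ℕ → R → V → ℝ → ℝ) (B₁ T Kl : ℝ) (P : ℕ) (lg : ℕ → Bool)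
    (path : (ℕ → R → ℝ) → ℝ → V → ℝ) : Prop where
  cont : Continuous fun x : (ℕ → R → ℝ) × ℝ => path x.1 x.2
  smooth : ∀ c, ContDiff ℝ ∞ (path c)
  bd : ∀ r : ℕ, ∃ B : ℝ, ∀ c, (∀ p i, |c p i| ≤ 1) → ∀ t, ‖iteratedDeriv r (path c) t‖ ≤ B
  init : ∀ c t, t ≤ T → path c t = Pi.single (lf 0) 1
  indep : ∀ c p, ∀ t ∈ Icc (ta T Kl P lg p) (tb T Kl P lg p), path c t = path 0 t
  seg : ∀ c p, ∀ t ∈ Icc (ta T Kl P lg p) (tb T Kl P lg p), ∃ τ ∈ Icc (0 : ℝ) 1,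
    path c t = (1 - τ) • Pi.single (lf p) 1 + τ • Pi.single (md p) 1 ∨
      path c t = (1 - τ) • Pi.single (md p) 1 + τ • Pi.single (st p) 1
  left : ∀ c p, ∀ t ∈ Icc (ta T Kl P lg p) (ta T Kl P lg p + HH T P p), path c t = Pi.single (lf p) 1
  mid : ∀ c p, ∀ t ∈ Icc (tu T Kl P lg p) (tv T Kl P lg p), path c t = Pi.single (md p) 1
  right : ∀ c p, ∀ t ∈ Icc (tb T Kl P lg p - HH T P p) (tb T Kl P lg p),
    path c t = Pi.single (st p) 1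
  ev : ∀ c p, ∀ τ ∈ Icc (0 : ℝ) 1,
    path c (tb T Kl P lg p + τ) = Pi.single (st p) 1 + fun v => ∑ i, c p i * χ p i v τ
  evbd : ∀ (c : ℕ → R → ℝ) (p : ℕ) (ρ : ℝ), 0 ≤ ρ → (∀ i, |c p i| ≤ ρ) → ∀ τ ∈ Icc (0 : ℝ) 1,
    ‖fun v => ∑ i, c p i * χ p i v τ‖ ≤ B₁ * ρ ∧
    ‖deriv (path c) (tb T Kl P lg p + τ)‖ + ‖deriv (deriv (path c)) (tb T Kl P lg p + τ)‖ ≤ B₁ * ρ
  der : ∀ c p, ∀ t ∈ Icc (ta T Kl P lg p) (tb T Kl P lg p),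
    ‖deriv (path c) t‖ ≤ B₁ / HH T P p ∧ ‖deriv (deriv (path c)) t‖ ≤ B₁ / HH T P p ^ 2 ∧
    (t ∉ Mid T Kl P lg p → deriv (path c) t = 0 ∧ deriv (deriv (path c)) t = 0)
  sec : ∀ c p, ∃ t ∈ Icc (tv T Kl P lg p + 1 / 4 * HH T P p) (tv T Kl P lg p + 3 / 4 * HH T P p),
    deriv (path c) t = (2 / HH T P p) • (Pi.single (st p) 1 - Pi.single (md p) 1)

/-- the warping function of the potential `q`: `y'' = q y`, `φ = y^{2/d}`, `ϱ = φ'/φ` -/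
structure WarpQ (d : ℕ) (a : ℝ) (q φ ϱ ϱ₁ y y₁ : ℝ → ℝ) : Prop where
  warp : Warp (d + 2) φ ϱ ϱ₁ a
  lim : Tendsto ϱ atTop (𝓝 a)
  ys : ContDiff ℝ ∞ y
  ypos : ∀ t, 0 < y t
  y2 : ∀ t, y t ^ 2 = φ t ^ d
  y1 : ∀ t, HasDerivAt y (y₁ t) t
  yq : ∀ t, HasDerivAt y₁ (q t * y t) t
  y0 : ∀ t, t ≤ 0 → y t = Real.exp ((d : ℝ) / 2 * t)
  ylo : ∀ t, 0 ≤ t → Real.exp ((d : ℝ) * a / 2 * t) ≤ y t
  lo : ∀ t ℓ, 0 ≤ ℓ → 2 / (d : ℝ) * Real.exp (-(d : ℝ) * ℓ) * (q (t - ℓ) - q t) ≤ -ϱ₁ t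
  hi : ∀ t₀ t D, t₀ ≤ t → 0 ≤ D → (∀ s ∈ Icc t₀ t, -deriv q s ≤ D) →
    -ϱ₁ t ≤ (d : ℝ) / 2 * Real.exp (-((d : ℝ) * a) * (t - t₀)) + 2 * D / ((d : ℝ) ^ 2 * a)
  drop : ∀ t₀ c ϱ₀, 0 < c → 0 ≤ ϱ₀ → q t₀ + c ≤ ((d : ℝ) * ϱ₀ / 2) ^ 2 →
    ∀ t, t₀ + d / (2 * c) ≤ t → ϱ t ≤ ϱ₀

/-- the geometric properties of the metric -/
def GeoOK {n : ℕ} (g : MetricField n) (v : ℝ) : Prop :=
  IsRiemannianOn g univ ∧ IsCompleteOn g univ ∧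
    (∃ r : ℝ, 0 < r ∧ ∀ x : E n, ‖x‖ < r → g x = 1) ∧ RicciNonnegOn g univ ∧
    (∃ R : ℝ, ∀ x : E n, R < ‖x‖ → ∀ w : E n, w ≠ 0 → 0 < ∑ i, ∑ j, ricci g x i j * w i * w j) ∧
    HasAsymptoticVolumeRatio g v ∧
    (∃ p : ℕ → E n, Tendsto (fun j => ‖p j‖) atTop atTop ∧
      ∀ j, ∃ w : E n, 0 < gramDet g (p j) (p j) w ∧ secNumer g (p j) (p j) w < 0)

/-- independent harmonic functions of growth `k`, indexed by `ι` -/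
def HarmOK {n : ℕ} (g : MetricField n) (k : ℕ) (ι : Type) : Prop :=
  ∃ f : ι → E n → ℝ, LinearIndependent ℝ f ∧ ∀ i, IsHarmonicOn g univ (f i) ∧
    ∃ C : ℝ, ∀ x, abs (f i x) ≤ C * (1 + riemDist g univ 0 x) ^ k

/-- the number of harmonic functions produced from the tracked labels -/
def cnt (d : ℕ) (J : Finset ℕ) (L : ℕ → Finset (ℕ × ℕ)) : ℕ :=
  ∑ j ∈ J, 2 * (L j).card * finrank ℝ (Harm d j)

/-- a Galerkin solution on `(-∞, t₁]`-growth `C e^{om}` that starts at `t₀` as the growing mode `e₀` -/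
def SolOK (d : ℕ) [NeZero d] (j : ℕ) (s : Bool) (M : ℕ) (G : ℝ → St) (q om : ℝ → ℝ) (t₀ t₁ C tol : ℝ)
    (e₀ : RP d j) : Prop :=
  ∃ y y' : ℝ → WS d j s M, SolOn (fun t => KG d j s M (G t) (q t)) univ y y' ∧
    Del (KG d j s M (G t₀) (q t₀)) (y t₀) (y' t₀) = 0 ∧
    ‖((Gam (KG d j s M (G t₀) (q t₀)) (y t₀) (y' t₀) : WS d j s M) : RP d j) - e₀‖ ≤ tol ∧
    ∀ t ∈ Icc t₀ t₁, ‖y t‖ ≤ C * Real.exp (om t - om t₀)

/-- the clamp to `[-r, r]` -/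
def clp (r x : ℝ) : ℝ := max (-r) (min r x)

end Crest.Agent.R202
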