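import Crest.Agent.R202.HPath

/-!
# Row 202, H10: the geometry of the metric of the schedule

`sec_neg`: take `x = e^t (z₀, z₁, √(1 - |z|²), 0, …)`, `w = rotv (zI 0) (zI 1) x`, `β τ = bet (comb F (al (t + τ))) z`
(`bet` and `comb` are linear), `Nc_eig`, `gmet_sec`; then `β₁ (ϱ - β₁) ≤ -c₀ a/H`, `-ϱ₁ ≤ (d/2) e^{-daH/4} + C/H²` (`WarpQ.hi`),
`β₂ ≤ C/H²` (`sz_comb`).
`geo_sched`: `ϱ₀ = (1+a)/2`, `ε_R, C_R` from `gmet_ricci`, `C₀` from `N_jets`, `ε₀ = min (epsU d) (ε_R/C₀)`; `t₁ = T - 1`;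
`c = η₁ = ((dϱ₀/2)² - (da/2)²)/2` in `WarpQ.drop` at `t₀ = T/2`; `s t = C₀ C₁ (‖a'‖ + ‖a''‖)`, `path_small`, `time_cover`;
the cost inequality from `WarpQ.lo` with `ℓ = 2` and `QOK.cost` (`A = 2 d e^{2d} C_R (C₀ C₁ B₁)²`), `QOK.ev` (`et` small),
`PathOK.der`, `evbd`; `ϱ₁ < 0` from `lo` with `ℓ = t`.
-/

set_option autoImplicit false
open scoped ContDiff RealInnerProductSpace Topology
open MeasureTheory Set Filter Module
open Crest.GeometryTopology.CoordMetric
open Crest.Agent.R230 (E MP sph ev Harm)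

noncomputable section
namespace Crest.Agent.R202

open Crest.GeometryTopology.ChartCurvature

variable {d : ℕ} [NeZero d]

theorem HGeo_unit (z : E 2) (hz : XX z < 1) : ∃ p : E (d + 2), ‖p‖ = 1 ∧ zOf p = z := by
  obtain ⟨e, rfl⟩ : ∃ e, d = e + 1 := ⟨d - 1, by have := NeZero.ne d; omega⟩
  have hX : z 0 ^ 2 + z 1 ^ 2 < 1 := hz
  let p : E (e + 1 + 2) := WithLp.toLp 2 (Fin.cons (z 0) (Fin.cons (z 1)
    (Fin.cons (Real.sqrt (1 - (z 0 ^ 2 + z 1 ^ 2))) fun _ => 0)))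
  refine ⟨p, ?_, ?_⟩
  · have : ‖p‖ ^ 2 = 1 := by
      rw [EuclideanSpace.real_norm_sq_eq, Fin.sum_univ_succ, Fin.sum_univ_succ, Fin.sum_univ_succ]
      simp only [p, Fin.cons_zero, Fin.cons_succ, Real.sq_sqrt (sub_nonneg.2 hX.le)]
      simp only [ne_eq, OfNat.ofNat_ne_zero, not_false_eq_true, zero_pow, Finset.sum_const_zero]
      ring
    nlinarith [norm_nonneg p]
  · ext i
    fin_cases i <;> rfl

omit [NeZero d] in
theorem HGeo_bet {V : Type} [Fintype V] (F : V → St) (b : V → ℝ) (z : E 2) :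
    bet d ((comb F b).1 z) ((comb F b).2 z) = ∑ v, b v * bet d ((F v).1 z) ((F v).2 z) := by
  simp only [comb, bet, Prod.fst_sum, Prod.snd_sum, Finset.sum_apply, Prod.smul_fst, Prod.smul_snd,
    Pi.smul_apply, smul_eq_mul, Finset.mul_sum, ← Finset.sum_neg_distrib, ← Finset.sum_sub_distrib]
  exact Finset.sum_congr rfl fun v _ => by ring

omit [NeZero d] in
theorem HGeo_der {V : Type} [Fintype V] (F : V → St) {al : ℝ → V → ℝ} (hl : ContDiff ℝ ∞ al)
    (z : E 2) (t τ : ℝ) :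
    HasDerivAt (fun τ => bet d ((comb F (al (t + τ))).1 z) ((comb F (al (t + τ))).2 z))
      (bet d ((comb F (deriv al (t + τ))).1 z) ((comb F (deriv al (t + τ))).2 z)) τ := by
  simp only [HGeo_bet]
  exact HasDerivAt.fun_sum fun v _ =>
    ((BJ.hasDerivAt_a hl v (t + τ)).comp_const_add t τ).mul_const _

theorem HGeo_abs_bet {x y r : ℝ} (hx : |x| ≤ r) (hy : |y| ≤ r) : bet d x y ≤ d * r := by
  have h1 : (1 : ℝ) ≤ d := by exact_mod_cast Nat.one_le_iff_ne_zero.2 (NeZero.ne d)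
  have h2 := abs_le.1 hx
  have h3 := abs_le.1 hy
  unfold bet
  nlinarith

theorem sec_neg {a : ℝ} {q φ ϱ ϱ₁ y y₁ : ℝ → ℝ} (hW : WarpQ d a q φ ϱ ϱ₁ y y₁) {V : Type} [Fintype V]
    {F : V → St} (hF : ∀ v, Adm d (F v)) {al : ℝ → V → ℝ} (hl : ContDiff ℝ ∞ al)
    (h0 : ∀ t, t ≤ 0 → comb F (al t) = 0) {c₀ B : ℝ} (hc : 0 < c₀) (hB : 0 ≤ B)
    (h : ∀ N : ℝ, ∃ (t H : ℝ) (z : E 2), N ≤ H ∧ H ≤ t ∧ 0 < XX z ∧ XX z < 1 ∧
      bet d ((comb F (deriv al t)).1 z) ((comb F (deriv al t)).2 z) ≤ -c₀ / H ∧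
      ‖deriv (deriv al) t‖ ≤ B / H ^ 2 ∧ ∀ s ∈ Icc (t - H / 4) t, -deriv q s ≤ B / H ^ 2) :
    ∃ p : ℕ → E (d + 2), Tendsto (fun j => ‖p j‖) atTop atTop ∧ ∀ j, ∃ w : E (d + 2),
      0 < gramDet (gmet φ (Nc (cT d fun t => comb F (al t)))) (p j) (p j) w ∧
      secNumer (gmet φ (Nc (cT d fun t => comb F (al t)))) (p j) (p j) w < 0 := by
  obtain ⟨C, hC, hsz⟩ := sz_comb hF
  have ha := hW.warp.apos
  have hd : (0 : ℝ) < d := by exact_mod_cast Nat.pos_of_ne_zero (NeZero.ne d)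
  have hN := nfield_cT hF hl h0
  set K : ℝ := d / 2 * (32 / (d * a) ^ 2) + 2 * B / (d ^ 2 * a) + d * (C * B) with hK
  have key : ∀ j : ℕ, ∃ x : E (d + 2), (j : ℝ) ≤ ‖x‖ ∧ ∃ w : E (d + 2),
      0 < gramDet (gmet φ (Nc (cT d fun t => comb F (al t)))) x x w ∧
      secNumer (gmet φ (Nc (cT d fun t => comb F (al t)))) x x w < 0 := by
    intro j
    obtain ⟨t, H, z, hNH, hHt, hz0, hz1, h1, h2, h3⟩ := h (max (j + 1) (K / (c₀ * a) + 1))
    have hjH : (j : ℝ) + 1 ≤ H := (le_max_left _ _).trans hNH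
    have hKH : K / (c₀ * a) + 1 ≤ H := (le_max_right _ _).trans hNH
    have hH : 0 < H := lt_of_lt_of_le (by positivity) hjH
    obtain ⟨p, hp, hpz⟩ := HGeo_unit (d := d) z hz1
    set x : E (d + 2) := Real.exp t • p with hx
    have hnx : ‖x‖ = Real.exp t := by
      rw [hx, norm_smul, hp, mul_one, Real.norm_of_nonneg (Real.exp_pos t).le]
    have hx0 : x ≠ 0 := norm_pos_iff.1 (hnx ▸ Real.exp_pos t)
    have hlog : Real.log ‖x‖ = t := by rw [hnx, Real.log_exp]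
    have hdir : ‖x‖⁻¹ • x = p := by
      rw [hnx, hx, smul_smul, inv_mul_cancel₀ (Real.exp_pos t).ne', one_smul]
    have hXX : XX (zOf x) = Real.exp t ^ 2 * XX z := by
      rw [← hpz]
      change (Real.exp t * p (zI d 0)) ^ 2 + (Real.exp t * p (zI d 1)) ^ 2 =
        Real.exp t ^ 2 * (p (zI d 0) ^ 2 + p (zI d 1) ^ 2)
      ring
    have hXX0 : XX (zOf x) ≠ 0 := by rw [hXX]; positivity
    set w : E (d + 2) := WithLp.toLp 2 (rotv (zI d 0) (zI d 1) x) with hw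
    have hne : zI d 0 ≠ zI d 1 := fun h => by simpa [zI] using congrArg Fin.val h
    have hw0 : w ≠ 0 := fun h0 => by
      have e1 : w (zI d 1) = 0 := by rw [h0]; rfl
      have e2 : w (zI d 0) = 0 := by rw [h0]; rfl
      simp only [hw, rotv, if_true, if_neg hne, if_neg hne.symm, sub_zero, zero_sub,
        neg_eq_zero] at e1 e2
      apply hXX0
      change x (zI d 0) ^ 2 + x (zI d 1) ^ 2 = 0
      rw [e1, e2]
      norm_num
    have hxw : inner ℝ x w = 0 := by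
      rw [gric_inner_eq]
      have := BNc.rotv_dot (zI d 0) (zI d 1) x fun i => x i
      rw [mul_comm (x (zI d 0)), sub_self] at this
      rw [← this]
      exact Finset.sum_congr rfl fun i _ => mul_comm _ _
    have hd2 := HGeo_der (d := d) F (BJ.contDiff_deriv hl) z t 0
    obtain ⟨g1, g2, g3⟩ := gmet_sec hW.warp hN hx0 hw0 hxw (HGeo_der (d := d) F hl z t) hd2
      fun τ => by
        have := Nc_eig (fun t => comb F (al t)) hXX0 τ
        rw [hlog, hdir, hpz] at this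
        exact this
    refine ⟨x, ?_, w, g1, ?_⟩
    · rw [hnx]
      linarith [Real.add_one_le_exp t]
    rw [g3, hlog, add_zero]
    refine mul_neg_of_pos_of_neg g2 ?_
    set β₁ := bet d ((comb F (deriv al t)).1 z) ((comb F (deriv al t)).2 z)
    have hb0 : 0 < c₀ / H := by positivity
    have b1 : β₁ * (ϱ t - β₁) ≤ -(c₀ * a / H) := by
      rw [neg_div] at h1
      have := hW.warp.lo t
      have e : c₀ * a / H = c₀ / H * a := by ring
      rw [e]
      nlinarith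
    have b2 := hW.hi (t - H / 4) t (B / H ^ 2) (by linarith) (by positivity) h3
    have b3 : Real.exp (-(d * a) * (t - (t - H / 4))) ≤ 32 / (d * a) ^ 2 / H ^ 2 := by
      have e : -(d * a) * (t - (t - H / 4)) = -(d * a * H / 4) := by ring
      have hy : 0 < d * a * H / 4 := by positivity
      have := Real.quadratic_le_exp_of_nonneg hy.le
      rw [e, Real.exp_neg, show 32 / (d * a) ^ 2 / H ^ 2 = ((d * a * H / 4) ^ 2 / 2)⁻¹ by
        field_simp; norm_num]
      exact inv_anti₀ (by positivity) (by linarith)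
    have b4 : bet d ((comb F (deriv (deriv al) t)).1 z) ((comb F (deriv (deriv al) t)).2 z) ≤
        d * (C * (B / H ^ 2)) :=
      (HGeo_abs_bet ((hsz _).1.abs_le z) ((hsz _).2.abs_le z)).trans (by gcongr)
    have b5 : K / H ^ 2 < c₀ * a / H := by
      rw [div_lt_div_iff₀ (by positivity) hH]
      have : K < H * (c₀ * a) := by
        rw [← div_lt_iff₀ (by positivity)]
        linarith
      nlinarith
    have b6 : K / H ^ 2 = d / 2 * (32 / (d * a) ^ 2 / H ^ 2) + 2 * (B / H ^ 2) / (d ^ 2 * a) +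
        d * (C * (B / H ^ 2)) := by
      rw [hK]
      field_simp
    have b7 := mul_le_mul_of_nonneg_left b3 (show (0 : ℝ) ≤ d / 2 by positivity)
    linarith
  choose p hp using key
  exact ⟨p, tendsto_atTop_mono (fun j => (hp j).1) tendsto_natCast_atTop_atTop, fun j => (hp j).2⟩

theorem geo_sched (d : ℕ) [NeZero d] {a : ℝ} (ha : 0 < a) (ha1 : a < 1) : ∃ ε₀ : ℝ, 0 < ε₀ ∧
    ε₀ ≤ epsU d ∧ ∀ (γ₀ B₁ Cr g : ℝ) (V R : Type) [Fintype V] [DecidableEq V] [Fintype R]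
      (F : V → St) (lf md st : ℕ → V) (χ : ℕ → R → V → ℝ → ℝ) (P : ℕ) (lg : ℕ → Bool),
      γ₀ ≤ ε₀ → 0 < B₁ → 0 ≤ Cr → 0 < g → (∀ v, Adm d (F v)) →
      (∀ p, Small d ε₀ γ₀ (F (lf p)) ∧ Small d ε₀ γ₀ (F (md p)) ∧ Small d ε₀ γ₀ (F (st p))) →
      F (lf 0) = 0 → 1 ≤ P → (∀ p, lg (p + P) = lg p) → (∃ p, lg p = true) →
      (∃ c : ℝ, 0 < c ∧ ∀ p, lg p = true → F (md p) = 0 ∧ ∃ z : E 2, 0 < XX z ∧ XX z < 1 ∧
        bet d ((F (st p)).1 z) ((F (st p)).2 z) ≤ -c) →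
      ∃ A η₁ T₁ : ℝ, 0 ≤ A ∧ 0 < η₁ ∧ ∀ (T Kl δ η₂ : ℝ) (q φ ϱ ϱ₁ y y₁ : ℝ → ℝ) path
        (c : ℕ → R → ℝ), T₁ ≤ T → 0 ≤ Kl → η₂ ≤ η₁ →
        QOK d ((d : ℝ) * a / 2) η₂ δ A g T Kl P lg q → PathOK lf md st χ B₁ T Kl P lg path →
        WarpQ d a q φ ϱ ϱ₁ y y₁ → (∀ p r, |c p r| ≤ Cr * et g T P p) →
        GeoOK (gmet φ (Nc (cT d fun t => comb F (path c t)))) (a ^ (d + 1)) := by
  have hd1 : (1 : ℝ) ≤ d := by exact_mod_cast Nat.one_le_iff_ne_zero.2 (NeZero.ne d)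
  have hd : (0 : ℝ) < d := by linarith
  obtain ⟨εR, CR, hεR, hCR, hric⟩ := gmet_ricci (n := d + 2) (ϱ₀ := (1 + a) / 2)
    (by have := NeZero.ne d; omega) (by linarith) (by linarith)
  obtain ⟨C₀, hC₀, hjet⟩ := N_jets d
  have hU : 0 < epsU d := by unfold epsU; positivity
  have hU1 : epsU d ≤ 1 := by
    unfold epsU
    rw [div_le_one (by positivity)]
    linarith
  set ε₀ : ℝ := min (epsU d) (εR / C₀) with hε₀
  have hε0 : 0 < ε₀ := lt_min hU (by positivity)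
  have hε1 : ε₀ ≤ 1 := (min_le_left _ _).trans hU1
  have hε2 : C₀ * ε₀ ≤ εR := by
    rw [← le_div_iff₀' hC₀]
    exact min_le_right _ _
  refine ⟨ε₀, hε0, min_le_left _ _, fun γ₀ B₁ Cr g V R _ _ _ F lf md st χ P lg hγ hB hCr hg hF hs
    hl0 hP hper hlg hsec => ?_⟩
  obtain ⟨C₁, hC₁, hjet⟩ := hjet F hF
  obtain ⟨ρ₀, hρ₀, hsmall⟩ := path_small (χ := χ) hF hs hB
  set η₁ : ℝ := ((d * ((1 + a) / 2) / 2) ^ 2 - (d * a / 2) ^ 2) / 2 with hη₁
  have hη0 : 0 < η₁ := by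
    have : d * a / 2 < d * ((1 + a) / 2) / 2 := by nlinarith
    have := pow_lt_pow_left₀ this (by positivity) two_ne_zero
    linarith
  have hlim : ∀ K L : ℝ, 0 < L → ∀ᶠ T : ℝ in atTop, K * (1 / T) ≤ L := fun K L hL => by
    have : Tendsto (fun T : ℝ => K * (1 / T)) atTop (𝓝 (K * 0)) :=
      (tendsto_const_nhds.div_atTop tendsto_id).const_mul K
    rw [mul_zero] at this
    exact (this.eventually_lt_const hL).mono fun _ h => h.le
  obtain ⟨T₁, hT₁⟩ := eventually_atTop.1 ((eventually_ge_atTop (2 + d / η₁)).and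
    ((hlim (Cr * (2 / g)) ρ₀ hρ₀).and ((hlim (C₁ * (2 * B₁)) ε₀ hε0).and
    ((hlim (C₁ * (B₁ * (Cr * (2 / g)))) ε₀ hε0).and
    (hlim (CR * (C₀ * C₁ * B₁ * Cr) ^ 2 * (2 / g)) (2 / d * Real.exp (-(d : ℝ) * 2))
      (by positivity))))))
  refine ⟨2 * d * Real.exp (d * 2) * CR * (C₀ * C₁ * B₁) ^ 2, η₁, T₁, by positivity, hη0,
    fun T Kl δ η₂ q φ ϱ ϱ₁ y y₁ path c hT hKl hη hq hpath hW hc => ?_⟩
  obtain ⟨hT2, hTa, hTb, hTc, hTd⟩ := hT₁ T hT
  have hdη : 0 < d / η₁ := by positivity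
  have hT0 : 0 < T := by linarith
  have hH1 : ∀ p, T ≤ HH T P p := fun p => le_HH hT0.le P p
  have hinv : ∀ p, 1 / HH T P p ≤ 1 / T := fun p => one_div_le_one_div_of_le hT0 (hH1 p)
  have het : ∀ p, et g T P p ≤ 2 / g * (1 / T) := fun p =>
    (et_le hg hT0 P p).trans (mul_le_mul_of_nonneg_left (hinv p) (by positivity))
  have hinit : ∀ t, t ≤ T → comb F (path c t) = 0 := fun t ht => by
    rw [hpath.init c t ht, comb_single, hl0]
  have hN := nfield_cT hF (hpath.smooth c) fun t ht => hinit t (by linarith)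
  have hsm := hsmall T Kl P lg path hT0.le hKl hpath c fun p i => (hc p i).trans
    ((mul_le_mul_of_nonneg_left (het p) hCr).trans (by linarith))
  set σ : ℝ → ℝ := fun t => ‖deriv (path c) t‖ + ‖deriv (deriv (path c)) t‖ with hσ
  have hσ0 : ∀ t, 0 ≤ σ t := fun t => by positivity
  have hmain : ∀ t, T - 1 ≤ t → C₁ * σ t ≤ ε₀ ∧ CR * (C₀ * C₁ * σ t) ^ 2 ≤ -ϱ₁ t := by
    intro t ht
    have hlo := hW.lo t 2 zero_le_two
    rcases time_cover (P := P) (lg := lg) hT0.le hKl t with h | ⟨p, h | h⟩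
    · have : ta T Kl P lg 0 = -T := rfl
      linarith
    · obtain ⟨h1, h2, h3⟩ := hpath.der c p t h
      have hH := hH1 p
      have hH0 : 0 < HH T P p := by linarith
      have h4 : σ t ≤ 2 * B₁ * (1 / HH T P p) := by
        have : B₁ / HH T P p ^ 2 ≤ B₁ / HH T P p :=
          div_le_div_of_nonneg_left hB.le hH0 (by nlinarith)
        have e : 2 * B₁ * (1 / HH T P p) = B₁ / HH T P p + B₁ / HH T P p := by ring
        rw [e]
        exact add_le_add h1 (h2.trans this)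
      refine ⟨le_trans ?_ hTb, ?_⟩
      · rw [mul_assoc]
        exact mul_le_mul_of_nonneg_left (h4.trans (mul_le_mul_of_nonneg_left (hinv p)
          (by positivity))) hC₁.le
      by_cases hm : t ∈ Mid T Kl P lg p
      · refine le_trans ?_ ((mul_le_mul_of_nonneg_left (hq.cost p t hm) (by positivity)).trans hlo)
        have := hσ0 t
        calc _ ≤ CR * (C₀ * C₁ * (2 * B₁ * (1 / HH T P p))) ^ 2 := by gcongr
          _ = _ := by
            rw [neg_mul, Real.exp_neg]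
            field_simp
      · have : σ t = 0 := by simp only [hσ, (h3 hm).1, (h3 hm).2, norm_zero, add_zero]
        rw [this]
        have := hW.warp.dhi t
        simp only [mul_zero, ne_eq, OfNat.ofNat_ne_zero, not_false_eq_true, zero_pow]
        linarith
    · have he := et_pos g T P p
      have h4 : σ t ≤ B₁ * (Cr * et g T P p) := by
        have := (hpath.evbd c p (Cr * et g T P p) (by positivity) (hc p) (t - tb T Kl P lg p)
          ⟨by linarith [h.1], by linarith [h.2]⟩).2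
        rwa [add_sub_cancel] at this
      refine ⟨le_trans ?_ hTc, ?_⟩
      · calc C₁ * σ t ≤ C₁ * (B₁ * (Cr * (2 / g * (1 / T)))) := by
              have := het p
              exact mul_le_mul_of_nonneg_left (h4.trans (by gcongr)) hC₁.le
          _ = _ := by ring
      · refine le_trans ?_
          ((mul_le_mul_of_nonneg_left (hq.ev p t h).2 (by positivity)).trans hlo)
        have := hσ0 t
        have := het p
        calc _ ≤ CR * (C₀ * C₁ * (B₁ * (Cr * et g T P p))) ^ 2 := by gcongr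
          _ = CR * (C₀ * C₁ * B₁ * Cr) ^ 2 * et g T P p * et g T P p := by ring
          _ ≤ CR * (C₀ * C₁ * B₁ * Cr) ^ 2 * (2 / g * (1 / T)) * et g T P p := by gcongr
          _ ≤ _ := mul_le_mul_of_nonneg_right (by linarith) he.le
  have hqlow : ∀ t, T / 2 ≤ t → q t + η₁ ≤ (d * ((1 + a) / 2) / 2) ^ 2 := fun t ht => by
    have := hq.low t ht
    linarith
  obtain ⟨r1, r2⟩ := hric φ ϱ ϱ₁ a _ (T - 1) (fun t => C₀ * C₁ * σ t) hW.warp hN (by linarith)
    (fun x _ hx => Nc_one (G := fun t => comb F (path c t)) (hinit _ (by linarith)))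
    (fun t ht => hW.drop (T / 2) η₁ _ hη0 (by linarith) (hqlow _ le_rfl) t (by
      have : d / (2 * η₁) = d / η₁ / 2 := by rw [div_div, mul_comm]
      linarith))
    (fun x hx ht i j => by
      obtain ⟨ε', γ', h1, h2, h3, h4⟩ := (hsm (Real.log ‖x‖)).sz
      have := hjet (path c) ε₀ (σ (Real.log ‖x‖)) x (hpath.smooth c) hx hε1 (h3.mono h1.le)
        (h4.mono (h2.le.trans hγ)) (le_add_of_nonneg_right (norm_nonneg _))
        (le_add_of_nonneg_left (norm_nonneg _)) (hmain _ ht).1 i j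
      exact ⟨BJ.jet2_mono this.1 hε2, this.2⟩)
    fun t ht => (hmain t ht).2
  refine ⟨gmet_riem hW.warp hN, gmet_complete hW.warp hN,
    ⟨1, one_pos, fun x hx => gmet_one hW.warp hN x hx.le⟩, r1,
    ⟨Real.exp (T - 1), r2 fun t ht => ?_⟩, gmet_avr (by omega) hW.warp hN hW.lim, ?_⟩
  · have h1 := hW.lo t t (by linarith)
    rw [sub_self, hq.init 0 le_rfl] at h1
    have h2 := hqlow t (by linarith)
    have h3 : (d * ((1 + a) / 2) / 2) ^ 2 ≤ ((d : ℝ) / 2) ^ 2 :=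
      pow_le_pow_left₀ (by positivity) (by nlinarith) 2
    have h4 : 0 < 2 / (d : ℝ) * Real.exp (-(d : ℝ) * t) * (((d : ℝ) / 2) ^ 2 - q t) :=
      mul_pos (by positivity) (by linarith)
    linarith
  obtain ⟨c₀, hc₀, hsec⟩ := hsec
  obtain ⟨A', hA'⟩ := hq.sec
  obtain ⟨p₀, hp₀⟩ := hlg
  have hper' : ∀ k : ℕ, lg (p₀ + k * P) = true := fun k => by
    induction k with
    | zero => simpa using hp₀
    | succ k ih => rw [Nat.succ_mul, ← add_assoc, hper, ih]
  refine sec_neg hW hF (hpath.smooth c) (fun t ht => hinit t (by linarith)) (c₀ := 2 * c₀)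
    (B := B₁ + |A'|) (by positivity) (by positivity) fun N => ?_
  obtain ⟨k, hk⟩ := eventually_atTop.1 ((HH_tendsto hT0 hP).eventually_ge_atTop N)
  set p := p₀ + k * P with hp
  have hkp : k ≤ p := (Nat.le_mul_of_pos_right k hP).trans (Nat.le_add_left _ _)
  obtain ⟨hmd, z, hz0, hz1, hz⟩ := hsec p (hper' k)
  obtain ⟨t, ht, hder⟩ := hpath.sec c p
  have hH0 : 0 < HH T P p := hT0.trans_le (hH1 p)
  have huv := tu_le_tv (P := P) (lg := lg) hT0.le hKl p
  have hu : tu T Kl P lg p = ta T Kl P lg p + 2 * HH T P p := rfl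
  have hb : tb T Kl P lg p = tv T Kl P lg p + 2 * HH T P p := rfl
  refine ⟨t, HH T P p, z, hk p hkp, ?_, hz0, hz1, ?_, ?_, fun s hs => ?_⟩
  · linarith [HH_le_tv (P := P) (lg := lg) hT0.le hKl p, ht.1]
  · rw [hder, sub_eq_add_neg, comb_smul, comb_add, ← neg_one_smul ℝ (Pi.single (md p) 1 : V → ℝ),
      comb_smul, comb_single, comb_single, hmd, smul_zero, add_zero]
    have e : bet d (((2 / HH T P p) • F (st p)).1 z) (((2 / HH T P p) • F (st p)).2 z) =
        2 / HH T P p * bet d ((F (st p)).1 z) ((F (st p)).2 z) := by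
      simp only [bet, Prod.smul_fst, Prod.smul_snd, Pi.smul_apply, smul_eq_mul]
      ring
    rw [e]
    refine (mul_le_mul_of_nonneg_left hz (by positivity)).trans_eq ?_
    ring
  · refine (hpath.der c p t ⟨by linarith [ht.1], by linarith [ht.2]⟩).2.1.trans ?_
    gcongr
    linarith [abs_nonneg A']
  · refine (hA' p s ⟨by linarith [ht.1, hs.1], by linarith [ht.2, hs.2]⟩).trans ?_
    gcongr
    linarith [le_abs_self A']

end Crest.Agent.R202
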