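import Crest.Agent.R202.HDefs
import Crest.Agent.R202.AFix

/-!
# Row 202, H8: from Galerkin solutions to harmonic functions

`tower_of_sol`: `gal_of_sol` (`sol_smooth`, `contDiff_KG`), `ipw_iota`, `back_bound`; for the pairing `KG_eig`, `gam_pair`
with `κ = l + d/2` if `s = s'`, and `QG_parity` (`mem_WS`) if `s ≠ s'`.
`harm_ex`: `reg_lim` for every index with `B t = C exp (θ max t 0)` (`coefBd_path`, `atT_cT`, `cf_tendsto`, `cT_smooth`; `UU` is
the filter of the ultrafilter `Filter.hyperfilter ℕ`), `origin_lim` (`cT_one`) gives `u₀`; put `u x = V x / y (log ‖x‖)`,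
`u 0 = u₀ 0`; `u = u₀` on the ball of radius `1/2`.  `gmet_lap`, `harmonic_of_punctured`, `gmet_riem`, `nfield_cT`.  Growth:
`ylo`, `gmet_growth` for `‖x‖ ≥ 1`, compactness and `riemDist_nonneg` for `‖x‖ ≤ 1`.  Independence: the matrix
`∫ V_i (e^{t₀} p) Tt_{i'}(p)` is within `tol` of the identity (uniform convergence on the sphere,
`lift P (e^{t₀} p) = ev (P t₀) p`), hence a relation `Σ a_i u_i = 0` forces `max |a_i| ≤ tol · card · max |a_i|`.
-/

set_option autoImplicit false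
open scoped ContDiff RealInnerProductSpace Topology
open MeasureTheory Set Filter Module
open Crest.GeometryTopology.CoordMetric
open Crest.Agent.R230 (E MP sph ev Harm)

noncomputable section
namespace Crest.Agent.R202

variable {d : ℕ} [NeZero d]

theorem HLimit.orth {j : ℕ} {s s' : Bool} {M : ℕ} (h : s ≠ s') {u w : RP d j}
    (hu : u ∈ WS d j s M) (hw : w ∈ WS d j s' M) : ⟪u, w⟫ = 0 := by
  have h1 := (mem_WS.1 hu).2.1
  have h2 := (mem_WS.1 hw).2.1
  cases s <;> cases s'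
  · exact absurd rfl h
  · rw [real_inner_comm]
    exact (QG_parity (adm_zero d) (fun z => by simpa [sgn] using h2 z)
      (fun z => by simpa [sgn] using h1 z)).1
  · exact (QG_parity (adm_zero d) (fun z => by simpa [sgn] using h1 z)
      (fun z => by simpa [sgn] using h2 z)).1
  · exact absurd rfl h

theorem HLimit.pair {j : ℕ} {s s' : Bool} {M : ℕ} {tol : ℝ} {e₀ : RP d j} (he : e₀ ∈ WS d j s M)
    {u v : WS d j s M} (h0 : Del (KG d j s M 0 (((d : ℝ) / 2) ^ 2)) u v = 0)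
    (h1 : ‖((Gam (KG d j s M 0 (((d : ℝ) / 2) ^ 2)) u v : WS d j s M) : RP d j) - e₀‖ ≤ tol)
    {e' : RP d j} {l : ℕ} (hn : ‖e'‖ = 1)
    (hE : EigF (QG d j 0) (WS d j s' M) e' ((l : ℝ) * (l + d))) :
    |(2 * (l : ℝ) + d) * ⟪(u : RP d j), e'⟫ - ⟪e₀, e'⟫| ≤ tol := by
  by_cases hs : s = s'
  · subst hs
    have hK := KG_eig s M 0 (((d : ℝ) / 2) ^ 2) (e := ⟨e', hE.1⟩) hE
    have hg := gam_pair (κ := (l : ℝ) + d / 2) (posOp_KG (adm_zero d) s M le_rfl) h0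
      (by positivity) (hK.trans (by congr 1; ring))
    have e : (2 * (l : ℝ) + d) * ⟪(u : RP d j), e'⟫ - ⟪e₀, e'⟫ =
        ⟪((Gam (KG d j s M 0 (((d : ℝ) / 2) ^ 2)) u v : WS d j s M) : RP d j) - e₀, e'⟫ := by
      rw [inner_sub_left]
      have hg' : ⟪((Gam (KG d j s M 0 (((d : ℝ) / 2) ^ 2)) u v : WS d j s M) : RP d j), e'⟫ =
        2 * ((l : ℝ) + d / 2) * ⟪(u : RP d j), e'⟫ := hg
      rw [hg']; ring
    rw [e]
    refine (abs_real_inner_le_norm _ _).trans ?_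
    rwa [hn, mul_one]
  · rw [HLimit.orth hs u.2 hE.1, HLimit.orth hs he hE.1, mul_zero, sub_zero, abs_zero]
    exact (norm_nonneg _).trans h1

theorem tower_of_sol {V : Type} [Fintype V] {F : V → St} (hF : ∀ v, Adm d (F v)) {a : ℝ → V → ℝ}
    (ha : ContDiff ℝ ∞ a) (h0 : ∀ t, t ≤ 0 → comb F (a t) = 0) {q om : ℝ → ℝ} (hq : ContDiff ℝ ∞ q)
    (hq0 : ∀ t, t ≤ 0 → q t = ((d : ℝ) / 2) ^ 2) {j : ℕ} {s : Bool} {M : ℕ} {t₀ t₁ C tol : ℝ}
    (ht₀ : t₀ ≤ 0) (ht₁ : t₀ ≤ t₁) {e₀ : RP d j} (he : e₀ ∈ WS d j s M) {Y : MP d} (hY : Y ∈ Harm d j)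
    (hY1 : ∫ o, ev (Y * Y) o ∂sph d = 1)
    (h : SolOK d j s M (fun t => comb F (a t)) q om t₀ t₁ C tol e₀) :
    ∃ Pw : ℕ → ℝ → MP (d + 2), Gal (M + j) (cT d fun t => comb F (a t)) q Pw ∧
      (∀ t, t ≤ t₀ → ipw (fun _ => 1) (Pw 0 t) (Pw 0 t) ≤ C ^ 2) ∧
      (∀ t ∈ Icc t₀ t₁, ipw (fun _ => 1) (Pw 0 t) (Pw 0 t) ≤ (C * Real.exp (om t - om t₀)) ^ 2) ∧
      ∀ (j' : ℕ) (s' : Bool) (Y' : MP d) (e' : RP d j') (l : ℕ), Y' ∈ Harm d j' → ‖e'‖ = 1 →
        EigF (QG d j' 0) (WS d j' s' M) e' ((l : ℝ) * (l + d)) →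
        |ipw (fun _ => 1) (Pw 0 t₀) ((2 * (l : ℝ) + d) • iota Y' (toP d j' e')) -
            if j = j' then (∫ o, ev (Y * Y') o ∂sph d) * ipR d j (toP d j e₀) (toP d j' e') else 0| ≤
          |∫ o, ev (Y * Y') o ∂sph d| * tol := by
  obtain ⟨y, y', hsol, hdel, hgam, hbd⟩ := h
  have hy : ContDiff ℝ ∞ y := sol_smooth ((contDiff_KG hF s M).comp (ha.prodMk hq)) hsol
  have hK : ∀ t, t ≤ t₀ → KG d j s M (comb F (a t)) (q t) = KG d j s M 0 (((d : ℝ) / 2) ^ 2) :=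
    fun t ht => by rw [h0 t (ht.trans ht₀), hq0 t (ht.trans ht₀)]
  have hn : ∀ t, ipw (fun _ => 1) (iota Y (toP d j (y t : RP d j))) (iota Y (toP d j (y t : RP d j))) =
      ‖y t‖ ^ 2 := fun t => by
    rw [ipw_iota hY hY, if_pos rfl, hY1, one_mul, ← inner_RP, real_inner_self_eq_norm_sq]
    rfl
  refine ⟨_, gal_of_sol (fun t => adm_comb hF (a t)) hY hY1 hy hsol, fun t ht => ?_,
    fun t ht => ?_, ?_⟩
  · have h1 := back_bound (κ₀ := (d : ℝ) / 2) (a := t₀)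
      (by rw [hK t₀ le_rfl]; exact posOp_KG (adm_zero d) s M le_rfl)
      (fun t ht => by rw [hK t ht, hK t₀ le_rfl]) hsol hdel t ht
    have h2 := hbd t₀ ⟨le_rfl, ht₁⟩
    rw [sub_self, Real.exp_zero, mul_one] at h2
    rw [iteratedDeriv_zero, hn]
    exact pow_le_pow_left₀ (norm_nonneg _) (h1.trans h2) 2
  · rw [iteratedDeriv_zero, hn]
    exact pow_le_pow_left₀ (norm_nonneg _) (hbd t ht) 2
  · intro j' s' Y' e' l hY' hn' hE
    beta_reduce at hdel hgam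
    rw [hK t₀ le_rfl] at hdel hgam
    rw [iteratedDeriv_zero, ← map_smul, ipw_iota hY hY']
    split_ifs with hj
    · subst hj
      rw [← mul_sub, abs_mul, ← map_smul, ← inner_RP, ← inner_RP, real_inner_smul_right]
      exact mul_le_mul_of_nonneg_left (HLimit.pair he hdel hgam hn' hE) (abs_nonneg _)
    · rw [sub_zero, abs_zero]
      exact mul_nonneg (abs_nonneg _) ((norm_nonneg _).trans hgam)

/-- a matrix close to the identity has independent rows -/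
theorem HLimit.indep {ι : Type} [Fintype ι] [DecidableEq ι] {A : ι → ι → ℝ} {tol : ℝ}
    (htol : tol * Fintype.card ι < 1) (hA : ∀ i i', |A i i' - if i = i' then 1 else 0| ≤ tol)
    {g : ι → ℝ} (hg : ∀ i', ∑ i, g i * A i i' = 0) (i : ι) : g i = 0 := by
  have h1 : ∀ i', |g i'| ≤ tol * ∑ i, |g i| := fun i' => by
    have e : g i' = -∑ i, g i * (A i i' - if i = i' then 1 else 0) := by
      simp [mul_sub, Finset.sum_sub_distrib, hg i']
    rw [e, abs_neg, Finset.mul_sum]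
    refine (Finset.abs_sum_le_sum_abs _ _).trans (Finset.sum_le_sum fun i _ => ?_)
    rw [abs_mul, mul_comm]
    exact mul_le_mul_of_nonneg_right (hA i i') (abs_nonneg _)
  have h2 : ∑ i, |g i| ≤ Fintype.card ι * (tol * ∑ i, |g i|) := by
    refine (Finset.sum_le_sum fun i _ => h1 i).trans ?_
    rw [Finset.sum_const, nsmul_eq_mul, Finset.card_univ]
  have h3 : 0 ≤ ∑ i, |g i| := Finset.sum_nonneg fun i _ => abs_nonneg _
  have h4 : ∑ i, |g i| ≤ 0 := by nlinarith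
  exact abs_nonpos_iff.1
    ((Finset.single_le_sum (fun i _ => abs_nonneg (g i)) (Finset.mem_univ i)).trans h4)

omit [NeZero d] in
/-- the quotient `V / y`, extended to the origin, is smooth -/
theorem HLimit.smooth {y : ℝ → ℝ} (hy : ContDiff ℝ ∞ y) (hy0 : ∀ t, 0 < y t)
    (hy1 : ∀ t, t ≤ 0 → y t = Real.exp ((d : ℝ) / 2 * t)) {V u₀ : E (d + 2) → ℝ}
    (hV : ContDiffOn ℝ ∞ V {0}ᶜ) (hu : ContDiffOn ℝ ∞ u₀ (Metric.ball 0 (1 / 2)))
    (h : ∀ x : E (d + 2), x ≠ 0 → ‖x‖ < 1 / 2 →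
      V x = Real.exp ((d : ℝ) / 2 * Real.log ‖x‖) * u₀ x) :
    ∃ u : E (d + 2) → ℝ, ContDiff ℝ ∞ u ∧ ∀ x, x ≠ 0 → u x = V x / y (Real.log ‖x‖) := by
  classical
  refine ⟨fun x => if x = 0 then u₀ 0 else V x / y (Real.log ‖x‖), ?_, fun x hx => if_neg hx⟩
  refine contDiff_iff_contDiffAt.2 fun x => ?_
  by_cases hx : x = 0
  · subst hx
    have hb : Metric.ball (0 : E (d + 2)) (1 / 2) ∈ 𝓝 0 := Metric.ball_mem_nhds _ (by norm_num)
    refine (hu.contDiffAt hb).congr_of_eventuallyEq ?_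
    filter_upwards [hb] with x hx
    rw [mem_ball_zero_iff] at hx
    split_ifs with h0
    · rw [h0]
    · rw [h x h0 hx, hy1 _ (Real.log_nonpos (norm_nonneg _) (by linarith)),
        mul_div_cancel_left₀ _ (Real.exp_pos _).ne']
  · have hb : ({0}ᶜ : Set (E (d + 2))) ∈ 𝓝 x := isOpen_compl_singleton.mem_nhds hx
    refine ((hV.contDiffAt hb).div (hy.contDiffAt.comp x
      ((contDiffAt_norm ℝ hx).log (norm_ne_zero_iff.2 hx))) (hy0 _).ne').congr_of_eventuallyEq ?_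
    filter_upwards [hb] with x hx
    exact if_neg hx

omit [NeZero d] in
/-- polynomial growth in the distance -/
theorem HLimit.growth {a θ C C' : ℝ} {k : ℕ} {y : ℝ → ℝ} (hθ : θ ≤ ((k : ℝ) + d / 2) * a)
    (hC : 0 ≤ C) (ylo : ∀ t, 0 ≤ t → Real.exp ((d : ℝ) * a / 2 * t) ≤ y t)
    {V u ρ : E (d + 2) → ℝ} (hu : Continuous u) (h : ∀ x, x ≠ 0 → u x = V x / y (Real.log ‖x‖))
    (hV : ∀ x, x ≠ 0 → |V x| ≤ C' * (C * Real.exp (θ * max (Real.log ‖x‖ + 1) 0)))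
    (hρ0 : ∀ x, 0 ≤ ρ x) (hρ : ∀ x, 1 ≤ ‖x‖ → Real.exp (a * Real.log ‖x‖) ≤ 1 + ρ x) :
    ∃ C₀ : ℝ, ∀ x, |u x| ≤ C₀ * (1 + ρ x) ^ k := by
  obtain ⟨C₁, hC₁⟩ := (isCompact_closedBall (0 : E (d + 2)) 1).exists_bound_of_continuousOn
    hu.continuousOn
  have hC₁0 : 0 ≤ C₁ := (norm_nonneg _).trans (hC₁ 0 (by simp))
  refine ⟨C₁ + |C'| * C * Real.exp θ, fun x => ?_⟩
  have h1 : 1 ≤ (1 + ρ x) ^ k := one_le_pow₀ (by linarith [hρ0 x])
  have h2 : 0 ≤ |C'| * C * Real.exp θ := by positivity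
  rcases le_total ‖x‖ 1 with hx | hx
  · have := hC₁ x (by simpa using hx)
    rw [Real.norm_eq_abs] at this
    nlinarith
  · have hx0 : x ≠ 0 := by
      rintro rfl
      norm_num at hx
    have ht : 0 ≤ Real.log ‖x‖ := Real.log_nonneg hx
    have h3 := hV x hx0
    have h4 := ylo _ ht
    have h5 := hρ x hx
    have h9 := h x hx0
    clear hρ hV h
    generalize Real.log ‖x‖ = t at *
    have hy : 0 < y t := (Real.exp_pos _).trans_le h4
    have h6 : Real.exp (a * t) ^ k ≤ (1 + ρ x) ^ k := pow_le_pow_left₀ (Real.exp_pos _).le h5 k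
    have h7 : Real.exp (θ * max (t + 1) 0) ≤
        Real.exp θ * (Real.exp (a * t) ^ k * Real.exp ((d : ℝ) * a / 2 * t)) := by
      rw [max_eq_left (by linarith), ← Real.exp_nat_mul, ← Real.exp_add, ← Real.exp_add]
      refine Real.exp_le_exp.2 ?_
      nlinarith [mul_le_mul_of_nonneg_right hθ ht]
    have h8 : |V x| ≤ |C'| * C * Real.exp θ * (1 + ρ x) ^ k * y t := by
      refine h3.trans ((mul_le_mul_of_nonneg_right (le_abs_self C') (by positivity)).trans ?_)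
      calc |C'| * (C * Real.exp (θ * max (t + 1) 0))
          ≤ |C'| * (C * (Real.exp θ * ((1 + ρ x) ^ k * y t))) := by
            gcongr
            refine h7.trans ?_
            gcongr
        _ = _ := by ring
    rw [h9, abs_div, abs_of_pos hy, div_le_iff₀ hy]
    refine h8.trans (mul_le_mul_of_nonneg_right ?_ hy.le)
    nlinarith

theorem harm_ex {a : ℝ} {q φ ϱ ϱ₁ y y₁ : ℝ → ℝ} (hW : WarpQ d a q φ ϱ ϱ₁ y y₁) (hq : ContDiff ℝ ∞ q)
    (hqb : ∀ r : ℕ, ∃ B : ℝ, ∀ t, |iteratedDeriv r q t| ≤ B)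
    (hq0 : ∀ t, t ≤ 0 → q t = ((d : ℝ) / 2) ^ 2) {V : Type} [Fintype V] {F : V → St}
    (hF : ∀ v, Adm d (F v)) {aM : ℕ → ℝ → V → ℝ} {al : ℝ → V → ℝ} (hs : ∀ M, ContDiff ℝ ∞ (aM M))
    (hl : ContDiff ℝ ∞ al) (hb : ∀ r : ℕ, ∃ B : ℝ, ∀ M t, ‖iteratedDeriv r (aM M) t‖ ≤ B)
    (heps : ∀ M t z, |(comb F (aM M t)).1 z| ≤ epsU d ∧ |(comb F (aM M t)).2 z| ≤ epsU d)
    (h0 : ∀ M t, t ≤ 0 → comb F (aM M t) = 0) (h0' : ∀ t, t ≤ 0 → comb F (al t) = 0)
    (hlim : ∀ t, Tendsto (fun M => aM M t) UU (𝓝 (al t))) {ι : Type} [Fintype ι] [DecidableEq ι]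
    {N : ι → ℕ → ℕ} (hN : ∀ i, Tendsto (N i) UU atTop) {Pw : ι → ℕ → ℕ → ℝ → MP (d + 2)}
    {Tt : ι → MP (d + 2)} {k : ℕ} {θ C t₀ tol : ℝ} (hθ0 : 0 ≤ θ) (hθ : θ ≤ ((k : ℝ) + d / 2) * a)
    (hC : 0 ≤ C) (htol : tol * Fintype.card ι < 1)
    (hG : ∀ i, ∀ᶠ M in UU, Gal (N i M) (cT d fun t => comb F (aM M t)) q (Pw i M) ∧
      (∀ t, t ≤ 0 → ipw (fun _ => 1) (Pw i M 0 t) (Pw i M 0 t) ≤ C ^ 2) ∧
      ∀ i', |ipw (fun _ => 1) (Pw i M 0 t₀) (Tt i') - if i = i' then 1 else 0| ≤ tol)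
    (hL : ∀ i (T : ℝ), ∀ᶠ M in UU, ∀ t ∈ Icc 0 T,
      ipw (fun _ => 1) (Pw i M 0 t) (Pw i M 0 t) ≤ (C * Real.exp (θ * t)) ^ 2) :
    HarmOK (gmet φ (Nc (cT d fun t => comb F (al t)))) k ι := by
  choose Ba hBa using hb
  choose Bq hBq using hqb
  obtain ⟨Bd, hBd⟩ := coefBd_path hF Ba Bq
  have hNf := nfield_cT hF hl h0'
  have hc : ∀ i k t, TendstoUniformlyOn (fun M => atT (cT d fun t => comb F (aM M t)) t i k)
      (atT (cT d fun t => comb F (al t)) t i k) UU (Metric.sphere 0 1) := fun i k t =>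
    ((cf_tendsto hF (hlim t) i k).congr (Eventually.of_forall fun M p hp =>
      (atT_cT (fun t => comb F (aM M t)) t i k (by simpa using hp)).symm)).congr_right fun p hp =>
      (atT_cT (fun t => comb F (al t)) t i k (by simpa using hp)).symm
  have key : ∀ i, ∃ W u : E (d + 2) → ℝ, ContDiffOn ℝ ∞ W {0}ᶜ ∧
      TendstoUniformlyOn (fun M => ev (Pw i M 0 t₀)) (fun p => W (Real.exp t₀ • p)) UU
        (Metric.sphere 0 1) ∧ (∀ x, x ≠ 0 → u x = W x / y (Real.log ‖x‖)) ∧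
      IsHarmonicOn (gmet φ (Nc (cT d fun t => comb F (al t)))) univ u ∧
      ∃ C : ℝ, ∀ x, |u x| ≤
        C * (1 + riemDist (gmet φ (Nc (cT d fun t => comb F (al t)))) univ 0 x) ^ k := by
    intro i
    obtain ⟨W, hW1, hW2, hW3, C', hW4⟩ := reg_lim (n := d + 2) (by omega) (Filter.hyperfilter ℕ)
      (c₀ := 1 / 2) (by norm_num) Bd (N i) (hN i) (fun M => cT d fun t => comb F (aM M t))
      (cT d fun t => comb F (al t)) q (Pw i) (cT_smooth hF hl) hc
      ((hG i).mono fun M hM => ⟨hBd _ _ (hs M) hq (fun r t => hBa r M t) hBq (heps M), hM.1⟩)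
      (fun t => C * Real.exp (θ * max t 0)) (fun t => by positivity)
      (fun s t hst => mul_le_mul_of_nonneg_left (Real.exp_le_exp.2
        (mul_le_mul_of_nonneg_left (max_le_max_right 0 hst) hθ0)) hC)
      (fun T => ((hG i).and (hL i T)).mono fun M hM t ht => by
        rcases le_total t 0 with h | h
        · rw [max_eq_right h, mul_zero, Real.exp_zero, mul_one]
          exact hM.1.2.1 t h
        · rw [max_eq_left h]
          exact hM.2 t ⟨h, ht.2⟩)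
    obtain ⟨u₀, hu₀, hu₁⟩ := origin_lim (Filter.hyperfilter ℕ) (N i)
      (fun M => cT d fun t => comb F (aM M t)) q (Pw i) C hq0
      ((hG i).mono fun M hM => ⟨hM.1, fun i' k' x _ hx =>
        cT_one (h0 M _ (Real.log_nonpos (norm_nonneg _) hx)) i' k', hM.2.1⟩) (V := W)
      (fun x hx => by
        have := (hW2 [] (Real.log ‖x‖)).tendsto_at (x := ‖x‖⁻¹ • x)
          (by simpa using CLimAux.norm_unit hx)
        simpa only [wd, CLimAux.exp_log_smul hx] using this)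
    obtain ⟨u, hu, hu'⟩ := HLimit.smooth hW.ys hW.ypos hW.y0 hW1 hu₀ hu₁
    refine ⟨W, u, hW1, (hW2 [] t₀).congr (Eventually.of_forall fun M p hp =>
      lift_exp _ t₀ (by simpa using hp)), hu', ?_, ?_⟩
    · exact harmonic_of_punctured (by omega) (gmet_riem hW.warp hNf) hu fun x hx =>
        gmet_lap hW.warp (cT_smooth hF hl) hNf hW.ys hW.ypos hW.y2 hW.y1 hW.yq hW1 hu' hx (hW3 x hx)
    · exact HLimit.growth hθ hC hW.ylo hu.continuous hu' hW4 (riemDist_nonneg _ 0)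
        fun x hx => gmet_growth hW.warp hNf hx
  choose W u hW1 hW2 hu hH hgr using key
  refine ⟨u, Fintype.linearIndependent_iff.2 fun g hg => ?_, fun i => ⟨hH i, hgr i⟩⟩
  have hcW : ∀ i, ContinuousOn (fun p => W i (Real.exp t₀ • p)) {0}ᶜ := fun i =>
    (CLimAux.contDiffOn_scale (hW1 i) (Real.exp_pos t₀)).continuousOn
  refine HLimit.indep htol
    (A := fun i i' => ∫ p, 1 * (W i (Real.exp t₀ • p) * ev (Tt i') p) ∂sph (d + 2))
    (fun i i' => ?_) fun i' => ?_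
  · have := CLimAux.tendsto_ipw (l := UU) (c := fun _ _ => 1) (c0 := fun _ => 1) (Tt i')
      (tendsto_const_nhds.tendstoUniformlyOn_const _) (hW2 i) continuousOn_const (hcW i)
      (Eventually.of_forall fun _ => continuousOn_const)
    have hne : NeBot UU := (Filter.hyperfilter ℕ).neBot
    exact le_of_tendsto (this.sub_const _).abs ((hG i).mono fun M hM => hM.2.2 i')
  · simp only [← integral_const_mul]
    have hi : ∀ i, Integrable (fun p => g i * (1 * (W i (Real.exp t₀ • p) * ev (Tt i') p)))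
        (sph (d + 2)) := fun i => R230.integrable_of_continuousOn (continuousOn_const.mul
      (continuousOn_const.mul ((hcW i).mul (R230.continuous_ev _).continuousOn)))
    rw [← integral_finsetSum _ fun i _ => hi i]
    refine integral_eq_zero_of_ae ?_
    filter_upwards [R230.ae_norm] with p hp
    have hx : Real.exp t₀ • p ≠ 0 :=
      smul_ne_zero (Real.exp_pos _).ne' (CLimAux.sph_sub (by simpa using hp))
    have h1 := congrFun hg (Real.exp t₀ • p)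
    simp only [Finset.sum_apply, Pi.smul_apply, smul_eq_mul, hu _ _ hx, ← mul_div_assoc,
      ← Finset.sum_div, Pi.zero_apply, div_eq_zero_iff, (hW.ypos _).ne', or_false] at h1
    simp only [one_mul, ← mul_assoc, ← Finset.sum_mul, h1, zero_mul, Pi.zero_apply]

end Crest.Agent.R202
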