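import Crest.Agent.R202.HSolve
import Crest.Agent.R202.HLimit

/-!
# Row 202, H9: the harmonic functions of the schedule

`κ₀ = da/2`, `θ = (k + d/2) a`, `g = min (g₀, κ₀/2, 1, (θ - θ₀ - d/2)/4)`, `θ₁ = θ₀ + d/2 + 2g`; `Kl = K₀` and `om j x` from
`exists_om` with `f p = ldeg j (lab j x p) + d/2 + 2g` (`PlanOK.avg`, `labL`); `e₀` from `exists_round`, `Y` from
`exists_harm_on`; `tol = 1/(2 (cnt + 1))`; `solve_ex` with `ν = M` gives `c M` (choose `0` outside the `UU`-large set).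
The amplitudes are bounded, so `c M p r` converges along the ultrafilter to some `c p r`; `PathOK.cont`.  `T₁` is so large
that `Cr · et p ≤ min 1 ρ₀` (`path_small`, `Small.abs_le`).  Index type `TI`; `tower_of_sol` with `t₀ = ta 0 = -T`,
`t₁ = tb M → ∞`; the constant of `harm_ex` is the maximum over the finitely many trajectories of `C exp (C_om)`.
-/

set_option autoImplicit false
open scoped ContDiff RealInnerProductSpace Topology
open MeasureTheory Set Filter Module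
open Crest.GeometryTopology.CoordMetric
open Crest.Agent.R230 (E MP sph ev Harm)

noncomputable section
namespace Crest.Agent.R202

/-- block, parity, tracked label, harmonic polynomial in `y` -/
abbrev TI (d : ℕ) (J : Finset ℕ) (L : ℕ → Finset (ℕ × ℕ)) : Type :=
  Σ j : J, Bool × L j × Fin (finrank ℝ (Harm d j))

theorem card_TI (d : ℕ) (J : Finset ℕ) (L : ℕ → Finset (ℕ × ℕ)) :
    Fintype.card (TI d J L) = cnt d J L := by
  rw [Fintype.card_sigma, cnt, ← Finset.sum_coe_sort J]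
  refine Finset.sum_congr rfl fun j _ => ?_
  simp only [Fintype.card_prod, Fintype.card_bool, Fintype.card_coe, Fintype.card_fin, mul_assoc]

theorem HarmOK.equiv {n k : ℕ} {g : MetricField n} {ι ι' : Type} (e : ι ≃ ι') (h : HarmOK g k ι) :
    HarmOK g k ι' := by
  obtain ⟨f, h1, h2⟩ := h
  exact ⟨f ∘ e.symm, h1.comp _ e.symm.injective, fun i => h2 _⟩

theorem HHarm.pair {d : ℕ} [NeZero d] {J : Finset ℕ} {L : ℕ → Finset (ℕ × ℕ)}
    (hL : ∀ j ∈ J, ∀ x ∈ L j, 1 ≤ x.1) {e₀ : ∀ j, Bool → ℕ × ℕ → RP d j}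
    (he : ∀ j ∈ J, ∀ (s : Bool) (x : ℕ × ℕ), okS s x.1 →
      ‖e₀ j s x‖ = 1 ∧ (∀ x' : ℕ × ℕ, okS s x'.1 → x' ≠ x → ⟪e₀ j s x, e₀ j s x'⟫ = 0) ∧
      ∀ M, x.1 + 2 * x.2 + 2 ≤ M → e₀ j s x ∈ Sec d j s x.1 M ∧
        EigF (QG d j 0) (WS d j s M) (e₀ j s x) ((ldeg j x : ℝ) * (ldeg j x + d)))
    {Y : ∀ j, Fin (finrank ℝ (Harm d j)) → MP d}
    (hY : ∀ j, (∀ a, Y j a ∈ Harm d j) ∧
      ∀ a b, ∫ o, ev (Y j a * Y j b) o ∂sph d = if a = b then 1 else 0) (i i' : TI d J L) :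
    |∫ o, ev (Y i.1 i.2.2.2 * Y i'.1 i'.2.2.2) o ∂sph d| ≤ 1 ∧
    (if (i.1 : ℕ) = i'.1 then (∫ o, ev (Y i.1 i.2.2.2 * Y i'.1 i'.2.2.2) o ∂sph d) *
      ipR d i.1 (toP d i.1 (e₀ i.1 i.2.1 i.2.2.1)) (toP d i'.1 (e₀ i'.1 i'.2.1 i'.2.2.1)) else 0) =
      if i = i' then 1 else 0 := by
  obtain ⟨⟨j, hj⟩, s, ⟨x, hx⟩, a⟩ := i
  obtain ⟨⟨j', hj'⟩, s', ⟨x', hx'⟩, a'⟩ := i'
  dsimp only at a a' hx hx' ⊢
  by_cases h : j = j'
  swap
  · rw [(harm_pair ((hY j).1 a) ((hY j').1 a')).1 h, if_neg h, if_neg]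
    · simp
    · intro e
      exact h (congrArg (fun i : TI d J L => (i.1 : ℕ)) e)
  subst h
  rw [if_pos rfl, (hY j).2, ← inner_RP]
  refine ⟨by split_ifs <;> simp, ?_⟩
  obtain ⟨a1, a2, a3⟩ := he j hj s x (Or.inr (hL j hj x hx))
  obtain ⟨-, -, b3⟩ := he j hj s' x' (Or.inr (hL j hj x' hx'))
  simp only [Sigma.mk.injEq, heq_eq_eq, true_and, Prod.mk.injEq, Subtype.mk.injEq]
  by_cases hs : s = s'
  · subst hs
    by_cases hxx : x = x'
    · subst hxx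
      rw [real_inner_self_eq_norm_sq, a1]
      simp
    · rw [a2 x' (Or.inr (hL j hj x' hx')) (Ne.symm hxx)]
      simp [hxx]
  · have c1 := (BLink.mem_WS.1 (a3 _ le_rfl).1.1).1.2
    have c2 := (BLink.mem_WS.1 (b3 _ le_rfl).1.1).1.2
    rw [(BLink.parity (adm_zero d) c1 (by
      rw [c2]
      cases s <;> cases s' <;> simp_all [sgn])).1]
    simp [hs]

theorem harm_sched {d : ℕ} [NeZero d] {J : Finset ℕ} {L : ℕ → Finset (ℕ × ℕ)}
    {a ε γ₀ μs Θ₀ θ₀ g₀ μ₀ η₀ : ℝ} {V R : Type} [Fintype V] [DecidableEq V] [Fintype R]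
    [DecidableEq R] {F : V → St} {lf md st : ℕ → V} {gs : ℕ → RSt} {Low : ℕ → ℕ → Finset (ℕ × ℕ)}
    {lab : ℕ → ℕ × ℕ → ℕ → ℕ × ℕ} {χ : ℕ → R → V → ℝ → ℝ} {idx : ℕ → CT → R} {P : ℕ} {lg : ℕ → Bool}
    (ha : 0 < a) (hP : Par d ε γ₀ J) (hL : Lev d J L μs Θ₀)
    (hpl : PlanOK d J L ε γ₀ ((d : ℝ) * a / 2) μs θ₀ g₀ μ₀ η₀ F lf md st gs Low lab χ idx P lg)
    {k : ℕ} (hθ : θ₀ + d / 2 < ((k : ℝ) + d / 2) * a) {B₁ : ℝ} (hB : 0 < B₁) :
    ∃ g Kl δ Cr T₁ : ℝ, 0 < g ∧ 0 ≤ Kl ∧ 0 < δ ∧ 0 ≤ Cr ∧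
      ∀ (T A η₁ : ℝ) (q φ ϱ ϱ₁ y y₁ : ℝ → ℝ) path, T₁ ≤ T → η₁ ≤ η₀ →
        QOK d ((d : ℝ) * a / 2) η₁ δ A g T Kl P lg q → PathOK lf md st χ B₁ T Kl P lg path →
        WarpQ d a q φ ϱ ϱ₁ y y₁ → ∃ c : ℕ → R → ℝ, (∀ p r, |c p r| ≤ Cr * et g T P p) ∧
          HarmOK (gmet φ (Nc (cT d fun t => comb F (path c t)))) k (Fin (cnt d J L)) := by
  classical
  have hd : (1 : ℝ) ≤ d := by exact_mod_cast Nat.one_le_iff_ne_zero.2 (NeZero.ne d)
  have hκ : 0 < (d : ℝ) * a / 2 := by positivity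
  set θ : ℝ := ((k : ℝ) + d / 2) * a with hθd
  have hθ0 : 0 ≤ θ := by positivity
  obtain ⟨g, hg, hg0, hgκ, hg1, hgθ⟩ : ∃ g : ℝ, 0 < g ∧ g ≤ g₀ ∧ 2 * g ≤ (d : ℝ) * a / 2 ∧ g ≤ 1 ∧
      θ₀ + d / 2 + 2 * g < θ := by
    refine ⟨min (min g₀ ((d : ℝ) * a / 4)) (min 1 ((θ - θ₀ - d / 2) / 4)),
      lt_min (lt_min hpl.g0 (by linarith)) (lt_min one_pos (by linarith)),
      (min_le_left _ _).trans (min_le_left _ _), ?_, (min_le_right _ _).trans (min_le_left _ _), ?_⟩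
    · linarith [(min_le_left (min g₀ ((d : ℝ) * a / 4)) (min 1 ((θ - θ₀ - d / 2) / 4))).trans
        (min_le_right _ _)]
    · linarith [(min_le_right (min g₀ ((d : ℝ) * a / 4)) (min 1 ((θ - θ₀ - d / 2) / 4))).trans
        (min_le_right _ _)]
  obtain ⟨Kl, hKl, hom⟩ := exists_om (μs := μs) (B := μs + d / 2 + 2 * g) hpl.Ppos hpl.per hpl.some
    (zero_le_one.trans hL.mupos) hgθ hθ0
  have htol : (0 : ℝ) < 1 / (2 * ((cnt d J L : ℝ) + 1)) := by positivity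
  obtain ⟨δ, Cr, C, T₁, hδ, hCr, hC, hsol⟩ :=
    solve_ex hpl hκ hg hg0 hgκ (hg1.trans hL.mupos) hB htol
  obtain ⟨ρ₀, hρ₀, hsm⟩ := path_small (χ := χ) hpl.adm hpl.small hB
  have hρ₁ : 0 < min 1 ρ₀ := lt_min one_pos hρ₀
  refine ⟨g, Kl, δ, Cr, max 1 (max T₁ (2 * Cr / (g * min 1 ρ₀))), hg, hKl, hδ, hCr, ?_⟩
  intro T A η₁ q φ ϱ ϱ₁ y y₁ path hT hη hq hpath hW
  simp only [max_le_iff] at hT
  obtain ⟨hT1, hT2, hT3⟩ := hT
  have hT0 : 0 < T := one_pos.trans_le hT1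
  have het : ∀ p, Cr * et g T P p ≤ min 1 ρ₀ := by
    intro p
    have h1 : et g T P p ≤ 2 / g * (1 / T) :=
      (et_le hg hT0 P p).trans (by gcongr; exact le_HH hT0.le P p)
    refine (mul_le_mul_of_nonneg_left h1 hCr).trans ?_
    rw [div_le_iff₀ (by positivity)] at hT3
    rw [show Cr * (2 / g * (1 / T)) = 2 * Cr / (g * T) by field_simp, div_le_iff₀ (by positivity)]
    linarith
  have hom' : ∀ (j : ℕ) (x : ℕ × ℕ), ∃ (om : ℝ → ℝ) (C' : ℝ), j ∈ J → x ∈ L j → Monotone om ∧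
      (∀ p, TOm (ta T Kl P lg p) (tu T Kl P lg p) (tv T Kl P lg p) (tb T Kl P lg p) μs
        ((ldeg j (lab j x p) : ℝ) + d / 2 + 2 * g) om) ∧
      ∀ t, ta T Kl P lg 0 ≤ t → om t - om (ta T Kl P lg 0) ≤ θ * t + C' := by
    intro j x
    by_cases h : j ∈ J ∧ x ∈ L j
    · obtain ⟨om, C', h'⟩ := hom Kl le_rfl T hT1
        (fun p => (ldeg j (lab j x p) : ℝ) + d / 2 + 2 * g) (fun p => ⟨by positivity, by
          have h1 := hL.mu j h.1 _ (hpl.labL j h.1 x h.2 p)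
          have h2 : (0 : ℝ) ≤ ldeg j (lab j x p) := Nat.cast_nonneg _
          have h3 : (ldeg j (lab j x p) : ℝ) ≤ Real.sqrt (4 * ((ldeg j (lab j x p) : ℝ) *
              (ldeg j (lab j x p) + d)) + ((d : ℝ) / 2) ^ 2) :=
            Real.le_sqrt_of_sq_le (by nlinarith)
          linarith⟩) (fun r => by
          have h1 := hpl.avg j h.1 x h.2 r
          rw [Finset.sum_add_distrib, Finset.sum_add_distrib, Finset.sum_const, Finset.sum_const,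
            nsmul_eq_mul, nsmul_eq_mul]
          linarith)
      exact ⟨om, C', fun _ _ => h'⟩
    · exact ⟨0, 0, fun h1 h2 => absurd ⟨h1, h2⟩ h⟩
  choose om Com hom' using hom'
  have he : ∀ (j : ℕ) (s : Bool), ∃ φ : ℕ × ℕ → RP d j, j ∈ J → ∀ x : ℕ × ℕ, okS s x.1 →
      ‖φ x‖ = 1 ∧ (∀ x' : ℕ × ℕ, okS s x'.1 → x' ≠ x → ⟪φ x, φ x'⟫ = 0) ∧
      ∀ M, x.1 + 2 * x.2 + 2 ≤ M → φ x ∈ Sec d j s x.1 M ∧
        EigF (QG d j 0) (WS d j s M) (φ x) ((ldeg j x : ℝ) * (ldeg j x + d)) := by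
    intro j s
    by_cases h : j ∈ J
    · obtain ⟨φ, hφ⟩ := exists_round (hP.ok j h) s
      exact ⟨φ, fun _ => hφ⟩
    · exact ⟨0, fun h' => absurd h' h⟩
  choose e₀ he using he
  choose Y hY using fun j => exists_harm_on (d := d) j
  have hsol' := hsol T Kl A η₁ q path hT2 hKl hη hq hpath e₀ om
    (fun j hj s x hx => ⟨(he j s hj x (Or.inr (hL.one j hj x hx))).1,
      (he j s hj x (Or.inr (hL.one j hj x hx))).2.2⟩)
    fun j hj x hx => ⟨(hom' j x hj hx).1, (hom' j x hj hx).2.1⟩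
  have hc : ∀ M : ℕ, ∃ c : ℕ → R → ℝ, (∀ p r, |c p r| ≤ Cr * et g T P p) ∧
      ((∀ ν : ℕ, ∃ c : ℕ → R → ℝ, (∀ p r, |c p r| ≤ Cr * et g T P p) ∧
        ∀ j ∈ J, ∀ s : Bool, ∀ x ∈ L j, SolOK d j s M (fun t => comb F (path c t)) q (om j x)
          (ta T Kl P lg 0) (tb T Kl P lg ν) C (1 / (2 * ((cnt d J L : ℝ) + 1))) (e₀ j s x)) →
        ∀ j ∈ J, ∀ s : Bool, ∀ x ∈ L j, SolOK d j s M (fun t => comb F (path c t)) q (om j x)
          (ta T Kl P lg 0) (tb T Kl P lg M) C (1 / (2 * ((cnt d J L : ℝ) + 1))) (e₀ j s x)) := by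
    intro M
    by_cases h : ∀ ν : ℕ, ∃ c : ℕ → R → ℝ, (∀ p r, |c p r| ≤ Cr * et g T P p) ∧
        ∀ j ∈ J, ∀ s : Bool, ∀ x ∈ L j, SolOK d j s M (fun t => comb F (path c t)) q (om j x)
          (ta T Kl P lg 0) (tb T Kl P lg ν) C (1 / (2 * ((cnt d J L : ℝ) + 1))) (e₀ j s x)
    · obtain ⟨c, h1, h2⟩ := h M
      exact ⟨c, h1, fun _ => h2⟩
    · exact ⟨0, fun p r => by simpa using mul_nonneg hCr (et_pos g T P p).le, fun h' => absurd h' h⟩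
  choose c hc hcS using hc
  have hcS' := hsol'.mono hcS
  have hK : IsCompact (Set.pi univ fun p : ℕ => Set.pi univ fun _ : R =>
      Icc (-(Cr * et g T P p)) (Cr * et g T P p)) :=
    isCompact_univ_pi fun _ => isCompact_univ_pi fun _ => isCompact_Icc
  obtain ⟨cl, hcl, hlim⟩ := hK.ultrafilter_le_nhds ((Filter.hyperfilter ℕ).map c)
    (le_principal_iff.2 (mem_map.2 (univ_mem' fun M p _ r _ => abs_le.1 (hc M p r))))
  refine ⟨cl, fun p r => abs_le.2 (hcl p trivial r trivial), ?_⟩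
  refine HarmOK.equiv (ι := TI d J L) (Fintype.equivFinOfCardEq (card_TI d J L)) ?_
  have h0 : ∀ c t, t ≤ 0 → comb F (path c t) = 0 := fun c t ht => by
    rw [hpath.init c t (ht.trans hT0.le), comb_single, hpl.zero]
  have ht₀ : ta T Kl P lg 0 ≤ 0 := neg_nonpos.2 hT0.le
  have htb : Tendsto (tb T Kl P lg) UU atTop := by
    have h1 := tendsto_atTop_add_const_right _ (-1)
      ((ta_tendsto (P := P) (lg := lg) hT0.le hKl).comp (tendsto_add_atTop_nat 1))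
    refine (h1.congr fun p => ?_).mono_left UU_le
    simp only [Function.comp, ta_succ]
    ring
  have hM : ∀ᶠ M in UU, ∀ i : TI d J L, i.2.2.1.1.1 + 2 * i.2.2.1.1.2 + 2 ≤ M :=
    eventually_all.2 fun i => UU_le (eventually_ge_atTop _)
  have hex : ∀ i : TI d J L, ∀ᶠ M in UU, ∃ Pw : ℕ → ℝ → MP (d + 2),
      Gal (M + i.1) (cT d fun t => comb F (path (c M) t)) q Pw ∧
      (∀ t, t ≤ ta T Kl P lg 0 → ipw (fun _ => 1) (Pw 0 t) (Pw 0 t) ≤ C ^ 2) ∧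
      (∀ t ∈ Icc (ta T Kl P lg 0) (tb T Kl P lg M), ipw (fun _ => 1) (Pw 0 t) (Pw 0 t) ≤
        (C * Real.exp (om i.1 i.2.2.1 t - om i.1 i.2.2.1 (ta T Kl P lg 0))) ^ 2) ∧
      ∀ i' : TI d J L, |ipw (fun _ => 1) (Pw 0 (ta T Kl P lg 0))
        ((2 * (ldeg i'.1 i'.2.2.1 : ℝ) + d) • iota (Y i'.1 i'.2.2.2)
          (toP d i'.1 (e₀ i'.1 i'.2.1 i'.2.2.1))) - if i = i' then 1 else 0| ≤
        1 / (2 * ((cnt d J L : ℝ) + 1)) := by
    intro i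
    filter_upwards [hcS', hM, htb.eventually_ge_atTop 0] with M h1 h2 h3
    have he' := fun i : TI d J L =>
      he i.1 i.2.1 i.1.2 i.2.2.1 (Or.inr (hL.one _ i.1.2 _ i.2.2.1.2))
    obtain ⟨Pw, a1, a2, a3, a4⟩ := tower_of_sol hpl.adm (hpath.smooth (c M)) (h0 _) hq.smooth
      hq.init ht₀ (ht₀.trans h3) ((he' i).2.2 M (h2 i)).1.1 ((hY i.1).1 i.2.2.2)
      (((hY i.1).2 _ _).trans (if_pos rfl)) (h1 i.1 i.1.2 i.2.1 i.2.2.1 i.2.2.1.2)
    refine ⟨Pw, a1, a2, a3, fun i' => ?_⟩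
    obtain ⟨b1, b2⟩ := HHarm.pair hL.one (fun j hj s => he j s hj) hY i i'
    have := a4 i'.1 i'.2.1 _ _ (ldeg i'.1 i'.2.2.1) ((hY i'.1).1 i'.2.2.2) (he' i').1
      ((he' i').2.2 M (h2 i')).2
    rw [b2] at this
    exact this.trans (mul_le_of_le_one_left htol.le b1)
  choose Pw hPw using fun i => (hex i).choice
  set Cm : ℝ := ∑ i : TI d J L, |Com i.1 i.2.2.1| with hCm
  have hCm0 : 0 ≤ Cm := Finset.sum_nonneg fun _ _ => abs_nonneg _
  have hCm1 : ∀ i : TI d J L, Com i.1 i.2.2.1 ≤ Cm := fun i => (le_abs_self _).trans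
    (Finset.single_le_sum (f := fun i : TI d J L => |Com i.1 i.2.2.1|)
      (fun _ _ => abs_nonneg _) (Finset.mem_univ i))
  have hgr : ∀ (i : TI d J L) (t : ℝ), ta T Kl P lg 0 ≤ t →
      (C * Real.exp (om i.1 i.2.2.1 t - om i.1 i.2.2.1 (ta T Kl P lg 0))) ^ 2 ≤
        (C * Real.exp Cm * Real.exp (θ * t)) ^ 2 := by
    intro i t ht
    rw [mul_assoc, ← Real.exp_add]
    gcongr
    linarith [(hom' i.1 i.2.2.1 i.1.2 i.2.2.1.2).2.2 t ht, hCm1 i]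
  obtain hb := hpath.bd
  refine harm_ex (aM := fun M => path (c M)) (N := fun i M => M + i.1) (Pw := Pw)
    (C := C * Real.exp Cm) (t₀ := ta T Kl P lg 0) (tol := 1 / (2 * ((cnt d J L : ℝ) + 1)))
    (Tt := fun i' => (2 * (ldeg i'.1 i'.2.2.1 : ℝ) + d) • iota (Y i'.1 i'.2.2.2)
      (toP d i'.1 (e₀ i'.1 i'.2.1 i'.2.2.1)))
    hW hq.smooth hq.bd hq.init hpl.adm (fun M => hpath.smooth _) (hpath.smooth _) (fun r => ?_)
    (fun M t z => ?_) (fun M => h0 _) (h0 _) (fun t => ?_)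
    (fun i => (tendsto_add_atTop_nat _).mono_left UU_le) hθ0 le_rfl (by positivity) ?_
    (fun i => ?_) fun i T' => ?_
  · obtain ⟨B, hB⟩ := hb r
    exact ⟨B, fun M => hB _ fun p i => (hc M p i).trans ((het p).trans (min_le_left _ _))⟩
  · have := (hsm T Kl P lg path hT0.le hKl hpath (c M)
      (fun p i => (hc M p i).trans ((het p).trans (min_le_right _ _))) t).abs_le z
    exact ⟨this.1.trans hP.eps, this.2.trans (hP.gam.trans hP.eps)⟩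
  · exact ((hpath.cont.comp (continuous_id.prodMk continuous_const)).tendsto cl).comp hlim
  · rw [card_TI, div_mul_eq_mul_div, one_mul, div_lt_one (by positivity)]
    linarith [(Nat.cast_nonneg (cnt d J L) : (0 : ℝ) ≤ _)]
  · filter_upwards [hPw i, htb.eventually_ge_atTop 0] with M h1 h2
    refine ⟨h1.1, fun t ht => ?_, h1.2.2.2⟩
    rcases le_total t (ta T Kl P lg 0) with h | h
    · refine (h1.2.1 t h).trans ?_
      gcongr
      exact le_mul_of_one_le_right hC.le (Real.one_le_exp hCm0)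
    · refine (h1.2.2.1 t ⟨h, ht.trans h2⟩).trans ((hgr i t h).trans ?_)
      exact pow_le_pow_left₀ (by positivity) (mul_le_of_le_one_right (by positivity)
        (Real.exp_le_one_iff.2 (mul_nonpos_of_nonneg_of_nonpos hθ0 ht))) 2
  · filter_upwards [hPw i, htb.eventually_ge_atTop T'] with M h1 h2 t ht
    exact (h1.2.2.1 t ⟨ht₀.trans ht.1, ht.2.trans h2⟩).trans (hgr i t (ht₀.trans ht.1))

end Crest.Agent.R202
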