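import Mathlib

/-!
# Row 202, H2: smooth steps and their sums
-/

set_option autoImplicit false
open scoped ContDiff Topology
open MeasureTheory Set Filter

noncomputable section
namespace Crest.Agent.R202
namespace HQ

/-- a smooth monotone step from `0` to `1` on `[0, 1]` -/
structure Step (S : ℝ → ℝ) (B : ℕ → ℝ) : Prop where
  smooth : ContDiff ℝ ∞ S
  bd : ∀ k x, |iteratedDeriv k S x| ≤ B k
  mono : Monotone S
  zero : ∀ x, x ≤ 0 → S x = 0
  one : ∀ x, 1 ≤ x → S x = 1
  slope : ∀ x y, 1 / 8 ≤ x → x ≤ y → y ≤ 7 / 8 → y - x ≤ S y - S x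

theorem exists_step : ∃ S B, Step S B := by
  set b : ℝ → ℝ := fun u => Real.smoothTransition (8 * u) * Real.smoothTransition (8 - 8 * u)
    with hb
  have b0 : ContDiff ℝ ∞ b :=
    (Real.smoothTransition.contDiff.comp (by fun_prop)).mul
      (Real.smoothTransition.contDiff.comp (by fun_prop))
  have b1 : ∀ u, 0 ≤ b u := fun u =>
    mul_nonneg (Real.smoothTransition.nonneg _) (Real.smoothTransition.nonneg _)
  have b2 : ∀ u, b u ≤ 1 := fun u => mul_le_one₀ (Real.smoothTransition.le_one _)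
    (Real.smoothTransition.nonneg _) (Real.smoothTransition.le_one _)
  have b3 : ∀ u, u ≤ 0 → b u = 0 := fun u hu => by
    simp only [hb]; rw [Real.smoothTransition.zero_of_nonpos (by linarith), zero_mul]
  have b4 : ∀ u, 1 ≤ u → b u = 0 := fun u hu => by
    simp only [hb]; rw [Real.smoothTransition.zero_of_nonpos (x := 8 - _) (by linarith), mul_zero]
  have b5 : ∀ u, 1 / 8 ≤ u → u ≤ 7 / 8 → b u = 1 := fun u h1 h2 => by
    simp only [hb]
    rw [Real.smoothTransition.one_of_one_le (by linarith),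
      Real.smoothTransition.one_of_one_le (by linarith), mul_one]
  clear_value b
  set I : ℝ → ℝ := fun x => ∫ u in (0 : ℝ)..x, b u with hI
  have i0 : ∀ x y, IntervalIntegrable b volume x y := fun x y => b0.continuous.intervalIntegrable x y
  have i1 : deriv I = b := funext fun x => (b0.continuous.integral_hasStrictDerivAt 0 x).hasDerivAt.deriv
  have i2 : Differentiable ℝ I := fun x =>
    (b0.continuous.integral_hasStrictDerivAt 0 x).hasDerivAt.differentiableAt
  have i3 : Monotone I := monotone_of_deriv_nonneg i2 (i1 ▸ b1)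
  have i4 : ∀ x y c, x ≤ y → (∀ u, x ≤ u → u ≤ y → b u = c) → I y - I x = (y - x) * c := by
    intro x y c hxy h
    simp only [hI]
    rw [intervalIntegral.integral_interval_sub_left (i0 _ _) (i0 _ _),
      intervalIntegral.integral_congr (g := fun _ => c) fun u hu => by
        rw [uIcc_of_le hxy] at hu; exact h u hu.1 hu.2]
    simp
  have i5 : I 0 = 0 := intervalIntegral.integral_same
  have i6 : 0 < I 1 := by
    have h1 := i4 (1 / 8) (7 / 8) 1 (by norm_num) b5
    have h2 := i3 (show (0 : ℝ) ≤ 1 / 8 by norm_num)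
    have h3 := i3 (show (7 / 8 : ℝ) ≤ 1 by norm_num)
    linarith
  have i7 : I 1 ≤ 1 := by
    simpa using intervalIntegral.integral_mono_on zero_le_one (i0 0 1)
      (intervalIntegrable_const (c := (1 : ℝ))) fun u _ => b2 u
  have i8 : ∀ x, x ≤ 0 → I x = 0 := fun x hx => by
    have := i4 x 0 0 hx fun u _ hu => b3 u hu
    linarith
  have i9 : ∀ x, 1 ≤ x → I x = I 1 := fun x hx => by
    have := i4 1 x 0 hx fun u hu _ => b4 u hu
    linarith
  have hc : HasCompactSupport b := HasCompactSupport.intro (isCompact_Icc (a := 0) (b := 1))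
    fun x hx => by
      rcases not_and_or.1 hx with h | h
      exacts [b3 x (not_le.1 h).le, b4 x (not_le.1 h).le]
  have hB : ∀ k, ∃ C, ∀ x, |iteratedDeriv k (fun x => (I 1)⁻¹ * I x) x| ≤ C := by
    intro k
    simp only [iteratedDeriv_const_mul_field, abs_mul]
    cases k with
    | zero =>
      refine ⟨|(I 1)⁻¹| * 1, fun x => mul_le_mul_of_nonneg_left (abs_le.2 ⟨?_, ?_⟩) (abs_nonneg _)⟩
      · have := (i8 _ (min_le_right x 0)).symm.trans_le (i3 (min_le_left x 0))
        rw [iteratedDeriv_zero]; linarith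
      · exact (i3 (le_max_left x 1)).trans ((i9 _ (le_max_right x 1)).trans_le i7)
    | succ k =>
      obtain ⟨C, hC⟩ := (b0.continuous_iteratedFDeriv (m := k)
        (by exact_mod_cast le_top)).bounded_above_of_compact_support (hc.iteratedFDeriv k)
      refine ⟨|(I 1)⁻¹| * C, fun x => mul_le_mul_of_nonneg_left ?_ (abs_nonneg _)⟩
      rw [iteratedDeriv_succ', i1, ← Real.norm_eq_abs, ← norm_iteratedFDeriv_eq_norm_iteratedDeriv]
      exact hC x
  choose B hB using hB
  refine ⟨_, B, contDiff_const.mul (contDiff_infty_iff_deriv.2 ⟨i2, i1 ▸ b0⟩), hB,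
    i3.const_mul (inv_pos.2 i6).le, fun x hx => by rw [i8 x hx, mul_zero],
    fun x hx => by rw [i9 x hx, inv_mul_cancel₀ i6.ne'], fun x y h1 h2 h3 => ?_⟩
  rw [← mul_sub, i4 x y 1 h2 fun u h h' => b5 u (h1.trans h) (h'.trans h3), mul_one]
  exact le_mul_of_one_le_left (sub_nonneg.2 h2) ((one_le_inv₀ i6).2 i7)

/-- the step of height `m` on `[a, a + l]` -/
def stp (S : ℝ → ℝ) (m a l t : ℝ) : ℝ := m * S (l⁻¹ * (t - a))

/-- smooth monotone functions from `0` to `m` on `[a, a']` -/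
structure Up (B : ℕ → ℝ) (m a a' : ℝ) (f : ℝ → ℝ) : Prop where
  smooth : ContDiff ℝ ∞ f
  bd : ∀ k x, |iteratedDeriv k f x| ≤ m * B k
  mono : Monotone f
  zero : ∀ x, x ≤ a → f x = 0
  one : ∀ x, a' ≤ x → f x = m

variable {S : ℝ → ℝ} {B : ℕ → ℝ} {m m' a a' l : ℝ} {f f' : ℝ → ℝ}

theorem lip_of_bd (hf : ContDiff ℝ ∞ f) {C : ℝ} (h : ∀ x, |iteratedDeriv 1 f x| ≤ C) (x y : ℝ) :
    |f y - f x| ≤ C * |y - x| :=
  convex_univ.norm_image_sub_le_of_norm_deriv_le (fun x _ => hf.differentiable (by simp) x)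
    (fun x _ => by simpa using h x) (mem_univ x) (mem_univ y)

theorem Step.nonneg (h : Step S B) (k : ℕ) : 0 ≤ B k := (abs_nonneg _).trans (h.bd k 0)

theorem Step.up (h : Step S B) (hm : 0 ≤ m) (a : ℝ) (hl : 1 ≤ l) :
    Up B m a (a + l) (stp S m a l) := by
  have hl0 : 0 < l := one_pos.trans_le hl
  refine ⟨contDiff_const.mul (h.smooth.comp (by fun_prop)), fun k x => ?_, fun x y hxy => ?_,
    fun x hx => ?_, fun x hx => ?_⟩
  · unfold stp
    rw [iteratedDeriv_const_mul_field, iteratedDeriv_comp_sub_const k fun t => S (l⁻¹ * t),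
      iteratedDeriv_comp_const_mul (h.smooth.of_le (by exact_mod_cast le_top)), abs_mul, abs_mul,
      abs_of_nonneg hm, abs_of_nonneg (by positivity)]
    exact mul_le_mul_of_nonneg_left ((mul_le_of_le_one_left (abs_nonneg _)
      (pow_le_one₀ (by positivity) (inv_le_one_of_one_le₀ hl))).trans (h.bd _ _)) hm
  · exact mul_le_mul_of_nonneg_left (h.mono (by gcongr)) hm
  · rw [stp, h.zero _ (mul_nonpos_of_nonneg_of_nonpos (by positivity) (by linarith)), mul_zero]
  · rw [stp, h.one _ ((one_le_inv_mul₀ hl0).2 (by linarith)), mul_one]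

theorem Step.lip (h : Step S B) (hm : 0 ≤ m) (a : ℝ) (hl : 0 < l) (s t : ℝ) :
    |stp S m a l t - stp S m a l s| ≤ m / l * B 1 * |t - s| := by
  rw [stp, stp, ← mul_sub, abs_mul, abs_of_nonneg hm]
  refine (mul_le_mul_of_nonneg_left (lip_of_bd h.smooth (h.bd 1) _ _) hm).trans (le_of_eq ?_)
  rw [← mul_sub, sub_sub_sub_cancel_right, abs_mul, abs_of_pos (inv_pos.2 hl)]
  ring

theorem Step.cost (h : Step S B) (hm : 0 ≤ m) (hl : 16 ≤ l) {t : ℝ} (h1 : a + 1 / 4 * l ≤ t)
    (h2 : t ≤ a + 3 / 4 * l) : m / l ≤ stp S m a l t - stp S m a l (t - 2) := by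
  have hl0 : 0 < l := by linarith
  rw [stp, stp, ← mul_sub, div_eq_mul_inv]
  refine mul_le_mul_of_nonneg_left (le_trans ?_ (h.slope _ _ ?_ (by gcongr; linarith) ?_)) hm
  · have := inv_pos.2 hl0
    linarith
  · rw [le_inv_mul_iff₀ hl0]; linarith
  · rw [inv_mul_le_iff₀ hl0]; linarith

theorem Up.add {a₁ a₁' a₂ a₂' : ℝ} (h : Up B m a₁ a₁' f) (h' : Up B m' a₂ a₂' f') (h1 : a ≤ a₁)
    (h2 : a ≤ a₂) (h3 : a₁' ≤ a') (h4 : a₂' ≤ a') : Up B (m + m') a a' fun t => f t + f' t := by
  refine ⟨h.smooth.add h'.smooth, fun k x => ?_, h.mono.add h'.mono, fun x hx => ?_, fun x hx => ?_⟩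
  · rw [iteratedDeriv_fun_add (h.smooth.of_le (by exact_mod_cast le_top)).contDiffAt
      (h'.smooth.of_le (by exact_mod_cast le_top)).contDiffAt, add_mul]
    exact (abs_add_le _ _).trans (add_le_add (h.bd k x) (h'.bd k x))
  · rw [h.zero x (hx.trans h1), h'.zero x (hx.trans h2), add_zero]
  · rw [h.one x (h3.trans hx), h'.one x (h4.trans hx)]

theorem Up.nonneg (h : Up B m a a' f) (x : ℝ) : 0 ≤ f x :=
  (h.zero _ (min_le_right x a)).symm.trans_le (h.mono (min_le_left x a))

theorem Up.le (h : Up B m a a' f) (x : ℝ) : f x ≤ m :=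
  (h.mono (le_max_left x a')).trans_eq (h.one _ (le_max_right x a'))

section
variable {M u u' : ℕ → ℝ} {G : ℕ → ℝ → ℝ}

theorem summable (h : ∀ n, Up B (M n) (u n) (u' n) (G n)) (hM : Summable M) (t : ℝ) :
    Summable fun n => G n t :=
  Summable.of_nonneg_of_le (fun n => (h n).nonneg t) (fun n => (h n).le t) hM

theorem tsum_smooth (h : ∀ n, Up B (M n) (u n) (u' n) (G n)) (hM : Summable M) :
    ContDiff ℝ ∞ (fun t => ∑' n, G n t) ∧
      ∀ k x, |iteratedDeriv k (fun t => ∑' n, G n t) x| ≤ (∑' n, M n) * B k := by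
  have h1 : ∀ (k n : ℕ) (x : ℝ), ‖iteratedFDeriv ℝ k (G n) x‖ ≤ M n * B k := fun k n x => by
    rw [norm_iteratedFDeriv_eq_norm_iteratedDeriv]; exact (h n).bd k x
  refine ⟨contDiff_tsum (N := ⊤) (fun n => (h n).smooth) (fun k _ => hM.mul_right (B k))
    fun k n x _ => h1 k n x, fun k x => ?_⟩
  rw [← Real.norm_eq_abs, ← norm_iteratedFDeriv_eq_norm_iteratedDeriv,
    iteratedFDeriv_tsum_apply (N := ⊤) (fun n => (h n).smooth) (fun k _ => hM.mul_right (B k))
      (fun k n x _ => h1 k n x) le_top]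
  exact tsum_of_norm_bounded (hM.hasSum.mul_right _) fun n => h1 k n x

theorem tsum_mono (h : ∀ n, Up B (M n) (u n) (u' n) (G n)) (hM : Summable M) :
    Monotone fun t => ∑' n, G n t := fun s t hst =>
  (summable h hM s).tsum_le_tsum (fun n => (h n).mono hst) (summable h hM t)

theorem tsum_lim (h : ∀ n, Up B (M n) (u n) (u' n) (G n)) (hM : Summable M) :
    Tendsto (fun t => ∑' n, G n t) atTop (𝓝 (∑' n, M n)) :=
  tendsto_tsum_of_dominated_convergence hM
    (fun n => tendsto_const_nhds.congr'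
      ((eventually_ge_atTop (u' n)).mono fun t ht => ((h n).one t ht).symm))
    (Eventually.of_forall fun t n => by
      rw [Real.norm_of_nonneg ((h n).nonneg t)]; exact (h n).le t)

theorem tsum_loc (h : ∀ n, Up B (M n) (u n) (u' n) (G n)) (hM : Summable M) {v : ℕ → ℝ}
    (hv : Monotone v) (h1 : ∀ n, v n ≤ u n) (h2 : ∀ n, u' n ≤ v (n + 1)) {p : ℕ} {s t : ℝ}
    (hs : s ∈ Icc (v p) (v (p + 1))) (ht : t ∈ Icc (v p) (v (p + 1))) :
    ∑' n, G n t - ∑' n, G n s = G p t - G p s := by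
  rw [← (summable h hM t).tsum_sub (summable h hM s)]
  refine tsum_eq_single p fun n hn => ?_
  rcases lt_or_gt_of_ne hn with hn | hn
  · have := (h2 n).trans (hv hn)
    rw [(h n).one t (this.trans ht.1), (h n).one s (this.trans hs.1), sub_self]
  · have := (hv hn).trans (h1 n)
    rw [(h n).zero t (ht.2.trans this), (h n).zero s (hs.2.trans this), sub_self]

end

end HQ
end Crest.Agent.R202
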