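import Crest.Agent.R202.HTime
import Crest.Agent.R202.HQAux

/-!
# Row 202, H2: the potential

Let `S` be a smooth monotone step, `S = 0` on `(-∞, 0]`, `S = 1` on `[1, ∞)`, `S' ≥ 1` on `[1/8, 7/8]`
(primitive of a normalised bump that is constant on `[1/8, 7/8]`), with all derivatives bounded.  Put
`q t = (d/2)² - D₀ S(2t/T) - Σ_p [ (A/H_p) S((t - ta p - H_p)/H_p) + (A/H_p) S((t - tv p)/H_p) + et p · S(t - tb p + 1) ]`,
a locally finite sum whose terms have derivatives supported in disjoint intervals, and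
`D₀ = (d/2)² - κ₀² - Σ_p (2A/H_p + et p) ≥ 0` (`sum_inv_HH`, `et_le`).
-/

set_option autoImplicit false
open scoped ContDiff RealInnerProductSpace Topology
open MeasureTheory Set Filter Module
open Crest.GeometryTopology.CoordMetric
open Crest.Agent.R230 (E MP sph ev Harm)

noncomputable section
namespace Crest.Agent.R202

theorem exists_q (d : ℕ) {κ₀ η₀ δ A g : ℝ} {P : ℕ} (h0 : 0 ≤ κ₀) (h1 : κ₀ < (d : ℝ) / 2)
    (hη : 0 < η₀) (hδ : 0 < δ) (hA : 0 ≤ A) (hg : 0 < g) (hP : 1 ≤ P) :
    ∃ T₁ : ℝ, ∀ T, T₁ ≤ T → ∀ Kl, 0 ≤ Kl → ∀ lg : ℕ → Bool,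
      ∃ q, QOK d κ₀ η₀ δ A g T Kl P lg q := by
  obtain ⟨S, B, hS⟩ := HQ.exists_step
  have hB := hS.nonneg 1
  have hgap : 0 < ((d : ℝ) / 2) ^ 2 - κ₀ ^ 2 := sub_pos.2 (pow_lt_pow_left₀ h1 h0 two_ne_zero)
  have hev : ∀ c ε : ℝ, 0 < ε → ∀ᶠ T : ℝ in atTop, c / T ≤ ε := fun c ε hε =>
    (tendsto_const_nhds.div_atTop tendsto_id).eventually (ge_mem_nhds hε)
  obtain ⟨T₁, hT₁⟩ := eventually_atTop.1 ((eventually_ge_atTop 16).and
    ((hev ((2 * A + 2 / g) * (2 * P)) _ hgap).and ((hev ((2 * A + 2 / g) * (2 * P)) _ hη).and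
      (hev ((2 * ((d : ℝ) / 2) ^ 2 + (2 * A + 2 / g) * (2 * P)) * B 1) _ hδ))))
  refine ⟨T₁, fun T hT Kl hK lg => ?_⟩
  obtain ⟨hT16, c1, c2, c3⟩ := hT₁ T hT
  have hT0 : 0 < T := by linarith
  have hH : ∀ p, T ≤ HH T P p := le_HH hT0.le P
  have hav : ∀ p, ta T Kl P lg p + 2 * HH T P p ≤ tv T Kl P lg p := tu_le_tv hT0.le hK
  have hvb : ∀ p, tb T Kl P lg p = tv T Kl P lg p + 2 * HH T P p := fun _ => rfl
  have hba := ta_succ T Kl P lg
  have hHv : ∀ p, HH T P p ≤ tv T Kl P lg p := HH_le_tv hT0.le hK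
  have ham : Monotone (ta T Kl P lg) := ta_mono hT0.le hK
  have ha0 : ta T Kl P lg 0 = -T := rfl
  have hH0 := HH_zero T P
  have he := et_pos g T P
  have he' := et_le hg hT0 P
  have hsum := sum_inv_HH hT0 hP
  have hα : ∀ p, 0 ≤ A / HH T P p := fun p => div_nonneg hA (hT0.le.trans (hH p))
  have hH1 : ∀ p, 1 ≤ HH T P p := fun p => by linarith [hH p]
  have u1 := fun p => hS.up (hα p) (ta T Kl P lg p + HH T P p) (hH1 p)
  have u2 := fun p => hS.up (hα p) (tv T Kl P lg p) (hH1 p)
  have u3 := fun p => hS.up (he p).le (tb T Kl P lg p - 1) le_rfl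
  set M : ℕ → ℝ := fun p => A / HH T P p + A / HH T P p + et g T P p with hM
  set G : ℕ → ℝ → ℝ := fun p t =>
    HQ.stp S (A / HH T P p) (ta T Kl P lg p + HH T P p) (HH T P p) t +
      HQ.stp S (A / HH T P p) (tv T Kl P lg p) (HH T P p) t +
        HQ.stp S (et g T P p) (tb T Kl P lg p - 1) 1 t with hG
  have uG : ∀ p, HQ.Up B (M p) (ta T Kl P lg p + HH T P p) (tb T Kl P lg p) (G p) := fun p => by
    have := hav p; have := hvb p; have := hH1 p
    exact ((u1 p).add (u2 p) (a' := tb T Kl P lg p) le_rfl (by linarith) (by linarith)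
      (by linarith)).add (u3 p) le_rfl (by linarith) le_rfl (by linarith)
  have hM0 : ∀ p, 0 ≤ M p := fun p => add_nonneg (add_nonneg (hα p) (hα p)) (he p).le
  have hMs : ∀ n, ∑ p ∈ Finset.range n, M p ≤ (2 * A + 2 / g) * (2 * P) / T := fun n => by
    rw [mul_div_assoc]
    refine le_trans ?_ (mul_le_mul_of_nonneg_left (hsum n) (by positivity))
    rw [Finset.mul_sum]
    refine Finset.sum_le_sum fun p _ => ?_
    have := he' p
    simp only [hM, div_eq_mul_one_div A]
    linarith
  have hMs' := summable_of_sum_range_le hM0 hMs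
  have hMt := Real.tsum_le_of_sum_range_le hM0 hMs
  have hMt0 : 0 ≤ ∑' p, M p := tsum_nonneg hM0
  set D := ((d : ℝ) / 2) ^ 2 - κ₀ ^ 2 - ∑' p, M p with hD
  have hD0 : 0 ≤ D := by linarith
  have u0 := hS.up hD0 0 (show 1 ≤ T / 2 by linarith)
  have l0 := hS.lip hD0 0 (show 0 < T / 2 by linarith)
  rw [zero_add] at u0
  set s₀ := HQ.stp S D 0 (T / 2)
  obtain ⟨f1, f2⟩ := HQ.tsum_smooth uG hMs'
  have f3 := HQ.tsum_mono uG hMs'
  have f4 := HQ.tsum_lim uG hMs'
  have f5 := fun p s t => HQ.tsum_loc uG hMs' ham (fun n => by linarith [hH1 n])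
    (fun n => by linarith [hba n]) (p := p) (s := s) (t := t)
  have f6 : ∀ t, t ≤ 0 → ∑' n, G n t = 0 := fun t ht => by
    rw [tsum_congr fun n => (uG n).zero t (by linarith [ham (Nat.zero_le n), hH n]), tsum_zero]
  have f7 : ∀ t, 0 ≤ ∑' n, G n t := fun t => tsum_nonneg fun n => (uG n).nonneg t
  set F : ℝ → ℝ := fun t => ∑' n, G n t
  replace f5 : ∀ p s t, ta T Kl P lg p ≤ s → s ≤ tb T Kl P lg p + 1 → ta T Kl P lg p ≤ t →
      t ≤ tb T Kl P lg p + 1 → F t - F s = G p t - G p s := fun p s t h1 h2 h3 h4 =>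
    f5 p s t ⟨h1, hba p ▸ h2⟩ ⟨h3, hba p ▸ h4⟩
  refine ⟨fun t => ((d : ℝ) / 2) ^ 2 - (s₀ t + F t), contDiff_const.sub (u0.smooth.add f1),
    fun r => ?_, fun t ht => ?_, fun s t hst => ?_, ?_, fun s t => ?_, fun t ht => ?_,
    fun p t ht => ?_, fun p t ht => ?_, fun p t ht => ?_, fun p t ht => ?_,
    ⟨2 * A * B 1, fun p t ht => ?_⟩⟩
  · have h : ∀ t, |iteratedDeriv r (fun t => s₀ t + F t) t| ≤ D * B r + (∑' n, M n) * B r :=
      fun t => by
        rw [iteratedDeriv_fun_add (u0.smooth.of_le (by exact_mod_cast le_top)).contDiffAt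
          (f1.of_le (by exact_mod_cast le_top)).contDiffAt]
        exact (abs_add_le _ _).trans (add_le_add (u0.bd r t) (f2 r t))
    cases r with
    | zero => exact ⟨_, fun t => (abs_sub _ _).trans (add_le_add le_rfl (h t))⟩
    | succ r =>
      exact ⟨_, fun t => by
        rw [iteratedDeriv_const_sub r.succ_pos, iteratedDeriv_neg, abs_neg]; exact h t⟩
  · rw [u0.zero t ht, show F t = 0 from f6 t ht, add_zero, sub_zero]
  · exact sub_le_sub_left (add_le_add (u0.mono hst) (f3 hst)) _
  · have h : Tendsto s₀ atTop (𝓝 D) := tendsto_const_nhds.congr'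
      ((eventually_ge_atTop _).mono fun t ht => (u0.one t ht).symm)
    convert (h.add f4).const_sub (((d : ℝ) / 2) ^ 2) using 2
    rw [hD]; ring
  · rw [sub_sub_sub_cancel_left, abs_sub_comm, add_sub_add_comm]
    refine (abs_add_le _ _).trans ((add_le_add (l0 s t) (HQ.lip_of_bd f1 (f2 1) s t)).trans ?_)
    rw [← add_mul, ← add_mul]
    refine mul_le_mul_of_nonneg_right (le_trans ?_ c3) (abs_nonneg _)
    rw [mul_div_right_comm, add_div, div_div_eq_mul_div]
    refine mul_le_mul_of_nonneg_right (add_le_add (div_le_div_of_nonneg_right ?_ hT0.le) hMt) hB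
    linarith [sq_nonneg κ₀]
  · rw [u0.one t ht]
    linarith [show 0 ≤ F t from f7 t]
  · have := hav p; have := hvb p; have := hH1 p; have := ht.1; have := ht.2
    have h2 := f5 p t (ta T Kl P lg p) ht.1 (by linarith) le_rfl (by linarith)
    rw [(uG p).zero t ht.2, (uG p).zero _ (by linarith)] at h2
    have h3 : s₀ t = s₀ (ta T Kl P lg p) := by
      cases p with
      | zero => rw [u0.zero t (by linarith), u0.zero _ (by linarith)]
      | succ p =>
        have := hba p; have := hvb p; have := hHv p; have := hH p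
        rw [u0.one t (by linarith), u0.one _ (by linarith)]
    linarith
  · have := hav p; have := hvb p; have := hH p; have := hHv p; have := ht.1; have := ht.2
    have h2 := f5 p t (tb T Kl P lg p) (by linarith) (by linarith) (by linarith) (by linarith)
    rw [(uG p).one _ le_rfl] at h2
    simp only [hG, hM, (u1 p).one t (by linarith), (u2 p).one t (by linarith)] at h2
    rw [u0.one t (by linarith), u0.one _ (by linarith)]
    exact abs_le.2 ⟨by linarith [(u3 p).le t, he p], by linarith [(u3 p).nonneg t]⟩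
  · have := hav p; have := hvb p; have := hH p; have := hHv p; have := ht.1; have := ht.2
    have h2 := f5 p t (tb T Kl P lg p) (by linarith) ht.2 (by linarith) (by linarith)
    have h3 := f5 p (t - 2) t (by linarith) (by linarith) (by linarith) ht.2
    rw [(uG p).one _ le_rfl, (uG p).one t ht.1] at h2
    simp only [hG, (u3 p).one t (by linarith), (u3 p).zero (t - 2) (by linarith)] at h3
    have h4 : t - 2 ≤ t := by linarith
    refine ⟨?_, by linarith [u0.mono h4, (u1 p).mono h4, (u2 p).mono h4]⟩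
    rw [u0.one t (by linarith), u0.one _ (by linarith)]
    linarith
  · have := hav p; have := hvb p; have := hH p
    have h4 : t - 2 ≤ t := by linarith
    have h5 := u0.mono h4
    have h6 := (u1 p).mono h4
    have h7 := (u2 p).mono h4
    have h8 := (u3 p).mono h4
    rw [sq, ← div_div]
    rcases ht with ⟨ht, ht'⟩ | ⟨ht, ht'⟩
    · have h3 := f5 p (t - 2) t (by linarith) (by linarith) (by linarith) (by linarith)
      have h9 := hS.cost (hα p) (hT16.trans (hH p)) (a := ta T Kl P lg p + HH T P p) (t := t)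
        (by linarith) (by linarith)
      simp only [hG] at h3
      linarith
    · have h3 := f5 p (t - 2) t (by linarith) (by linarith) (by linarith) (by linarith)
      have h9 := hS.cost (hα p) (hT16.trans (hH p)) ht ht'
      simp only [hG] at h3
      linarith
  · have := hav p; have := hvb p; have := hH p; have := hHv p; have := ht.1; have := ht.2
    have hp : 0 < HH T P p := by linarith
    refine (neg_le_abs _).trans ((Real.norm_eq_abs _).symm.trans_le
      (norm_deriv_le_of_lip' (by positivity) ?_))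
    filter_upwards [Ioo_mem_nhds (show t - 1 < t by linarith) (show t < t + 1 by linarith)]
      with s ⟨hs, hs'⟩
    have h3 := f5 p t s (by linarith) (by linarith) (by linarith) (by linarith)
    simp only [hG, (u3 p).zero t (by linarith), (u3 p).zero s (by linarith)] at h3
    rw [u0.one t (by linarith), u0.one s (by linarith), Real.norm_eq_abs, Real.norm_eq_abs,
      sub_sub_sub_cancel_left, add_sub_add_left_eq_sub, abs_sub_comm, h3, add_zero, add_zero,
      add_sub_add_comm]
    refine (abs_add_le _ _).trans ((add_le_add (hS.lip (hα p) _ hp t s)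
      (hS.lip (hα p) _ hp t s)).trans (le_of_eq ?_))
    field_simp
    ring

end Crest.Agent.R202
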