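import Crest.Agent.R202.HDefs

/-!
# Row 202, H4: the warping function

Solve `y'' = q y` with `y 0 = 1`, `y' 0 = d/2` (`exists_sol` in `W = ℝ`, `sol_smooth`, `solOn_unique` for `t ≤ 0`).
As `q > 0`, `y` and `y'` stay positive for `t ≥ 0`.  `b = y'/y` solves `b' = q - b²`, and `x = b² - q = -b'` solves
`x' = -2 b x - q'`, `x = 0` for `t ≤ 0`; so `(x y²)' = -q' y² ≥ 0`, `x ≥ 0`, `b` decreases, `b ≤ d/2`,
`b² ≥ q ≥ (da/2)²`; the limit of `b` has `b∞² = lim q`.  Put `φ = exp ((2/d) log y)`, `ϱ = 2b/d`, `ϱ₁ = -2x/d`.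
`lo`: `(e^{ds} (x + q))`-type comparison, or `x t y(t)² ≥ ∫_{t-ℓ}^t (-q') y² ≥ y(t-ℓ)² (q (t-ℓ) - q t)` and
`y t ≤ e^{dℓ/2} y (t-ℓ)`.  `hi`: `x' ≤ -d a x + D`, `x ≤ d²/4`.  `drop`: while `b > b₀ = dϱ₀/2`, `b' ≤ -c`.
-/

set_option autoImplicit false
open scoped ContDiff RealInnerProductSpace Topology
open MeasureTheory Set Filter Module
open Crest.GeometryTopology.CoordMetric
open Crest.Agent.R230 (E MP sph ev Harm)

noncomputable section
namespace Crest.Agent.R202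

namespace HW

theorem le_of_deriv {f f' : ℝ → ℝ} {a b : ℝ} (hab : a ≤ b) (hf : ∀ s, HasDerivAt f (f' s) s)
    (h : ∀ s ∈ Ioo a b, 0 ≤ f' s) : f a ≤ f b :=
  monotoneOn_of_deriv_nonneg (convex_Icc a b)
    (fun s _ => (hf s).continuousAt.continuousWithinAt)
    (fun s _ => (hf s).differentiableAt.differentiableWithinAt)
    (fun s hs => by rw [(hf s).deriv]; exact h s (by rwa [interior_Icc] at hs))
    (left_mem_Icc.2 hab) (right_mem_Icc.2 hab) hab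

theorem ge_of_deriv {f f' : ℝ → ℝ} {a b : ℝ} (hab : a ≤ b) (hf : ∀ s, HasDerivAt f (f' s) s)
    (h : ∀ s ∈ Ioo a b, f' s ≤ 0) : f b ≤ f a :=
  neg_le_neg_iff.1 (le_of_deriv (f := fun s => -f s) hab (fun s => (hf s).neg)
    fun s hs => neg_nonneg.2 (h s hs))

theorem exists_y {κ : ℝ} (hκ : 0 < κ) {q : ℝ → ℝ} (hq : ContDiff ℝ ∞ q)
    (h0 : ∀ t, t ≤ 0 → q t = κ ^ 2) (hq0 : ∀ t, 0 ≤ q t) :
    ∃ y y₁ : ℝ → ℝ, ContDiff ℝ ∞ y ∧ (∀ t, HasDerivAt y (y₁ t) t) ∧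
      (∀ t, HasDerivAt y₁ (q t * y t) t) ∧
      (∀ t, t ≤ 0 → y t = Real.exp (κ * t) ∧ y₁ t = κ * Real.exp (κ * t)) ∧
      (∀ t, 0 < y t) ∧ ∀ t, 0 < y₁ t := by
  have hK : ContDiff ℝ ∞ fun t => q t • ContinuousLinearMap.id ℝ ℝ := hq.smul contDiff_const
  obtain ⟨y, y₁, hs, e0, e1⟩ := exists_sol hK.continuous 0 1 κ
  have d1 : ∀ t, HasDerivAt y (y₁ t) t := fun t => (hs t trivial).1
  have d2 : ∀ t, HasDerivAt y₁ (q t * y t) t := fun t => by simpa using (hs t trivial).2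
  have neg : ∀ t, t ≤ 0 → y t = Real.exp (κ * t) ∧ y₁ t = κ * Real.exp (κ * t) := by
    intro t ht
    have he : ∀ s, HasDerivAt (fun s => Real.exp (κ * s)) (κ * Real.exp (κ * s)) s := fun s =>
      (((hasDerivAt_id s).const_mul κ).exp).congr_deriv (by simp [mul_comm])
    exact solOn_unique (a := t) (b := 0) hK.continuous.continuousOn
      (z := fun s => Real.exp (κ * s)) (z' := fun s => κ * Real.exp (κ * s))
      (fun s _ => hs s trivial)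
      (fun s hs' => ⟨he s, ((he s).const_mul κ).congr_deriv (by
        simp only [_root_.smul_apply, ContinuousLinearMap.id_apply, smul_eq_mul, h0 s hs'.2]
        ring)⟩) (right_mem_Icc.2 ht) (by simp [e0]) (by simp [e1]) t (left_mem_Icc.2 ht)
  have aux : ∀ t, 0 ≤ t → (∀ s ∈ Ioo 0 t, 0 ≤ y s) → κ ≤ y₁ t := fun t ht h =>
    e1 ▸ le_of_deriv ht d2 fun s hs => mul_nonneg (hq0 s) (h s hs)
  have pos : ∀ t, 0 < y t := by
    intro t
    rcases le_total t 0 with ht | ht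
    · rw [(neg t ht).1]; exact Real.exp_pos _
    by_contra hcon
    have hc : Continuous y := continuous_iff_continuousAt.2 fun s => (d1 s).continuousAt
    obtain ⟨t₀, ⟨h1, h2⟩, h3⟩ := (isCompact_Icc.inter_right (isClosed_le hc continuous_const) :
      IsCompact (Icc 0 t ∩ {s | y s ≤ 0})).exists_isLeast ⟨t, right_mem_Icc.2 ht, not_lt.1 hcon⟩
    have h4 : ∀ s ∈ Ioo 0 t₀, 0 ≤ y s := fun s hs => le_of_not_gt fun h5 =>
      absurd (h3 ⟨⟨hs.1.le, hs.2.le.trans h1.2⟩, h5.le⟩) (not_le.2 hs.2)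
    have h5 := le_of_deriv h1.1 d1 fun s hs => hκ.le.trans
      (aux s hs.1.le fun r hr => h4 r ⟨hr.1, hr.2.trans hs.2⟩)
    have h6 : y t₀ ≤ 0 := h2
    linarith
  refine ⟨y, y₁, sol_smooth hK hs, d1, d2, neg, pos, fun t => ?_⟩
  rcases le_total t 0 with ht | ht
  · rw [(neg t ht).2]; positivity
  · exact hκ.trans_le (aux t ht fun s _ => (pos s).le)

/-- the Riccati variable -/
theorem riccati {κ α : ℝ} (hα : 0 < α) {q b : ℝ → ℝ} (hq : Differentiable ℝ q) (hm : Antitone q)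
    (hqα : ∀ t, α ^ 2 ≤ q t) (hb : ∀ t, HasDerivAt b (q t - b t ^ 2) t) (hb0 : ∀ t, 0 < b t)
    (hx : ∀ t, q t ≤ b t ^ 2) (h0 : ∀ t, t ≤ 0 → b t = κ) :
    (∀ t, α ≤ b t ∧ b t ≤ κ) ∧
    (∀ t ℓ, 0 ≤ ℓ → Real.exp (-(2 * κ) * ℓ) * (q (t - ℓ) - q t) ≤ b t ^ 2 - q t) ∧
    (∀ t₀ t D, t₀ ≤ t → (∀ s ∈ Icc t₀ t, -deriv q s ≤ D) →
      b t ^ 2 - q t ≤ κ ^ 2 * Real.exp (-(2 * α) * (t - t₀)) + D / (2 * α)) ∧
    ∀ t₀ c b₀, 0 < c → 0 ≤ b₀ → q t₀ + c ≤ b₀ ^ 2 → ∀ t, t₀ + κ / c ≤ t → b t ≤ b₀ := by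
  have anti : ∀ s t, s ≤ t → b t ≤ b s := fun s t h =>
    ge_of_deriv h hb fun r _ => sub_nonpos.2 (hx r)
  have lo : ∀ t, α ≤ b t := fun t =>
    (pow_le_pow_iff_left₀ hα.le (hb0 t).le two_ne_zero).1 ((hqα t).trans (hx t))
  have hi : ∀ t, b t ≤ κ := fun t => by
    rcases le_total t 0 with ht | ht
    · exact (h0 t ht).le
    · exact (anti 0 t ht).trans_eq (h0 0 le_rfl)
  have hκ : 0 < κ := (hb0 0).trans_le (hi 0)
  have dq : ∀ t, deriv q t ≤ 0 := fun t => hm.deriv_nonpos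
  have dx : ∀ t, HasDerivAt (fun t => b t ^ 2 - q t) (-(2 * b t * (b t ^ 2 - q t)) - deriv q t) t :=
    fun t => (((hb t).pow 2).sub (hq t).hasDerivAt).congr_deriv (by push_cast; ring)
  have de : ∀ c u s : ℝ, HasDerivAt (fun s => Real.exp (c * (s - u))) (c * Real.exp (c * (s - u))) s :=
    fun c u s => ((((hasDerivAt_id s).sub_const u).const_mul c).exp).congr_deriv (by simp [mul_comm])
  refine ⟨fun t => ⟨lo t, hi t⟩, fun t ℓ hℓ => ?_, fun t₀ t D ht hD => ?_,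
    fun t₀ c b₀ hc hb₀ h t ht => ?_⟩
  · have h1 := le_of_deriv (sub_le_self t hℓ)
      (fun s => ((de (2 * κ) t s).mul (dx s)).add
        ((hq s).hasDerivAt.const_mul (Real.exp (-(2 * κ) * ℓ)))) fun s hs => by
        have a1 : Real.exp (-(2 * κ) * ℓ) ≤ Real.exp (2 * κ * (s - t)) :=
          Real.exp_le_exp.2 (by nlinarith [hs.1])
        have a2 := mul_nonneg (Real.exp_pos (2 * κ * (s - t))).le
          (mul_nonneg (sub_nonneg.2 (hi s)) (sub_nonneg.2 (hx s)))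
        have a3 := mul_nonneg (sub_nonneg.2 a1) (neg_nonneg.2 (dq s))
        nlinarith
    simp only [Pi.add_apply, Pi.mul_apply, sub_self, mul_zero, Real.exp_zero, one_mul] at h1
    rw [show 2 * κ * (t - ℓ - t) = -(2 * κ) * ℓ by ring] at h1
    nlinarith [mul_nonneg (Real.exp_pos (-(2 * κ) * ℓ)).le (sub_nonneg.2 (hx (t - ℓ)))]
  · have h1 := ge_of_deriv ht
      (fun s => (de (2 * α) t₀ s).mul ((dx s).sub_const (D / (2 * α)))) fun s hs => by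
        have a1 := hD s ⟨hs.1.le, hs.2.le⟩
        have a2 := mul_nonneg (sub_nonneg.2 (lo s)) (sub_nonneg.2 (hx s))
        have a3 : 2 * α * (D / (2 * α)) = D := by field_simp
        have a4 : 2 * α * (b s ^ 2 - q s - D / (2 * α)) +
            (-(2 * b s * (b s ^ 2 - q s)) - deriv q s) ≤ 0 := by nlinarith
        nlinarith [mul_nonpos_of_nonneg_of_nonpos (Real.exp_pos (2 * α * (s - t₀))).le a4]
    simp only [Pi.mul_apply, sub_self, mul_zero, Real.exp_zero, one_mul] at h1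
    have hD0 : 0 ≤ D / (2 * α) :=
      div_nonneg ((neg_nonneg.2 (dq t₀)).trans (hD t₀ (left_mem_Icc.2 ht))) (by positivity)
    have h2 : b t₀ ^ 2 ≤ κ ^ 2 := pow_le_pow_left₀ (hb0 t₀).le (hi t₀) 2
    have h3 : Real.exp (2 * α * (t - t₀)) * (b t ^ 2 - q t - D / (2 * α)) ≤ κ ^ 2 := by
      nlinarith [hqα t₀]
    rw [neg_mul, Real.exp_neg, ← sub_le_iff_le_add, ← div_eq_mul_inv,
      le_div_iff₀' (Real.exp_pos _)]
    exact h3
  · by_contra hcon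
    have h1 : b₀ < b t := not_le.1 hcon
    have h2 : κ ≤ c * (t - t₀) := by
      rw [← div_le_iff₀' hc]; linarith
    have h3 : t₀ ≤ t := le_trans (le_add_of_nonneg_right (by positivity)) ht
    have h4 := ge_of_deriv h3 (fun s => (hb s).add ((hasDerivAt_id s).const_mul c)) fun s hs => by
      have a1 : b₀ ^ 2 ≤ b s ^ 2 := pow_le_pow_left₀ hb₀ (h1.le.trans (anti s t hs.2.le)) 2
      have a2 := hm hs.1.le
      linarith
    simp only [Pi.add_apply, id] at h4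
    linarith [hi t₀]

end HW

theorem exists_warp {d : ℕ} (hd : 1 ≤ d) {a : ℝ} (ha : 0 < a) {q : ℝ → ℝ} (hq : ContDiff ℝ ∞ q)
    (h0 : ∀ t, t ≤ 0 → q t = ((d : ℝ) / 2) ^ 2) (hm : Antitone q)
    (hl : Tendsto q atTop (𝓝 (((d : ℝ) * a / 2) ^ 2))) :
    ∃ φ ϱ ϱ₁ y y₁, WarpQ d a q φ ϱ ϱ₁ y y₁ := by
  have hd0 : (0 : ℝ) < d := by exact_mod_cast hd
  obtain ⟨κ, hκd⟩ : ∃ κ : ℝ, κ = (d : ℝ) / 2 := ⟨_, rfl⟩
  have hdκ : (d : ℝ) = 2 * κ := by rw [hκd]; ring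
  have hκ : 0 < κ := by rw [hκd]; positivity
  have hα : 0 < κ * a := mul_pos hκ ha
  rw [← hκd] at h0
  rw [show (d : ℝ) * a / 2 = κ * a by rw [hκd]; ring] at hl
  have hqα : ∀ t, (κ * a) ^ 2 ≤ q t := hm.le_of_tendsto hl
  have hqd : Differentiable ℝ q := hq.differentiable (by simp)
  obtain ⟨y, y₁, ys, d1, d2, neg, pos, pos1⟩ :=
    HW.exists_y hκ hq h0 fun t => (sq_nonneg _).trans (hqα t)
  have hb : ∀ t, HasDerivAt (fun t => y₁ t / y t) (q t - (y₁ t / y t) ^ 2) t := fun t =>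
    ((d2 t).div (d1 t) (pos t).ne').congr_deriv (by have := (pos t).ne'; field_simp)
  have hZ : ∀ t, 0 ≤ y₁ t ^ 2 - q t * y t ^ 2 := by
    have z0 : ∀ t, t ≤ 0 → y₁ t ^ 2 - q t * y t ^ 2 = 0 := fun t ht => by
      rw [(neg t ht).1, (neg t ht).2, h0 t ht]; ring
    intro t
    rcases le_total t 0 with ht | ht
    · exact (z0 t ht).ge
    · refine (z0 0 le_rfl).ge.trans (HW.le_of_deriv (f := fun t => y₁ t ^ 2 - q t * y t ^ 2) ht
        (fun s => (((d2 s).pow 2).sub ((hqd s).hasDerivAt.mul ((d1 s).pow 2))).congr_deriv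
          (show _ = -deriv q s * y s ^ 2 by simp only [Pi.pow_apply]; push_cast; ring))
        fun s _ => mul_nonneg (neg_nonneg.2 hm.deriv_nonpos) (sq_nonneg _))
  have hx : ∀ t, q t ≤ (y₁ t / y t) ^ 2 := fun t => by
    rw [div_pow, le_div_iff₀ (pow_pos (pos t) 2)]
    linarith [hZ t]
  obtain ⟨r1, r2, r3, r4⟩ := HW.riccati (κ := κ) hα hqd hm hqα hb (fun t => div_pos (pos1 t) (pos t))
    hx fun t ht => by rw [(neg t ht).1, (neg t ht).2, mul_div_cancel_right₀ _ (Real.exp_pos _).ne']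
  have dl : ∀ t, HasDerivAt (fun t => Real.log (y t)) (y₁ t / y t) t := fun t =>
    (d1 t).log (pos t).ne'
  have lo : ∀ t, a ≤ y₁ t / y t / κ := fun t => (le_div_iff₀' hκ).2 (r1 t).1
  have drop : ∀ t₀ c ϱ₀, 0 < c → 0 ≤ ϱ₀ → q t₀ + c ≤ ((d : ℝ) * ϱ₀ / 2) ^ 2 →
      ∀ t, t₀ + d / (2 * c) ≤ t → y₁ t / y t / κ ≤ ϱ₀ := fun t₀ c ϱ₀ hc h1 h2 t ht =>
    (div_le_iff₀' hκ).2 (r4 t₀ c (κ * ϱ₀) hc (by positivity)
      (h2.trans_eq (by rw [hκd]; ring)) t (le_of_eq_of_le (by rw [hκd]; ring) ht))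
  refine ⟨fun t => Real.exp (Real.log (y t) / κ), fun t => y₁ t / y t / κ,
    fun t => (q t - (y₁ t / y t) ^ 2) / κ, y, y₁,
    ⟨((ys.log fun t => (pos t).ne').div_const κ).exp, fun t => Real.exp_pos _, fun t ht => ?_,
      fun t => (((dl t).div_const κ).exp).congr_deriv (mul_comm _ _), fun t => (hb t).div_const κ, ha,
      lo, fun t => (div_le_one hκ).2 (r1 t).2, fun t => ?_,
      fun t => div_nonpos_of_nonpos_of_nonneg (sub_nonpos.2 (hx t)) hκ.le⟩,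
    ?_, ys, pos, fun t => ?_, d1, d2, fun t ht => hκd ▸ (neg t ht).1, fun t ht => ?_,
    fun t ℓ hℓ => ?_, fun t₀ t D ht _ hD => ?_, drop⟩
  · rw [(neg t ht).1, Real.log_exp, mul_div_cancel_left₀ _ hκ.ne']
  · have h1 : (y₁ t / y t) ^ 2 ≤ κ ^ 2 :=
      pow_le_pow_left₀ (div_pos (pos1 t) (pos t)).le (r1 t).2 2
    rw [le_div_iff₀ hκ]
    push_cast
    rw [hdκ]
    nlinarith [hqα t, sq_nonneg (κ * a)]
  · refine tendsto_order.2 ⟨fun b hb => Eventually.of_forall fun t => hb.trans_le (lo t),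
      fun b hb => ?_⟩
    obtain ⟨b', h1, h2⟩ := exists_between hb
    have h3 : (κ * a) ^ 2 < (κ * b') ^ 2 := by gcongr
    obtain ⟨t₀, h4⟩ := (hl.eventually_lt_const h3).exists
    filter_upwards [eventually_ge_atTop (t₀ + d / (2 * ((κ * b') ^ 2 - q t₀)))] with t ht
    exact (drop t₀ _ b' (sub_pos.2 h4) (ha.trans h1).le (le_of_eq (by rw [hκd]; ring)) t
      ht).trans_lt h2
  · rw [← Real.exp_nat_mul, hdκ, show 2 * κ * (Real.log (y t) / κ) = (2 : ℕ) * Real.log (y t) by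
      push_cast; field_simp, Real.exp_nat_mul, Real.exp_log (pos t)]
  · have h1 := HW.le_of_deriv ht (fun s => (dl s).sub ((hasDerivAt_id s).const_mul (κ * a)))
      fun s _ => by linarith [(r1 s).1]
    simp only [Pi.sub_apply, id, (neg 0 le_rfl).1, mul_zero, Real.exp_zero, Real.log_one,
      sub_zero] at h1
    rw [← Real.le_log_iff_exp_le (pos t), hdκ]
    linarith
  · have h1 := r2 t ℓ hℓ
    rw [hdκ, ← neg_div, neg_sub, le_div_iff₀ hκ]
    refine le_of_eq_of_le ?_ h1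
    field_simp
  · have h1 := r3 t₀ t D ht hD
    rw [hdκ, ← neg_div, neg_sub, div_le_iff₀ hκ, mul_assoc 2 κ a]
    refine h1.trans_eq ?_
    field_simp

end Crest.Agent.R202
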