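import Crest.Agent.R202.FPlan
import Crest.Agent.R202.HHarm
import Crest.Agent.R202.HGeo
import Crest.Agent.R202.HQ
import Crest.Agent.R202.HWarp
import Crest.Agent.R202.HBlk
import Crest.Agent.R202.FCrossX

/-!
# Row 202: the main construction
-/

set_option autoImplicit false
open scoped ContDiff RealInnerProductSpace Topology
open MeasureTheory Set Filter Module
open Crest.GeometryTopology.CoordMetric
open Crest.Agent.R230 (E MP sph ev Harm)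

noncomputable section
namespace Crest.Agent.R202

theorem main_thm (d : ℕ) [NeZero d] {a : ℝ} (ha : 0 < a) (ha1 : a < 1) : ∃ ε₀ : ℝ, 0 < ε₀ ∧
    ε₀ ≤ epsU d ∧ ∀ (k : ℕ) (J : Finset ℕ) (L O : ℕ → Finset (ℕ × ℕ)) (Ed : Finset Edge) (θ₀ : ℝ),
      (∀ j ∈ J, okJ d j) → Mix J L O Ed θ₀ → θ₀ + d / 2 < ((k : ℝ) + d / 2) * a →
      (∀ γ₀, 0 < γ₀ → γ₀ ≤ ε₀ → ∀ e ∈ Ed, Crossable d ε₀ γ₀ e.1 e.2.1 e.2.2) →
      ∃ g : MetricField (d + 2), GeoOK g (a ^ (d + 1)) ∧ HarmOK g k (Fin (cnt d J L)) := by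
  obtain ⟨ε₀, hε0, hεU, hgeo⟩ := geo_sched d ha ha1
  refine ⟨ε₀, hε0, hεU, fun k J L O Ed θ₀ hok hM hθ hc => ?_⟩
  have hd : (0 : ℝ) < d := by exact_mod_cast Nat.pos_of_ne_zero (NeZero.ne d)
  obtain ⟨jm, hjm⟩ := J.bddAbove
  have hjm0 : (0 : ℝ) < 2 * ((jm : ℝ) + 1) := by positivity
  set γ₀ : ℝ := min ε₀ (1 / (2 * ((jm : ℝ) + 1))) with hγ₀
  have hγ0 : 0 < γ₀ := lt_min hε0 (by positivity)
  have hγε : γ₀ ≤ ε₀ := min_le_left _ _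
  have hP : Par d ε₀ γ₀ J := by
    refine ⟨hε0, hεU, hγ0, hγε, hok, fun j hj => ?_⟩
    have h1 : (j : ℝ) ≤ jm := by exact_mod_cast hjm hj
    have h2 : γ₀ * (2 * ((jm : ℝ) + 1)) ≤ 1 := by
      have := min_le_right ε₀ (1 / (2 * ((jm : ℝ) + 1)))
      rwa [← hγ₀, le_div_iff₀ hjm0] at this
    nlinarith
  obtain ⟨μ', hμ'⟩ := ((J.sigma L).image fun x : Σ _ : ℕ, ℕ × ℕ =>
    Real.sqrt (4 * ((ldeg x.1 x.2 : ℝ) * (ldeg x.1 x.2 + d)) + ((d : ℝ) / 2) ^ 2) + 2).bddAbove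
  have hL : Lev d J L (max 1 μ') (2 * (max 1 μ' + 1) ^ 2) := by
    refine ⟨hM.one, fun j hj x hx => le_trans (hμ' ?_) (le_max_right _ _), le_max_left _ _, le_rfl⟩
    exact Finset.mem_coe.2 (Finset.mem_image.2 ⟨⟨j, x⟩, Finset.mem_sigma.2 ⟨hj, hx⟩, rfl⟩)
  have hκ : 0 < (d : ℝ) * a / 2 := by positivity
  obtain ⟨V, R, _, _, _, _, F, lf, md, st, gs, Low, lab, χ, idx, P, lg, g₀, μ₀, η₀, hpl⟩ :=
    plan_ex hP hL hM hκ (hc γ₀ hγ0 hγε)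
  obtain ⟨B₁, hB, hpath⟩ := exists_path hpl.md0 hpl.next hpl.prof hpl.bd
  obtain ⟨g, Kl, δ, Cr, T₁, hg, hKl, hδ, hCr, hharm⟩ := harm_sched ha hP hL hpl hθ hB
  obtain ⟨A, η₁, T₂, hA, hη₁, hgeo'⟩ := hgeo γ₀ B₁ Cr g V R F lf md st χ P lg hγε hB hCr hg hpl.adm
    hpl.small hpl.zero hpl.Ppos hpl.per hpl.some hpl.sec
  have hκ1 : (d : ℝ) * a / 2 < (d : ℝ) / 2 := by nlinarith
  obtain ⟨T₃, hq⟩ := exists_q d hκ.le hκ1 (lt_min hpl.e0 hη₁) hδ hA hg hpl.Ppos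
  set T : ℝ := max (max T₁ T₂) (max T₃ 1) with hT
  have hT1 : T₁ ≤ T := (le_max_left _ _).trans (le_max_left _ _)
  have hT2 : T₂ ≤ T := (le_max_right _ _).trans (le_max_left _ _)
  have hT3 : T₃ ≤ T := (le_max_left _ _).trans (le_max_right _ _)
  have hT4 : 1 ≤ T := (le_max_right _ _).trans (le_max_right _ _)
  obtain ⟨q, hQ⟩ := hq T hT3 Kl hKl lg
  obtain ⟨path, hpa⟩ := hpath T Kl P lg hT4 hKl
  obtain ⟨φ, ϱ, ϱ₁, y, y₁, hW⟩ := exists_warp (Nat.pos_of_ne_zero (NeZero.ne d)) ha hQ.smooth hQ.init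
    hQ.anti hQ.lim
  obtain ⟨c, hc1, hH⟩ := hharm T A _ q φ ϱ ϱ₁ y y₁ path hT1 (min_le_left _ _) hQ hpa hW
  exact ⟨_, hgeo' T Kl δ _ q φ ϱ ϱ₁ y y₁ path c hT2 hKl (min_le_right _ _) hQ hpa hW hc1, hH⟩

theorem main_blk (d : ℕ) [NeZero d] {a : ℝ} (ha : 0 < a) (ha1 : a < 1) : ∃ l₀ : ℕ,
    ∀ (k : ℕ) (J : Finset ℕ) (lL lo hi : ℕ → ℕ) (θ₀ : ℝ), (∀ j ∈ J, okJ d j) →
      (∀ j ∈ J, lL j ≤ lo j) → (∀ j ∈ J, j < lo j) → (∃ j ∈ J, lo j < hi j) →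
      (∀ j ∈ J, ∑ l ∈ Finset.Icc (lo j) (hi j), (((l - j + 1) / 2 : ℕ) : ℝ) * ((l : ℝ) - θ₀) ≤ 0) →
      (∀ j ∈ J, ∀ l : ℕ, lL j ≤ l → l < lo j → l ≤ hi j → (l : ℝ) ≤ θ₀) →
      (∀ j ∈ J, lo j < hi j → l₀ ≤ lo j ∧ (d = 1 ∨ (hi j ≤ 5 * j ∧ 10 * j ≤ 7 * lo j))) →
      θ₀ + d / 2 < ((k : ℝ) + d / 2) * a →
      ∃ g : MetricField (d + 2), GeoOK g (a ^ (d + 1)) ∧
        HarmOK g k (Fin (cnt d J fun j => blk j (lL j) (hi j))) := by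
  obtain ⟨ε₀, hε0, hεU, h⟩ := main_thm d ha ha1
  obtain ⟨l₀, hx⟩ := cross_x d hε0
  refine ⟨l₀, fun k J lL lo hi θ₀ hok h1 h2 hne havg hs hl hθ => ?_⟩
  refine h k J _ _ _ θ₀ hok (mix_blk h1 h2 hne havg hs) hθ fun γ₀ hγ0 hγ e he => ?_
  obtain ⟨hj, ha', hb', h3 | ⟨l, h4, h5, h6, h7, h8⟩⟩ := mem_EdS he
  · exact cross_in hεU hγ0 hγ (hok _ hj) ha' hb' h3.1 h3.2
  · obtain ⟨h9, h10⟩ := hl _ hj (lt_of_le_of_lt h4 h5)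
    rw [h6]
    refine hx γ₀ e.1 l e.2.2 hγ0 (h9.trans h4) ?_ hb' h7 h8
    by_cases hd : d = 1
    · exact Or.inl ⟨hd, hok _ hj hd⟩
    · have := NeZero.ne d
      rcases h10 with h10 | h10
      · exact absurd h10 hd
      · exact Or.inr ⟨by omega, by omega, by omega⟩

end Crest.Agent.R202
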