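import Crest.Agent.R202.HTime

/-!
# Row 202, H3: the path of coefficient vectors

With `S x = Real.smoothTransition (2x - 1/2)` and `e v = Pi.single v 1` put
`path c t = e (lf 0) + Σ_p [ S((t - ta p - H_p)/H_p) (e (md p) - e (lf p)) + S((t - tv p)/H_p) (e (st p) - e (md p))
  + (v ↦ Σ_i c p i χ p i v (t - tb p)) ]`; for `t < ta N` only the terms `p < N` are non-zero, and the terms
`p' < p` telescope to `e (lf p) - e (lf 0)` on `[ta p, ∞)`.  `sec` is the mean value theorem for `S` on `[1/4, 3/4]`.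
-/

set_option autoImplicit false
open scoped ContDiff RealInnerProductSpace Topology
open MeasureTheory Set Filter Module
open Crest.GeometryTopology.CoordMetric
open Crest.Agent.R230 (E MP sph ev Harm)

noncomputable section
namespace Crest.Agent.R202

/-- the step -/
def hpS (x : ℝ) : ℝ := Real.smoothTransition (2 * x - 1 / 2)

theorem hpS_smooth : ContDiff ℝ ∞ hpS := Real.smoothTransition.contDiff.comp (by fun_prop)

theorem hpS_lo {x : ℝ} (h : x ≤ 1 / 4) : hpS x = 0 :=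
  Real.smoothTransition.zero_of_nonpos (by linarith)

theorem hpS_hi {x : ℝ} (h : 3 / 4 ≤ x) : hpS x = 1 :=
  Real.smoothTransition.one_of_one_le (by linarith)

theorem hpS_mem (x : ℝ) : hpS x ∈ Icc (0 : ℝ) 1 :=
  ⟨Real.smoothTransition.nonneg _, Real.smoothTransition.le_one _⟩

theorem hp_iter_const {f : ℝ → ℝ} {x k : ℝ} (h : ∀ᶠ y in 𝓝 x, f y = k) (r : ℕ) :
    iteratedDeriv r f x = if r = 0 then k else 0 := by
  rw [(Filter.EventuallyEq.iteratedDeriv (f₂ := fun _ => k) h r).eq_of_nhds, iteratedDeriv_const]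

theorem hpS_der_lo (r : ℕ) {x : ℝ} (h : x < 1 / 4) : iteratedDeriv r hpS x = 0 := by
  rw [hp_iter_const ((gt_mem_nhds h).mono fun y hy => hpS_lo hy.le), ite_self]

theorem hpS_der_hi {r : ℕ} (hr : r ≠ 0) {x : ℝ} (h : 3 / 4 < x) : iteratedDeriv r hpS x = 0 := by
  rw [hp_iter_const ((lt_mem_nhds h).mono fun y hy => hpS_hi hy.le), if_neg hr]

theorem hpS_der_out {r : ℕ} (hr : r ≠ 0) {x : ℝ} (h : x ∉ Icc (1 / 4 : ℝ) (3 / 4)) :
    iteratedDeriv r hpS x = 0 := by
  rcases not_and_or.1 h with h | h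
  · exact hpS_der_lo r (not_le.1 h)
  · exact hpS_der_hi hr (not_le.1 h)

theorem hpS_bd (r : ℕ) : ∃ C : ℝ, 0 < C ∧ ∀ x, |iteratedDeriv r hpS x| ≤ C := by
  by_cases hr : r = 0
  · refine ⟨1, one_pos, fun x => ?_⟩
    rw [hr, iteratedDeriv_zero, abs_of_nonneg (hpS_mem x).1]
    exact (hpS_mem x).2
  obtain ⟨C, hC⟩ := (isCompact_Icc (a := (1 / 4 : ℝ)) (b := 3 / 4)).exists_bound_of_continuousOn
    (hpS_smooth.continuous_iteratedDeriv r (by exact_mod_cast le_top)).continuousOn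
  refine ⟨|C| + 1, by positivity, fun x => ?_⟩
  by_cases hx : x ∈ Icc (1 / 4 : ℝ) (3 / 4)
  · have := hC x hx
    rw [Real.norm_eq_abs] at this
    linarith [le_abs_self C]
  · rw [hpS_der_out hr hx, abs_zero]
    positivity

theorem hp_hasDerivAt {f : ℝ → ℝ} (hf : ContDiff ℝ ∞ f) (r : ℕ) (x : ℝ) :
    HasDerivAt (iteratedDeriv r f) (iteratedDeriv (r + 1) f x) x := by
  rw [iteratedDeriv_succ]
  exact (hf.differentiable_iteratedDeriv r (by exact_mod_cast ENat.natCast_lt_top r) x).hasDerivAt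

theorem Prof.der_lo {χ : ℝ → ℝ} (h : Prof χ) (r : ℕ) {τ : ℝ} (hτ : τ < 1 / 4) :
    iteratedDeriv r χ τ = 0 := by
  rw [hp_iter_const ((gt_mem_nhds hτ).mono fun y hy => h.2 y fun h1 => absurd h1.1 (not_lt.2 hy.le)),
    ite_self]

section
variable {V R : Type} [Fintype V] [Fintype R]

/-- the `r`-th derivative of one term of the path -/
def hpG (r : ℕ) (w₁ w₂ : V → ℝ) (a₁ a₂ a₃ H : ℝ) (c : R → ℝ) (χ : R → V → ℝ → ℝ) (t : ℝ) : V → ℝ :=
  (H⁻¹ ^ r * iteratedDeriv r hpS ((t - a₁) / H)) • w₁ +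
    (H⁻¹ ^ r * iteratedDeriv r hpS ((t - a₂) / H)) • w₂ +
    fun v => ∑ i, c i * iteratedDeriv r (χ i v) (t - a₃)

variable {w₁ w₂ : V → ℝ} {a₁ a₂ a₃ H : ℝ} {c : R → ℝ} {χ : R → V → ℝ → ℝ}

omit [Fintype V] in
theorem hpG_zero (t : ℝ) : hpG 0 w₁ w₂ a₁ a₂ a₃ H c χ t =
    hpS ((t - a₁) / H) • w₁ + hpS ((t - a₂) / H) • w₂ + fun v => ∑ i, c i * χ i v (t - a₃) := by
  simp [hpG]

theorem hpG_hasDerivAt (hχ : ∀ i v, ContDiff ℝ ∞ (χ i v)) (r : ℕ) (t : ℝ) :
    HasDerivAt (hpG r w₁ w₂ a₁ a₂ a₃ H c χ) (hpG (r + 1) w₁ w₂ a₁ a₂ a₃ H c χ t) t := by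
  have h1 : ∀ a : ℝ, HasDerivAt (fun t => H⁻¹ ^ r * iteratedDeriv r hpS ((t - a) / H))
      (H⁻¹ ^ (r + 1) * iteratedDeriv (r + 1) hpS ((t - a) / H)) t := fun a => by
    have h2 := ((hp_hasDerivAt hpS_smooth r ((t - a) / H)).comp t
      (((hasDerivAt_id t).sub_const a).div_const H)).const_mul (H⁻¹ ^ r)
    refine h2.congr_deriv ?_
    rw [pow_succ, one_div]
    ring
  refine (((h1 a₁).smul_const w₁).add ((h1 a₂).smul_const w₂)).add (hasDerivAt_pi.2 fun v => ?_)
  refine HasDerivAt.fun_sum fun i _ => ?_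
  have h3 := ((hp_hasDerivAt (hχ i v) r (t - a₃)).comp t
    ((hasDerivAt_id t).sub_const a₃)).const_mul (c i)
  rw [mul_one] at h3
  exact h3

theorem hpG_iter (hχ : ∀ i v, ContDiff ℝ ∞ (χ i v)) (r : ℕ) :
    iteratedDeriv r (hpG 0 w₁ w₂ a₁ a₂ a₃ H c χ) = hpG r w₁ w₂ a₁ a₂ a₃ H c χ := by
  induction r with
  | zero => rw [iteratedDeriv_zero]
  | succ r ih =>
    rw [iteratedDeriv_succ, ih]
    exact funext fun t => (hpG_hasDerivAt hχ r t).deriv

theorem hpG_smooth (hχ : ∀ i v, ContDiff ℝ ∞ (χ i v)) :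
    ContDiff ℝ ∞ (hpG 0 w₁ w₂ a₁ a₂ a₃ H c χ) := by
  rw [funext (hpG_zero (w₁ := w₁) (w₂ := w₂) (a₁ := a₁) (a₂ := a₂) (a₃ := a₃) (H := H) (c := c)
    (χ := χ))]
  have h1 : ∀ a : ℝ, ContDiff ℝ ∞ fun t : ℝ => hpS ((t - a) / H) := fun a =>
    hpS_smooth.comp ((contDiff_id.sub contDiff_const).div_const H)
  refine (((h1 a₁).smul contDiff_const).add ((h1 a₂).smul contDiff_const)).add
    (contDiff_pi.2 fun v => ContDiff.sum fun i _ => contDiff_const.mul ?_)
  exact (hχ i v).comp (contDiff_id.sub contDiff_const)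

theorem hp_ctl_norm {g : R → V → ℝ} {ρ B : ℝ} (hρ : 0 ≤ ρ) (hc : ∀ i, |c i| ≤ ρ)
    (hg : ∀ i v, |g i v| ≤ B) : ‖fun v => ∑ i, c i * g i v‖ ≤ Fintype.card R * |B| * ρ := by
  refine (pi_norm_le_iff_of_nonneg (by positivity)).2 fun v => ?_
  rw [Real.norm_eq_abs]
  refine (Finset.abs_sum_le_sum_abs _ _).trans
    ((Finset.sum_le_card_nsmul _ _ (|B| * ρ) fun i _ => ?_).trans (le_of_eq ?_))
  · rw [abs_mul, mul_comm]
    exact mul_le_mul ((hg i v).trans (le_abs_self B)) (hc i) (abs_nonneg _) (abs_nonneg _)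
  · rw [nsmul_eq_mul, Finset.card_univ, mul_assoc]

theorem hp_smul_norm {r : ℕ} {C : ℝ} (hC : ∀ x, |iteratedDeriv r hpS x| ≤ C) (hH : 0 < H)
    {w : V → ℝ} (hw : ‖w‖ ≤ 2) (x : ℝ) :
    ‖(H⁻¹ ^ r * iteratedDeriv r hpS x) • w‖ ≤ 2 * C / H ^ r := by
  have h0 : 0 ≤ C := (abs_nonneg _).trans (hC 0)
  rw [norm_smul, Real.norm_eq_abs, abs_mul, abs_of_nonneg (by positivity : 0 ≤ H⁻¹ ^ r), inv_pow,
    div_eq_inv_mul, mul_assoc, mul_comm 2 C]
  exact mul_le_mul_of_nonneg_left (mul_le_mul (hC x) hw (norm_nonneg _) h0) (by positivity)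

end

theorem exists_path {V R : Type} [Fintype V] [DecidableEq V] [Fintype R] {lf md st : ℕ → V}
    {χ : ℕ → R → V → ℝ → ℝ} (h0 : md 0 = lf 0) (hn : ∀ p, lf (p + 1) = st p)
    (hχ : ∀ p r v, Prof (χ p r v)) (hb : ∀ k : ℕ, ∃ B : ℝ, ∀ p r v τ, |iteratedDeriv k (χ p r v) τ| ≤ B) :
    ∃ B₁ : ℝ, 0 < B₁ ∧ ∀ (T Kl : ℝ) (P : ℕ) (lg : ℕ → Bool), 1 ≤ T → 0 ≤ Kl →
      ∃ path, PathOK lf md st χ B₁ T Kl P lg path := by
  choose B hB using hb
  choose C hC0 hC using hpS_bd
  have hC1 := hC0 1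
  have hC2 := hC0 2
  set n : ℝ := (Fintype.card R : ℝ) with hnd
  have hn0 : 0 ≤ n := Nat.cast_nonneg _
  refine ⟨n * (|B 0| + |B 1| + |B 2|) + 4 * C 1 + 4 * C 2, by positivity,
    fun T Kl P lg hT hK => ?_⟩
  have hT0 : 0 ≤ T := zero_le_one.trans hT
  set e : V → V → ℝ := fun v => Pi.single v 1 with he
  have he1 : ∀ v, ‖e v‖ ≤ 1 := fun v => by simp [he, Pi.norm_single]
  have he2 : ∀ v w, ‖e v - e w‖ ≤ 2 := fun v w =>
    (norm_sub_le _ _).trans (by linarith [he1 v, he1 w])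
  have hsm : ∀ p i v, ContDiff ℝ ∞ (χ p i v) := fun p i v => (hχ p i v).1
  set G : ℕ → ℕ → (ℕ → R → ℝ) → ℝ → V → ℝ := fun r p c =>
    hpG r (e (md p) - e (lf p)) (e (st p) - e (md p)) (ta T Kl P lg p + HH T P p) (tv T Kl P lg p)
      (tb T Kl P lg p) (HH T P p) (c p) (χ p) with hG
  have hH : ∀ p, 1 ≤ HH T P p := fun p => hT.trans (le_HH hT0 P p)
  have hH0 : ∀ p, 0 < HH T P p := fun p => one_pos.trans_le (hH p)
  have hu : ∀ p, tu T Kl P lg p = ta T Kl P lg p + 2 * HH T P p := fun p => rfl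
  have hv : ∀ p, tu T Kl P lg p ≤ tv T Kl P lg p := tu_le_tv hT0 hK
  have hb : ∀ p, tb T Kl P lg p = tv T Kl P lg p + 2 * HH T P p := fun p => rfl
  have hs := ta_succ T Kl P lg
  have lo : ∀ p {x : ℝ}, x ≤ 0 → hpS (x / HH T P p) = 0 := fun p x hx =>
    hpS_lo ((div_nonpos_of_nonpos_of_nonneg hx (hH0 p).le).trans (by norm_num))
  have hi : ∀ p {x : ℝ}, HH T P p ≤ x → hpS (x / HH T P p) = 1 := fun p x hx =>
    hpS_hi (le_trans (by norm_num) ((one_le_div (hH0 p)).2 hx))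
  have hi' : ∀ p {r : ℕ} {x : ℝ}, r ≠ 0 → HH T P p ≤ x → iteratedDeriv r hpS (x / HH T P p) = 0 :=
    fun p r x hr hx => hpS_der_hi hr (lt_of_lt_of_le (by norm_num) ((one_le_div (hH0 p)).2 hx))
  have ctl : ∀ (r p : ℕ) (c : ℕ → R → ℝ) {x : ℝ}, x ≤ 0 →
      (fun v => ∑ i, c p i * iteratedDeriv r (χ p i v) x) = 0 := fun r p c x hx => by
    funext v
    exact Finset.sum_eq_zero fun i _ => by
      rw [(hχ p i v).der_lo r (hx.trans_lt (by norm_num)), mul_zero]
  have ctl0 : ∀ (p : ℕ) (c : ℕ → R → ℝ) {x : ℝ}, x ≤ 0 →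
      (fun v => ∑ i, c p i * χ p i v x) = 0 := fun p c x hx => ctl 0 p c hx
  have G0 : ∀ p c t, G 0 p c t =
      hpS ((t - (ta T Kl P lg p + HH T P p)) / HH T P p) • (e (md p) - e (lf p)) +
        hpS ((t - tv T Kl P lg p) / HH T P p) • (e (st p) - e (md p)) +
        fun v => ∑ i, c p i * χ p i v (t - tb T Kl P lg p) := fun p c t => hpG_zero t
  have zero : ∀ p c t, t ≤ ta T Kl P lg p + 1 → G 0 p c t = 0 := fun p c t ht => by
    have := hH p
    have := hu p
    have := hv p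
    have := hb p
    rw [G0, lo p (by linarith), lo p (by linarith), ctl0 p c (by linarith), zero_smul, zero_smul,
      add_zero, add_zero]
  have one : ∀ p c t, ta T Kl P lg (p + 1) - 1 / 4 ≤ t →
      G 0 p c t = e (lf (p + 1)) - e (lf p) := fun p c t ht => by
    have := hH p
    have := hu p
    have := hv p
    have := hb p
    have := hs p
    have h1 : (fun v => ∑ i, c p i * χ p i v (t - tb T Kl P lg p)) = 0 := by
      funext v
      exact Finset.sum_eq_zero fun i _ => by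
        rw [(hχ p i v).2 _ fun h => absurd h.2 (not_lt.2 (by linarith)), mul_zero]
    rw [G0, hi p (by linarith), hi p (by linarith), h1, one_smul, one_smul, add_zero, hn]
    abel
  set path : (ℕ → R → ℝ) → ℝ → V → ℝ := fun c t => e (lf 0) + ∑ᶠ p, G 0 p c t with hpath
  have key : ∀ p t, (p = 0 ∨ ta T Kl P lg p - 1 / 4 ≤ t) → t ≤ ta T Kl P lg (p + 1) + 1 →
      ∀ c, path c t = e (lf p) + G 0 p c t := fun p t h1 h2 c => by
    have h3 : ∑ᶠ p, G 0 p c t = ∑ p' ∈ Finset.range (p + 1), G 0 p' c t := by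
      refine finsum_eq_sum_of_support_subset _ fun p' hp' => ?_
      by_contra h4
      have h5 : p + 1 ≤ p' := by simpa using h4
      exact hp' (zero p' c t (h2.trans (by linarith [ta_mono (P := P) (lg := lg) hT0 hK h5])))
    have h4 : ∑ p' ∈ Finset.range p, G 0 p' c t = e (lf p) - e (lf 0) := by
      rw [← Finset.sum_range_sub fun p => e (lf p)]
      refine Finset.sum_congr rfl fun p' hp' => one p' c t ?_
      have h5 : p' + 1 ≤ p := Finset.mem_range.1 hp'
      rcases h1 with h1 | h1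
      · omega
      · linarith [ta_mono (P := P) (lg := lg) hT0 hK h5]
    simp only [hpath]
    rw [h3, Finset.sum_range_succ, h4]
    abel
  have loc : ∀ p t, (p = 0 ∨ ta T Kl P lg p ≤ t) → t ≤ ta T Kl P lg (p + 1) →
      ∀ᶠ s in 𝓝 t, ∀ c, path c s = e (lf p) + G 0 p c s := fun p t h1 h2 => by
    filter_upwards [Ioo_mem_nhds (show t - 1 / 4 < t by linarith) (show t < t + 1 by linarith)]
      with s hs'
    exact key p s (h1.imp id fun h => by linarith [hs'.1]) (by linarith [hs'.2])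
  have cov : ∀ t, ∃ p, (p = 0 ∨ ta T Kl P lg p ≤ t) ∧ t ≤ ta T Kl P lg (p + 1) := fun t => by
    rcases time_cover (P := P) (lg := lg) hT0 hK t with h | ⟨p, h | h⟩
    · exact ⟨0, Or.inl rfl, h.trans (ta_mono hT0 hK (Nat.zero_le _))⟩
    · exact ⟨p, Or.inr h.1, by linarith [h.2, hs p]⟩
    · exact ⟨p, Or.inr (by linarith [h.1, hH p, hu p, hv p, hb p]), by linarith [h.2, hs p]⟩
  have iter : ∀ p t, (p = 0 ∨ ta T Kl P lg p ≤ t) → t ≤ ta T Kl P lg (p + 1) → ∀ c r, r ≠ 0 →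
      iteratedDeriv r (path c) t = G r p c t := fun p t h1 h2 c r hr => by
    rw [(Filter.EventuallyEq.iteratedDeriv (f₂ := fun s => e (lf p) + G 0 p c s)
      ((loc p t h1 h2).mono fun s hs' => hs' c) r).eq_of_nhds,
      iteratedDeriv_const_add (Nat.pos_of_ne_zero hr)]
    exact congrFun (hpG_iter (hsm p) r) t
  have d1 : ∀ p t, ta T Kl P lg p ≤ t → t ≤ ta T Kl P lg (p + 1) → ∀ c,
      deriv (path c) t = G 1 p c t := fun p t h1 h2 c => by
    rw [← iteratedDeriv_one]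
    exact iter p t (Or.inr h1) h2 c 1 one_ne_zero
  have d2 : ∀ p t, ta T Kl P lg p ≤ t → t ≤ ta T Kl P lg (p + 1) → ∀ c,
      deriv (deriv (path c)) t = G 2 p c t := fun p t h1 h2 c => by
    rw [← iteratedDeriv_one (f := path c), ← iteratedDeriv_succ]
    exact iter p t (Or.inr h1) h2 c 2 two_ne_zero
  have val : ∀ c p, ∀ t ∈ Icc (ta T Kl P lg p) (tb T Kl P lg p), path c t = e (lf p) +
      (hpS ((t - (ta T Kl P lg p + HH T P p)) / HH T P p) • (e (md p) - e (lf p)) +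
        hpS ((t - tv T Kl P lg p) / HH T P p) • (e (st p) - e (md p))) := fun c p t ht => by
    rw [key p t (Or.inr (by linarith [ht.1])) (by linarith [ht.2, hs p]), G0,
      ctl0 p c (by linarith [ht.2]), add_zero]
  have gn : ∀ r p c t {ρ : ℝ}, 0 ≤ ρ → (∀ i, |c p i| ≤ ρ) →
      ‖G r p c t‖ ≤ 4 * C r / HH T P p ^ r + n * |B r| * ρ := fun r p c t ρ hρ hc => by
    refine (norm_add_le _ _).trans (add_le_add ((norm_add_le _ _).trans ?_)
      (hp_ctl_norm hρ hc fun i v => hB r p i v _))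
    refine (add_le_add (hp_smul_norm (hC r) (hH0 p) (he2 _ _) _)
      (hp_smul_norm (hC r) (hH0 p) (he2 _ _) _)).trans (le_of_eq ?_)
    ring
  have gz : ∀ r p c t, t ≤ tb T Kl P lg p → G r p c t = G r p 0 t := fun r p c t ht => by
    simp only [hG, hpG]
    rw [ctl r p c (by linarith), ctl r p 0 (by linarith)]
  have gev : ∀ r p c τ, r ≠ 0 → 0 ≤ τ → G r p c (tb T Kl P lg p + τ) =
      fun v => ∑ i, c p i * iteratedDeriv r (χ p i v) τ := fun r p c τ hr hτ => by
    have := hH p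
    have := hu p
    have := hv p
    have := hb p
    simp only [hG, hpG]
    rw [hi' p hr (by linarith), hi' p hr (by linarith), mul_zero, zero_smul, zero_smul, add_zero,
      zero_add, add_sub_cancel_left]
  refine ⟨path, ?_, fun c => ?_, fun r => ?_, fun c t ht => ?_, fun c p t ht => ?_,
    fun c p t ht => ?_, fun c p t ht => ?_, fun c p t ht => ?_, fun c p t ht => ?_,
    fun c p τ hτ => ?_, fun c p ρ hρ hc τ hτ => ?_, fun c p t ht => ?_, fun c p => ?_⟩
  · refine continuous_iff_continuousAt.2 fun x => ?_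
    obtain ⟨p, h1, h2⟩ := cov x.2
    have h3 : Continuous fun y : (ℕ → R → ℝ) × ℝ => e (lf p) + G 0 p y.1 y.2 := by
      simp only [G0]
      have h4 := hpS_smooth.continuous
      have h5 : ∀ i v, Continuous (χ p i v) := fun i v => (hsm p i v).continuous
      fun_prop
    refine h3.continuousAt.congr ?_
    exact (continuous_snd.continuousAt.eventually (loc p x.2 h1 h2)).mono fun y hy => (hy y.1).symm
  · refine contDiff_iff_contDiffAt.2 fun t => ?_
    obtain ⟨p, h1, h2⟩ := cov t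
    exact (contDiff_const.add (hpG_smooth (hsm p))).contDiffAt.congr_of_eventuallyEq
      ((loc p t h1 h2).mono fun s hs' => hs' c)
  · refine ⟨1 + (4 * C r + n * |B r| * 1), fun c hc t => ?_⟩
    obtain ⟨p, h1, h2⟩ := cov t
    have h3 : ‖G r p c t‖ ≤ 4 * C r + n * |B r| * 1 :=
      (gn r p c t zero_le_one (hc p)).trans (add_le_add
        (div_le_self (by linarith [hC0 r]) (one_le_pow₀ (hH p))) le_rfl)
    by_cases hr : r = 0
    · subst hr
      rw [iteratedDeriv_zero, (loc p t h1 h2).self_of_nhds c]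
      exact (norm_add_le _ _).trans (add_le_add (he1 _) h3)
    · rw [iter p t h1 h2 c r hr]
      linarith
  · have := hH 0
    have := hv 0
    have := hb 0
    have := hs 0
    have := tu_zero T Kl P lg
    rw [key 0 t (Or.inl rfl) (by linarith), G0, h0, sub_self, smul_zero, lo 0 (by linarith),
      ctl0 0 c (by linarith), zero_smul, add_zero, add_zero, add_zero]
  · rw [val c p t ht, val 0 p t ht]
  · rw [val c p t ht]
    rcases le_total t (tu T Kl P lg p) with h | h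
    · refine ⟨_, hpS_mem ((t - (ta T Kl P lg p + HH T P p)) / HH T P p), Or.inl ?_⟩
      rw [lo p (x := t - tv T Kl P lg p) (by linarith [hv p])]
      simp only [he]
      module
    · refine ⟨_, hpS_mem ((t - tv T Kl P lg p) / HH T P p), Or.inr ?_⟩
      rw [hi p (x := t - (ta T Kl P lg p + HH T P p)) (by linarith [hu p])]
      simp only [he]
      module
  · have := hH p
    have := hu p
    have := hv p
    have := hb p
    rw [val c p t ⟨ht.1, by linarith [ht.2]⟩, lo p (by linarith [ht.2]), lo p (by linarith [ht.2]),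
      zero_smul, zero_smul, add_zero, add_zero]
  · have := hH p
    have := hu p
    have := hb p
    rw [val c p t ⟨by linarith [ht.1], by linarith [ht.2]⟩, hi p (by linarith [ht.1]),
      lo p (by linarith [ht.2]), one_smul, zero_smul, add_zero, add_sub_cancel]
  · have := hH p
    have := hu p
    have := hv p
    have := hb p
    rw [val c p t ⟨by linarith [ht.1], ht.2⟩, hi p (by linarith [ht.1]), hi p (by linarith [ht.1]),
      one_smul, one_smul]
    simp only [he]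
    abel
  · have := hH p
    have := hu p
    have := hv p
    have := hb p
    have := hs p
    rw [key p _ (Or.inr (by linarith [hτ.1])) (by linarith [hτ.2]), G0, hi p (by linarith [hτ.1]),
      hi p (by linarith [hτ.1]), one_smul, one_smul, add_sub_cancel_left]
    simp only [he]
    abel
  · have := hH p
    have := hu p
    have := hv p
    have := hb p
    have := hs p
    have h1 := hp_ctl_norm hρ hc fun i v => hB 0 p i v τ
    have h2 := hp_ctl_norm hρ hc fun i v => hB 1 p i v τ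
    have h3 := hp_ctl_norm hρ hc fun i v => hB 2 p i v τ
    rw [← hnd] at h1 h2 h3
    have h4 : 0 ≤ n * |B 0| * ρ := by positivity
    have h5 : 0 ≤ n * |B 1| * ρ := by positivity
    have h6 : 0 ≤ n * |B 2| * ρ := by positivity
    have h7 : 0 ≤ C 1 * ρ := by positivity
    have h8 : 0 ≤ C 2 * ρ := by positivity
    rw [d1 p _ (by linarith [hτ.1]) (by linarith [hτ.2]), d2 p _ (by linarith [hτ.1])
      (by linarith [hτ.2]), gev 1 p c τ one_ne_zero hτ.1, gev 2 p c τ two_ne_zero hτ.1]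
    exact ⟨h1.trans (by linarith), by linarith⟩
  · have h1 := hH0 p
    rw [d1 p t ht.1 (by linarith [ht.2, hs p]), d2 p t ht.1 (by linarith [ht.2, hs p]),
      gz 1 p c t ht.2, gz 2 p c t ht.2]
    have h2 := gn 1 p 0 t le_rfl fun i => by simp
    have h3 := gn 2 p 0 t le_rfl fun i => by simp
    rw [mul_zero, add_zero] at h2 h3
    rw [pow_one] at h2
    have h4 : 0 ≤ n * (|B 0| + |B 1| + |B 2|) := by positivity
    refine ⟨h2.trans (div_le_div_of_nonneg_right (by linarith) h1.le),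
      h3.trans (div_le_div_of_nonneg_right (by linarith) (by positivity)), fun hm => ?_⟩
    have h5 : (t - (ta T Kl P lg p + HH T P p)) / HH T P p ∉ Icc (1 / 4 : ℝ) (3 / 4) := fun h =>
      hm (Or.inl ⟨by linarith [(le_div_iff₀ h1).1 h.1], by linarith [(div_le_iff₀ h1).1 h.2]⟩)
    have h6 : (t - tv T Kl P lg p) / HH T P p ∉ Icc (1 / 4 : ℝ) (3 / 4) := fun h =>
      hm (Or.inr ⟨by linarith [(le_div_iff₀ h1).1 h.1], by linarith [(div_le_iff₀ h1).1 h.2]⟩)
    have h7 : ∀ r, r ≠ 0 → G r p 0 t = 0 := fun r hr => by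
      simp only [hG, hpG]
      rw [hpS_der_out hr h5, hpS_der_out hr h6, ctl r p 0 (by linarith [ht.2]), mul_zero, zero_smul,
        zero_smul, add_zero, add_zero]
    exact ⟨h7 1 one_ne_zero, h7 2 two_ne_zero⟩
  · obtain ⟨x, hx, hd⟩ := exists_deriv_eq_slope hpS (show (1 / 4 : ℝ) < 3 / 4 by norm_num)
      hpS_smooth.continuous.continuousOn
      (hpS_smooth.differentiable (by simp)).differentiableOn
    rw [hpS_hi le_rfl, hpS_lo le_rfl] at hd
    have h1 := hH0 p
    have := hu p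
    have := hv p
    have := hb p
    have := hs p
    have h2 : 1 / 4 * HH T P p ≤ x * HH T P p := mul_le_mul_of_nonneg_right hx.1.le h1.le
    have h3 : x * HH T P p ≤ 3 / 4 * HH T P p := mul_le_mul_of_nonneg_right hx.2.le h1.le
    refine ⟨tv T Kl P lg p + x * HH T P p, ⟨by linarith, by linarith⟩, ?_⟩
    rw [d1 p _ (by linarith) (by linarith)]
    simp only [hG, hpG]
    rw [hi' p one_ne_zero (by linarith), ctl 1 p c (by linarith), mul_zero, zero_smul, zero_add,
      add_zero, add_sub_cancel_left, mul_div_cancel_right₀ _ h1.ne', iteratedDeriv_one, hd]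
    congr 1
    ring

/-- the states along the path are small -/
theorem path_small {d : ℕ} {ε γ₀ : ℝ} {V R : Type} [Fintype V] [DecidableEq V] [Fintype R]
    {F : V → St} (hF : ∀ v, Adm d (F v)) {lf md st : ℕ → V} {χ : ℕ → R → V → ℝ → ℝ}
    (hs : ∀ p, Small d ε γ₀ (F (lf p)) ∧ Small d ε γ₀ (F (md p)) ∧ Small d ε γ₀ (F (st p)))
    {B₁ : ℝ} (hB : 0 < B₁) : ∃ ρ₀ : ℝ, 0 < ρ₀ ∧ ∀ (T Kl : ℝ) (P : ℕ) (lg : ℕ → Bool) path, 0 ≤ T →
      0 ≤ Kl → PathOK lf md st χ B₁ T Kl P lg path → ∀ c : ℕ → R → ℝ, (∀ p i, |c p i| ≤ ρ₀) →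
      ∀ t, Small d ε γ₀ (comb F (path c t)) := by
  have h1 : ∀ v, ∃ r : ℝ, 0 < r ∧ (Small d ε γ₀ (F v) →
      ∀ a : V → ℝ, ‖a‖ ≤ r → Small d ε γ₀ (F v + comb F a)) := fun v => by
    by_cases h : Small d ε γ₀ (F v)
    · obtain ⟨r, hr, h2⟩ := h.open_comb hF
      exact ⟨r, hr, fun _ => h2⟩
    · exact ⟨1, one_pos, fun h2 => absurd h2 h⟩
  choose r hr h2 using h1
  have : Nonempty V := ⟨lf 0⟩
  obtain ⟨v₀, hv₀⟩ := Finite.exists_min r
  have h3 := hr v₀
  refine ⟨r v₀ / B₁, by positivity, fun T Kl P lg path hT hK hp c hc t => ?_⟩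
  rcases time_cover (P := P) (lg := lg) hT hK t with h | ⟨p, h | h⟩
  · rw [hp.init c t (h.trans (show -T ≤ T by linarith)), comb_single]
    exact (hs 0).1
  · obtain ⟨τ, hτ, h4 | h4⟩ := hp.seg c p t h
    · rw [h4, comb_add, comb_smul, comb_smul, comb_single, comb_single]
      exact (hs p).1.convex (hs p).2.1 hτ
    · rw [h4, comb_add, comb_smul, comb_smul, comb_single, comb_single]
      exact (hs p).2.1.convex (hs p).2.2 hτ
  · have hτ : t - tb T Kl P lg p ∈ Icc (0 : ℝ) 1 := ⟨by linarith [h.1], by linarith [h.2]⟩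
    have h4 := hp.ev c p _ hτ
    rw [add_sub_cancel] at h4
    rw [h4, comb_add, comb_single]
    refine h2 _ (hs p).2.2 _ ((hp.evbd c p _ (by positivity) (hc p) _ hτ).1.trans ?_)
    rw [mul_div_cancel₀ _ hB.ne']
    exact hv₀ _

/-- a phase of the schedule is a `TPath` -/
theorem tpath_of {d : ℕ} {V R : Type} [Fintype V] [DecidableEq V] [Fintype R]
    {F : V → St} (hF : ∀ v, Adm d (F v)) {lf md st : ℕ → V} {χ : ℕ → R → V → ℝ → ℝ} {B₁ δ : ℝ}
    (hB : 0 < B₁) (hδ : 0 < δ) : ∃ T₁ : ℝ, ∀ (T Kl κ₀ η₀ A g : ℝ) (P : ℕ) (lg : ℕ → Bool) path q,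
      T₁ ≤ T → 0 ≤ Kl → PathOK lf md st χ B₁ T Kl P lg path → QOK d κ₀ η₀ δ A g T Kl P lg q → ∀ p,
      TPath (F (lf p)) (F (md p)) (F (st p)) (ta T Kl P lg p) (tu T Kl P lg p) (tv T Kl P lg p)
        (tb T Kl P lg p) (HH T P p) δ (et g T P p) (κ₀ ^ 2) (((d : ℝ) / 2) ^ 2)
        (fun t => comb F (path 0 t)) q := by
  obtain ⟨C, hC, hc⟩ := sz_comb hF
  refine ⟨C * B₁ / δ, fun T Kl κ₀ η₀ A g P lg path q hT hK hp hq p => ?_⟩
  have hT0 : 0 < T := lt_of_lt_of_le (by positivity) hT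
  have hH := le_HH hT0.le P p
  have hH0 : 0 < HH T P p := hT0.trans_le hH
  have hu : tu T Kl P lg p = ta T Kl P lg p + 2 * HH T P p := rfl
  have hv : tu T Kl P lg p ≤ tv T Kl P lg p := tu_le_tv hT0.le hK p
  have hb : tb T Kl P lg p = tv T Kl P lg p + 2 * HH T P p := rfl
  refine ⟨by linarith, by linarith, hv, by linarith, hH0.le, fun t ht => ?_, fun t ht => ?_,
    fun t ht => ?_, fun t ht => ?_, fun s hs t ht => ⟨fun z => ?_, hq.lip s t⟩, fun t _ => ?_⟩
  · obtain ⟨τ, hτ, h4 | h4⟩ := hp.seg 0 p t ht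
    · exact ⟨τ, hτ, Or.inl (by rw [h4, comb_add, comb_smul, comb_smul, comb_single, comb_single])⟩
    · exact ⟨τ, hτ, Or.inr (by rw [h4, comb_add, comb_smul, comb_smul, comb_single, comb_single])⟩
  · exact ⟨by rw [hp.left 0 p t ht, comb_single], hq.left p t ht⟩
  · rw [hp.mid 0 p t ht, comb_single]
  · exact ⟨by rw [hp.right 0 p t ht, comb_single], hq.right p t ht⟩
  · have h1 : ‖path 0 t - path 0 s‖ ≤ B₁ / HH T P p * ‖t - s‖ :=
      (convex_Icc _ _).norm_image_sub_le_of_norm_deriv_le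
        (fun x _ => (hp.smooth 0).differentiable (by simp) x) (fun x hx => (hp.der 0 p x hx).1) hs ht
    have h2 : C * ‖path 0 t - path 0 s‖ ≤ δ * |t - s| := by
      refine (mul_le_mul_of_nonneg_left h1 hC.le).trans ?_
      rw [← mul_assoc, Real.norm_eq_abs]
      refine mul_le_mul_of_nonneg_right ?_ (abs_nonneg _)
      rw [← mul_div_assoc, div_le_iff₀ hH0, mul_comm δ]
      exact (div_le_iff₀ hδ).1 (hT.trans hH)
    have h3 : comb F (path 0 t) = comb F (path 0 s) + comb F (path 0 t - path 0 s) := by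
      rw [← comb_add, add_sub_cancel]
    rw [h3]
    simp only [Prod.fst_add, Prod.snd_add, Pi.add_apply, add_sub_cancel_left]
    exact ⟨((hc _).1.abs_le z).trans h2, ((hc _).2.abs_le z).trans h2⟩
  · refine ⟨hq.anti.le_of_tendsto hq.lim t, ?_⟩
    rw [← hq.init (min t 0) (min_le_right _ _)]
    exact hq.anti (min_le_left _ _)

end Crest.Agent.R202
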