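import Crest.Agent.R202.HTraj
import Crest.Agent.R202.AFix

/-!
# Row 202, H7: all trajectories at once

Take `δ, C, ρ₀, T₁` from `traj_ex`, `ρ p = Cr · et p`, `Cr = 4C`.  For a constraint `r = (j, s, x, x')` at the event `p`
(`IsCon J L (Low p) r`) let `x₀ ∈ L j` be the label with `lab j x₀ p = x` (`labL`, `labinj`: an injective self-map of a
finite set is onto) and `β̃ c p r = β_{j,s,x₀} c p x'`.  By `PlanOK.ctl` (`q (tb p) ∈ [κ₀², κ₀² + η₀]` from `QOK.low`, `anti`, `lim`,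
`HH_le_tv`) the sum `Σ_r clp(..) cmat` is within `ρ p / 4` of `clp (ρ p) (c p (idx p r))`, so `fix_ex` applies when
`C Cr² et p ≤ Cr/4`, true for large `T`.
-/

set_option autoImplicit false
open scoped ContDiff RealInnerProductSpace Topology
open MeasureTheory Set Filter Module
open Crest.GeometryTopology.CoordMetric
open Crest.Agent.R230 (E MP sph ev Harm)

noncomputable section
namespace Crest.Agent.R202

theorem solve_ex {d : ℕ} [NeZero d] {J : Finset ℕ} {L : ℕ → Finset (ℕ × ℕ)}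
    {ε γ₀ κ₀ μs θ₀ g₀ μ₀ η₀ : ℝ} {V R : Type} [Fintype V] [DecidableEq V] [Fintype R] [DecidableEq R]
    {F : V → St} {lf md st : ℕ → V} {gs : ℕ → RSt} {Low : ℕ → ℕ → Finset (ℕ × ℕ)}
    {lab : ℕ → ℕ × ℕ → ℕ → ℕ × ℕ} {χ : ℕ → R → V → ℝ → ℝ} {idx : ℕ → CT → R} {P : ℕ} {lg : ℕ → Bool}
    (hpl : PlanOK d J L ε γ₀ κ₀ μs θ₀ g₀ μ₀ η₀ F lf md st gs Low lab χ idx P lg) (hκ : 0 < κ₀)
    {g B₁ tol : ℝ} (hg : 0 < g) (hg0 : g ≤ g₀) (hgκ : 2 * g ≤ κ₀) (hgμ : g ≤ μs) (hB : 0 < B₁)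
    (htol : 0 < tol) :
    ∃ δ Cr C T₁ : ℝ, 0 < δ ∧ 0 ≤ Cr ∧ 0 < C ∧ ∀ (T Kl A η₁ : ℝ) (q : ℝ → ℝ) path,
      T₁ ≤ T → 0 ≤ Kl → η₁ ≤ η₀ → QOK d κ₀ η₁ δ A g T Kl P lg q →
      PathOK lf md st χ B₁ T Kl P lg path →
      ∀ (e₀ : ∀ j, Bool → ℕ × ℕ → RP d j) (om : ℕ → ℕ × ℕ → ℝ → ℝ),
        (∀ j ∈ J, ∀ s : Bool, ∀ x ∈ L j, ‖e₀ j s x‖ = 1 ∧ ∀ M, x.1 + 2 * x.2 + 2 ≤ M →
          e₀ j s x ∈ Sec d j s x.1 M ∧
          EigF (QG d j 0) (WS d j s M) (e₀ j s x) ((ldeg j x : ℝ) * (ldeg j x + d))) →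
        (∀ j ∈ J, ∀ x ∈ L j, Monotone (om j x) ∧
          ∀ p, TOm (ta T Kl P lg p) (tu T Kl P lg p) (tv T Kl P lg p) (tb T Kl P lg p) μs
            ((ldeg j (lab j x p) : ℝ) + d / 2 + 2 * g) (om j x)) →
        ∀ᶠ M in UU, ∀ ν : ℕ, ∃ c : ℕ → R → ℝ, (∀ p r, |c p r| ≤ Cr * et g T P p) ∧
          ∀ j ∈ J, ∀ s : Bool, ∀ x ∈ L j, SolOK d j s M (fun t => comb F (path c t)) q (om j x)
            (ta T Kl P lg 0) (tb T Kl P lg ν) C tol (e₀ j s x) := by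
  obtain ⟨δ, C, ρ₀, T₁, hδ, hC, hρ₀, htr⟩ := traj_ex hpl hκ hg hg0 hgκ hgμ hB
  refine ⟨δ, 4 * C, C, max (max T₁ 1)
    (max (16 * C * P / (g * ρ₀)) (max (2 * C / (g * tol)) (16 * C ^ 2 / g))), hδ, by positivity, hC,
    fun T Kl A η₁ q path hT hKl hη hq hpath e₀ om he hom => ?_⟩
  simp only [max_le_iff] at hT
  obtain ⟨⟨hT1, hT2⟩, hT3, hT4, hT5⟩ := hT
  have hT0 : 0 < T := one_pos.trans_le hT2
  rw [div_le_iff₀ (by positivity)] at hT3 hT4 hT5
  have het : ∀ p, et g T P p * (T * g) ≤ 2 := fun p => by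
    have h1 := et_le hg hT0 P p
    have h2 : 1 / HH T P p ≤ 1 / T := one_div_le_one_div_of_le hT0 (le_HH hT0.le P p)
    have h3 : et g T P p ≤ 2 / g * (1 / T) := h1.trans (by gcongr)
    rwa [div_mul_div_comm, mul_one, le_div_iff₀ (by positivity), mul_comm g] at h3
  have hρ : ∀ p, 0 ≤ 4 * C * et g T P p := fun p => (mul_pos (by positivity) (et_pos g T P p)).le
  have hsum : ∀ n, ∑ p ∈ Finset.range n, 4 * C * et g T P p ≤ ρ₀ := fun n => by
    rw [← Finset.mul_sum]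
    have h1 : ∑ p ∈ Finset.range n, et g T P p ≤ 2 / g * (2 * P / T) := by
      refine (Finset.sum_le_sum fun p _ => et_le hg hT0 P p).trans ?_
      rw [← Finset.mul_sum]
      exact mul_le_mul_of_nonneg_left (sum_inv_HH hT0 hpl.Ppos n) (by positivity)
    refine (mul_le_mul_of_nonneg_left h1 (by positivity)).trans ?_
    rw [div_mul_div_comm, ← mul_div_assoc, div_le_iff₀ (by positivity)]
    linarith
  have htol' : C * et g T P 0 ≤ tol := by
    refine le_of_mul_le_mul_right (a := T * g) ?_ (by positivity)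
    nlinarith [mul_le_mul_of_nonneg_left (het 0) hC.le]
  have hsm : ∀ p, C * (4 * C * et g T P p) ≤ 1 / 2 := fun p => by
    refine le_of_mul_le_mul_right (a := T * g) ?_ (by positivity)
    nlinarith [mul_le_mul_of_nonneg_left (het p) (sq_nonneg C)]
  have hqI : ∀ p, q (tb T Kl P lg p) ∈ Icc (κ₀ ^ 2) (κ₀ ^ 2 + η₀) := fun p => by
    refine ⟨hq.anti.le_of_tendsto hq.lim _, (hq.low _ ?_).trans (by linarith)⟩
    have h1 := le_HH hT0.le P p
    have h2 := HH_le_tv (P := P) (lg := lg) hT0.le hKl p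
    unfold tb
    linarith
  have hinv : ∀ j ∈ J, ∀ p, ∀ x ∈ L j, ∃ x₀ ∈ L j, lab j x₀ p = x := fun j hj p x hx =>
    Finset.surjOn_of_injOn_of_card_le (fun y => lab j y p) (fun y hy => hpl.labL j hj y hy p)
      (fun y hy y' hy' h => hpl.labinj j hj y hy y' hy' p h) le_rfl hx
  choose! inv hinv hinv' using hinv
  have hM : ∀ᶠ M in UU, ∀ j ∈ J, ∀ x ∈ L j, x.1 + 2 * x.2 + 2 ≤ M :=
    (eventually_all_finset J).2 fun j _ => (eventually_all_finset (L j)).2 fun x _ =>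
      UU_le (eventually_ge_atTop _)
  filter_upwards [htr T Kl A η₁ q path _ hT1 hKl hq hpath hρ hsum, hpl.ctl, hM] with M h1 h2 h3 ν
  choose! β hβ1 hβ2 hβ3 using fun j (hj : j ∈ J) s x (hx : x ∈ L j) =>
    h1 ν j hj s x hx (e₀ j s x) (om j x) (he j hj s x hx).1
      ((he j hj s x hx).2 M (h3 j hj x hx)).1 ((he j hj s x hx).2 M (h3 j hj x hx)).2
      (hom j hj x hx).1 (hom j hj x hx).2
  obtain ⟨c, hc, hc0⟩ := fix_ex ν _ hρ (fun p => IsCon J L (Low p)) idx hpl.idxinj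
    (fun c p r => β r.1 r.2.1 (inv r.1 p r.2.2.1) c p r.2.2.2)
    (fun p r hr => hβ1 _ hr.1 _ _ (hinv _ hr.1 p _ hr.2.1) _ _) (by
      rintro c p ⟨j, s, x, x'⟩ hp hr
      have k1 := hβ2 j hr.1 s _ (hinv j hr.1 p x hr.2.1) c p hp x' hr.2.2.1
        (by rw [hinv' j hr.1 p x hr.2.1]; exact hr.2.2.2)
      rw [hinv' j hr.1 p x hr.2.1] at k1
      set ρ := 4 * C * et g T P p with hρdef
      have hcl : ∀ y, |clp ρ y| ≤ ρ := fun y =>
        abs_le.2 ⟨le_max_left _ _, max_le (by linarith [hρ p]) (min_le_left _ _)⟩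
      have k2 : |∑ r, clp ρ (c p r) * cmat d (gs p) F (χ p r) M (q (tb T Kl P lg p)) (j, s, x, x') -
          clp ρ (c p (idx p (j, s, x, x')))| ≤ ρ / 4 := by
        have e : clp ρ (c p (idx p (j, s, x, x'))) =
            ∑ r, clp ρ (c p r) * (if idx p (j, s, x, x') = r then 1 else 0) := by simp
        rw [e, ← Finset.sum_sub_distrib]
        refine (Finset.abs_sum_le_sum_abs _ _).trans ((Finset.sum_le_card_nsmul _ _
          (ρ * (1 / (4 * Fintype.card R))) fun r _ => ?_).trans_eq ?_)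
        · rw [← mul_sub, abs_mul]
          exact mul_le_mul (hcl _) (h2 p _ (hqI p) _ hr r) (abs_nonneg _) (hρ p)
        · have : (0 : ℝ) < Fintype.card R := by
            exact_mod_cast Fintype.card_pos_iff.2 ⟨idx p (j, s, x, x')⟩
          rw [Finset.card_univ, nsmul_eq_mul]
          field_simp
      refine (abs_sub_le _ _ _).trans ((add_le_add k1 k2).trans ?_)
      nlinarith [mul_le_mul_of_nonneg_right (hsm p) (hρ p)])
  refine ⟨c, hc, fun j hj s x hx => ?_⟩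
  obtain ⟨y, y', a1, a2, a3, a4⟩ := hβ3 j hj s x hx c hc fun p hp x' hx' hne => by
    have k1 := hc0 p (j, s, lab j x p, x') hp ⟨hj, hpl.labL j hj x hx p, hx', hne⟩
    have k2 := hpl.labL j hj x hx p
    rwa [show inv j p (lab j x p) = x from
      hpl.labinj j hj _ (hinv j hj p _ k2) x hx p (hinv' j hj p _ k2)] at k1
  exact ⟨y, y', a1, a2, a3.trans htol', a4⟩

end Crest.Agent.R202
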