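import Crest.Agent.R202.HDefs

/-!
# Row 202, H1: the times of the schedule and the growth majorant

`exists_om`: let `om` be the primitive of the step function that is `f p` on `[tu p, tv p]` and `μs` elsewhere
(or define it piecewise: `om t = μs t + Σ_p (f p - μs) · |[tu p, tv p] ∩ (-∞, t]|`, a locally finite sum).
In the cycle `r` all `HH` equal `T_r = T (r+1)²`; with `n ≥ 1` long phases per cycle the increment of
`om t - θ t` over the cycle is at most `μs P (4 T_r + 1) + Kl T_r θ₁ n - θ Kl T_r n ≤ -T_r` when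
`Kl (θ - θ₁) ≥ 5 μs P + 1` (phases with `lg p = false` have `tu p = tv p`).  Inside the cycle `r` the excess is at most
`C T_r`, and `Σ_{i<r} T_i ≥ C T_r - C`.
-/

set_option autoImplicit false
open scoped ContDiff RealInnerProductSpace Topology
open MeasureTheory Set Filter Module
open Crest.GeometryTopology.CoordMetric
open Crest.Agent.R230 (E MP sph ev Harm)

noncomputable section
namespace Crest.Agent.R202

variable {T Kl g : ℝ} {P : ℕ} {lg : ℕ → Bool}

theorem HH_zero (T : ℝ) (P : ℕ) : HH T P 0 = T := by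
  simp [HH]

theorem le_HH (hT : 0 ≤ T) (P p : ℕ) : T ≤ HH T P p := by
  unfold HH
  have h : (0 : ℝ) ≤ ((p / P : ℕ) : ℝ) := Nat.cast_nonneg _
  have h2 : (1 : ℝ) ≤ (((p / P : ℕ) : ℝ) + 1) ^ 2 := by nlinarith
  nlinarith

theorem HH_mono (hT : 0 ≤ T) (P : ℕ) : Monotone (HH T P) := by
  intro p p' hp
  unfold HH
  have h : ((p / P : ℕ) : ℝ) ≤ ((p' / P : ℕ) : ℝ) := by exact_mod_cast Nat.div_le_div_right hp
  have h0 : (0 : ℝ) ≤ ((p / P : ℕ) : ℝ) := Nat.cast_nonneg _
  gcongr

theorem HH_tendsto (hT : 0 < T) (hP : 1 ≤ P) : Tendsto (HH T P) atTop atTop := by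
  have h1 : Tendsto (fun p : ℕ => p / P) atTop atTop :=
    Nat.tendsto_div_const_atTop (by omega)
  have h2 : Tendsto (fun p : ℕ => ((p / P : ℕ) : ℝ) + 1) atTop atTop :=
    tendsto_atTop_add_const_right _ _ (tendsto_natCast_atTop_atTop.comp h1)
  have h3 : Tendsto (fun p : ℕ => (((p / P : ℕ) : ℝ) + 1) ^ 2) atTop atTop :=
    (tendsto_pow_atTop (by norm_num : (2 : ℕ) ≠ 0)).comp h2
  exact h3.const_mul_atTop hT

theorem HH_cycle (T : ℝ) (r : ℕ) {i : ℕ} (hi : i < P) :
    HH T P (r * P + i) = T * ((r : ℝ) + 1) ^ 2 := by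
  have h : (r * P + i) / P = r := by
    rw [Nat.add_comm, Nat.add_mul_div_right _ _ (by omega), Nat.div_eq_of_lt hi, Nat.zero_add]
  unfold HH
  rw [h]

theorem sum_inv_HH (hT : 0 < T) (hP : 1 ≤ P) (n : ℕ) :
    ∑ p ∈ Finset.range n, 1 / HH T P p ≤ 2 * P / T := by
  have hP' : (0 : ℝ) < P := by exact_mod_cast hP
  have key : ∀ r : ℕ, ∑ p ∈ Finset.range (r * P), 1 / HH T P p ≤
      P / T * (2 - 2 / ((r : ℝ) + 1)) := by
    intro r
    induction r with
    | zero => simp
    | succ r ih =>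
      rw [Nat.succ_mul, Finset.sum_range_add]
      have h1 : ∑ x ∈ Finset.range P, 1 / HH T P (r * P + x) =
          P * (1 / (T * ((r : ℝ) + 1) ^ 2)) := by
        rw [Finset.sum_congr rfl fun x hx => by rw [HH_cycle T r (Finset.mem_range.1 hx)]]
        simp
      rw [h1]
      have hr : (0 : ℝ) ≤ r := Nat.cast_nonneg r
      have h2 : (P : ℝ) * (1 / (T * ((r : ℝ) + 1) ^ 2)) ≤
          P / T * (2 / ((r : ℝ) + 1) - 2 / ((r : ℝ) + 1 + 1)) := by
        have e : (P : ℝ) * (1 / (T * ((r : ℝ) + 1) ^ 2)) = P / T * (1 / ((r : ℝ) + 1) ^ 2) := by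
          field_simp
        rw [e]
        refine mul_le_mul_of_nonneg_left ?_ (by positivity)
        rw [div_sub_div _ _ (by positivity) (by positivity), div_le_div_iff₀ (by positivity)
          (by positivity)]
        nlinarith
      push_cast
      nlinarith
  have h3 : ∑ p ∈ Finset.range n, 1 / HH T P p ≤ ∑ p ∈ Finset.range (n * P), 1 / HH T P p := by
    refine Finset.sum_le_sum_of_subset_of_nonneg
      (Finset.range_subset_range.2 (Nat.le_mul_of_pos_right n hP)) fun p _ _ => ?_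
    have := le_HH hT.le P p
    exact div_nonneg zero_le_one (by linarith)
  refine h3.trans ((key n).trans ?_)
  have h4 : (0 : ℝ) ≤ 2 / ((n : ℝ) + 1) := by positivity
  have h5 : (0 : ℝ) ≤ P / T := by positivity
  have e : 2 * (P : ℝ) / T = P / T * 2 := by ring
  rw [e]
  exact mul_le_mul_of_nonneg_left (by linarith) h5

theorem et_pos (g T : ℝ) (P p : ℕ) : 0 < et g T P p := by
  exact Real.exp_pos _

theorem et_le (hg : 0 < g) (hT : 0 < T) (P p : ℕ) : et g T P p ≤ 2 / g * (1 / HH T P p) := by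
  have hH : 0 < HH T P p := lt_of_lt_of_le hT (le_HH hT.le P p)
  unfold et
  have hx : 0 < g / 2 * HH T P p := by positivity
  have e : 2 / g * (1 / HH T P p) = (g / 2 * HH T P p)⁻¹ := by field_simp
  rw [e, neg_mul, Real.exp_neg]
  refine inv_anti₀ hx ?_
  linarith [Real.add_one_le_exp (g / 2 * HH T P p)]

theorem et_anti (hg : 0 ≤ g) (hT : 0 ≤ T) (P : ℕ) : Antitone (et g T P) := by
  intro p p' hp
  unfold et
  refine Real.exp_le_exp.2 ?_
  have := HH_mono hT P hp
  nlinarith

theorem ta_succ (T Kl : ℝ) (P : ℕ) (lg : ℕ → Bool) (p : ℕ) :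
    ta T Kl P lg (p + 1) = tb T Kl P lg p + 1 := by
  simp only [ta, tb, tv, tu]
  ring

theorem tu_zero (T Kl : ℝ) (P : ℕ) (lg : ℕ → Bool) : tu T Kl P lg 0 = T := by
  simp only [tu, ta, HH_zero]
  ring

theorem Mh_nonneg (hT : 0 ≤ T) (hK : 0 ≤ Kl) (p : ℕ) : 0 ≤ Mh T Kl P lg p := by
  unfold Mh
  have := le_HH hT P p
  split_ifs
  · exact mul_nonneg hK (by linarith)
  · exact le_rfl

theorem ta_add_one_le (hT : 0 ≤ T) (hK : 0 ≤ Kl) (p : ℕ) :
    ta T Kl P lg p + 1 ≤ ta T Kl P lg (p + 1) := by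
  have h1 := Mh_nonneg (P := P) (lg := lg) hT hK p
  have h2 := le_HH hT P p
  simp only [ta]
  linarith

theorem tu_le_tv (hT : 0 ≤ T) (hK : 0 ≤ Kl) (p : ℕ) : tu T Kl P lg p ≤ tv T Kl P lg p := by
  have := Mh_nonneg (P := P) (lg := lg) hT hK p
  unfold tv
  linarith

theorem ta_mono (hT : 0 ≤ T) (hK : 0 ≤ Kl) : Monotone (ta T Kl P lg) := by
  exact monotone_nat_of_le_succ fun p => by linarith [ta_add_one_le (P := P) (lg := lg) hT hK p]

theorem ta_tendsto (hT : 0 ≤ T) (hK : 0 ≤ Kl) : Tendsto (ta T Kl P lg) atTop atTop := by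
  have h : ∀ p : ℕ, (p : ℝ) + -T ≤ ta T Kl P lg p := by
    intro p
    induction p with
    | zero => simp [ta]
    | succ p ih =>
      have := ta_add_one_le (P := P) (lg := lg) hT hK p
      push_cast
      linarith
  exact tendsto_atTop_mono h (tendsto_atTop_add_const_right _ _ tendsto_natCast_atTop_atTop)

/-- `HH p ≤ tv p` -/
theorem HH_le_tv (hT : 0 ≤ T) (hK : 0 ≤ Kl) (p : ℕ) : HH T P p ≤ tv T Kl P lg p := by
  have h1 := Mh_nonneg (P := P) (lg := lg) hT hK p
  have h2 := le_HH hT P p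
  have h3 : ta T Kl P lg 0 ≤ ta T Kl P lg p := ta_mono hT hK (Nat.zero_le p)
  simp only [ta] at h3
  simp only [tv, tu]
  linarith

theorem time_cover' (hT : 0 ≤ T) (hK : 0 ≤ Kl) (t : ℝ) : t ≤ ta T Kl P lg 0 ∨ ∃ p,
    ta T Kl P lg p ≤ t ∧ t ≤ ta T Kl P lg (p + 1) := by
  obtain ⟨N, hN⟩ := ((ta_tendsto (P := P) (lg := lg) hT hK).eventually_ge_atTop t).exists
  induction N with
  | zero => exact Or.inl hN
  | succ N ih =>
    rcases le_total t (ta T Kl P lg N) with h | h
    · exact ih h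
    · exact Or.inr ⟨N, h, hN⟩

theorem time_cover (hT : 0 ≤ T) (hK : 0 ≤ Kl) (t : ℝ) : t ≤ ta T Kl P lg 0 ∨ ∃ p,
    t ∈ Icc (ta T Kl P lg p) (tb T Kl P lg p) ∨ t ∈ Icc (tb T Kl P lg p) (tb T Kl P lg p + 1) := by
  rcases time_cover' (P := P) (lg := lg) hT hK t with h | ⟨p, h1, h2⟩
  · exact Or.inl h
  · refine Or.inr ⟨p, ?_⟩
    rcases le_total t (tb T Kl P lg p) with h | h
    · exact Or.inl ⟨h1, h⟩
    · exact Or.inr ⟨h, by rwa [ta_succ] at h2⟩

/-- the primitive of the step function with value `f p` on `[u p, u p + M p]` and `μs` elsewhere -/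
theorem exists_om_aux {a u M f : ℕ → ℝ} {μs : ℝ} (hμ : 0 ≤ μs) (hf : ∀ p, 0 ≤ f p)
    (hau : ∀ p, a p ≤ u p) (hM : ∀ p, 0 ≤ M p) (hua : ∀ p, u p + M p ≤ a (p + 1))
    (hlim : Tendsto a atTop atTop) :
    ∃ om : ℝ → ℝ, Monotone om ∧ ∀ p t, a p ≤ t → t ≤ a (p + 1) →
      om t = μs * t + ∑ i ∈ Finset.range p, (f i - μs) * M i +
        (f p - μs) * max 0 (min (t - u p) (M p)) := by
  have hmono : Monotone a := monotone_nat_of_le_succ fun p => by linarith [hau p, hM p, hua p]
  set c : ℕ → ℝ → ℝ := fun p t => max 0 (min (t - u p) (M p)) with hc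
  have hc0 : ∀ p t, t ≤ a p → c p t = 0 := by
    intro p t ht
    simp only [hc]
    exact max_eq_left (min_le_of_left_le (by linarith [hau p]))
  have hc1 : ∀ p t, a (p + 1) ≤ t → c p t = M p := by
    intro p t ht
    simp only [hc]
    rw [min_eq_right (by linarith [hua p]), max_eq_right (hM p)]
  have hcm : ∀ p s t, s ≤ t → c p s ≤ c p t := by
    intro p s t hst
    simp only [hc]
    exact max_le_max le_rfl (min_le_min (by linarith) le_rfl)
  have hsum : ∀ N t, t ≤ a N → ∑' p, (f p - μs) * c p t =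
      ∑ p ∈ Finset.range N, (f p - μs) * c p t := by
    intro N t ht
    refine tsum_eq_sum fun p hp => ?_
    have hp' : N ≤ p := by simpa using hp
    rw [hc0 p t (ht.trans (hmono hp')), mul_zero]
  have hlip : ∀ N s t, s ≤ t →
      ∑ p ∈ Finset.range N, (c p t - c p s) ≤ min t (a N) - min s (a N) := by
    intro N s t hst
    induction N with
    | zero => simpa using min_le_min hst le_rfl
    | succ N ih =>
      rw [Finset.sum_range_succ]
      have h1 := hau N
      have h2 := hM N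
      have h3 := hua N
      have h4 : c N t - c N s ≤
          (min t (a (N + 1)) - min s (a (N + 1))) - (min t (a N) - min s (a N)) := by
        simp only [hc, min_def, max_def]
        split_ifs <;> linarith
      linarith
  refine ⟨fun t => μs * t + ∑' p, (f p - μs) * c p t, fun s t hst => ?_, fun p t h1 h2 => ?_⟩
  · obtain ⟨N, hN⟩ := (hlim.eventually_ge_atTop t).exists
    show μs * s + ∑' p, (f p - μs) * c p s ≤ μs * t + ∑' p, (f p - μs) * c p t
    rw [hsum N t hN, hsum N s (hst.trans hN)]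
    have h1 := hlip N s t hst
    rw [min_eq_left hN, min_eq_left (hst.trans hN)] at h1
    have h2 : ∑ p ∈ Finset.range N, (f p - μs) * c p s - ∑ p ∈ Finset.range N, (f p - μs) * c p t ≤
        μs * ∑ p ∈ Finset.range N, (c p t - c p s) := by
      rw [← Finset.sum_sub_distrib, Finset.mul_sum]
      refine Finset.sum_le_sum fun p _ => ?_
      have := mul_nonneg (hf p) (sub_nonneg.2 (hcm p s t hst))
      nlinarith
    have h3 := mul_le_mul_of_nonneg_left h1 hμ
    nlinarith
  · show μs * t + ∑' p, (f p - μs) * c p t = _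
    rw [hsum (p + 1) t h2, Finset.sum_range_succ, add_assoc]
    congr 2
    refine Finset.sum_congr rfl fun i hi => ?_
    rw [hc1 i t ((hmono (Finset.mem_range.1 hi)).trans h1)]

theorem cube_le_sum_sq (r : ℕ) : (r : ℝ) ^ 3 / 3 ≤ ∑ i ∈ Finset.range r, ((i : ℝ) + 1) ^ 2 := by
  induction r with
  | zero => simp
  | succ r ih =>
    rw [Finset.sum_range_succ]
    have : (0 : ℝ) ≤ r := Nat.cast_nonneg r
    push_cast
    nlinarith

theorem sq_sub_sum_le {C : ℝ} (hC : 0 ≤ C) (r : ℕ) :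
    C * ((r : ℝ) + 1) ^ 2 - ∑ i ∈ Finset.range r, ((i : ℝ) + 1) ^ 2 ≤ C * (12 * C + 2) ^ 2 := by
  have h1 := cube_le_sum_sq r
  have h0 : (0 : ℝ) ≤ r := Nat.cast_nonneg r
  have h3 : (0 : ℝ) ≤ (r : ℝ) ^ 3 := by positivity
  have h4 : 0 ≤ C * (12 * C + 2) ^ 2 := by positivity
  rcases le_total (r : ℝ) (12 * C + 1) with h | h
  · have : C * ((r : ℝ) + 1) ^ 2 ≤ C * (12 * C + 2) ^ 2 :=
      mul_le_mul_of_nonneg_left (pow_le_pow_left₀ (by linarith) (by linarith) 2) hC
    linarith
  · have h5 : ((r : ℝ) + 1) ^ 2 ≤ 4 * (r : ℝ) ^ 2 := by nlinarith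
    have h6 : C * ((r : ℝ) + 1) ^ 2 ≤ C * (4 * (r : ℝ) ^ 2) := mul_le_mul_of_nonneg_left h5 hC
    have h7 : 12 * C * (r : ℝ) ^ 2 ≤ (r : ℝ) * (r : ℝ) ^ 2 :=
      mul_le_mul_of_nonneg_right (by linarith) (by positivity)
    nlinarith

theorem exists_om {μs B θ₁ θ : ℝ} (hP : 1 ≤ P) (hper : ∀ p, lg (p + P) = lg p)
    (hs : ∃ p, lg p = true) (hμ : 0 ≤ μs) (hθ : θ₁ < θ) (hθ0 : 0 ≤ θ) :
    ∃ K₀ : ℝ, 0 ≤ K₀ ∧ ∀ Kl, K₀ ≤ Kl → ∀ T, 1 ≤ T → ∀ f : ℕ → ℝ, (∀ p, 0 ≤ f p ∧ f p ≤ B) →
      (∀ r : ℕ, ∑ p ∈ (Finset.range P).filter (fun p => lg p = true), f (r * P + p) ≤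
        θ₁ * ((Finset.range P).filter fun p => lg p = true).card) →
      ∃ (om : ℝ → ℝ) (C : ℝ), Monotone om ∧
        (∀ p, TOm (ta T Kl P lg p) (tu T Kl P lg p) (tv T Kl P lg p) (tb T Kl P lg p) μs (f p) om) ∧
        ∀ t, ta T Kl P lg 0 ≤ t → om t - om (ta T Kl P lg 0) ≤ θ * t + C := by
  have hδ : 0 < θ - θ₁ := sub_pos.2 hθ
  refine ⟨(5 * μs * P + 1) / (θ - θ₁), by positivity, fun Kl hKl T hT f hf hcyc => ?_⟩
  have hK0 : 0 ≤ Kl := le_trans (by positivity) hKl
  have hK1 : 5 * μs * P + 1 ≤ Kl * (θ - θ₁) := (div_le_iff₀ hδ).1 hKl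
  have hT0 : 0 ≤ T := by linarith
  have hB : 0 ≤ B := (hf 0).1.trans (hf 0).2
  have hH : ∀ p, 1 ≤ HH T P p := fun p => hT.trans (le_HH hT0 P p)
  have hM : ∀ p, 0 ≤ Mh T Kl P lg p := Mh_nonneg hT0 hK0
  have hMle : ∀ p, Mh T Kl P lg p ≤ Kl * HH T P p := by
    intro p
    unfold Mh
    split_ifs
    · exact le_rfl
    · exact mul_nonneg hK0 (by linarith [hH p])
  obtain ⟨om, hmono, hom⟩ := exists_om_aux (a := ta T Kl P lg) (u := tu T Kl P lg)
    (M := Mh T Kl P lg) (f := f) hμ (fun p => (hf p).1)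
    (fun p => by unfold tu; linarith [hH p]) hM
    (fun p => by simp only [ta, tu]; linarith [hH p]) (ta_tendsto hT0 hK0)
  have hstep : ∀ p, ta T Kl P lg (p + 1) = ta T Kl P lg p + 4 * HH T P p + Mh T Kl P lg p + 1 :=
    fun p => rfl
  -- the value at the start of the phase
  have hom0 : ∀ p, om (ta T Kl P lg p) =
      μs * ta T Kl P lg p + ∑ i ∈ Finset.range p, (f i - μs) * Mh T Kl P lg i := by
    intro p
    rw [hom p _ le_rfl (ta_mono hT0 hK0 (Nat.le_succ p)),
      max_eq_left (min_le_of_left_le (by unfold tu; linarith [hH p])), mul_zero, add_zero]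
  have hinc : ∀ p, om (ta T Kl P lg (p + 1)) = om (ta T Kl P lg p) + μs * (4 * HH T P p + 1) +
      f p * Mh T Kl P lg p := by
    intro p
    rw [hom0, hom0, Finset.sum_range_succ, hstep]
    ring
  set D : ℕ → ℝ := fun p => om (ta T Kl P lg p) - θ * ta T Kl P lg p with hD
  set C' : ℝ := 5 * μs + B * Kl with hC'
  have hC0 : 0 ≤ C' := by positivity
  have hD1 : ∀ p, D (p + 1) ≤ D p + 5 * μs * HH T P p + (f p - θ) * Mh T Kl P lg p := by
    intro p
    simp only [hD]
    rw [hinc, hstep]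
    have h1 := mul_le_mul_of_nonneg_left (hH p) hμ
    have h2 : 0 ≤ θ * (4 * HH T P p + 1) := mul_nonneg hθ0 (by linarith [hH p])
    nlinarith
  have hfM : ∀ p, f p * Mh T Kl P lg p ≤ B * Kl * HH T P p := by
    intro p
    rw [mul_assoc]
    exact mul_le_mul (hf p).2 (hMle p) (hM p) hB
  have hD2 : ∀ p, D (p + 1) ≤ D p + C' * HH T P p := by
    intro p
    have h1 := hD1 p
    have h2 := hfM p
    have h3 := mul_nonneg hθ0 (hM p)
    simp only [hC']
    nlinarith
  have hD3 : ∀ r i, i ≤ P → D (r * P + i) ≤ D (r * P) + i * (C' * (T * ((r : ℝ) + 1) ^ 2)) := by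
    intro r i
    induction i with
    | zero => simp
    | succ i ih =>
      intro hi
      have h1 := ih (by omega)
      have h2 := hD2 (r * P + i)
      rw [HH_cycle T r (by omega : i < P)] at h2
      rw [← Nat.add_assoc]
      push_cast
      linarith
  have hlg : ∀ r i, lg (r * P + i) = lg i := by
    intro r i
    induction r with
    | zero => simp
    | succ r ih => rw [← ih, ← hper (r * P + i)]; congr 1; ring
  have hn : (1 : ℝ) ≤ ((Finset.range P).filter fun p => lg p = true).card := by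
    obtain ⟨p, hp⟩ := hs
    have : ((Finset.range P).filter fun p => lg p = true).Nonempty := by
      refine ⟨p % P, Finset.mem_filter.2 ⟨Finset.mem_range.2 (Nat.mod_lt _ (by omega)), ?_⟩⟩
      rw [← hlg (p / P) (p % P), Nat.div_add_mod' p P]
      exact hp
    exact_mod_cast this.card_pos
  have hD4 : ∀ r, D ((r + 1) * P) ≤ D (r * P) - T * ((r : ℝ) + 1) ^ 2 := by
    intro r
    set Tr : ℝ := T * ((r : ℝ) + 1) ^ 2 with hTr
    have hTr0 : 0 ≤ Tr := by positivity
    have h1 : ∀ i, i ≤ P → D (r * P + i) ≤ D (r * P) + i * (5 * μs * Tr) +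
        ∑ x ∈ Finset.range i, (if lg x = true then (f (r * P + x) - θ) * (Kl * Tr) else 0) := by
      intro i
      induction i with
      | zero => simp
      | succ i ih =>
        intro hi
        have h1 := ih (by omega)
        have h2 := hD1 (r * P + i)
        have h3 : (f (r * P + i) - θ) * Mh T Kl P lg (r * P + i) =
            if lg i = true then (f (r * P + i) - θ) * (Kl * Tr) else 0 := by
          unfold Mh
          rw [hlg, HH_cycle T r (by omega : i < P)]
          split_ifs <;> simp [hTr]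
        rw [HH_cycle T r (by omega : i < P), h3] at h2
        rw [← Nat.add_assoc, Finset.sum_range_succ]
        push_cast
        linarith
    have h2 := h1 P le_rfl
    rw [← Finset.sum_filter, ← Finset.sum_mul, Finset.sum_sub_distrib, Finset.sum_const,
      nsmul_eq_mul] at h2
    have h3 := hcyc r
    set n : ℝ := (((Finset.range P).filter fun p => lg p = true).card : ℝ) with hn'
    have h4 : (∑ p ∈ (Finset.range P).filter (fun p => lg p = true), f (r * P + p) - n * θ) *
        (Kl * Tr) ≤ -(θ - θ₁) * (Kl * Tr) := by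
      refine mul_le_mul_of_nonneg_right ?_ (mul_nonneg hK0 hTr0)
      nlinarith
    have h5 := mul_le_mul_of_nonneg_right hK1 hTr0
    rw [Nat.succ_mul]
    nlinarith
  have hD5 : ∀ r, D (r * P) ≤ D 0 - T * ∑ i ∈ Finset.range r, ((i : ℝ) + 1) ^ 2 := by
    intro r
    induction r with
    | zero => simp
    | succ r ih =>
      rw [Finset.sum_range_succ]
      have := hD4 r
      linarith
  refine ⟨om, -θ * ta T Kl P lg 0 + T * ((P * C') * (12 * (P * C') + 2) ^ 2), hmono,
    fun p => ⟨fun s t h1 h2 h3 h4 => ?_, fun s t h1 h2 h3 => ?_⟩, fun t ht => ?_⟩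
  · have hb : tb T Kl P lg p ≤ ta T Kl P lg (p + 1) := by rw [ta_succ]; linarith
    rw [hom p t (h1.trans h2) (h3.trans hb), hom p s h1 (h2.trans (h3.trans hb))]
    rcases h4 with h4 | h4
    · rw [max_eq_left (min_le_of_left_le (by linarith)),
        max_eq_left (min_le_of_left_le (by linarith))]
      linarith
    · unfold tv at h4
      rw [min_eq_right (by linarith), min_eq_right (by linarith)]
      linarith
  · have ha : ta T Kl P lg p ≤ tu T Kl P lg p := by unfold tu; linarith [hH p]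
    have hb : tv T Kl P lg p ≤ ta T Kl P lg (p + 1) := by
      rw [ta_succ]; unfold tb; linarith [hH p]
    rw [hom p t (ha.trans (h1.trans h2)) (h3.trans hb), hom p s (ha.trans h1)
      (h2.trans (h3.trans hb))]
    unfold tv at h3
    rw [min_eq_left (by linarith), min_eq_left (by linarith), max_eq_right (by linarith),
      max_eq_right (by linarith)]
    linarith
  · have key : ∀ p, ta T Kl P lg p ≤ t → t ≤ ta T Kl P lg (p + 1) →
        om t - θ * t ≤ D 0 + T * ((P * C') * (12 * (P * C') + 2) ^ 2) := by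
      intro p h1 h2
      have hi : p % P < P := Nat.mod_lt _ (by omega)
      have hp : p / P * P + p % P = p := Nat.div_add_mod' p P
      set r := p / P
      set i := p % P
      have hHp : HH T P p = T * ((r : ℝ) + 1) ^ 2 := by rw [← hp, HH_cycle T r hi]
      set Tr : ℝ := T * ((r : ℝ) + 1) ^ 2 with hTr
      have hTr0 : 0 ≤ Tr := by positivity
      have e1 : om t - θ * t ≤ D p + C' * Tr := by
        have h3 := hmono h2
        rw [hinc] at h3
        have h4 := mul_le_mul_of_nonneg_left h1 hθ0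
        have h5 := hfM p
        have h6 := mul_le_mul_of_nonneg_left (hH p) hμ
        rw [hHp] at h3 h5 h6
        simp only [hD, hC']
        nlinarith
      have e2 := hD3 r i hi.le
      rw [hp] at e2
      have e3 := hD5 r
      have e4 : ((i : ℝ) + 1) * (C' * Tr) ≤ P * (C' * Tr) := by
        refine mul_le_mul_of_nonneg_right ?_ (mul_nonneg hC0 hTr0)
        exact_mod_cast hi
      have e5 := mul_le_mul_of_nonneg_left
        (sq_sub_sum_le (C := P * C') (by positivity) r) hT0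
      have e6 : (P : ℝ) * (C' * Tr) = T * (P * C' * ((r : ℝ) + 1) ^ 2) := by rw [hTr]; ring
      rw [← hTr] at e2
      nlinarith
    have hkey : om t - θ * t ≤ D 0 + T * ((P * C') * (12 * (P * C') + 2) ^ 2) := by
      rcases time_cover' (P := P) (lg := lg) hT0 hK0 t with h | ⟨p, h1, h2⟩
      · exact key 0 ht (h.trans (ta_mono hT0 hK0 (Nat.zero_le _)))
      · exact key p h1 h2
    simp only [hD] at hkey
    linarith

end Crest.Agent.R202
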