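import Crest.Agent.R202.HPath
import Crest.Agent.R202.FLow

/-!
# Row 202, H6: one trajectory through the first `ν` events

Let `μm = max μ₀ μs`, `δ₀, C₀, H₀` from `phase_out`, `ε₀, C₁` from `match_ex`, `δ (4d + 1/κ₀²) ≤ δ₀`.  Apply `match_ex` with
`P = ℕ → R → ℝ`, `K c t = KG (comb F (path (cl c) t)) (q t)`, `cl c p r = clp (ρ p) (c p r)`, `K₀ t = KG (comb F (path 0 t)) (q t)`
(`contDiff_KG`, `PathOK.cont`, `indep`), `ι p = lowS (Low p) j s`, `ψ p = psiL …`, `κ p i = kap … (q (tb p)) i`,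
`eL = eIn …`, `h p = 2 C₀ et p`, `ρ' p = 4 d r_p`, `r_p = C_F B₁ ρ p` (`sz_comb`, `evbd`).  `PhaseOut` comes from `PlanOK.phase`,
`tpath_of`, `phase_out`; `EventOK` from `event_ok` and `PlanOK.event`; `mm_expand` and the linearity of `cmat` in the
profile give the estimate (`et_anti` for `h (p+1) ≤ h p`); `sum_inv_HH`, `et_le` for the sum.  Extend `β` by `0` to labels that
are not low.  For `|c p r| ≤ ρ p` one has `cl c = c`.
-/

set_option autoImplicit false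
open scoped ContDiff RealInnerProductSpace Topology
open MeasureTheory Set Filter Module
open Crest.GeometryTopology.CoordMetric
open Crest.Agent.R230 (E MP sph ev Harm)

noncomputable section
namespace Crest.Agent.R202

theorem HTraj.abs_clp {r : ℝ} (hr : 0 ≤ r) (x : ℝ) : |clp r x| ≤ r :=
  abs_le.2 ⟨le_max_left _ _, max_le (by linarith) (min_le_left _ _)⟩

theorem HTraj.clp_eq {r x : ℝ} (h : |x| ≤ r) : clp r x = x := by
  rw [clp, min_eq_right (abs_le.1 h).2, max_eq_right (abs_le.1 h).1]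

theorem HTraj.cont_clp (r : ℝ) : Continuous (clp r) :=
  continuous_const.max (continuous_const.min continuous_id)

/-- `cmat` is linear in the profile -/
theorem cmat_sum {d : ℕ} [NeZero d] (g : RSt) {V R : Type} [Fintype V] [Fintype R] (F : V → St)
    {χ : R → V → ℝ → ℝ} (hχ : ∀ r v, Continuous (χ r v)) (c : R → ℝ) (M : ℕ) (q : ℝ) (r : CT) :
    cmat d g F (fun v τ => ∑ i, c i * χ i v τ) M q r = ∑ i, c i * cmat d g F (χ i) M q r := by
  simp only [cmat]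
  generalize kap d g r.1 M q r.2.2.1 = k₁
  generalize kap d g r.1 M q r.2.2.2 = k₂
  generalize psi d (toSt g) r.1 r.2.1 r.2.2.1 M = u
  generalize psi d (toSt g) r.1 r.2.1 r.2.2.2 M = w
  have h1 : ∀ τ, Real.exp ((k₁ - k₂) * τ) * ∑ v, (∑ i, c i * χ i v τ) * QD d r.1 (toSt g) (F v) u w =
      ∑ i, c i * (Real.exp ((k₁ - k₂) * τ) * ∑ v, χ i v τ * QD d r.1 (toSt g) (F v) u w) := by
    intro τ
    simp only [Finset.sum_mul, Finset.mul_sum]
    rw [Finset.sum_comm]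
    exact Finset.sum_congr rfl fun i _ => Finset.sum_congr rfl fun v _ => by ring
  simp only [h1]
  rw [intervalIntegral.integral_finsetSum fun i _ => Continuous.intervalIntegrable (by fun_prop) _ _,
    Finset.mul_sum]
  refine Finset.sum_congr rfl fun i _ => ?_
  rw [intervalIntegral.integral_const_mul]
  ring

theorem traj_ex {d : ℕ} [NeZero d] {J : Finset ℕ} {L : ℕ → Finset (ℕ × ℕ)}
    {ε γ₀ κ₀ μs θ₀ g₀ μ₀ η₀ : ℝ} {V R : Type} [Fintype V] [DecidableEq V] [Fintype R] [DecidableEq R]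
    {F : V → St} {lf md st : ℕ → V} {gs : ℕ → RSt} {Low : ℕ → ℕ → Finset (ℕ × ℕ)}
    {lab : ℕ → ℕ × ℕ → ℕ → ℕ × ℕ} {χ : ℕ → R → V → ℝ → ℝ} {idx : ℕ → CT → R} {P : ℕ} {lg : ℕ → Bool}
    (hpl : PlanOK d J L ε γ₀ κ₀ μs θ₀ g₀ μ₀ η₀ F lf md st gs Low lab χ idx P lg) (hκ : 0 < κ₀)
    {g B₁ : ℝ} (hg : 0 < g) (hg0 : g ≤ g₀) (hgκ : 2 * g ≤ κ₀) (hgμ : g ≤ μs) (hB : 0 < B₁) :
    ∃ δ C ρ₀ T₁ : ℝ, 0 < δ ∧ 0 < C ∧ 0 < ρ₀ ∧ ∀ (T Kl A η₁ : ℝ) (q : ℝ → ℝ) path (ρ : ℕ → ℝ),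
      T₁ ≤ T → 0 ≤ Kl → QOK d κ₀ η₁ δ A g T Kl P lg q → PathOK lf md st χ B₁ T Kl P lg path →
      (∀ p, 0 ≤ ρ p) → (∀ n, ∑ p ∈ Finset.range n, ρ p ≤ ρ₀) →
      ∀ᶠ M in UU, ∀ ν : ℕ, ∀ j ∈ J, ∀ s : Bool, ∀ x ∈ L j, ∀ (e₀ : RP d j) (om : ℝ → ℝ),
        ‖e₀‖ = 1 → e₀ ∈ Sec d j s x.1 M →
        EigF (QG d j 0) (WS d j s M) e₀ ((ldeg j x : ℝ) * (ldeg j x + d)) → Monotone om →
        (∀ p, TOm (ta T Kl P lg p) (tu T Kl P lg p) (tv T Kl P lg p) (tb T Kl P lg p) μs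
          ((ldeg j (lab j x p) : ℝ) + d / 2 + 2 * g) om) →
        ∃ β : (ℕ → R → ℝ) → ℕ → ℕ × ℕ → ℝ, (∀ p x', Continuous fun c => β c p x') ∧
          (∀ c p, p < ν → ∀ x' ∈ lowS (Low p) j s, x' ≠ lab j x p →
            |β c p x' - ∑ r, clp (ρ p) (c p r) *
                cmat d (gs p) F (χ p r) M (q (tb T Kl P lg p)) (j, s, lab j x p, x')| ≤
              C * (et g T P p + ρ p ^ 2)) ∧
          ∀ c, (∀ p r, |c p r| ≤ ρ p) →
            (∀ p, p < ν → ∀ x' ∈ lowS (Low p) j s, x' ≠ lab j x p → β c p x' = 0) →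
            SolOK d j s M (fun t => comb F (path c t)) q om (ta T Kl P lg 0) (tb T Kl P lg ν) C
              (C * et g T P 0) e₀ := by
  classical
  obtain ⟨μm, hμm⟩ : ∃ μm, μm = max μ₀ μs := ⟨_, rfl⟩
  have m0 : μ₀ ≤ μm := hμm ▸ le_max_left _ _
  have ms : μs ≤ μm := hμm ▸ le_max_right _ _
  obtain ⟨δ₀, C₀, H₀, hδ₀, hC₀, hH₀, hph⟩ := phase_out hκ hg hgκ hgμ ms
  obtain ⟨ε₀, C₁, hε₀, hC₁, hma⟩ := match_ex hκ (show 0 ≤ μm by linarith) hC₀
  obtain ⟨C₂, hC₂, hmm⟩ := mm_expand (d := d) (μm := μm) hκ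
  obtain ⟨CF, hCF, hsz⟩ := sz_comb hpl.adm
  have hd : (0 : ℝ) < d := Nat.cast_pos.2 (NeZero.pos d)
  have hD0 : (0 : ℝ) < 4 * d + 1 / κ₀ ^ 2 := by positivity
  have hδ : 0 < δ₀ / (4 * d + 1 / κ₀ ^ 2) := div_pos hδ₀ hD0
  obtain ⟨T₂, hT₂⟩ := tpath_of (lf := lf) (md := md) (st := st) (χ := χ) hpl.adm hB hδ
  obtain ⟨D, hD⟩ : ∃ D : ℝ, D = 4 * d * (CF * B₁) := ⟨_, rfl⟩
  have hDp : 0 < D := by rw [hD]; positivity
  obtain ⟨C, hC⟩ : ∃ C : ℝ, C = C₁ * (1 + 4 * C₀ + D ^ 2) + C₂ * (CF * B₁) ^ 2 := ⟨_, rfl⟩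
  have c0 : 0 ≤ C₂ * (CF * B₁) ^ 2 := by positivity
  have c1 : 0 < C₁ * C₀ := by positivity
  have c2 : 0 < C₁ * D ^ 2 := by positivity
  have c3 : C₁ ≤ C := by rw [hC]; linarith
  have c4 : 4 * (C₁ * C₀) ≤ C := by rw [hC]; linarith
  have c5 : C₁ * D ^ 2 + C₂ * (CF * B₁) ^ 2 ≤ C := by rw [hC]; linarith
  refine ⟨_, C, min 1 (ε₀ / 2) / D, max (max T₂ H₀) (max (2 / (g * δ₀)) (16 * C₀ * P / (g * ε₀))),
    hδ, hC₁.trans_le c3, by positivity, ?_⟩
  intro T Kl A η₁ q path ρ hT hKl hq hpa hρ hsum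
  simp only [max_le_iff] at hT
  obtain ⟨⟨t1, t2⟩, t3, t4⟩ := hT
  have hT0 : 0 < T := hH₀.trans_le t2
  have htp := hT₂ T Kl κ₀ η₁ A g P lg path q t1 hKl hpa hq
  have hab : ∀ p, ta T Kl P lg p ≤ tb T Kl P lg p := fun p => by
    linarith [(htp p).len, (htp p).H0]
  have hqb := fun p => (htp p).qr _ ⟨hab p, le_rfl⟩
  have hρD : ∀ n, D * ∑ p ∈ Finset.range n, ρ p ≤ min 1 (ε₀ / 2) := fun n => by
    rw [← le_div_iff₀' hDp]
    exact hsum n
  have hr : ∀ p, 2 * d * (CF * (B₁ * ρ p)) ≤ 1 := fun p => by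
    have h1 := (hρD (p + 1)).trans (min_le_left _ _)
    have h2 : ρ p ≤ ∑ p ∈ Finset.range (p + 1), ρ p :=
      Finset.single_le_sum (f := ρ) (fun i _ => hρ i) (Finset.self_mem_range_succ p)
    have h3 := mul_le_mul_of_nonneg_left h2 hDp.le
    have h4 : 2 * d * (CF * (B₁ * ρ p)) = D * ρ p / 2 := by rw [hD]; ring
    linarith
  have hr0 : ∀ p, 0 ≤ CF * (B₁ * ρ p) := fun p => by have := hρ p; positivity
  have het : ∀ p, et g T P p ≤ δ₀ := fun p => by
    refine (et_le hg hT0 P p).trans ?_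
    have h1 : 1 / HH T P p ≤ 1 / T := one_div_le_one_div_of_le hT0 (le_HH hT0.le P p)
    refine (mul_le_mul_of_nonneg_left h1 (by positivity)).trans ?_
    rw [div_le_iff₀ (by positivity)] at t3
    rw [div_mul_div_comm, div_le_iff₀ (by positivity)]
    linarith
  have hsum' : ∀ n, ∑ p ∈ Finset.range n,
      (C₀ * (et g T P p + et g T P p) + 4 * d * (CF * (B₁ * ρ p))) ≤ ε₀ := fun n => by
    have h1 : ∑ p ∈ Finset.range n, (C₀ * (et g T P p + et g T P p) + 4 * d * (CF * (B₁ * ρ p))) ≤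
        ∑ p ∈ Finset.range n, (4 * C₀ / g * (1 / HH T P p) + D * ρ p) :=
      Finset.sum_le_sum fun p _ => by
        have h2 := mul_le_mul_of_nonneg_left (et_le hg hT0 P p) hC₀.le
        have h3 : 4 * C₀ / g * (1 / HH T P p) = 2 * (C₀ * (2 / g * (1 / HH T P p))) := by ring
        have h4 : D * ρ p = 4 * d * (CF * (B₁ * ρ p)) := by rw [hD]; ring
        rw [h3, h4]
        linarith
    refine h1.trans ?_
    rw [Finset.sum_add_distrib, ← Finset.mul_sum, ← Finset.mul_sum]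
    have h5 := mul_le_mul_of_nonneg_left (sum_inv_HH hT0 hpl.Ppos n) (show 0 ≤ 4 * C₀ / g by positivity)
    have h6 := (hρD n).trans (min_le_right _ _)
    have h7 : 4 * C₀ / g * (2 * P / T) ≤ ε₀ / 2 := by
      rw [div_le_iff₀ (by positivity)] at t4
      rw [div_mul_div_comm, div_le_iff₀ (by positivity)]
      linarith
    linarith
  obtain ⟨cl, hcl⟩ : ∃ cl : (ℕ → R → ℝ) → ℕ → R → ℝ, cl = fun c p r => clp (ρ p) (c p r) := ⟨_, rfl⟩
  have hclc : Continuous cl := by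
    rw [hcl]
    exact continuous_pi fun p => continuous_pi fun r =>
      (HTraj.cont_clp _).comp ((continuous_apply r).comp (continuous_apply p))
  have hcla : ∀ c p r, |cl c p r| ≤ ρ p := fun c p r => by
    rw [hcl]
    exact HTraj.abs_clp (hρ p) _
  have hev : ∀ c p, ∀ τ ∈ Icc (0 : ℝ) 1, q (tb T Kl P lg p + τ) = q (tb T Kl P lg p) ∧
      comb F (path (cl c) (tb T Kl P lg p + τ)) =
        toSt (gs p) + comb F (fun v => ∑ i, cl c p i * χ p i v τ) ∧
      ∀ z, |(comb F fun v => ∑ i, cl c p i * χ p i v τ).1 z| ≤ CF * (B₁ * ρ p) ∧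
        |(comb F fun v => ∑ i, cl c p i * χ p i v τ).2 z| ≤ CF * (B₁ * ρ p) := fun c p τ hτ => by
    have h1 := mul_le_mul_of_nonneg_left (hpa.evbd (cl c) p (ρ p) (hρ p) (hcla c p) τ hτ).1 hCF.le
    refine ⟨(hq.ev p _ ⟨by linarith [hτ.1], by linarith [hτ.2]⟩).1, ?_,
      fun z => ⟨((hsz _).1.abs_le z).trans h1, ((hsz _).2.abs_le z).trans h1⟩⟩
    rw [hpa.ev _ p τ hτ, comb_add, comb_single, (hpl.ev p).1]
  have hoff : ∀ c p, ∀ τ ∈ Icc (0 : ℝ) 1, τ ∉ Ioo (1 / 4 : ℝ) (3 / 4) →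
      comb F (path (cl c) (tb T Kl P lg p + τ)) = toSt (gs p) := fun c p τ hτ hτ' => by
    rw [(hev c p τ hτ).2.1]
    simp only [fun i v => (hpl.prof p i v).2 τ hτ', mul_zero, Finset.sum_const_zero, comb, zero_smul,
      add_zero]
  filter_upwards [hpl.phase, hpl.event] with M hphase hevent ν j hj s x hx e₀ om he1 he2 he3 hom hTom
  have hKc : Continuous fun z : (ℕ → R → ℝ) × ℝ =>
      KG d j s M (comb F (path (cl z.1) z.2)) (q z.2) :=
    (contDiff_KG (j := j) hpl.adm s M).continuous.comp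
      (f := fun z : (ℕ → R → ℝ) × ℝ => (path (cl z.1) z.2, q z.2))
      ((hpa.cont.comp (f := fun z : (ℕ → R → ℝ) × ℝ => (cl z.1, z.2))
        ((hclc.comp continuous_fst).prodMk continuous_snd)).prodMk
        (hq.smooth.continuous.comp continuous_snd))
  have hK0 : Continuous fun t => KG d j s M (comb F (path 0 t)) (q t) :=
    (contDiff_KG (j := j) hpl.adm s M).continuous.comp (f := fun t => (path 0 t, q t))
      ((hpa.smooth 0).continuous.prodMk hq.smooth.continuous)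
  have heig : ∀ p, ∀ y ∈ lowS (Low p) j s,
      EigF (QG d j (toSt (gs p))) (WS d j s M) (psi d (toSt (gs p)) j s y M)
        (lamM d (toSt (gs p)) j y M) ∧ kap d (gs p) j M (q (tb T Kl P lg p)) y ≤ μm := fun p y hy =>
    ⟨((hevent p j hj s).2 y hy).1, le_trans (Real.sqrt_le_sqrt (by linarith [(hqb p).2]))
      (((hevent p j hj s).2 y hy).2.trans m0)⟩
  have hlab := fun p => hpl.labLow j hj _ (hpl.labL j hj x hx p) p s
  have hout : ∀ p, ∃ (𝒜 : Submodule ℝ (WS d j s M × WS d j s M)) (A : ℝ),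
      PhaseOut (fun t => KG d j s M (comb F (path 0 t)) (q t)) (ta T Kl P lg p) (tb T Kl P lg p)
        (eIn d gs lab j s M x ⟨e₀, he2.1⟩ p) (psiL d (gs p) (Low p) j s M ⟨lab j x p, hlab p⟩)
        (Submodule.span ℝ (range (psiL d (gs p) (Low p) j s M))) om μm C₀
        (C₀ * (et g T P p + et g T P p)) 𝒜 A := fun p => by
    obtain ⟨γ, _, _, Cl, n, cell, m, hin⟩ := hphase g μm hg hg0 m0 p j hj s x hx ⟨e₀, he2.1⟩ _ _ _ _ _ _
      _ _ _ q om he1 he2 he3 hδ.le (htp p) hK0 (hTom p) (fun h => by simp [tv, Mh, h])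
      fun _ => le_rfl
    exact hph _ _ _ _ _ _ Cl n _ cell _ m _ om (by positivity) (div_mul_cancel₀ _ hD0.ne').le
      (et_pos g T P p).le (het p) (t2.trans (le_HH hT0.le P p)) hin
  choose 𝒜 A hout using hout
  obtain ⟨β, hβc, hβe, hβs⟩ := hma (fun c t => KG d j s M (comb F (path (cl c) t)) (q t))
    (fun t => KG d j s M (comb F (path 0 t)) (q t)) ν (ta T Kl P lg) (tb T Kl P lg)
    (fun p => lowS (Low p) j s) (fun p => psiL d (gs p) (Low p) j s M)
    (fun p i => kap d (gs p) j M (q (tb T Kl P lg p)) i) (fun p => ⟨lab j x p, hlab p⟩)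
    (eIn d gs lab j s M x ⟨e₀, he2.1⟩) (fun p => C₀ * (et g T P p + et g T P p))
    (fun p => 4 * d * (CF * (B₁ * ρ p))) om 𝒜 A hKc hab (ta_succ T Kl P lg)
    (fun c p t ht => by rw [hpa.indep _ p t ht])
    (posOp_KG (adm_comb hpl.adm _) s M ((htp 0).qr _ ⟨le_rfl, hab 0⟩).1) he1 (fun _ => rfl) hom
    (fun p => by have := et_pos g T P p; positivity) (fun p => by have := hr0 p; positivity)
    (fun c p _ => event_ok (G := fun t => comb F (path (cl c) t)) (hpl.ev p).2 (hevent p j hj s).1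
      (heig p) (hKc.comp (f := fun t => (c, t)) (continuous_const.prodMk continuous_id)) (hqb p).1
      (hr p) (hr0 p) fun t ht => by
        obtain ⟨τ, rfl⟩ : ∃ τ, t = tb T Kl P lg p + τ := ⟨t - tb T Kl P lg p, by ring⟩
        have hτ : τ ∈ Icc (0 : ℝ) 1 := ⟨by linarith [ht.1], by linarith [ht.2]⟩
        obtain ⟨h1, h2, h3⟩ := hev c p τ hτ
        refine ⟨h1, adm_comb hpl.adm _, fun z => ?_,
          fun h => hoff c p τ hτ fun h' => h ⟨by linarith [h'.1], by linarith [h'.2]⟩⟩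
        simpa only [h2, Prod.fst_add, Prod.snd_add, Pi.add_apply, add_sub_cancel_left] using h3 z)
    (fun p _ => hout p) (hsum' _)
  refine ⟨fun c p x' => if h : x' ∈ lowS (Low p) j s then β c p ⟨x', h⟩ else 0, fun p x' => ?_,
    fun c p hp x' hx' hne => ?_, fun c hc h0 => ?_⟩
  · by_cases h : x' ∈ lowS (Low p) j s
    · simpa only [dif_pos h] using hβc p ⟨x', h⟩
    · simpa only [dif_neg h] using continuous_const
  · have h1 := hβe c p hp ⟨x', hx'⟩ fun h => hne (congrArg Subtype.val h)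
    have hχ : ∀ r v, Continuous (χ p r v) := fun r v => (hpl.prof p r v).1.continuous
    have h2 := hmm (hpl.ev p).2 (j := j) (s := s) (M := M) hpl.adm
      (G := fun t => comb F (path (cl c) t)) (q := q) (b := tb T Kl P lg p)
      (c := fun v τ => ∑ i, cl c p i * χ p i v τ) (x := lab j x p) (x' := x')
      (fun v => by fun_prop) (hqb p).1 (hr0 p) (hr p)
      (by simpa using hoff c p 0 ⟨le_rfl, zero_le_one⟩ fun h => by linarith [h.1]) (hev c p)
      (by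
        rintro y (rfl | rfl)
        · exact ⟨(hevent p j hj s).1.1 ⟨_, hlab p⟩, heig p _ (hlab p)⟩
        · exact ⟨(hevent p j hj s).1.1 ⟨_, hx'⟩, heig p _ hx'⟩)
    rw [cmat_sum (gs p) F hχ, hcl] at h2
    rw [hcl] at h1
    simp only [dif_pos hx']
    refine (abs_sub_le _ _ _).trans ((add_le_add h1 h2).trans ?_)
    have h3 := et_anti hg.le hT0.le P (Nat.le_succ p)
    have h4 := (et_pos g T P p).le
    have h5 : (4 * d * (CF * (B₁ * ρ p))) ^ 2 = D ^ 2 * ρ p ^ 2 := by rw [hD]; ring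
    have h6 := mul_le_mul_of_nonneg_right c4 h4
    have h7 := mul_le_mul_of_nonneg_right c5 (sq_nonneg (ρ p))
    have h8 := mul_le_mul_of_nonneg_left h3 c1.le
    rw [h5]
    simp only [Nat.succ_eq_add_one] at h8
    linarith
  · have hc' : cl c = c := by
      rw [hcl]
      exact funext fun p => funext fun r => HTraj.clp_eq (hc p r)
    obtain ⟨y, y', h1, h2, h3, h4⟩ := hβs c fun p hp i hi => by
      simpa only [dif_pos i.2] using h0 p hp i i.2 fun h => hi (Subtype.ext h)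
    rw [hc'] at h1
    refine ⟨y, y', h1, ?_, ?_, fun t ht => (h4 t ht).trans
      (mul_le_mul_of_nonneg_right c3 (Real.exp_pos _).le)⟩
    · simpa only [hpa.indep c 0 _ ⟨le_rfl, hab 0⟩] using h2
    · simp only [hpa.indep c 0 _ ⟨le_rfl, hab 0⟩]
      refine le_trans (le_of_eq rfl) (h3.trans ?_)
      have h5 := mul_le_mul_of_nonneg_right c4 (et_pos g T P 0).le
      have h6 := mul_pos c1 (et_pos g T P 0)
      linarith

end Crest.Agent.R202
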